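import Vale.Agent.P002B.AbsorbB3

/-!
# P002, genus 0, arbitrary classes: absorption of the errors (second version), part 4

The induction over the blocks.
-/

namespace Vale.Agent.P002B.AB

open Matrix Vale.Agent.P002R Vale.Agent.P002L

theorem lex_lt {K x1 x2 d1 d2 : ℕ} (h : d1 < K) (hx : x1 < x2) : x1 * K + d1 < x2 * K + d2 := by
  have h1 : (x1 + 1) * K ≤ x2 * K := Nat.mul_le_mul_right K hx
  have h2 : (x1 + 1) * K = x1 * K + K := by ring
  omega

/-- The order in which the blocks are treated. -/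
def ky {N : ℕ} (rk : Fin N → Fin N → ℕ) (R : ℕ) (p q : Fin N) : ℕ :=
  ((R - rk p q) * (N + 1) + ((q : ℕ) - p)) * (N + 1) + p

theorem ky_lt {N : ℕ} {rk : Fin N → Fin N → ℕ} {R : ℕ} {p q a b : Fin N}
    (hR : rk p q ≤ R) (h : rk a b < rk p q) : ky rk R p q < ky rk R a b := by
  unfold ky
  have h1 := p.2
  have h2 := q.2
  refine lex_lt (by omega) (lex_lt (by omega) (by omega))

theorem ky_lt' {N : ℕ} {rk : Fin N → Fin N → ℕ} {R : ℕ} {p q a b : Fin N}
    (hR : rk p q ≤ R) (hrk : rk a b ≤ rk p q) (h : (q : ℕ) - p < (b : ℕ) - a) :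
    ky rk R p q < ky rk R a b := by
  rcases hrk.lt_or_eq with h1 | h1
  · exact ky_lt hR h1
  · unfold ky
    rw [h1]
    have h2 := p.2
    exact lex_lt (by omega) (by omega)

variable {A B : Type} [CommRing A] [CommRing B] {r N : ℕ} {nm : Fin r → Fin N} {m : ℕ}
  {κ : ℕ → Fin N → ℕ} {l : ℕ → ℕ → A} {ks : ℕ → List (Fin N → ℕ)}
  {π : ℕ → Bool → (Fin N → ℕ) → Equiv.Perm (Fin N)} {c u M : ℕ → Mat r A}

theorem map_PP {ψ : A →+* B} {c c' : ℕ → Mat r A}
    (h : ∀ j < m, ψ.mapMatrix (c' j) = ψ.mapMatrix (c j)) :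
    ∀ n ≤ m, ψ.mapMatrix (PP c' n) = ψ.mapMatrix (PP c n) := by
  intro n
  induction n with
  | zero => intro _; rfl
  | succ n ih =>
    intro hn
    rw [PP, PP, map_mul, map_mul, ih (by omega), h n (by omega)]

/-- The loop. -/
theorem loop (h : St nm m κ l ks π c u M) (hks : ∀ i < m, KP (κ i) (bk N) (ks i))
    {t : Fin N → Aˣ} (hQ : Str nm (fun a => (t a : A)) (PP c m)) (ψ : A →+* B)
    (κ₀ : Fin N → ℕ) (hψ : ∀ i j, nm i < nm j → κ₀ (nm i) = κ₀ (nm j) → ψ (PP c m i j) = 0)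
    (rk : Fin N → Fin N → ℕ)
    (hrk : ∀ p' p q q' : Fin N, p' ≤ p → p < q → q ≤ q' → rk p' q' ≤ rk p q)
    (hal : ∀ p q : Fin N, p < q → κ₀ p = κ₀ q → (∃ i < m, κ i p < κ i q) ∨
      ∃ i < m, ∃ e : Bool, ∃ k ∈ ks i, ∃ n l s s' : ℕ, (∀ c, k c < n ↔ Seg (κ i) l s s' c) ∧
        k ((π i e k).symm p) < n ∧ ¬ k ((π i e k).symm q) < n ∧
        ∀ p' q' : Fin N, p' < q' → (((p' : ℕ) < s ∧ s ≤ (q' : ℕ)) ∨
          ((p' : ℕ) < s' ∧ s' ≤ (q' : ℕ))) → rk p' q' < rk p q)
    (R : ℕ) (hR : ∀ p q, rk p q ≤ R) (n : ℕ) :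
    ∃ c' u' M' : ℕ → Mat r A, St nm m κ l ks π c' u' M' ∧
      (∀ j < m, ψ.mapMatrix (c' j) = ψ.mapMatrix (c j)) ∧
      Str nm (fun a => (t a : A)) (PP c' m) ∧
      ∀ i j, nm i < nm j → κ₀ (nm i) = κ₀ (nm j) → ky rk R (nm i) (nm j) < n →
        PP c' m i j = 0 := by
  induction n with
  | zero => exact ⟨c, u, M, h, fun _ _ => rfl, hQ, fun _ _ _ _ h => absurd h (Nat.not_lt_zero _)⟩
  | succ n ih =>
    obtain ⟨c1, u1, M1, h1, h2, h3, h4⟩ := ih
    by_cases hex : ∃ p q : Fin N, p < q ∧ κ₀ p = κ₀ q ∧ ky rk R p q = n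
    · obtain ⟨p, q, hpq, hκ, hn⟩ := hex
      have hψ1 : ∀ i j, nm i = p → nm j = q → ψ (PP c1 m i j) = 0 := by
        intro i j hi hj
        have h5 := congrFun (congrFun (map_PP h2 m le_rfl) i) j
        rw [RingHom.mapMatrix_apply, RingHom.mapMatrix_apply, map_apply, map_apply] at h5
        rw [h5]
        exact hψ i j (by rw [hi, hj]; exact hpq) (by rw [hi, hj]; exact hκ)
      have hmv : ∃ c' u' M' : ℕ → Mat r A, St nm m κ l ks π c' u' M' ∧
          (∀ j < m, ψ.mapMatrix (c' j) = ψ.mapMatrix (c1 j)) ∧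
          (∀ i j, nm i = p → nm j = q → PP c' m i j = 0) ∧
          ∀ i j, ¬ (nm i ≤ p ∧ q ≤ nm j) → ¬ (nm i < nm j ∧ rk (nm i) (nm j) < rk p q) →
            PP c' m i j = PP c1 m i j := by
        rcases hal p q hpq hκ with ⟨i, hi, hκi⟩ | ⟨i, hi, e, k, hk, n', l', s, s', ha, hb, hc, hd⟩
        · obtain ⟨c', u', M', h5, h6, h7, h8⟩ := move_one h1 hks h3 hpq ψ hψ1 hi hκi
          exact ⟨c', u', M', h5, h6, h7, fun i j h9 _ => h8 i j h9⟩
        · exact move_two h1 hks h3 hpq ψ hψ1 hi hk ha hb hc rk hrk hd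
      obtain ⟨c', u', M', h5, h6, h7, h8⟩ := hmv
      refine ⟨c', u', M', h5, fun j hj => (h6 j hj).trans (h2 j hj), ?_, ?_⟩
      · intro i j hij
        rw [h8 i j (fun h9 => hij (lt_of_le_of_lt h9.1 (lt_of_lt_of_le hpq h9.2)))
          fun h9 => hij h9.1]
        exact h3 i j hij
      · intro i j hij hκij hky
        by_cases h9 : nm i = p ∧ nm j = q
        · exact h7 i j h9.1 h9.2
        · have h10 : ¬ (nm i ≤ p ∧ q ≤ nm j) := by
            intro h10
            have h11 : ky rk R p q < ky rk R (nm i) (nm j) := by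
              refine ky_lt' (hR p q) (hrk _ _ _ _ h10.1 hpq h10.2) ?_
              have h12 : ((nm i : Fin N) : ℕ) ≤ p := h10.1
              have h13 : ((q : Fin N) : ℕ) ≤ nm j := h10.2
              have h14 : (p : ℕ) < q := hpq
              have h15 : ¬ (((nm i : Fin N) : ℕ) = p ∧ ((nm j : Fin N) : ℕ) = q) := fun h16 =>
                h9 ⟨Fin.ext h16.1, Fin.ext h16.2⟩
              omega
            omega
          have h11 : ¬ (nm i < nm j ∧ rk (nm i) (nm j) < rk p q) := by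
            intro h11
            have h12 := ky_lt (hR p q) h11.2
            omega
          rw [h8 i j h10 h11]
          refine h4 i j hij hκij ?_
          rcases (Nat.lt_succ_iff_lt_or_eq.1 hky) with h12 | h12
          · exact h12
          · exfalso
            rw [← hn] at h12
            unfold ky at h12
            have ha := p.2
            have hb := q.2
            have hc := (nm i).2
            have hd := (nm j).2
            rcases lt_trichotomy ((R - rk (nm i) (nm j)) * (N + 1) + ((nm j : ℕ) - nm i))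
              ((R - rk p q) * (N + 1) + ((q : ℕ) - p)) with h13 | h13 | h13
            · have h14 := lex_lt (K := N + 1) (d1 := (nm i : ℕ)) (d2 := (p : ℕ)) (by omega) h13
              omega
            · rw [h13] at h12
              have h14 : (nm i : ℕ) = p := by omega
              rcases lt_trichotomy (R - rk (nm i) (nm j)) (R - rk p q) with h15 | h15 | h15
              · have h16 := lex_lt (K := N + 1) (d1 := (nm j : ℕ) - nm i) (d2 := (q : ℕ) - p)
                  (by omega) h15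
                omega
              · rw [h15] at h13
                have h16 : (nm i : ℕ) < nm j := hij
                have h17 : (p : ℕ) < q := hpq
                exact h9 ⟨Fin.ext h14, Fin.ext (by omega)⟩
              · have h16 := lex_lt (K := N + 1) (d1 := (q : ℕ) - p) (d2 := (nm j : ℕ) - nm i)
                  (by omega) h15
                omega
            · have h14 := lex_lt (K := N + 1) (d1 := (p : ℕ)) (d2 := (nm i : ℕ)) (by omega) h13
              omega
    · refine ⟨c1, u1, M1, h1, h2, h3, fun i j hij hκ hky => h4 i j hij hκ ?_⟩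
      have h5 : ky rk R (nm i) (nm j) ≠ n := fun h6 => hex ⟨nm i, nm j, hij, hκ, h6⟩
      omega

theorem absorbStmt : AbsorbStmt := by
  intro A B _ _ ψ r N nm m κ l ks π κ₀ τ rk hmono hks hrk hal c u M hbu hkup heq hcell hstr herr
  obtain ⟨R, hR⟩ : ∃ R : ℕ, ∀ p q, rk p q ≤ R := by
    refine ⟨Finset.univ.sup fun x : Fin N × Fin N => rk x.1 x.2, fun p q => ?_⟩
    exact Finset.le_sup (f := fun x : Fin N × Fin N => rk x.1 x.2) (Finset.mem_univ (p, q))
  obtain ⟨n, hn⟩ : ∃ n : ℕ, ∀ p q, ky rk R p q < n := by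
    refine ⟨(Finset.univ.sup fun x : Fin N × Fin N => ky rk R x.1 x.2) + 1, fun p q => ?_⟩
    exact Nat.lt_succ_of_le (Finset.le_sup (f := fun x : Fin N × Fin N => ky rk R x.1 x.2)
      (Finset.mem_univ (p, q)))
  obtain ⟨c', u', M', h1, h2, h3, h4⟩ := loop (t := fun a => τ (κ₀ a))
    (⟨hbu, hkup, heq, hcell⟩ : St nm m κ l ks π c u M) hks hstr ψ κ₀ herr rk hrk hal R hR n
  refine ⟨c', u', M', h1.bu, h1.kup, h1.eq, fun i hi => ?_, ?_, ?_⟩
  · exact h2 i hi
  · intro i
    rw [h3 i i (lt_irrefl _), if_pos rfl]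
    rfl
  · intro i j hij hκ
    by_cases h5 : nm i < nm j
    · exact h4 i j h5 (le_antisymm (hmono h5.le) (not_lt.1 hκ)) (hn _ _)
    · rw [h3 i j h5, if_neg hij]

end Vale.Agent.P002B.AB
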