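import Vale.Agent.P002B.Stmts

/-!
# P002, genus 0, arbitrary classes: absorption of the errors (second version), part 1

Supports of block matrices, block unipotent matrices, paths of orders.
-/

namespace Vale.Agent.P002B.AB

open Matrix Vale.Agent.P002R Vale.Agent.P002L

variable {S T : Type*} [CommRing S] [CommRing T] {r N : ℕ} {nm : Fin r → Fin N}

/-- The blocks of `X` are supported in the relation `ρ`. -/
def Sp (nm : Fin r → Fin N) (ρ : Fin N → Fin N → Prop) (X : Mat r S) : Prop :=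
  ∀ i j, ¬ ρ (nm i) (nm j) → X i j = 0

theorem Sp.mono {ρ σ : Fin N → Fin N → Prop} {X : Mat r S} (h : Sp nm ρ X)
    (hs : ∀ a b, ρ a b → σ a b) : Sp nm σ X := fun i j hij => h i j fun h1 => hij (hs _ _ h1)

theorem Sp.mul {ρ σ τ : Fin N → Fin N → Prop} {X Y : Mat r S} (hX : Sp nm ρ X) (hY : Sp nm σ Y)
    (h : ∀ a b c, ρ a b → σ b c → τ a c) : Sp nm τ (X * Y) := by
  intro i j hij
  rw [mul_apply]
  refine Finset.sum_eq_zero fun k _ => ?_
  by_cases h1 : ρ (nm i) (nm k)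
  · have h2 : ¬ σ (nm k) (nm j) := fun h2 => hij (h _ _ _ h1 h2)
    rw [hY k j h2, mul_zero]
  · rw [hX i k h1, zero_mul]

theorem Sp.add {ρ : Fin N → Fin N → Prop} {X Y : Mat r S} (hX : Sp nm ρ X) (hY : Sp nm ρ Y) :
    Sp nm ρ (X + Y) := fun i j hij => by rw [Matrix.add_apply, hX i j hij, hY i j hij, add_zero]

theorem Sp.neg {ρ : Fin N → Fin N → Prop} {X : Mat r S} (hX : Sp nm ρ X) : Sp nm ρ (-X) :=
  fun i j hij => by rw [Matrix.neg_apply, hX i j hij, neg_zero]

theorem Sp.eq_zero {ρ : Fin N → Fin N → Prop} {X : Mat r S} (hX : Sp nm ρ X)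
    (h : ∀ a b, ¬ ρ a b) : X = 0 := by
  ext i j
  exact hX i j (h _ _)

theorem bu_iff {k : Fin N → ℕ} {u : Mat r S} :
    BU nm k u ↔ Sp nm (fun a c => k a < k c) (u - 1) := by
  constructor
  · intro h i j hij
    rw [Matrix.sub_apply, h i j hij, sub_self]
  · intro h i j hij
    have h1 := h i j hij
    rw [Matrix.sub_apply] at h1
    exact sub_eq_zero.1 h1

theorem bu_one_add {k : Fin N → ℕ} {x : Mat r S} (h : Sp nm (fun a c => k a < k c) x) :
    BU nm k (1 + x) := by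
  rw [bu_iff, add_sub_cancel_left]
  exact h

theorem bu_one_sub {k : Fin N → ℕ} {x : Mat r S} (h : Sp nm (fun a c => k a < k c) x) :
    BU nm k (1 - x) := by
  rw [sub_eq_add_neg]
  exact bu_one_add h.neg

theorem bu_mul {k : Fin N → ℕ} {u v : Mat r S} (hu : BU nm k u) (hv : BU nm k v) :
    BU nm k (u * v) := by
  rw [bu_iff] at hu hv ⊢
  have h : u * v - 1 = (u - 1) + (v - 1) + (u - 1) * (v - 1) := by noncomm_ring
  rw [h]
  exact (hu.add hv).add (hu.mul hv fun a b c h1 h2 => h1.trans h2)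

theorem bu_one {k : Fin N → ℕ} : BU nm k (1 : Mat r S) := fun _ _ _ => rfl

theorem bu_tri {k : Fin N → ℕ} {u : Mat r S} (hu : BU nm k u) :
    u.BlockTriangular (k ∘ nm) := by
  intro i j hij
  have hij' : k (nm j) < k (nm i) := hij
  rw [hu i j (not_lt.2 hij'.le), one_apply_ne]
  rintro rfl
  exact lt_irrefl _ hij'

theorem bu_det {k : Fin N → ℕ} {u : Mat r S} (hu : BU nm k u) : u.det = 1 := by
  rw [(bu_tri hu).det]
  refine Finset.prod_eq_one fun a _ => ?_
  have h : u.toSquareBlock (k ∘ nm) a = 1 := by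
    ext i j
    have h1 : k (nm i.1) = a := i.2
    have h2 : k (nm j.1) = a := j.2
    rw [toSquareBlock_def]
    change u i.1 j.1 = _
    rw [hu i.1 j.1 (by rw [h1, h2]; exact lt_irrefl _)]
    simp only [one_apply, Subtype.ext_iff]
  rw [h, det_one]

theorem bu_isUnit {k : Fin N → ℕ} {u : Mat r S} (hu : BU nm k u) : IsUnit u.det := by
  rw [bu_det hu]
  exact isUnit_one

theorem bu_mul_inv {k : Fin N → ℕ} {u : Mat r S} (hu : BU nm k u) : u * u⁻¹ = 1 :=
  mul_nonsing_inv _ (bu_isUnit hu)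

theorem bu_inv_mul {k : Fin N → ℕ} {u : Mat r S} (hu : BU nm k u) : u⁻¹ * u = 1 :=
  nonsing_inv_mul _ (bu_isUnit hu)

theorem bu_inv {k : Fin N → ℕ} {u : Mat r S} (hu : BU nm k u) : BU nm k u⁻¹ := by
  have h1 : Sp nm (fun a c => k a ≤ k c) u⁻¹ := by
    have := Matrix.invertibleOfIsUnitDet u (bu_isUnit hu)
    have h2 := Matrix.blockTriangular_inv_of_blockTriangular (bu_tri hu)
    intro i j hij
    exact h2 (not_le.1 hij)
  have h3 : u⁻¹ - 1 = -((u - 1) * u⁻¹) := by
    rw [sub_mul, bu_mul_inv hu, one_mul, neg_sub]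
  rw [bu_iff, h3]
  exact ((bu_iff.1 hu).mul h1 fun a b c h4 h5 => lt_of_lt_of_le h4 h5).neg

/-- Block unipotent matrices have entries only in blocks `(a, c)` with `k a ≤ k c`. -/
theorem bu_sp {k : Fin N → ℕ} {u : Mat r S} (hu : BU nm k u) :
    Sp nm (fun a c => k a ≤ k c) u := by
  intro i j hij
  exact bu_tri hu (not_le.1 hij)

theorem inCell_left {k : Fin N → ℕ} {W X L : Mat r S} (h : InCell nm k W X)
    (hL : BU nm (bk N) L) : InCell nm k W (L * X) := by
  obtain ⟨b, v, hb, hv, rfl⟩ := h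
  exact ⟨L * b, v, bu_mul hL hb, hv, by simp only [Matrix.mul_assoc]⟩

theorem inCell_right {k : Fin N → ℕ} {W X V : Mat r S} (h : InCell nm k W X)
    (hV : BU nm k V) : InCell nm k W (X * V) := by
  obtain ⟨b, v, hb, hv, rfl⟩ := h
  exact ⟨b, v * V, hb, bu_mul hv hV, by simp only [Matrix.mul_assoc]⟩

/-! ### Paths of orders -/

theorem kp_after {κ k0 : Fin N → ℕ} {ks : List (Fin N → ℕ)} (h : KP κ k0 ks) :
    ∀ k ∈ ks, ∀ c d, κ c < κ d → k0 c < k0 d → k c < k d := by
  induction h with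
  | last k h =>
    intro k1 hk1 c d _ h2
    rw [List.mem_singleton] at hk1
    rw [hk1]
    exact h2
  | step k k' ks a b hab hκ h hk ih =>
    intro k1 hk1 c d h1 h2
    rcases List.mem_cons.1 hk1 with rfl | hk1
    · exact h2
    · refine ih k1 hk1 c d h1 ((h.2.2.1 c d ?_ ?_).1 h2)
      · rintro ⟨rfl, rfl⟩
        exact absurd h1 (not_lt.2 hκ.le)
      · rintro ⟨rfl, rfl⟩
        exact absurd h2 (not_lt.2 h.1.le)

theorem kp_before {κ k0 : Fin N → ℕ} {ks : List (Fin N → ℕ)} (h : KP κ k0 ks) :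
    ∀ k ∈ ks, ∀ c d : Fin N, c < d → k c < k d → k0 c < k0 d := by
  induction h with
  | last k h =>
    intro k1 hk1 c d _ h2
    rw [List.mem_singleton] at hk1
    rw [← hk1]
    exact h2
  | step k k' ks a b hab hκ h hk ih =>
    intro k1 hk1 c d h1 h2
    rcases List.mem_cons.1 hk1 with rfl | hk1
    · exact h2
    · have h3 := ih k1 hk1 c d h1 h2
      by_cases h4 : c = a ∧ d = b
      · rw [h4.1, h4.2]
        exact h.1
      · refine (h.2.2.1 c d h4 ?_).2 h3
        rintro ⟨rfl, rfl⟩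
        exact absurd h1 (not_lt.2 hab.le)

theorem kp_dich {κ k0 : Fin N → ℕ} {ks : List (Fin N → ℕ)} (h : KP κ k0 ks) :
    ∀ k ∈ ks, ∀ k1 ∈ ks, (∀ c d : Fin N, c < d → k c < k d → k1 c < k1 d) ∨
      ∀ c d, κ c < κ d → k c < k d → k1 c < k1 d := by
  induction h with
  | last k h =>
    intro k1 hk1 k2 hk2
    rw [List.mem_singleton] at hk1 hk2
    rw [hk1, hk2]
    exact Or.inl fun c d _ h => h
  | step k k' ks a b hab hκ h hk ih =>
    intro k1 hk1 k2 hk2
    have hstep := KP.step k k' ks a b hab hκ h hk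
    rcases List.mem_cons.1 hk1 with hk1' | hk1'
    · right
      rw [hk1']
      exact kp_after hstep k2 hk2
    · rcases List.mem_cons.1 hk2 with hk2' | hk2'
      · left
        rw [hk2']
        exact kp_before hstep k1 hk1
      · exact ih k1 hk1' k2 hk2'

/-- The part outside the increasing one is separated. -/
theorem seg_sep {κ : Fin N → ℕ} {l s s' : ℕ} {c d : Fin N} (hc : Seg κ l s s' c)
    (hd : ¬ Seg κ l s s' d) (h : ¬ κ c < κ d) :
    (((c : ℕ) < s ∧ s ≤ (d : ℕ)) ∨ ((c : ℕ) < s' ∧ s' ≤ (d : ℕ))) ∧ c < d := by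
  unfold Seg at hc hd
  rw [Fin.lt_def]
  omega

end Vale.Agent.P002B.AB
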