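import Vale.Agent.P002B.AbsorbB1

/-!
# P002, genus 0, arbitrary classes: absorption of the errors (second version), part 2

The two transformations of the tuple.
-/

namespace Vale.Agent.P002B.AB

open Matrix Vale.Agent.P002R Vale.Agent.P002L

/-- The data which are preserved by the moves. -/
structure St {A : Type} [CommRing A] {r N : ℕ} (nm : Fin r → Fin N) (m : ℕ)
    (κ : ℕ → Fin N → ℕ) (l : ℕ → ℕ → A) (ks : ℕ → List (Fin N → ℕ))
    (π : ℕ → Bool → (Fin N → ℕ) → Equiv.Perm (Fin N)) (c u M : ℕ → Mat r A) : Prop where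
  bu : ∀ i < m, BU nm (bk N) (u i)
  kup : ∀ i < m, Kup (κ i ∘ nm) (l i) (M i)
  eq : ∀ i < m, c i * u i = u i * M i
  cell : ∀ i < m, ∀ e : Bool, ∀ k ∈ ks i, ∃ W : Mat r A, BM nm (π i e k) W ∧ IsUnit W ∧
    InCell nm k W (PP c (i + sh e) * u i)

section

variable {S : Type*} [CommRing S] {r N : ℕ} {nm : Fin r → Fin N}

theorem PP_congr {c c' : ℕ → Mat r S} {n : ℕ} (h : ∀ j < n, c' j = c j) :
    ∀ j ≤ n, PP c' j = PP c j := by
  intro j
  induction j with
  | zero => intro _; rfl
  | succ j ih => intro hj; rw [PP, PP, ih (by omega), h j (by omega)]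

theorem PP_conj {c c' : ℕ → Mat r S} {n : ℕ} {L G Gi : Mat r S} (hG : Gi * G = 1)
    (h0 : PP c' n = L * PP c n * Gi) (h : ∀ j, n ≤ j → c' j = G * c j * Gi) :
    ∀ j, n ≤ j → PP c' j = L * PP c j * Gi := by
  intro j hj
  induction j, hj using Nat.le_induction with
  | base => exact h0
  | succ j hj ih =>
    rw [PP, PP, ih, h j hj]
    calc L * PP c j * Gi * (G * c j * Gi) = L * PP c j * (Gi * G) * c j * Gi := by
          simp only [Matrix.mul_assoc]
      _ = L * (PP c j * c j) * Gi := by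
          rw [hG, Matrix.mul_one]
          simp only [Matrix.mul_assoc]

theorem kup_sp {κ : Fin N → ℕ} {l : ℕ → S} {M : Mat r S} (h : Kup (κ ∘ nm) l M) :
    Sp nm (fun a c => κ a ≤ κ c) M := by
  intro i j hij
  refine h.2 i j ?_ ?_
  · rintro rfl
    exact hij le_rfl
  · exact fun h1 => hij (le_of_lt h1)

theorem kup_add {κ : Fin N → ℕ} {l : ℕ → S} {M X : Mat r S} (h : Kup (κ ∘ nm) l M)
    (hX : Sp nm (fun a c => κ a < κ c) X) : Kup (κ ∘ nm) l (M + X) := by
  constructor
  · intro i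
    rw [Matrix.add_apply, hX i i (lt_irrefl _), add_zero]
    exact h.1 i
  · intro i j hij hlt
    rw [Matrix.add_apply, h.2 i j hij hlt, hX i j hlt, add_zero]

theorem kup_mul_right {κ : Fin N → ℕ} {l : ℕ → S} {M z : Mat r S} (h : Kup (κ ∘ nm) l M)
    (hz : Sp nm (fun a c => κ a < κ c) z) : Kup (κ ∘ nm) l (M * (1 + z)) := by
  rw [mul_add, Matrix.mul_one]
  exact kup_add h ((kup_sp h).mul hz fun a b c h1 h2 => lt_of_le_of_lt h1 h2)

theorem kup_mul_left {κ : Fin N → ℕ} {l : ℕ → S} {M z : Mat r S} (h : Kup (κ ∘ nm) l M)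
    (hz : Sp nm (fun a c => κ a < κ c) z) : Kup (κ ∘ nm) l ((1 + z) * M) := by
  rw [add_mul, Matrix.one_mul]
  exact kup_add h (hz.mul (kup_sp h) fun a b c h1 h2 => lt_of_lt_of_le h1 h2)

end

section alg

variable {R : Type*} [Ring R]

theorem alg_conj {a a' y : R} (h : a * a' = 1) (h' : a' * a = 1) (hy : y * y = 0) :
    a * (1 - y) * a' * (a * (1 + y) * a') = 1 := by
  have h1 : a * (1 - y) * a' * (a * (1 + y) * a') = a * ((1 - y) * (a' * a) * (1 + y)) * a' := by
    simp only [mul_assoc]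
  have h2 : (1 - y) * (1 + y) = 1 - y * y := by noncomm_ring
  rw [h1, h', mul_one, h2, hy, sub_zero, mul_one, h]

theorem alg_y {y z : R} (hyy : y * y = 0) (hzy : z * y = 0) : (1 + y + z) * (1 - y) = 1 + z := by
  have h : (1 + y + z) * (1 - y) = 1 + z - y * y - z * y := by noncomm_ring
  rw [h, hyy, hzy, sub_zero, sub_zero]

theorem alg_z {y z : R} (hzz : z * z = 0) (hyz : y * z = 0) : (1 + y + z) * (1 - z) = 1 + y := by
  have h : (1 + y + z) * (1 - z) = 1 + y - y * z - z * z := by noncomm_ring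
  rw [h, hyz, hzz, sub_zero, sub_zero]

theorem alg_yz {y z : R} (hyz : y * z = 0) : (1 + y) * (1 + z) = 1 + y + z := by
  have h : (1 + y) * (1 + z) = 1 + y + z + y * z := by noncomm_ring
  rw [h, hyz, add_zero]

end alg

variable {A B : Type} [CommRing A] [CommRing B] {r N : ℕ} {nm : Fin r → Fin N} {m : ℕ}
  {κ : ℕ → Fin N → ℕ} {l : ℕ → ℕ → A} {ks : ℕ → List (Fin N → ℕ)}
  {π : ℕ → Bool → (Fin N → ℕ) → Equiv.Perm (Fin N)} {c u M : ℕ → Mat r A}

/-- Conjugation does not change the reduction. -/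
theorem map_conj {ψ : A →+* B} {a a' y : Mat r A} (x : Mat r A) (h : a * a' = 1)
    (hy : ψ.mapMatrix y = 0) :
    ψ.mapMatrix (a * (1 + y) * a' * x * (a * (1 - y) * a')) = ψ.mapMatrix x := by
  have h1 : ψ.mapMatrix a * ψ.mapMatrix a' = 1 := by rw [← map_mul, h, map_one]
  simp only [map_mul, map_add, map_sub, map_one, hy, add_zero, sub_zero, mul_one, h1, one_mul]

theorem trans_true (h : St nm m κ l ks π c u M) {i : ℕ} (hi : i < m) {L y z : Mat r A}
    (hL : BU nm (bk N) L) (hyy : y * y = 0) (hzy : z * y = 0)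
    (hLX : L * (PP c (i + 1) * u i) = PP c (i + 1) * u i * (1 + y + z))
    (hy : Sp nm (fun a c => bk N a < bk N c) y)
    (hk : ∀ k1 ∈ ks i, Sp nm (fun a c => k1 a < k1 c) y ∨ Sp nm (fun a c => k1 a < k1 c) z)
    (hz : Sp nm (fun a c => κ i a < κ i c) z) (ψ : A →+* B) (hψy : ψ.mapMatrix y = 0)
    (hψz : ψ.mapMatrix z = 0) :
    ∃ c' u' M' : ℕ → Mat r A, St nm m κ l ks π c' u' M' ∧
      (∀ j < m, ψ.mapMatrix (c' j) = ψ.mapMatrix (c j)) ∧
      PP c' m = L * PP c m * (u i * (1 - y) * (u i)⁻¹) := by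
  have hui := h.bu i hi
  have e1 := bu_mul_inv hui
  have e2 := bu_inv_mul hui
  obtain ⟨G, hG⟩ : ∃ G, G = u i * (1 + y) * (u i)⁻¹ := ⟨_, rfl⟩
  obtain ⟨Gi, hGi⟩ : ∃ Gi, Gi = u i * (1 - y) * (u i)⁻¹ := ⟨_, rfl⟩
  have hGG : Gi * G = 1 := by
    rw [hG, hGi]
    exact alg_conj e1 e2 hyy
  have hGB : BU nm (bk N) G := by
    rw [hG]
    exact bu_mul (bu_mul hui (bu_one_add hy)) (bu_inv hui)
  obtain ⟨c', hc'⟩ : ∃ c' : ℕ → Mat r A, c' = fun j => if j < i then c j else
    if j = i then u i * M i * (1 + z) * (u i)⁻¹ else G * c j * Gi := ⟨_, rfl⟩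
  have c1 : ∀ j < i, c' j = c j := fun j hj => by
    rw [hc']
    exact if_pos hj
  have c2 : c' i = u i * M i * (1 + z) * (u i)⁻¹ := by
    rw [hc']
    simp only [lt_irrefl, if_false, if_true]
  have c3 : ∀ j, i + 1 ≤ j → c' j = G * c j * Gi := fun j hj => by
    rw [hc']
    simp only [if_neg (show ¬ j < i by omega), if_neg (show ¬ j = i by omega)]
  have p1 : ∀ j ≤ i, PP c' j = PP c j := PP_congr c1
  have p2 : PP c' (i + 1) = PP c (i + 1) * u i * (1 + z) * (u i)⁻¹ := by
    rw [PP, p1 i le_rfl, c2, ← h.eq i hi, PP]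
    simp only [Matrix.mul_assoc]
  have p3 : PP c' (i + 1) = L * PP c (i + 1) * Gi := by
    have h1 : L * PP c (i + 1) * Gi = L * (PP c (i + 1) * u i) * (1 - y) * (u i)⁻¹ := by
      rw [hGi]
      simp only [Matrix.mul_assoc]
    rw [p2, h1, hLX, Matrix.mul_assoc (PP c (i + 1) * u i) _ (1 - y), alg_y hyy hzy]
  have p4 : ∀ j, i + 1 ≤ j → PP c' j = L * PP c j * Gi := PP_conj hGG p3 c3
  obtain ⟨u', hu'⟩ : ∃ u' : ℕ → Mat r A, u' = fun j => if j ≤ i then u j else G * u j := ⟨_, rfl⟩
  have u1 : ∀ j ≤ i, u' j = u j := fun j hj => by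
    rw [hu']
    exact if_pos hj
  have u2 : ∀ j, i + 1 ≤ j → u' j = G * u j := fun j hj => by
    rw [hu']
    exact if_neg (by omega)
  obtain ⟨M', hM'⟩ : ∃ M' : ℕ → Mat r A, M' = fun j => if j = i then M i * (1 + z) else M j :=
    ⟨_, rfl⟩
  have M1 : ∀ j, j ≠ i → M' j = M j := fun j hj => by
    rw [hM']
    exact if_neg hj
  have M2 : M' i = M i * (1 + z) := by
    rw [hM']
    exact if_pos rfl
  refine ⟨c', u', M', ⟨?_, ?_, ?_, ?_⟩, ?_, ?_⟩
  · intro j hj
    rcases Nat.lt_or_ge i j with hij | hij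
    · rw [u2 j hij]
      exact bu_mul hGB (h.bu j hj)
    · rw [u1 j hij]
      exact h.bu j hj
  · intro j hj
    by_cases hij : j = i
    · subst hij
      rw [M2]
      exact kup_mul_right (h.kup j hj) hz
    · rw [M1 j hij]
      exact h.kup j hj
  · intro j hj
    rcases lt_trichotomy j i with hij | hij | hij
    · rw [c1 j hij, u1 j hij.le, M1 j hij.ne]
      exact h.eq j hj
    · subst hij
      rw [c2, u1 j le_rfl, M2, Matrix.mul_assoc _ (u j)⁻¹ (u j), e2, Matrix.mul_one,
        Matrix.mul_assoc]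
    · rw [c3 j hij, u2 j hij, M1 j hij.ne']
      calc G * c j * Gi * (G * u j) = G * c j * (Gi * G) * u j := by
            simp only [Matrix.mul_assoc]
        _ = G * (c j * u j) := by rw [hGG, Matrix.mul_one, Matrix.mul_assoc]
        _ = G * u j * M j := by rw [h.eq j hj, Matrix.mul_assoc]
  · intro j hj e k1 hk1
    rcases lt_trichotomy j i with hij | hij | hij
    · have h1 : j + sh e ≤ i := by
        cases e
        · exact hij.le
        · exact hij
      rw [p1 _ h1, u1 j hij.le]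
      exact h.cell j hj e k1 hk1
    · subst hij
      rw [u1 j le_rfl]
      cases e with
      | false =>
        change ∃ W : Mat r A, BM nm (π j false k1) W ∧ IsUnit W ∧ InCell nm k1 W (PP c' j * u j)
        rw [p1 j le_rfl]
        exact h.cell j hj false k1 hk1
      | true =>
        change ∃ W : Mat r A, BM nm (π j true k1) W ∧ IsUnit W ∧
          InCell nm k1 W (PP c' (j + 1) * u j)
        obtain ⟨W, hW1, hW2, hW3⟩ := h.cell j hj true k1 hk1
        replace hW3 : InCell nm k1 W (PP c (j + 1) * u j) := hW3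
        refine ⟨W, hW1, hW2, ?_⟩
        have h1 : PP c' (j + 1) * u j = PP c (j + 1) * u j * (1 + z) := by
          rw [p2, Matrix.mul_assoc _ (u j)⁻¹ (u j), e2, Matrix.mul_one]
        rcases hk k1 hk1 with h2 | h2
        · have h3 : PP c' (j + 1) * u j = L * (PP c (j + 1) * u j * (1 - y)) := by
            rw [← Matrix.mul_assoc, hLX, Matrix.mul_assoc (PP c (j + 1) * u j) _ (1 - y),
              alg_y hyy hzy, h1]
          rw [h3]
          exact inCell_left (inCell_right hW3 (bu_one_sub h2)) hL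
        · rw [h1]
          exact inCell_right hW3 (bu_one_add h2)
    · have h1 : PP c' (j + sh e) * u' j = L * (PP c (j + sh e) * u j) := by
        rw [p4 _ (by omega), u2 j hij]
        calc L * PP c (j + sh e) * Gi * (G * u j) = L * PP c (j + sh e) * (Gi * G) * u j := by
              simp only [Matrix.mul_assoc]
          _ = L * (PP c (j + sh e) * u j) := by rw [hGG, Matrix.mul_one, Matrix.mul_assoc]
      obtain ⟨W, hW1, hW2, hW3⟩ := h.cell j hj e k1 hk1
      refine ⟨W, hW1, hW2, ?_⟩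
      rw [h1]
      exact inCell_left hW3 hL
  · intro j hj
    rcases lt_trichotomy j i with hij | hij | hij
    · rw [c1 j hij]
    · subst hij
      have h1 : c j = u j * M j * (u j)⁻¹ := by
        rw [← h.eq j hj, Matrix.mul_assoc, e1, Matrix.mul_one]
      rw [c2, h1]
      simp only [map_mul, map_add, map_one, hψz, add_zero, mul_one]
    · rw [c3 j hij, hG, hGi]
      exact map_conj (c j) e1 hψy
  · rw [← hGi]
    exact p4 m hi

theorem trans_false (h : St nm m κ l ks π c u M) {i : ℕ} (hi : i < m) {L y z : Mat r A}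
    (hL : BU nm (bk N) L) (hyy : y * y = 0) (hzz : z * z = 0) (hyz : y * z = 0)
    (hLX : L * (PP c i * u i) = PP c i * u i * (1 + y + z))
    (hy : Sp nm (fun a c => bk N a < bk N c) y)
    (hk : ∀ k1 ∈ ks i, Sp nm (fun a c => k1 a < k1 c) y ∨ Sp nm (fun a c => k1 a < k1 c) z)
    (hz : Sp nm (fun a c => κ i a < κ i c) z) (ψ : A →+* B) (hψy : ψ.mapMatrix y = 0)
    (hψz : ψ.mapMatrix z = 0) :
    ∃ c' u' M' : ℕ → Mat r A, St nm m κ l ks π c' u' M' ∧
      (∀ j < m, ψ.mapMatrix (c' j) = ψ.mapMatrix (c j)) ∧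
      PP c' m = L * PP c m * (u i * (1 - y) * (u i)⁻¹) := by
  have hui := h.bu i hi
  have e1 := bu_mul_inv hui
  have e2 := bu_inv_mul hui
  obtain ⟨G, hG⟩ : ∃ G, G = u i * (1 + y) * (u i)⁻¹ := ⟨_, rfl⟩
  obtain ⟨Gi, hGi⟩ : ∃ Gi, Gi = u i * (1 - y) * (u i)⁻¹ := ⟨_, rfl⟩
  have hGG : Gi * G = 1 := by
    rw [hG, hGi]
    exact alg_conj e1 e2 hyy
  have hGu : G * u i = u i * (1 + y) := by
    rw [hG, Matrix.mul_assoc, e2, Matrix.mul_one]
  have hGB : BU nm (bk N) G := by
    rw [hG]
    exact bu_mul (bu_mul hui (bu_one_add hy)) (bu_inv hui)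
  have hci : c i = u i * M i * (u i)⁻¹ := by
    rw [← h.eq i hi, Matrix.mul_assoc, e1, Matrix.mul_one]
  obtain ⟨c', hc'⟩ : ∃ c' : ℕ → Mat r A, c' = fun j => if j < i then c j else
    if j = i then G * u i * (1 + z) * M i * (u i)⁻¹ * Gi else G * c j * Gi := ⟨_, rfl⟩
  have c1 : ∀ j < i, c' j = c j := fun j hj => by
    rw [hc']
    exact if_pos hj
  have c2 : c' i = G * u i * (1 + z) * M i * (u i)⁻¹ * Gi := by
    rw [hc']
    simp only [lt_irrefl, if_false, if_true]
  have c3 : ∀ j, i + 1 ≤ j → c' j = G * c j * Gi := fun j hj => by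
    rw [hc']
    simp only [if_neg (show ¬ j < i by omega), if_neg (show ¬ j = i by omega)]
  have p1 : ∀ j ≤ i, PP c' j = PP c j := PP_congr c1
  have p3 : PP c' (i + 1) = L * PP c (i + 1) * Gi := by
    rw [PP, p1 i le_rfl, c2, hGu, PP, hci]
    calc PP c i * (u i * (1 + y) * (1 + z) * M i * (u i)⁻¹ * Gi)
        = PP c i * u i * ((1 + y) * (1 + z)) * (M i * (u i)⁻¹ * Gi) := by
          simp only [Matrix.mul_assoc]
      _ = L * (PP c i * u i) * (M i * (u i)⁻¹ * Gi) := by rw [alg_yz hyz, ← hLX]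
      _ = L * (PP c i * (u i * M i * (u i)⁻¹)) * Gi := by simp only [Matrix.mul_assoc]
  have p4 : ∀ j, i + 1 ≤ j → PP c' j = L * PP c j * Gi := PP_conj hGG p3 c3
  obtain ⟨u', hu'⟩ : ∃ u' : ℕ → Mat r A, u' = fun j => if j < i then u j else G * u j := ⟨_, rfl⟩
  have u1 : ∀ j < i, u' j = u j := fun j hj => by
    rw [hu']
    exact if_pos hj
  have u2 : ∀ j, i ≤ j → u' j = G * u j := fun j hj => by
    rw [hu']
    exact if_neg (by omega)
  obtain ⟨M', hM'⟩ : ∃ M' : ℕ → Mat r A, M' = fun j => if j = i then (1 + z) * M i else M j :=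
    ⟨_, rfl⟩
  have M1 : ∀ j, j ≠ i → M' j = M j := fun j hj => by
    rw [hM']
    exact if_neg hj
  have M2 : M' i = (1 + z) * M i := by
    rw [hM']
    exact if_pos rfl
  refine ⟨c', u', M', ⟨?_, ?_, ?_, ?_⟩, ?_, ?_⟩
  · intro j hj
    rcases Nat.lt_or_ge j i with hij | hij
    · rw [u1 j hij]
      exact h.bu j hj
    · rw [u2 j hij]
      exact bu_mul hGB (h.bu j hj)
  · intro j hj
    by_cases hij : j = i
    · subst hij
      rw [M2]
      exact kup_mul_left (h.kup j hj) hz
    · rw [M1 j hij]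
      exact h.kup j hj
  · intro j hj
    rcases lt_trichotomy j i with hij | hij | hij
    · rw [c1 j hij, u1 j hij, M1 j hij.ne]
      exact h.eq j hj
    · subst hij
      rw [c2, u2 j le_rfl, M2]
      calc G * u j * (1 + z) * M j * (u j)⁻¹ * Gi * (G * u j)
          = G * u j * (1 + z) * M j * (u j)⁻¹ * ((Gi * G) * u j) := by
            simp only [Matrix.mul_assoc]
        _ = G * u j * (1 + z) * M j := by
            rw [hGG, Matrix.one_mul, Matrix.mul_assoc _ (u j)⁻¹ (u j), e2, Matrix.mul_one]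
        _ = G * u j * ((1 + z) * M j) := by simp only [Matrix.mul_assoc]
    · rw [c3 j hij, u2 j hij.le, M1 j hij.ne']
      calc G * c j * Gi * (G * u j) = G * c j * (Gi * G) * u j := by
            simp only [Matrix.mul_assoc]
        _ = G * (c j * u j) := by rw [hGG, Matrix.mul_one, Matrix.mul_assoc]
        _ = G * u j * M j := by rw [h.eq j hj, Matrix.mul_assoc]
  · intro j hj e k1 hk1
    have key : ∀ n, i + 1 ≤ n → i ≤ j → PP c' n * u' j = L * (PP c n * u j) := by
      intro n hn hij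
      rw [p4 _ hn, u2 j hij]
      calc L * PP c n * Gi * (G * u j) = L * PP c n * (Gi * G) * u j := by
            simp only [Matrix.mul_assoc]
        _ = L * (PP c n * u j) := by rw [hGG, Matrix.mul_one, Matrix.mul_assoc]
    rcases lt_trichotomy j i with hij | hij | hij
    · have h1 : j + sh e ≤ i := by
        cases e
        · exact hij.le
        · exact hij
      rw [p1 _ h1, u1 j hij]
      exact h.cell j hj e k1 hk1
    · subst hij
      cases e with
      | true =>
        obtain ⟨W, hW1, hW2, hW3⟩ := h.cell j hj true k1 hk1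
        refine ⟨W, hW1, hW2, ?_⟩
        have h1 : PP c' (j + sh true) * u' j = L * (PP c (j + sh true) * u j) :=
          key (j + 1) le_rfl le_rfl
        rw [h1]
        exact inCell_left hW3 hL
      | false =>
        obtain ⟨W, hW1, hW2, hW3⟩ := h.cell j hj false k1 hk1
        replace hW3 : InCell nm k1 W (PP c j * u j) := hW3
        change ∃ W : Mat r A, BM nm (π j false k1) W ∧ IsUnit W ∧
          InCell nm k1 W (PP c' j * u' j)
        refine ⟨W, hW1, hW2, ?_⟩
        have h1 : PP c' j * u' j = PP c j * u j * (1 + y) := by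
          rw [p1 j le_rfl, u2 j le_rfl, hGu, Matrix.mul_assoc]
        rcases hk k1 hk1 with h2 | h2
        · rw [h1]
          exact inCell_right hW3 (bu_one_add h2)
        · have h3 : PP c' j * u' j = L * (PP c j * u j * (1 - z)) := by
            rw [← Matrix.mul_assoc, hLX, Matrix.mul_assoc (PP c j * u j) _ (1 - z),
              alg_z hzz hyz, h1]
          rw [h3]
          exact inCell_left (inCell_right hW3 (bu_one_sub h2)) hL
    · obtain ⟨W, hW1, hW2, hW3⟩ := h.cell j hj e k1 hk1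
      refine ⟨W, hW1, hW2, ?_⟩
      rw [key (j + sh e) (by omega) hij.le]
      exact inCell_left hW3 hL
  · intro j hj
    rcases lt_trichotomy j i with hij | hij | hij
    · rw [c1 j hij]
    · subst hij
      rw [c2, hGu, hGi, hci]
      have h1 : ψ.mapMatrix (u j) * ψ.mapMatrix ((u j)⁻¹) = 1 := by rw [← map_mul, e1, map_one]
      simp only [map_mul, map_add, map_sub, map_one, hψz, hψy, add_zero, sub_zero, mul_one, h1]
    · rw [c3 j hij, hG, hGi]
      exact map_conj (c j) e1 hψy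
  · rw [← hGi]
    exact p4 m hi

end Vale.Agent.P002B.AB
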