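import Vale.Agent.P002B.AbsorbB2

/-!
# P002, genus 0, arbitrary classes: absorption of the errors (second version), part 3

The moves.
-/

namespace Vale.Agent.P002B.AB

open Matrix Vale.Agent.P002R Vale.Agent.P002L

section

variable {S : Type*} [CommRing S] {r N : ℕ} {nm : Fin r → Fin N}

/-- The inverse of an invertible block monomial matrix. -/
theorem bm_inv {σ : Equiv.Perm (Fin N)} {W W' : Mat r S} (hW : BM nm σ W) (h : W * W' = 1)
    (h' : W' * W = 1) : Sp nm (fun a c => σ a = c) W' := by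
  intro i j hij
  have h1 : W * ee nm (nm i) = ee nm (σ (nm i)) * W := by
    ext x y
    rw [ee, ee, mul_diagonal, diagonal_mul]
    by_cases h2 : nm x = σ (nm y)
    · rw [h2]
      simp only [EmbeddingLike.apply_eq_iff_eq, mul_ite, ite_mul, mul_one, one_mul, mul_zero,
        zero_mul]
    · rw [hW x y h2, zero_mul, mul_zero]
  have h3 : ee nm (nm i) * W' = W' * ee nm (σ (nm i)) := by
    calc ee nm (nm i) * W' = W' * (W * ee nm (nm i)) * W' := by
          rw [← Matrix.mul_assoc, h', Matrix.one_mul]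
      _ = W' * ee nm (σ (nm i)) * (W * W') := by
          rw [h1]
          simp only [Matrix.mul_assoc]
      _ = W' * ee nm (σ (nm i)) := by rw [h, Matrix.mul_one]
  have h4 := congrFun (congrFun h3 i) j
  rw [ee, ee, diagonal_mul, mul_diagonal, if_pos rfl, one_mul, if_neg (Ne.symm hij), mul_zero] at h4
  exact h4

theorem bu_conj_sp {k : Fin N → ℕ} {b θ : Mat r S} {p q : Fin N} (hb : BU nm k b)
    (hθ : Sp nm (fun a c => a = p ∧ c = q) θ) :
    Sp nm (fun a c => k a ≤ k p ∧ k q ≤ k c) (b * θ * b⁻¹) := by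
  have h1 := ((bu_sp hb).mul hθ (τ := fun a c => k a ≤ k p ∧ c = q) fun a b c h1 h2 =>
    ⟨h2.1 ▸ h1, h2.2⟩)
  exact h1.mul (bu_sp (bu_inv hb)) fun a b c h2 h3 => ⟨h2.1, h2.2 ▸ h3⟩

theorem bu_conj_sp' {k : Fin N → ℕ} {b θ : Mat r S} {p q : Fin N} (hb : BU nm k b)
    (hθ : Sp nm (fun a c => a = p ∧ c = q) θ) :
    Sp nm (fun a c => k a ≤ k p ∧ k q ≤ k c) (b⁻¹ * θ * b) := by
  have h1 := ((bu_sp (bu_inv hb)).mul hθ (τ := fun a c => k a ≤ k p ∧ c = q) fun a b c h1 h2 =>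
    ⟨h2.1 ▸ h1, h2.2⟩)
  exact h1.mul (bu_sp hb) fun a b c h2 h3 => ⟨h2.1, h2.2 ▸ h3⟩

/-- The corner of a conjugate. -/
theorem bu_conj_corner {b θ : Mat r S} {p q : Fin N} (hb : BU nm (bk N) b)
    (hθ : Sp nm (fun a c => a = p ∧ c = q) θ) {i j : Fin r} (hi : nm i = p) (hj : nm j = q) :
    (b * θ * b⁻¹) i j = θ i j := by
  have hb' := bu_iff.1 (bu_inv hb)
  rw [bu_iff] at hb
  have h : b * θ * b⁻¹ = θ + (b - 1) * θ + b * (θ * (b⁻¹ - 1)) := by noncomm_ring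
  have h1 : ((b - 1) * θ) i j = 0 :=
    hb.mul hθ (τ := fun a c => a < p) (fun a b c h1 h2 => by
      rw [h2.1] at h1
      exact h1) i j (by rw [hi]; exact lt_irrefl _)
  have h2 : (b * (θ * (b⁻¹ - 1))) i j = 0 := by
    have h3 : Sp nm (fun a c => q < c) (θ * (b⁻¹ - 1)) := hθ.mul hb' fun a b c h1 h2 => by
      rw [h1.2] at h2
      exact h2
    have h4 : Sp nm (fun _ _ => True) b := fun i j h => absurd trivial h
    exact h4.mul h3 (τ := fun a c => q < c) (fun a b c _ h => h) i j (by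
      rw [hj]
      exact lt_irrefl _)
  rw [h, Matrix.add_apply, Matrix.add_apply, h1, h2, add_zero, add_zero]

/-- The block triangular structure of the product. -/
def Str (nm : Fin r → Fin N) (t : Fin N → S) (Q : Mat r S) : Prop :=
  ∀ i j, ¬ nm i < nm j → Q i j = if i = j then t (nm i) else 0

theorem Str.sp {t : Fin N → S} {Q : Mat r S} (h : Str nm t Q) : Sp nm (fun a c => a ≤ c) Q := by
  intro i j hij
  rw [h i j fun h1 => hij h1.le, if_neg]
  rintro rfl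
  exact hij le_rfl

/-- Corner of a product on the left. -/
theorem str_left {t : Fin N → S} {Q X : Mat r S} (h : Str nm t Q) {p q : Fin N}
    (hX : Sp nm (fun a c => a ≤ p ∧ q ≤ c) X) {i j : Fin r} (hj : nm j = q) :
    (X * Q) i j = X i j * t q := by
  rw [mul_apply, Finset.sum_eq_single j]
  · rw [h j j (lt_irrefl _), if_pos rfl, hj]
  · intro k _ hk
    by_cases h1 : q ≤ nm k
    · rw [h k j (by rw [hj]; exact not_lt.2 h1), if_neg hk, mul_zero]
    · rw [hX i k fun h2 => h1 h2.2, zero_mul]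
  · intro h1
    exact absurd (Finset.mem_univ _) h1

/-- Corner of a product on the right. -/
theorem str_right {t : Fin N → S} {Q X : Mat r S} (h : Str nm t Q) {p q : Fin N}
    (hX : Sp nm (fun a c => a ≤ p ∧ q ≤ c) X) {i j : Fin r} (hi : nm i = p) :
    (Q * X) i j = t p * X i j := by
  rw [mul_apply, Finset.sum_eq_single i]
  · rw [h i i (lt_irrefl _), if_pos rfl, hi]
  · intro k _ hk
    by_cases h1 : nm k ≤ p
    · rw [h i k (by rw [hi]; exact not_lt.2 h1), if_neg (Ne.symm hk), zero_mul]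
    · rw [hX k j fun h2 => h1 h2.1, mul_zero]
  · intro h1
    exact absurd (Finset.mem_univ _) h1

/-- The block `(p, q)` of `X`, multiplied by a scalar. -/
def blk (nm : Fin r → Fin N) (p q : Fin N) (s : S) (X : Mat r S) : Mat r S :=
  Matrix.of fun i j => if nm i = p ∧ nm j = q then s * X i j else 0

theorem blk_sp {p q : Fin N} {s : S} {X : Mat r S} :
    Sp nm (fun a c => a = p ∧ c = q) (blk nm p q s X) := fun i j h => by
  rw [blk, of_apply, if_neg h]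

theorem blk_apply {p q : Fin N} {s : S} {X : Mat r S} {i j : Fin r} (hi : nm i = p)
    (hj : nm j = q) : blk nm p q s X i j = s * X i j := by
  rw [blk, of_apply, if_pos ⟨hi, hj⟩]

/-- Analysis of the first move. -/
theorem ana_one {t : Fin N → S} {Q X : Mat r S} (h : Str nm t Q) {p q : Fin N}
    (hX : Sp nm (fun a c => a ≤ p ∧ q ≤ c) X)
    (hX' : ∀ i j, nm i = p → nm j = q → t p * X i j = - Q i j) :
    (∀ i j, nm i = p → nm j = q → (Q * (1 + X)) i j = 0) ∧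
      ∀ i j, ¬ (nm i ≤ p ∧ q ≤ nm j) → (Q * (1 + X)) i j = Q i j := by
  rw [mul_add, Matrix.mul_one]
  constructor
  · intro i j hi hj
    rw [Matrix.add_apply, str_right h hX hi, hX' i j hi hj, add_neg_cancel]
  · intro i j hij
    rw [Matrix.add_apply, h.sp.mul hX (τ := fun a c => a ≤ p ∧ q ≤ c)
      (fun a b c h1 h2 => ⟨h1.trans h2.1, h2.2⟩) i j hij, add_zero]

/-- Analysis of the second move. -/
theorem ana_two {t : Fin N → S} {Q X Y : Mat r S} (h : Str nm t Q) {p q : Fin N}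
    (hX : Sp nm (fun a c => a ≤ p ∧ q ≤ c) X)
    (hX' : ∀ i j, nm i = p → nm j = q → X i j * t q = - Q i j)
    {σ : Fin N → Fin N → Prop} (hY : Sp nm σ Y) (hσ : ∀ a c, σ a c → a < c)
    (hσ' : ∀ a b c, a ≤ b → σ b c → σ a c) (hpq' : ¬ σ p q) :
    (∀ i j, nm i = p → nm j = q → ((1 + X) * Q * (1 + Y)) i j = 0) ∧
      ∀ i j, ¬ (nm i ≤ p ∧ q ≤ nm j) → ¬ σ (nm i) (nm j) →
        ((1 + X) * Q * (1 + Y)) i j = Q i j := by
  have h1 : (1 + X) * Q * (1 + Y) = Q + X * Q + Q * Y + X * (Q * Y) := by noncomm_ring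
  have h2 : Sp nm σ (Q * Y) := h.sp.mul hY fun a b c h3 h4 => hσ' a b c h3 h4
  have h3 : Sp nm (fun a c => a ≤ p ∧ q < c) (X * (Q * Y)) := hX.mul h2 fun a b c h4 h5 =>
    ⟨h4.1, lt_of_le_of_lt h4.2 (hσ _ _ h5)⟩
  rw [h1]
  constructor
  · intro i j hi hj
    rw [Matrix.add_apply, Matrix.add_apply, Matrix.add_apply, str_left h hX hj, hX' i j hi hj,
      add_neg_cancel, zero_add, h2 i j (by rw [hi, hj]; exact hpq'),
      h3 i j (by rw [hj]; exact fun h4 => lt_irrefl _ h4.2), zero_add]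
  · intro i j hij hij'
    rw [Matrix.add_apply, Matrix.add_apply, Matrix.add_apply, h2 i j hij',
      h3 i j (fun h4 => hij ⟨h4.1, h4.2.le⟩),
      hX.mul h.sp (τ := fun a c => a ≤ p ∧ q ≤ c) (fun a b c h4 h5 => ⟨h4.1, h4.2.trans h5⟩) i j
        hij, add_zero, add_zero, add_zero]

end

variable {A B : Type} [CommRing A] [CommRing B] {r N : ℕ} {nm : Fin r → Fin N} {m : ℕ}
  {κ : ℕ → Fin N → ℕ} {l : ℕ → ℕ → A} {ks : ℕ → List (Fin N → ℕ)}
  {π : ℕ → Bool → (Fin N → ℕ) → Equiv.Perm (Fin N)} {c u M : ℕ → Mat r A}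

theorem blk_map {p q : Fin N} {s : A} {X : Mat r A} {ψ : A →+* B}
    (h : ∀ i j, nm i = p → nm j = q → ψ (X i j) = 0) : ψ.mapMatrix (blk nm p q s X) = 0 := by
  ext i j
  rw [RingHom.mapMatrix_apply, map_apply, blk, of_apply]
  split_ifs with h1
  · rw [map_mul, h i j h1.1 h1.2, mul_zero, Matrix.zero_apply]
  · rw [map_zero, Matrix.zero_apply]

/-- The first move. -/
theorem move_one (h : St nm m κ l ks π c u M) (hks : ∀ i < m, KP (κ i) (bk N) (ks i))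
    {t : Fin N → Aˣ} (hQ : Str nm (fun a => (t a : A)) (PP c m)) {p q : Fin N} (hpq : p < q)
    (ψ : A →+* B) (hψ : ∀ i j, nm i = p → nm j = q → ψ (PP c m i j) = 0) {i : ℕ} (hi : i < m)
    (hκ : κ i p < κ i q) :
    ∃ c' u' M' : ℕ → Mat r A, St nm m κ l ks π c' u' M' ∧
      (∀ j < m, ψ.mapMatrix (c' j) = ψ.mapMatrix (c j)) ∧
      (∀ i j, nm i = p → nm j = q → PP c' m i j = 0) ∧
      ∀ i j, ¬ (nm i ≤ p ∧ q ≤ nm j) → PP c' m i j = PP c m i j := by
  obtain ⟨θ, hθ⟩ : ∃ θ, θ = blk nm p q (-((t p)⁻¹ : Aˣ) : A) (PP c m) := ⟨_, rfl⟩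
  have hθs : Sp nm (fun a c => a = p ∧ c = q) θ := by
    rw [hθ]
    exact blk_sp
  have hθθ : θ * θ = 0 := (hθs.mul hθs (τ := fun _ _ => False) fun a b c h1 h2 =>
    hpq.ne (h2.1.symm.trans h1.2)).eq_zero fun _ _ h => h
  have hψθ : ψ.mapMatrix θ = 0 := by
    rw [hθ]
    exact blk_map hψ
  obtain ⟨c', u', M', h1, h2, h3⟩ := trans_true h hi (L := 1) (y := -θ) (z := θ) bu_one
    (by rw [neg_mul_neg, hθθ]) (by rw [mul_neg, hθθ, neg_zero])
    (by rw [neg_add_cancel_right, Matrix.one_mul, Matrix.mul_one])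
    ((hθs.mono fun a c h => by rw [h.1, h.2]; exact hpq).neg)
    (fun k1 hk1 => Or.inr (hθs.mono fun a c h => by
      rw [h.1, h.2]
      exact kp_after (hks i hi) k1 hk1 p q hκ hpq))
    (hθs.mono fun a c h => by rw [h.1, h.2]; exact hκ) ψ
    (by rw [map_neg, hψθ, neg_zero]) hψθ
  have hui := h.bu i hi
  have h4 : PP c' m = PP c m * (1 + u i * θ * (u i)⁻¹) := by
    rw [h3, Matrix.one_mul, sub_neg_eq_add, Matrix.mul_add (u i), Matrix.mul_one,
      Matrix.add_mul (u i), bu_mul_inv hui]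
  have h5 := ana_one hQ (bu_conj_sp hui hθs) (fun i j hi hj => by
    rw [bu_conj_corner hui hθs hi hj, hθ, blk_apply hi hj, neg_mul, mul_neg, ← mul_assoc,
      Units.mul_inv, one_mul])
  refine ⟨c', u', M', h1, h2, ?_, ?_⟩
  · rw [h4]
    exact h5.1
  · rw [h4]
    exact h5.2

/-- The second move. -/
theorem move_two (h : St nm m κ l ks π c u M) (hks : ∀ i < m, KP (κ i) (bk N) (ks i))
    {t : Fin N → Aˣ} (hQ : Str nm (fun a => (t a : A)) (PP c m)) {p q : Fin N} (hpq : p < q)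
    (ψ : A →+* B) (hψ : ∀ i j, nm i = p → nm j = q → ψ (PP c m i j) = 0) {i : ℕ} (hi : i < m)
    {e : Bool} {k : Fin N → ℕ} (hk : k ∈ ks i) {n l' s s' : ℕ}
    (hseg : ∀ c, k c < n ↔ Seg (κ i) l' s s' c) (hp : k ((π i e k).symm p) < n)
    (hq : ¬ k ((π i e k).symm q) < n) (rk : Fin N → Fin N → ℕ)
    (hrk : ∀ p' p q q' : Fin N, p' ≤ p → p < q → q ≤ q' → rk p' q' ≤ rk p q)
    (hsep : ∀ p' q' : Fin N, p' < q' → (((p' : ℕ) < s ∧ s ≤ (q' : ℕ)) ∨
          ((p' : ℕ) < s' ∧ s' ≤ (q' : ℕ))) → rk p' q' < rk p q) :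
    ∃ c' u' M' : ℕ → Mat r A, St nm m κ l ks π c' u' M' ∧
      (∀ j < m, ψ.mapMatrix (c' j) = ψ.mapMatrix (c j)) ∧
      (∀ i j, nm i = p → nm j = q → PP c' m i j = 0) ∧
      ∀ i j, ¬ (nm i ≤ p ∧ q ≤ nm j) → ¬ (nm i < nm j ∧ rk (nm i) (nm j) < rk p q) →
        PP c' m i j = PP c m i j := by
  obtain ⟨W, hW1, hW2, b, v, hb, hv, hX⟩ := h.cell i hi e k hk
  obtain ⟨W', hWW', hW'W⟩ : ∃ W', W * W' = 1 ∧ W' * W = 1 := by
    obtain ⟨w, rfl⟩ := hW2
    exact ⟨(w⁻¹ : (Mat r A)ˣ), w.mul_inv, w.inv_mul⟩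
  have hW's := bm_inv hW1 hWW' hW'W
  have hWs : Sp nm (fun a c => a = π i e k c) W := fun i j h => hW1 i j h
  obtain ⟨θ, hθ⟩ : ∃ θ, θ = blk nm p q (-((t q)⁻¹ : Aˣ) : A) (PP c m) := ⟨_, rfl⟩
  have hθs : Sp nm (fun a c => a = p ∧ c = q) θ := by
    rw [hθ]
    exact blk_sp
  have hψθ : ψ.mapMatrix θ = 0 := by
    rw [hθ]
    exact blk_map hψ
  -- the parameter
  have hδ : Sp nm (fun a c => a = (π i e k).symm p ∧ c = (π i e k).symm q) (W' * θ * W) := by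
    have h1 : Sp nm (fun a c => a = (π i e k).symm p ∧ c = q) (W' * θ) :=
      hW's.mul hθs fun a b c h1 h2 => ⟨by rw [← h2.1, ← h1, Equiv.symm_apply_apply], h2.2⟩
    exact h1.mul hWs fun a b c h2 h3 => ⟨h2.1, by rw [← h2.2, h3, Equiv.symm_apply_apply]⟩
  obtain ⟨x, hx⟩ : ∃ x, x = v⁻¹ * (W' * θ * W) * v := ⟨_, rfl⟩
  have hxs : Sp nm (fun a c => k a < n ∧ ¬ k c < n) x := by
    rw [hx]
    refine (bu_conj_sp' hv hδ).mono fun a c h1 => ⟨lt_of_le_of_lt h1.1 hp, ?_⟩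
    exact not_lt.2 ((not_lt.1 hq).trans h1.2)
  have hψx : ψ.mapMatrix x = 0 := by
    rw [hx]
    simp only [map_mul, hψθ, mul_zero, zero_mul]
  obtain ⟨y, hy⟩ : ∃ y : Mat r A, y = Matrix.of fun i' j' =>
    if κ i (nm i') < κ i (nm j') then 0 else x i' j' := ⟨_, rfl⟩
  obtain ⟨z, hz⟩ : ∃ z : Mat r A, z = Matrix.of fun i' j' =>
    if κ i (nm i') < κ i (nm j') then x i' j' else 0 := ⟨_, rfl⟩
  have hys : Sp nm (fun a c => (k a < n ∧ ¬ k c < n) ∧ ¬ κ i a < κ i c) y := by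
    intro i' j' h1
    rw [hy, of_apply]
    split_ifs with h2
    · rfl
    · exact hxs i' j' fun h3 => h1 ⟨h3, h2⟩
  have hzs : Sp nm (fun a c => (k a < n ∧ ¬ k c < n) ∧ κ i a < κ i c) z := by
    intro i' j' h1
    rw [hz, of_apply]
    split_ifs with h2
    · exact hxs i' j' fun h3 => h1 ⟨h3, h2⟩
    · rfl
  have hyz : x = y + z := by
    ext i' j'
    rw [Matrix.add_apply, hy, hz, of_apply, of_apply]
    split_ifs
    · rw [zero_add]
    · rw [add_zero]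
  have hψy : ψ.mapMatrix y = 0 := by
    ext i' j'
    have h1 := congrFun (congrFun hψx i') j'
    rw [RingHom.mapMatrix_apply, map_apply] at h1 ⊢
    rw [hy, of_apply]
    split_ifs
    · rw [map_zero, Matrix.zero_apply]
    · exact h1
  have hψz : ψ.mapMatrix z = 0 := by
    ext i' j'
    have h1 := congrFun (congrFun hψx i') j'
    rw [RingHom.mapMatrix_apply, map_apply] at h1 ⊢
    rw [hz, of_apply]
    split_ifs
    · exact h1
    · rw [map_zero, Matrix.zero_apply]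
  have hzero : ∀ {x1 x2 : Mat r A}, Sp nm (fun a c => k a < n ∧ ¬ k c < n) x1 →
      Sp nm (fun a c => k a < n ∧ ¬ k c < n) x2 → x1 * x2 = 0 := fun h1 h2 =>
    (h1.mul h2 (τ := fun _ _ => False) fun a b c h1 h2 => h1.2 h2.1).eq_zero fun _ _ h => h
  have hys' : Sp nm (fun a c => k a < n ∧ ¬ k c < n) y := hys.mono fun a c h => h.1
  have hzs' : Sp nm (fun a c => k a < n ∧ ¬ k c < n) z := hzs.mono fun a c h => h.1
  have hsepy : ∀ a c, (k a < n ∧ ¬ k c < n) ∧ ¬ κ i a < κ i c →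
      (((a : ℕ) < s ∧ s ≤ (c : ℕ)) ∨ ((a : ℕ) < s' ∧ s' ≤ (c : ℕ))) ∧ a < c := fun a c h1 =>
    seg_sep ((hseg a).1 h1.1.1) (fun h2 => h1.1.2 ((hseg c).2 h2)) h1.2
  have hk1 : ∀ k1 ∈ ks i, Sp nm (fun a c => k1 a < k1 c) y ∨ Sp nm (fun a c => k1 a < k1 c) z := by
    intro k1 hk1
    rcases kp_dich (hks i hi) k hk k1 hk1 with h1 | h1
    · left
      exact hys.mono fun a c h2 => h1 a c (hsepy a c h2).2
        (lt_of_lt_of_le h2.1.1 (not_lt.1 h2.1.2))
    · right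
      exact hzs.mono fun a c h2 => h1 a c h2.2 (lt_of_lt_of_le h2.1.1 (not_lt.1 h2.1.2))
  obtain ⟨L, hL⟩ : ∃ L, L = 1 + b * θ * b⁻¹ := ⟨_, rfl⟩
  have hXs := bu_conj_sp hb hθs
  have hLB : BU nm (bk N) L := by
    rw [hL]
    refine bu_one_add (hXs.mono fun a c h1 => lt_of_le_of_lt h1.1 (lt_of_lt_of_le ?_ h1.2))
    exact hpq
  have hLX : L * (PP c (i + sh e) * u i) = PP c (i + sh e) * u i * (1 + y + z) := by
    rw [hX, add_assoc, ← hyz, hL, hx]
    have h1 : (1 + b * θ * b⁻¹) * (b * W * v) = b * W * v + b * θ * (b⁻¹ * b) * W * v := by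
      noncomm_ring
    have h2 : b * W * v * (1 + v⁻¹ * (W' * θ * W) * v) =
        b * W * v + b * (W * ((v * v⁻¹) * W')) * θ * W * v := by noncomm_ring
    rw [h1, h2, bu_inv_mul hb, bu_mul_inv hv, Matrix.one_mul, hWW', Matrix.mul_one, Matrix.mul_one]
  have hfin : ∃ c' u' M' : ℕ → Mat r A, St nm m κ l ks π c' u' M' ∧
      (∀ j < m, ψ.mapMatrix (c' j) = ψ.mapMatrix (c j)) ∧
      PP c' m = L * PP c m * (u i * (1 - y) * (u i)⁻¹) := by
    cases e with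
    | false =>
      exact trans_false h hi hLB (hzero hys' hys') (hzero hzs' hzs') (hzero hys' hzs') hLX
        (hys.mono fun a c h1 => (hsepy a c h1).2) hk1 (hzs.mono fun a c h1 => h1.2) ψ hψy hψz
    | true =>
      exact trans_true h hi hLB (hzero hys' hys') (hzero hzs' hys') hLX
        (hys.mono fun a c h1 => (hsepy a c h1).2) hk1 (hzs.mono fun a c h1 => h1.2) ψ hψy hψz
  obtain ⟨c', u', M', h1, h2, h3⟩ := hfin
  have hui := h.bu i hi
  obtain ⟨σ, hσ⟩ : ∃ σ : Fin N → Fin N → Prop, σ = fun a c => ∃ a' c' : Fin N, a ≤ a' ∧ c' ≤ c ∧ a' < c' ∧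
    (((a' : ℕ) < s ∧ s ≤ (c' : ℕ)) ∨ ((a' : ℕ) < s' ∧ s' ≤ (c' : ℕ))) := ⟨_, rfl⟩
  have hYs : Sp nm σ (-(u i * y * (u i)⁻¹)) := by
    have h4 : Sp nm σ y := hys.mono fun a c h5 => by
      rw [hσ]
      exact ⟨a, c, le_rfl, le_rfl, (hsepy a c h5).2, (hsepy a c h5).1⟩
    have h5 : Sp nm σ (u i * y) := (bu_sp hui).mul h4 fun a b c h6 h7 => by
      rw [hσ] at h7 ⊢
      obtain ⟨a', c', h8, h9, h10, h11⟩ := h7
      exact ⟨a', c', le_trans (show a ≤ b from h6) h8, h9, h10, h11⟩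
    refine (h5.mul (bu_sp (bu_inv hui)) fun a b c h6 h7 => ?_).neg
    rw [hσ] at h6 ⊢
    obtain ⟨a', c', h8, h9, h10, h11⟩ := h6
    exact ⟨a', c', h8, le_trans h9 (show b ≤ c from h7), h10, h11⟩
  have hσ1 : ∀ a c, σ a c → a < c ∧ rk a c < rk p q := by
    intro a c h4
    rw [hσ] at h4
    obtain ⟨a', c', h8, h9, h10, h11⟩ := h4
    exact ⟨lt_of_le_of_lt h8 (lt_of_lt_of_le h10 h9),
      lt_of_le_of_lt (hrk a a' c' c h8 h10 h9) (hsep a' c' h10 h11)⟩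
  have h4 : PP c' m = (1 + b * θ * b⁻¹) * PP c m * (1 + -(u i * y * (u i)⁻¹)) := by
    rw [h3, hL, Matrix.mul_sub (u i), Matrix.mul_one, Matrix.sub_mul (u i), bu_mul_inv hui,
      sub_eq_add_neg]
  have h5 := ana_two hQ (X := b * θ * b⁻¹) hXs (fun i j hi hj => by
    rw [bu_conj_corner hb hθs hi hj, hθ, blk_apply hi hj, neg_mul, neg_mul, mul_comm, ← mul_assoc,
      Units.mul_inv, one_mul]) hYs (fun a c h6 => (hσ1 a c h6).1)
    (fun a b c h6 h7 => by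
      rw [hσ] at h7 ⊢
      obtain ⟨a', c', h8, h9, h10, h11⟩ := h7
      exact ⟨a', c', h6.trans h8, h9, h10, h11⟩)
    (fun h6 => lt_irrefl _ (hσ1 p q h6).2)
  refine ⟨c', u', M', h1, h2, ?_, ?_⟩
  · rw [h4]
    exact h5.1
  · intro i j h6 h7
    rw [h4]
    exact h5.2 i j h6 fun h8 => h7 (hσ1 _ _ h8)

end Vale.Agent.P002B.AB
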