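import Vale.Agent.P002B.AsmA2
import Vale.Agent.P002L.T8

/-!
# P002B, T15: assembly of the theorem in genus zero
-/

namespace Vale.Agent.P002B.AsmA

open Matrix Vale.Agent.P002R Vale.Agent.P002L

theorem coefOK_mono {R : Type} [CommRing R] {φ : R →+* ℂ} {E : Subgroup ℂˣ} {r r' : ℕ}
    (h : CoefOK φ E r') (hr : r ≤ r') : CoefOK φ E r :=
  ⟨h.inj, h.neg, fun k hk hkr z hz => h.root k hk (hkr.trans hr) z hz, h.unit⟩

theorem pp_conj {r : ℕ} (g : (Mat r ℂ)ˣ) (c d : ℕ → Mat r ℂ)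
    (h : ∀ i, d i = ((g⁻¹ : (Mat r ℂ)ˣ) : Mat r ℂ) * c i * (g : Mat r ℂ)) :
    ∀ n, PP d n = ((g⁻¹ : (Mat r ℂ)ˣ) : Mat r ℂ) * PP c n * (g : Mat r ℂ)
  | 0 => by
    change (1 : Mat r ℂ) = _ * 1 * _
    rw [Matrix.mul_one, Units.inv_mul]
  | n + 1 => by
    change PP d n * d n = _ * (PP c n * c n) * _
    rw [pp_conj g c d h n, h n]
    calc (g⁻¹ : (Mat r ℂ)ˣ).val * PP c n * g.val * ((g⁻¹ : (Mat r ℂ)ˣ).val * c n * g.val) =
        (g⁻¹ : (Mat r ℂ)ˣ).val * PP c n * (g.val * (g⁻¹ : (Mat r ℂ)ˣ).val) * c n * g.val := by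
          simp only [Matrix.mul_assoc]
      _ = _ := by
        rw [Units.mul_inv, Matrix.mul_one]
        simp only [Matrix.mul_assoc]

theorem qp_conj_zero {r : ℕ} (g : (Mat r ℂ)ˣ) {c d : Mat r ℂ} (ξ : ℕ → ℂ) (j : ℕ)
    (h : d = ((g⁻¹ : (Mat r ℂ)ˣ) : Mat r ℂ) * c * (g : Mat r ℂ)) (h0 : Qp c ξ j = 0) :
    Qp d ξ j = 0 := by
  have h1 : c * (g : Mat r ℂ) = (g : Mat r ℂ) * d := by
    rw [h, ← Matrix.mul_assoc, ← Matrix.mul_assoc, Units.mul_inv, Matrix.one_mul]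
  have h2 := Qp_conj ξ h1 j
  rw [h0, Matrix.zero_mul] at h2
  calc Qp d ξ j = ((g⁻¹ : (Mat r ℂ)ˣ) : Mat r ℂ) * ((g : Mat r ℂ) * Qp d ξ j) := by
        rw [← Matrix.mul_assoc, Units.inv_mul, Matrix.one_mul]
    _ = 0 := by rw [← h2, Matrix.mul_zero]

/-- A polynomial in the entries of the product of all members but the first. -/
theorem exists_prodP {m r : ℕ} (h : MvPolynomial (Fin r × Fin r) ℂ) :
    ∃ q : MvPolynomial (GenU 0 (m + 1) × Fin r × Fin r) ℂ, ∀ c : Fin (m + 1) → Mat r ℂ,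
      evT q c = MvPolynomial.eval
        (fun p => (List.ofFn fun i : Fin m => c i.succ).prod p.1 p.2) h := by
  refine ⟨MvPolynomial.bind₁ (fun p => (List.ofFn fun i : Fin m => (Matrix.of fun a b =>
    (MvPolynomial.X (Sum.inr i.succ, a, b) : MvPolynomial (GenU 0 (m + 1) × Fin r × Fin r) ℂ) :
      Mat r (MvPolynomial (GenU 0 (m + 1) × Fin r × Fin r) ℂ))).prod p.1 p.2) h, fun c => ?_⟩
  rw [evT]
  have h1 := MvPolynomial.eval₂Hom_bind₁ (RingHom.id ℂ)
    (fun p : GenU 0 (m + 1) × Fin r × Fin r =>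
      (Sum.elim (fun _ => (0 : Mat r ℂ)) c p.1) p.2.1 p.2.2)
    (fun p : Fin r × Fin r => (List.ofFn fun i : Fin m => (Matrix.of fun a b =>
    (MvPolynomial.X (Sum.inr i.succ, a, b) : MvPolynomial (GenU 0 (m + 1) × Fin r × Fin r) ℂ) :
      Mat r (MvPolynomial (GenU 0 (m + 1) × Fin r × Fin r) ℂ))).prod p.1 p.2) h
  refine h1.trans ?_
  refine congrArg (fun w => MvPolynomial.eval w h) (funext fun p => ?_)
  have h2 := prod_map_ofFn (MvPolynomial.eval fun p : GenU 0 (m + 1) × Fin r × Fin r =>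
      (Sum.elim (fun _ => (0 : Mat r ℂ)) c p.1) p.2.1 p.2.2)
    (fun i : Fin m => (Matrix.of fun a b =>
    (MvPolynomial.X (Sum.inr i.succ, a, b) : MvPolynomial (GenU 0 (m + 1) × Fin r × Fin r) ℂ) :
      Mat r (MvPolynomial (GenU 0 (m + 1) × Fin r × Fin r) ℂ)))
  have h3 : (fun i : Fin m => ((Matrix.of fun a b =>
    (MvPolynomial.X (Sum.inr i.succ, a, b) : MvPolynomial (GenU 0 (m + 1) × Fin r × Fin r) ℂ) :
      Mat r (MvPolynomial (GenU 0 (m + 1) × Fin r × Fin r) ℂ))).map (MvPolynomial.eval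
        fun p : GenU 0 (m + 1) × Fin r × Fin r =>
      (Sum.elim (fun _ => (0 : Mat r ℂ)) c p.1) p.2.1 p.2.2)) = fun i : Fin m => c i.succ := by
    funext i
    ext a b
    rw [Matrix.map_apply, Matrix.of_apply, MvPolynomial.eval_X]
    rfl
  rw [h3] at h2
  rw [h2]
  rfl

theorem isConj_of_inv {G : Type*} [Group G] {a b : G} (h : IsConj a⁻¹ b⁻¹) : IsConj a b := by
  obtain ⟨c, hc⟩ := isConj_iff.1 h
  rw [isConj_iff]
  refine ⟨c, ?_⟩
  have h1 : (c * a⁻¹ * c⁻¹)⁻¹ = b⁻¹⁻¹ := by rw [hc]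
  rw [_root_.mul_inv_rev, _root_.mul_inv_rev, inv_inv, inv_inv, inv_inv] at h1
  rw [← h1, mul_assoc]

theorem eigIn_inv' {r : ℕ} {E : Subgroup ℂˣ} {M : (Mat r ℂ)ˣ} (hM : EigIn E (M : Mat r ℂ)) :
    EigIn E ((M⁻¹ : (Mat r ℂ)ˣ) : Mat r ℂ) := by
  intro z hz
  have h1 : (Matrix.scalar (Fin r) z - ((M⁻¹ : (Mat r ℂ)ˣ) : Mat r ℂ)).det = 0 := by
    rw [← Matrix.eval_charpoly]
    exact hz
  have hz0 : z ≠ 0 := by
    rintro rfl
    rw [map_zero, zero_sub, Matrix.det_neg] at h1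
    have h2 : IsUnit ((M⁻¹ : (Mat r ℂ)ˣ) : Mat r ℂ).det :=
      (Matrix.isUnit_iff_isUnit_det _).1 (M⁻¹).isUnit
    rcases mul_eq_zero.1 h1 with h3 | h3
    · exact pow_ne_zero _ (by norm_num) h3
    · exact h2.ne_zero h3
  obtain ⟨v, hv, hv'⟩ := Matrix.exists_mulVec_eq_zero_iff.2 h1
  rw [Matrix.sub_mulVec, sub_eq_zero] at hv'
  have h3 : Matrix.scalar (Fin r) z *ᵥ v = z • v := by
    ext i
    simp [Matrix.scalar_apply, Matrix.mulVec_diagonal]
  rw [h3] at hv'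
  have h4 : (M : Mat r ℂ) *ᵥ v = z⁻¹ • v := by
    have h5 := congrArg (fun w => (M : Mat r ℂ) *ᵥ w) hv'
    simp only [Matrix.mulVec_smul, Matrix.mulVec_mulVec, Units.mul_inv, Matrix.one_mulVec] at h5
    calc (M : Mat r ℂ) *ᵥ v = z⁻¹ • z • (M : Mat r ℂ) *ᵥ v := by
          rw [smul_smul, inv_mul_cancel₀ hz0, one_smul]
      _ = z⁻¹ • v := by rw [h5]
  obtain ⟨e, he, h5⟩ := hM z⁻¹ (by
    rw [Polynomial.IsRoot.def, Matrix.eval_charpoly, ← Matrix.exists_mulVec_eq_zero_iff]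
    refine ⟨v, hv, ?_⟩
    rw [Matrix.sub_mulVec, h4, sub_eq_zero]
    ext i
    simp [Matrix.scalar_apply, Matrix.mulVec_diagonal])
  refine ⟨e⁻¹, inv_mem he, ?_⟩
  rw [Units.val_inv_eq_inv_val, h5, inv_inv]


/-- The main step: density in the adapted basis. -/
theorem core (hPS : PathStmt) (hLS : LiftStmt) (hAS : AbsorbStmt) (hTS : TypeStmt)
    (hVS : LeviStmt) {m r : ℕ} (hr : 0 < r) {R : Type} [CommRing R]
    (φ : R →+* ℂ) (E : Subgroup ℂˣ) (hc2 : CoefOK φ E (r * r)) (C : Fin (m + 1) → (Mat r ℂ)ˣ)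
    (hE : ∀ j, EigIn E (C j : Mat r ℂ))
    (x : FU 0 (m + 1) →* (Mat r ℂ)ˣ) (hx1 : x (relatorU 0 (m + 1)) = 1)
    (hx2 : ∀ j, IsConj (C j) (x (FreeGroup.of (Sum.inr j))))
    (l : ℕ → ℕ → Rˣ) (τ : ℕ → Rˣ)
    {N : ℕ} {nm : Fin r → Fin N} {κ : ℕ → Fin N → ℕ} {κ₀ : Fin N → ℕ} {d u M : ℕ → Mat r ℂ}
    {rk : Fin N → Fin N → ℕ}
    (hd : ∀ i : Fin m, d i = bt x i.succ)
    (hnm : Monotone nm) (hsur : Function.Surjective nm) (hκ₀ : Monotone κ₀)
    (h1 : ∀ i < m, BU nm (bk N) (u i) ∧ Kup (κ i ∘ nm) (fun j => φ (l i j)) (M i) ∧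
      d i * u i = u i * M i ∧ (∀ x, κ i x < r) ∧
        ∀ j ≤ r, Module.finrank ℂ (LinearMap.ker (Qp (d i) (fun j => φ (l i j)) j).mulVecLin) =
          (Finset.univ.filter fun x => κ i (nm x) < j).card)
    (hQ : ∀ i < m, Qp (d i) (fun j => φ (l i j)) r = 0)
    (hQ0 : Qp (PP d m) (fun j => φ (τ j)) r = 0)
    (h2 : Kup (κ₀ ∘ nm) (fun j => φ (τ j)) (PP d m) ∧ (∀ x, κ₀ x < r) ∧
        ∀ j ≤ r, Module.finrank ℂ (LinearMap.ker (Qp (PP d m) (fun j => φ (τ j)) j).mulVecLin) =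
          (Finset.univ.filter fun x => κ₀ (nm x) < j).card)
    (h3 : ∀ i < m, ∀ e : Bool, ∀ l t t' : ℕ, t' ≤ t →
        TP nm (PP d (i + sh e) * u i) (Seg (κ i) l t t'))
    (h4 : ∀ p' p q q' : Fin N, p' ≤ p → p < q → q ≤ q' → rk p' q' ≤ rk p q)
    (h5 : ∀ p q : Fin N, p < q → κ₀ p = κ₀ q → (∃ i < m, κ i p < κ i q) ∨
        ∃ i < m, ∃ e : Bool, ∃ l t t' : ℕ, t' ≤ t ∧
          IP nm (PP d (i + sh e) * u i) (Seg (κ i) l t t') p ∧
          ¬ IP nm (PP d (i + sh e) * u i) (Seg (κ i) l t t') q ∧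
          ∀ p' q' : Fin N, p' < q' → (((p' : ℕ) < t ∧ t ≤ (q' : ℕ)) ∨
            ((p' : ℕ) < t' ∧ t' ≤ (q' : ℕ))) → rk p' q' < rk p q)
    (f : MvPolynomial (GenU 0 (m + 1) × Fin r × Fin r) ℂ)
    (hf : ∀ y : FU 0 (m + 1) →* (Mat r ℂ)ˣ, y (relatorU 0 (m + 1)) = 1 →
      (∀ j, IsConj (C j) (y (FreeGroup.of (Sum.inr j)))) →
      (∀ k, y (FreeGroup.of k) ∈ GR r φ) → evalG y f = 0) : evalG x f = 0 := by
  have hc : CoefOK φ E r := coefOK_mono hc2 (Nat.le_mul_self r)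
  -- paths
  have hpath := fun i => hPS N (κ i)
  choose ks hKP hseg hseg' using hpath
  obtain ⟨L, y₀, p, hcirc, hval, hlift⟩ := hLS φ nm m κ l d u M ks (fun i hi => (h1 i hi).1)
    (fun i hi => (h1 i hi).2.1) (fun i hi => (h1 i hi).2.2.1) (fun i _ => hKP i) (by
      intro i hi e k hk n
      obtain ⟨a, s, s', hs, hcc⟩ := hseg i k hk n
      have e1 : (fun c => k c < n) = Seg (κ i) a s s' := funext fun c => propext (hcc c)
      rw [e1]
      exact h3 i hi e a s s' hs)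
  -- the complex point
  obtain ⟨c₁, u₁, M₁, hu₁, hM₁, hcu₁, hc₁, hcell₁, hfin₁⟩ := hlift φ (RingHom.id ℂ)
    (fun _ => rfl) Function.surjective_id y₀ hval
    (fun a b n _ => ⟨by ext i j; rfl, by ext i j; rfl⟩)
  have hcd : ∀ i < m, c₁ i = d i := by
    intro i hi
    rw [← hc₁ i hi]
    ext a b
    rfl
  have hPd : ∀ n ≤ m, PP c₁ n = PP d n := fun n hn => pp_congr n fun i hi => hcd i (by omega)
  have hsh : ∀ (i : ℕ) (e : Bool), i < m → i + sh e ≤ m := by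
    intro i e hi
    cases e
    · exact hi.le
    · exact hi
  have htrans : ∀ i < m, (∃ w : Mat r ℂ, u₁ i = u i * w ∧ ∀ l t t' : ℕ, ∀ a b,
      Seg (κ i) l t t' (nm b) → ¬ Seg (κ i) l t t' (nm a) → w a b = 0) ∧
      ∃ w : Mat r ℂ, u i = u₁ i * w ∧ ∀ l t t' : ℕ, ∀ a b,
      Seg (κ i) l t t' (nm b) → ¬ Seg (κ i) l t t' (nm a) → w a b = 0 := by
    intro i hi
    obtain ⟨g1, g2, g3, g4, g5⟩ := h1 i hi
    have g6 : d i * u₁ i = u₁ i * M₁ i := by
      rw [← hcd i hi]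
      exact hcu₁ i hi
    exact ⟨trans_seg g1 (hu₁ i hi) g2 (hM₁ i hi) g3 g6 g4 g5,
      trans_seg (hu₁ i hi) g1 (hM₁ i hi) g2 g6 g3 g4 g5⟩
  -- the Levi equation
  have hBD : BD nm (fun i => φ (τ (κ₀ (nm i)))) (PP d m) := by
    intro i j hij
    by_cases hd' : i = j
    · subst hd'
      rw [if_pos rfl]
      exact h2.1.1 i
    · rw [if_neg hd']
      exact h2.1.2 i j hd' (not_lt.2 (hκ₀ (not_lt.1 hij)))
  obtain ⟨b₁, v₁, hb₁, hv₁, he₁⟩ := hfin₁
  rw [hPd m le_rfl] at he₁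
  have hgood := cev_good (nm := nm) φ y₀ L hcirc.2 hval
  have hLevi := mono_unique hsur hb₁ hv₁ hgood.1 hgood.2 he₁ hBD
  obtain ⟨uf, huf⟩ := hc.exists_free
  obtain ⟨A, hA, ι, ψ, hL⟩ := exists_lifting φ hc.inj uf huf
  obtain ⟨A', hA', ι', ψ', y, hL', hvy, hyy, hcev⟩ := hVS E hc2 hL nm hsur L y₀
    (fun a => τ (κ₀ a)) hcirc hval hLevi
  obtain ⟨c₂, u₂, M₂, hu₂, hM₂, hcu₂, hc₂, hcell₂, hfin₂⟩ := hlift ι' ψ' hL'.comp hL'.surj y hvy
    hyy
  obtain ⟨b₂, v₂, hb₂, hv₂, he₂⟩ := hfin₂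
  have hBD₂ : BD nm (fun i => ι' (τ (κ₀ (nm i)))) (PP c₂ m) := by
    rw [he₂, hcev]
    exact bd_mul_right (bd_mul_left hb₂ (bd_diagonal _)) hv₂
  have hPψ : (PP c₂ m).map ψ' = PP d m := by
    rw [pp_map]
    exact pp_congr m fun i hi => hc₂ i hi
  obtain ⟨c₃, u₃, M₃, hu₃, hM₃, hcu₃, hc₃, hK₃⟩ := hAS ψ' nm m κ (fun i j => ι' (l i j)) ks
    (fun i e k => cpm (L.take (p i e k))) κ₀ (fun j => Units.map (ι' : R →* A') (τ j)) rk hκ₀
    (fun i _ => hKP i) h4 (by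
      intro a b hab hκab
      rcases h5 a b hab hκab with h | ⟨i, hi, e, t0, t, t', htt, hip, hniq, hrk⟩
      · exact Or.inl h
      · refine Or.inr ?_
        obtain ⟨k, hk, n, hkn⟩ := hseg' i t0 t t' htt
        obtain ⟨⟨w, hw1, hw2⟩, ⟨w', hw1', hw2'⟩⟩ := htrans i hi
        have e1 : (fun c => k c < n) = Seg (κ i) t0 t t' := funext fun c => propext (hkn c)
        obtain ⟨b, v, hb, hv, he⟩ := hcell₁ i hi e k hk
        rw [hPd _ (hsh i e hi)] at he
        have hg := take_good (nm := nm) φ y₀ hcirc hval (p i e k)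
        refine ⟨i, hi, e, k, hk, n, t0, t, t', hkn, ?_, ?_, hrk⟩
        · refine not_ip_of_cell hsur hb hv hg.1 he ?_
          rw [e1]
          refine ip_mul (w := w') (hw2' t0 t t') ?_
          rw [Matrix.mul_assoc, ← hw1']
          exact hip
        · intro hq
          apply hniq
          have h6 := ip_of_cell hb hv hg.1 hg.2 he hq
          rw [e1] at h6
          refine ip_mul (w := w) (hw2 t0 t t') ?_
          rw [Matrix.mul_assoc, ← hw1]
          exact h6) c₂ u₂ M₂ hu₂ hM₂ hcu₂ (by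
      intro i hi e k hk
      have hg := take_good (nm := nm) ι' y hcirc hvy (p i e k)
      exact ⟨_, hg.1, hg.2, hcell₂ i hi e k hk⟩) (by
      intro i j hij
      exact hBD₂ i j hij) (by
      intro i j hij hκij
      have h6 : ψ' (PP c₂ m i j) = PP d m i j := by
        rw [← hPψ, Matrix.map_apply]
      rw [h6]
      refine h2.1.2 i j (fun h7 => ?_) ?_
      · rw [h7] at hij
        exact lt_irrefl _ hij
      · change ¬ κ₀ (nm i) < κ₀ (nm j)
        rw [hκij]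
        exact lt_irrefl _)
  -- relations
  have hrel : bt x 0 * (List.ofFn fun j : Fin m => bt x j.succ).prod = 1 := by
    have h6 := (relU_iff x).1 hx1
    rwa [← List.ofFn_eq_map, List.ofFn_succ, List.prod_cons] at h6
  have hPP : PP d m = (List.ofFn fun j : Fin m => bt x j.succ).prod := by
    rw [pp_ofFn]
    congr 2
    funext i
    exact hd i
  rw [← hPP] at hrel
  have hx0 : ((x (FreeGroup.of (Sum.inr 0)))⁻¹ : (Mat r ℂ)ˣ).val = PP d m := by
    rw [bt_eqn] at hrel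
    calc ((x (FreeGroup.of (Sum.inr 0)))⁻¹ : (Mat r ℂ)ˣ).val =
        ((x (FreeGroup.of (Sum.inr 0)))⁻¹ : (Mat r ℂ)ˣ).val *
          ((x (FreeGroup.of (Sum.inr 0)) : Mat r ℂ) * PP d m) := by rw [hrel, Matrix.mul_one]
      _ = PP d m := by rw [← Matrix.mul_assoc, Units.inv_mul, Matrix.one_mul]
  -- the types
  have hty := fun i : Fin m => hTS (x (FreeGroup.of (Sum.inr i.succ))) (fun j => φ (l i j)) r
    (κ i ∘ nm) (by
      have h6 := hQ i i.2
      rw [hd i] at h6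
      exact h6) (fun a => (h1 i i.2).2.2.2.1 _) (by
      have h6 := (h1 i i.2).2.2.2.2
      rw [hd i] at h6
      exact h6)
  choose h hh hcl using hty
  obtain ⟨h₀, hh₀, hcl₀⟩ := hTS (x (FreeGroup.of (Sum.inr 0)))⁻¹ (fun j => φ (τ j)) r (κ₀ ∘ nm)
    (by rw [hx0]; exact hQ0) (fun a => h2.2.1 _) (by rw [hx0]; exact h2.2.2)
  rw [hx0] at hh₀
  -- the first member
  obtain ⟨PA, hPA⟩ : ∃ PA, PA = PP c₃ m := ⟨_, rfl⟩
  rw [← hPA] at hK₃
  have hPAup : UpT PA := by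
    intro i j hij
    exact hK₃.2 i j (ne_of_gt hij) (not_lt.2 (hκ₀ (hnm hij.le)))
  obtain ⟨δ, hδ⟩ : ∃ δ : Rˣ, δ = ∏ i, τ (κ₀ (nm i)) := ⟨_, rfl⟩
  have hdetPA : PA.det = ι' δ := by
    rw [hPAup.det, hδ, Units.coe_prod, map_prod]
    exact Finset.prod_congr rfl fun i _ => hK₃.1 i
  obtain ⟨c0, hc0⟩ : ∃ c0 : Mat r A', c0 = ι' ((δ⁻¹ : Rˣ) : R) • PA.adjugate := ⟨_, rfl⟩
  have hc0P : c0 * PA = 1 := by
    rw [hc0, smul_mul_assoc, Matrix.adjugate_mul, smul_smul, hdetPA, ← map_mul, Units.inv_mul,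
      map_one, one_smul]
  obtain ⟨cA, hcA⟩ : ∃ cA : Fin (m + 1) → Mat r A', cA = Fin.cons c0 fun i : Fin m => c₃ i :=
    ⟨_, rfl⟩
  have hcA0 : cA 0 = c0 := by rw [hcA, Fin.cons_zero]
  have hcAs : ∀ i : Fin m, cA i.succ = c₃ i := fun i => by rw [hcA, Fin.cons_succ]
  have hcAs' : (fun i : Fin m => cA i.succ) = fun i : Fin m => c₃ i := funext hcAs
  have hprodA : (List.ofFn cA).prod = 1 := by
    rw [List.ofFn_succ, List.prod_cons, hcA0, hcAs', ← pp_ofFn, ← hPA, hc0P]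
  -- the polynomial
  obtain ⟨q, hq⟩ := exists_prodP (m := m) h₀
  obtain ⟨F, hF⟩ : ∃ F : MvPolynomial (GenU 0 (m + 1) × Fin r × Fin r) ℂ, F = f * (q *
    ∏ i : Fin m, MvPolynomial.rename (fun p => ((Sum.inr i.succ, p) :
      GenU 0 (m + 1) × Fin r × Fin r)) (h i)) := ⟨_, rfl⟩
  have hFev : ∀ c : Fin (m + 1) → Mat r ℂ, evT F c = evT f c * (MvPolynomial.eval
        (fun p => (List.ofFn fun i : Fin m => c i.succ).prod p.1 p.2) h₀ *
      ∏ i : Fin m, MvPolynomial.eval (fun p => c i.succ p.1 p.2) (h i)) := by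
    intro c
    have h6 : ∀ a b : MvPolynomial (GenU 0 (m + 1) × Fin r × Fin r) ℂ,
        evT (a * b) c = evT a c * evT b c := fun a b => map_mul _ a b
    rw [hF, h6, h6, hq]
    congr 2
    have h7 : evT (∏ i : Fin m, MvPolynomial.rename (fun p => ((Sum.inr i.succ, p) :
      GenU 0 (m + 1) × Fin r × Fin r)) (h i)) c = ∏ i : Fin m, evT (MvPolynomial.rename
        (fun p => ((Sum.inr i.succ, p) : GenU 0 (m + 1) × Fin r × Fin r)) (h i)) c :=
      map_prod _ _ _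
    rw [h7]
    exact Finset.prod_congr rfl fun i _ => evT_rename i.succ (h i) c
  have hevA : ∀ (θ : A' →+* ℂ), MvPolynomial.eval (fun s : GenU 0 (m + 1) × Fin r × Fin r =>
      θ ((Sum.elim (fun _ => (0 : Mat r A')) cA s.1) s.2.1 s.2.2)) F =
      evT F fun j => (cA j).map θ := by
    intro θ
    rw [evT]
    refine congrArg (fun w => MvPolynomial.eval w F) (funext fun s => ?_)
    obtain ⟨k | j, a, b⟩ := s
    · exact k.1.elim0
    · rfl
  have hkey : evT F (fun j => (cA j).map ψ') = 0 := by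
    rw [← hevA ψ']
    refine hL'.dens F (fun s : GenU 0 (m + 1) × Fin r × Fin r =>
      (Sum.elim (fun _ => (0 : Mat r A')) cA s.1) s.2.1 s.2.2) fun η hη => ?_
    have h6 := hevA (φ.comp η)
    refine h6.trans ?_
    obtain ⟨cC, hcC⟩ : ∃ cC : Fin (m + 1) → Mat r ℂ, cC = fun j => (cA j).map (φ.comp η) :=
      ⟨_, rfl⟩
    obtain ⟨cR, hcR⟩ : ∃ cR : Fin (m + 1) → Mat r R, cR = fun j => (cA j).map η := ⟨_, rfl⟩
    have hcCR : ∀ j, cC j = (cR j).map φ := by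
      intro j
      rw [hcC, hcR]
      rfl
    have hprodC : (List.ofFn cC).prod = 1 := by
      rw [hcC, prod_map_ofFn, hprodA]
      exact Matrix.map_one _ (map_zero _) (map_one _)
    obtain ⟨PC, hPC⟩ : ∃ PC : Mat r ℂ, PC = PA.map (φ.comp η) := ⟨_, rfl⟩
    have hPCp : (List.ofFn fun i : Fin m => cC i.succ).prod = PC := by
      rw [hPC, hPA, pp_ofFn, ← prod_map_ofFn, hcC]
      congr 2
      funext i
      change (cA i.succ).map _ = _
      rw [hcAs]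
    rw [← hcC, hFev]
    by_contra hne
    have hne1 := left_ne_zero_of_mul hne
    have hne2 := left_ne_zero_of_mul (right_ne_zero_of_mul hne)
    have hne3 := Finset.prod_ne_zero_iff.1 (right_ne_zero_of_mul (right_ne_zero_of_mul hne))
    rw [hPCp] at hne2
    obtain ⟨y, hy1, hy2⟩ := exists_hom (m + 1) cC hprodC
    apply hne1
    have hbty : bt y = cC := funext hy2
    rw [← hbty, ← evalG_eq_evT]
    have hCP : cC 0 * PC = 1 := by
      have h7 : (c0 * PA).map (φ.comp η) = (1 : Mat r A').map (φ.comp η) := by rw [hc0P]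
      rw [Matrix.map_mul, Matrix.map_one _ (map_zero _) (map_one _)] at h7
      rw [hPC, hcC]
      change (cA 0).map _ * _ = _
      rw [hcA0]
      exact h7
    have hy0 : ((y (FreeGroup.of (Sum.inr 0)))⁻¹ : (Mat r ℂ)ˣ).val = PC := by
      rw [← hy2 0] at hCP
      calc ((y (FreeGroup.of (Sum.inr 0)))⁻¹ : (Mat r ℂ)ˣ).val =
          ((y (FreeGroup.of (Sum.inr 0)))⁻¹ : (Mat r ℂ)ˣ).val *
            ((y (FreeGroup.of (Sum.inr 0)) : Mat r ℂ) * PC) := by rw [hCP, Matrix.mul_one]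
        _ = PC := by rw [← Matrix.mul_assoc, Units.inv_mul, Matrix.one_mul]
    have hconj : ∀ j, IsConj (C j) (y (FreeGroup.of (Sum.inr j))) := by
      intro j
      refine Fin.cases ?_ (fun i => ?_) j
      · refine (hx2 0).trans (isConj_of_inv ?_)
        refine hcl₀ (y (FreeGroup.of (Sum.inr 0)))⁻¹ 1 PC uu_one ?_ ?_ ?_
        · have h7 := hK₃.map (φ.comp η)
          have h8 : (fun j => (φ.comp η) ((Units.map (ι' : R →* A') (τ j) : A'ˣ) : A')) =
              fun j => φ ((τ j : Rˣ) : R) :=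
            funext fun j => by
              change φ (η (ι' (τ j))) = _
              rw [hη]
          rw [h8, ← hPC] at h7
          exact h7
        · rw [hy0, Matrix.mul_one, Matrix.one_mul]
        · rw [hy0]
          exact hne2
      · refine (hx2 i.succ).trans (hcl i _ ((u₃ i).map (φ.comp η)) ((M₃ i).map (φ.comp η)) ?_ ?_
          ?_ ?_)
        · have h7 := bu_map (hu₃ i i.2) (φ.comp η)
          refine ⟨fun a b hab => ?_, fun a => ?_⟩
          · rw [h7 a b (not_lt.2 (hnm hab.le)), Matrix.one_apply_ne (ne_of_gt hab)]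
          · rw [h7 a a (lt_irrefl _), Matrix.one_apply_eq]
        · have h7 := (hM₃ i i.2).map (φ.comp η)
          have h8 : (fun j => (φ.comp η) (ι' ((l i j : Rˣ) : R))) = fun j => φ ((l i j : Rˣ) : R) :=
            funext fun j => by rw [RingHom.comp_apply, hη]
          rw [h8] at h7
          exact h7
        · rw [hy2, hcC]
          change (cA i.succ).map _ * _ = _
          rw [hcAs, ← Matrix.map_mul, hcu₃ i i.2, Matrix.map_mul]
        · have h7 := hne3 i (Finset.mem_univ i)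
          rw [← hbty] at h7
          exact h7
    refine hf y hy1 hconj ?_
    rintro (k | j)
    · exact k.1.elim0
    · obtain ⟨e, he, hed⟩ := (hE j).det
      obtain ⟨c, hcc⟩ := exists_unit_root_of_mem hc hr (cR j).det e he (by
        rw [hed, RingHom.map_det]
        change ((cR j).map φ).det = _
        rw [← hcCR, ← hy2, (cjM_of_isConj (hconj j)).det])
      exact mem_GR_of φ _ (cR j) ((hy2 j).trans (hcCR j)) c hcc
  have hψc : ∀ i : Fin m, (cA i.succ).map ψ' = bt x i.succ := by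
    intro i
    rw [hcAs, hc₃ i i.2, hc₂ i i.2, hd i]
  have hψ : (fun j => (cA j).map ψ') = bt x := by
    funext j
    refine Fin.cases ?_ (fun i => hψc i) j
    rw [hcA0]
    have h6 : (c0 * PA).map ψ' = (1 : Mat r A').map ψ' := by rw [hc0P]
    rw [Matrix.map_mul, Matrix.map_one _ (map_zero _) (map_one _)] at h6
    have h7 : PA.map ψ' = PP d m := by
      rw [hPA, pp_map]
      refine pp_congr m fun i hi => ?_
      rw [hc₃ i hi, hc₂ i hi]
    rw [h7] at h6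
    have hrel' : PP d m * bt x 0 = 1 := mul_eq_one_comm.1 hrel
    rw [← mul_one (c0.map ψ'), ← hrel', ← mul_assoc, h6, one_mul]
  rw [hψ, hFev] at hkey
  rw [evalG_eq_evT]
  refine (mul_eq_zero.1 hkey).resolve_right (mul_ne_zero ?_ ?_)
  · rw [← hPP]
    exact hh₀
  · exact Finset.prod_ne_zero_iff.2 fun i _ => hh i

/-- T15. Assembly. -/
theorem assembly : AssemblyStmt := by
  intro hPS hLS hAS hFS hTS hVS m r hr R _ φ E hc2 C hE x hx hirr f hf
  have hc : CoefOK φ E r := coefOK_mono hc2 (Nat.le_mul_self r)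
  obtain ⟨hx1, hx2, hx3⟩ := hx
  have hadj := adjoin_top_of_irr x hx3 hirr
  have hxrel : x (relatorU 0 (m + 1)) = 1 := hx1 _ rfl
  refine upgrade x hadj {y | y (relatorU 0 (m + 1)) = 1 ∧
    (∀ j, IsConj (C j) (y (FreeGroup.of (Sum.inr j)))) ∧
    ∀ k, y (FreeGroup.of k) ∈ GR r φ} ?_ f ?_
  · intro f' hf'
    -- the tuple
    obtain ⟨c, hcdef⟩ : ∃ c : ℕ → Mat r ℂ, ∀ i : Fin m, c i = bt x i.succ :=
      ⟨fun i => if h : i < m then bt x (Fin.succ ⟨i, h⟩) else 1, fun i => by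
        simp⟩
    have hEU : ∀ z : (Mat r ℂ)ˣ, EigIn E (z : Mat r ℂ) → EigU φ (z : Mat r ℂ) := by
      intro z hz a ha
      obtain ⟨e, he, rfl⟩ := hz a ha
      exact hc.exists_unit hr he
    have hl : ∀ i : ℕ, ∃ l : ℕ → Rˣ, i < m → Qp (c i) (fun j => φ (l j)) r = 0 := by
      intro i
      by_cases hi : i < m
      · obtain ⟨l, hl⟩ := exists_eig φ (c i) (by
          have h6 := hcdef ⟨i, hi⟩
          simp only at h6
          rw [h6]
          exact hEU _ (EigIn.conj (hx2 _) (hE _)))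
        exact ⟨l, fun _ => hl⟩
      · exact ⟨fun _ => 1, fun h => absurd h hi⟩
    choose l hl using hl
    have hrel : bt x 0 * (List.ofFn fun j : Fin m => bt x j.succ).prod = 1 := by
      have h6 := (relU_iff x).1 hxrel
      rwa [← List.ofFn_eq_map, List.ofFn_succ, List.prod_cons] at h6
    have hPP : PP c m = (List.ofFn fun j : Fin m => bt x j.succ).prod := by
      rw [pp_ofFn]
      congr 2
      funext i
      exact hcdef i
    rw [← hPP] at hrel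
    have hx0 : ((x (FreeGroup.of (Sum.inr 0)))⁻¹ : (Mat r ℂ)ˣ).val = PP c m := by
      rw [bt_eqn] at hrel
      calc ((x (FreeGroup.of (Sum.inr 0)))⁻¹ : (Mat r ℂ)ˣ).val =
          ((x (FreeGroup.of (Sum.inr 0)))⁻¹ : (Mat r ℂ)ˣ).val *
            ((x (FreeGroup.of (Sum.inr 0)) : Mat r ℂ) * PP c m) := by rw [hrel, Matrix.mul_one]
        _ = PP c m := by rw [← Matrix.mul_assoc, Units.inv_mul, Matrix.one_mul]
    obtain ⟨τ, hτ⟩ := exists_eig φ (PP c m) (by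
      rw [← hx0]
      exact hEU _ (eigIn_inv' (EigIn.conj (hx2 0) (hE 0))))
    obtain ⟨g, N, nm, κ, κ₀, d, u, M, rk, hd, hnm, hsur, hκ₀, h1, h2, h3, h4, h5⟩ := hFS m c
      (fun i j => φ (l i j)) (fun _ => r) (fun j => φ (τ j)) r (by
        intro i hi
        have h6 := hcdef ⟨i, hi⟩
        simp only at h6
        rw [h6, bt_eqn]
        exact Units.isUnit _) (fun i hi => hl i hi) hτ
    obtain ⟨P, hP⟩ : ∃ P : (Mat r ℂ)ˣ, P = g⁻¹ := ⟨_, rfl⟩
    obtain ⟨f'', hf''⟩ := exists_conjP P⁻¹ f'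
    have hback : conjH P⁻¹ (conjH P x) = x := by
      refine MonoidHom.ext fun w => ?_
      rw [conjH_apply, conjH_apply, inv_inv]
      group
    rw [← hback, ← hf'']
    refine core hPS hLS hAS hTS hVS hr φ E hc2 C hE (conjH P x) ?_ (fun j => ?_) l τ
      (d := d) (u := u) (M := M) (κ := κ) (κ₀ := κ₀) (rk := rk) (nm := nm) ?_ hnm hsur hκ₀ h1 ?_
      ?_ h2 h3 h4 h5 f'' ?_
    · rw [conjH_apply, hxrel, mul_one, mul_inv_cancel]
    · refine (hx2 j).trans ?_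
      rw [isConj_iff]
      exact ⟨P, (conjH_apply _ _ _).symm⟩
    · intro i
      rw [hd, hcdef, bt_eqn, bt_eqn, conjH_apply, Units.val_mul, Units.val_mul, hP, inv_inv]
    · intro i hi
      exact qp_conj_zero g _ r (hd i) (hl i hi)
    · exact qp_conj_zero g _ r (pp_conj g c d hd m) hτ
    · intro y hy1 hy2 hy3
      rw [hf'']
      refine conj_vanish_gen {y | y (relatorU 0 (m + 1)) = 1 ∧
        (∀ j, IsConj (C j) (y (FreeGroup.of (Sum.inr j)))) ∧
        ∀ k, y (FreeGroup.of k) ∈ GR r φ} ?_ f' hf' y ⟨hy1, hy2, hy3⟩ P⁻¹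
      rintro z ⟨hz1, hz2, hz3⟩ X
      refine ⟨?_, fun j => ?_, fun k => ?_⟩
      · rw [conjH_apply, hz1, mul_one, mul_inv_cancel]
      · refine (hz2 j).trans ?_
        rw [isConj_iff]
        exact ⟨slU (Int.castRingHom ℂ) X, (conjH_apply _ _ _).symm⟩
      · rw [conjH_apply]
        exact (GR r φ).mul_mem ((GR r φ).mul_mem (slU_int_mem_GR φ X) (hz3 k))
          ((GR r φ).inv_mem (slU_int_mem_GR φ X))
  · rintro y ⟨hy1, hy2, hy3⟩ hy4
    refine hf y ⟨⟨⟨?_, hy2, ss_of_adjoin y hy4⟩, hy3⟩, hy4⟩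
    rintro w rfl
    exact hy1

end Vale.Agent.P002B.AsmA
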