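import Vale.Agent.P002B.Defs

/-!
# P002B, assembly: algebra of block matrices
-/

namespace Vale.Agent.P002B.AsmA

open Matrix Vale.Agent.P002R Vale.Agent.P002L

variable {r N : ℕ} {S : Type*} [CommRing S] {nm : Fin r → Fin N}

theorem bu_mul {k : Fin N → ℕ} {u v : Mat r S} (hu : BU nm k u) (hv : BU nm k v) :
    BU nm k (u * v) := by
  intro i j hij
  rw [Matrix.mul_apply, Finset.sum_eq_single i]
  · rw [hu i i (lt_irrefl _), Matrix.one_apply_eq, one_mul, hv i j hij]
  · intro t _ ht
    by_cases h : k (nm i) < k (nm t)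
    · have h2 : ¬ k (nm t) < k (nm j) := fun h2 => hij (h.trans h2)
      rw [hv t j h2, Matrix.one_apply_ne, mul_zero]
      rintro rfl
      exact hij h
    · rw [hu i t h, Matrix.one_apply_ne (Ne.symm ht), zero_mul]
  · intro h
    exact absurd (Finset.mem_univ i) h

theorem bu_map {T : Type*} [CommRing T] {k : Fin N → ℕ} {u : Mat r S} (hu : BU nm k u)
    (f : S →+* T) : BU nm k (u.map f) := by
  intro i j hij
  rw [Matrix.map_apply, hu i j hij, Matrix.one_apply, Matrix.one_apply]
  split_ifs <;> simp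

theorem pow_zero_of {k : Fin N → ℕ} {n : Mat r S} (hn : ∀ i j, ¬ k (nm i) < k (nm j) → n i j = 0) :
    ∀ (t : ℕ) (i j : Fin r), ¬ k (nm i) + t ≤ k (nm j) → (n ^ t) i j = 0 := by
  intro t
  induction t with
  | zero =>
    intro i j h
    rw [pow_zero, Matrix.one_apply_ne]
    rintro rfl
    exact h (by simp)
  | succ t ih =>
    intro i j h
    rw [pow_succ, Matrix.mul_apply]
    refine Finset.sum_eq_zero fun x _ => ?_
    by_cases h1 : k (nm x) < k (nm j)
    · rw [ih i x (by omega), zero_mul]
    · rw [hn x j h1, mul_zero]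

theorem bu_isUnit {k : Fin N → ℕ} {u : Mat r S} (hu : BU nm k u) : IsUnit u := by
  have h1 : IsNilpotent (1 - u) := by
    refine ⟨(Finset.univ.sup fun i : Fin r => k (nm i)) + 1, ?_⟩
    ext i j
    rw [Matrix.zero_apply]
    refine pow_zero_of (nm := nm) (k := k) ?_ _ i j ?_
    · intro i j h
      rw [Matrix.sub_apply, hu i j h, sub_self]
    · have h2 : k (nm j) ≤ Finset.univ.sup fun i : Fin r => k (nm i) :=
        Finset.le_sup (f := fun i : Fin r => k (nm i)) (Finset.mem_univ j)
      omega
  have h2 := h1.isUnit_one_sub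
  rwa [sub_sub_cancel] at h2

theorem bu_left_inv {k : Fin N → ℕ} {u v : Mat r S} (hu : BU nm k u) (h : v * u = 1) :
    BU nm k v := by
  have key : ∀ (n : ℕ) (i j : Fin r), k (nm j) = n → ¬ k (nm i) < k (nm j) →
      v i j = (1 : Mat r S) i j := by
    intro n
    induction n using Nat.strong_induction_on with
    | _ n ih =>
      intro i j hj hij
      have h1 : (v * u) i j = (1 : Mat r S) i j := by rw [h]
      rw [Matrix.mul_apply, Finset.sum_eq_single j] at h1
      · rwa [hu j j (lt_irrefl _), Matrix.one_apply_eq, mul_one] at h1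
      · intro t _ ht
        by_cases h2 : k (nm t) < k (nm j)
        · rw [ih (k (nm t)) (by omega) i t rfl (by omega), Matrix.one_apply_ne, zero_mul]
          rintro rfl
          exact hij h2
        · rw [hu t j h2, Matrix.one_apply_ne ht, mul_zero]
      · intro h2
        exact absurd (Finset.mem_univ j) h2
  exact fun i j => key _ i j rfl

theorem bu_inv {k : Fin N → ℕ} {u : Mat r S} (hu : BU nm k u) :
    ∃ v : Mat r S, BU nm k v ∧ v * u = 1 ∧ u * v = 1 := by
  obtain ⟨w, rfl⟩ := bu_isUnit hu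
  exact ⟨_, bu_left_inv hu (Units.inv_mul w), Units.inv_mul w, Units.mul_inv w⟩

theorem bm_mul {π π' : Equiv.Perm (Fin N)} {W W' : Mat r S} (h : BM nm π W) (h' : BM nm π' W') :
    BM nm (π * π') (W * W') := by
  intro i j hij
  rw [Matrix.mul_apply]
  refine Finset.sum_eq_zero fun t _ => ?_
  by_cases h1 : nm t = π' (nm j)
  · rw [h i t, zero_mul]
    intro h2
    apply hij
    rw [h2, h1, Equiv.Perm.mul_apply]
  · rw [h' t j h1, mul_zero]

theorem bm_one : BM nm 1 (1 : Mat r S) := by
  intro i j hij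
  rw [Matrix.one_apply_ne]
  rintro rfl
  exact hij rfl

theorem ee_mul_apply (a : Fin N) (X : Mat r S) (i j : Fin r) :
    (ee (S := S) nm a * X : Mat r S) i j = if nm i = a then X i j else 0 := by
  unfold ee
  rw [Matrix.diagonal_mul]
  split_ifs <;> simp

theorem mul_ee_apply (a : Fin N) (X : Mat r S) (i j : Fin r) :
    (X * ee (S := S) nm a : Mat r S) i j = if nm j = a then X i j else 0 := by
  unfold ee
  rw [Matrix.mul_diagonal]
  split_ifs <;> simp

theorem bm_ee {π : Equiv.Perm (Fin N)} {W : Mat r S} (h : BM nm π W) (a : Fin N) :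
    (W * ee (S := S) nm a : Mat r S) = ee (S := S) nm (π a) * W := by
  ext i j
  rw [ee_mul_apply, mul_ee_apply]
  by_cases h1 : nm i = π (nm j)
  · have h2 : (nm j = a) ↔ (nm i = π a) := by
      rw [h1]
      exact ⟨fun h => by rw [h], fun h => π.injective h⟩
    by_cases h3 : nm j = a
    · rw [if_pos h3, if_pos (h2.1 h3)]
    · rw [if_neg h3, if_neg (fun h4 => h3 (h2.2 h4))]
  · rw [h i j h1]
    split_ifs <;> rfl

theorem bm_inv {π : Equiv.Perm (Fin N)} {W W' : Mat r S} (h : BM nm π W) (h1 : W' * W = 1)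
    (h2 : W * W' = 1) : BM nm π⁻¹ W' := by
  intro i j hij
  obtain ⟨a, ha⟩ : ∃ a, nm j = π a := ⟨π⁻¹ (nm j), by simp⟩
  have h3 : (W' * ee (S := S) nm (π a) : Mat r S) = ee (S := S) nm a * W' := by
    calc (W' * ee (S := S) nm (π a) : Mat r S) = W' * (ee (S := S) nm (π a) * (W * W')) := by
          rw [h2, Matrix.mul_one]
      _ = W' * ((ee (S := S) nm (π a) * W) * W') := by rw [Matrix.mul_assoc]
      _ = W' * ((W * ee (S := S) nm a) * W') := by rw [bm_ee h a]
      _ = (W' * W) * (ee (S := S) nm a * W') := by simp only [Matrix.mul_assoc]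
      _ = ee (S := S) nm a * W' := by rw [h1, Matrix.one_mul]
  have h4 : (W' * ee (S := S) nm (π a) : Mat r S) i j = (ee (S := S) nm a * W' : Mat r S) i j := by
    rw [h3]
  rw [mul_ee_apply, if_pos ha, ee_mul_apply] at h4
  rw [h4, if_neg]
  intro h5
  apply hij
  rw [ha, h5]
  simp

/-! ### Symbols -/

theorem ee_ee_ne {a b : Fin N} (hab : a ≠ b) :
    (ee (S := S) nm a * ee (S := S) nm b : Mat r S) = 0 := by
  ext i j
  rw [ee_mul_apply]
  unfold ee
  rw [Matrix.zero_apply, Matrix.diagonal_apply]
  split_ifs with h1 h2 h3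
  · subst h2
    exact absurd (h1.symm.trans h3) hab
  · rfl
  · rfl
  · rfl

theorem ee_ee (a : Fin N) : (ee (S := S) nm a * ee (S := S) nm a : Mat r S) = ee nm a := by
  ext i j
  rw [ee_mul_apply]
  unfold ee
  rw [Matrix.diagonal_apply]
  split_ifs <;> simp_all

theorem bb_left {a b : Fin N} {y : Mat r S} (h : BB nm a b y) :
    (ee (S := S) nm a * y : Mat r S) = y := by
  ext i j
  rw [ee_mul_apply]
  split_ifs with h1
  · rfl
  · exact (h i j fun h2 => h1 h2.1).symm

theorem bb_right {a b : Fin N} {y : Mat r S} (h : BB nm a b y) :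
    (y * ee (S := S) nm b : Mat r S) = y := by
  ext i j
  rw [mul_ee_apply]
  split_ifs with h1
  · rfl
  · exact (h i j fun h2 => h1 h2.2).symm

theorem sym_mul {p q y z : Mat r S} (hpp : p * p = p) (hqq : q * q = q) (hpq : p * q = 0)
    (hqp : q * p = 0) (py : p * y = y) (yq : y * q = y) (qz : q * z = z) (zp : z * p = z)
    (hyz : y * z = p) (hzy : z * y = q) : (1 - p - q + y - z) * (1 - p - q - y + z) = 1 := by
  have qy : q * y = 0 := by rw [← py, ← mul_assoc, hqp, zero_mul]
  have yp : y * p = 0 := by rw [← yq, mul_assoc, hqp, mul_zero]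
  have pz : p * z = 0 := by rw [← qz, ← mul_assoc, hpq, zero_mul]
  have zq : z * q = 0 := by rw [← zp, mul_assoc, hpq, mul_zero]
  have yy : y * y = 0 := by
    have : y * y = y * q * y := by rw [yq]
    rw [this, mul_assoc, qy, mul_zero]
  have zz : z * z = 0 := by
    have : z * z = z * p * z := by rw [zp]
    rw [this, mul_assoc, pz, mul_zero]
  have e : (1 - p - q + y - z) * (1 - p - q - y + z) =
      1 - p - q - y + z - (p - p * p - p * q - p * y + p * z) -
      (q - q * p - q * q - q * y + q * z) + (y - y * p - y * q - y * y + y * z) -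
      (z - z * p - z * q - z * y + z * z) := by noncomm_ring
  rw [e, hpp, hqq, hpq, hqp, py, yq, qz, zp, hyz, hzy, qy, yp, pz, zq, yy, zz]
  abel

variable {R : Type} [CommRing R]

theorem sym_good {A : Type} [CommRing A] (ι : R →+* A) (y : ℕ → Mat r A × Mat r A) (s : Sy R N)
    (hs : ∀ a b n, s = Sy.Y a b n → a ≠ b ∧ BB nm a b (y n).1 ∧ BB nm b a (y n).2 ∧
      (y n).1 * (y n).2 = ee nm a ∧ (y n).2 * (y n).1 = ee nm b) :
    BM nm s.pm (s.ev nm ι y) ∧ IsUnit (s.ev nm ι y) := by
  cases s with
  | D d =>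
    refine ⟨?_, ?_⟩
    · intro i j hij
      change (Matrix.diagonal fun i => ι (d (nm i))) i j = 0
      rw [Matrix.diagonal_apply_ne]
      rintro rfl
      exact hij rfl
    · change IsUnit (Matrix.diagonal fun i => ι (d (nm i)))
      rw [Matrix.isUnit_iff_isUnit_det, Matrix.det_diagonal]
      exact (IsUnit.prod_univ_iff).2 fun i => ((d (nm i)).isUnit).map ι
  | Y a b n =>
    obtain ⟨hab, h1, h2, h3, h4⟩ := hs a b n rfl
    refine ⟨?_, ?_⟩
    · intro i j hij
      change ((1 : Mat r A) - ee (S := A) nm a - ee (S := A) nm b + (y n).1 - (y n).2 :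
        Mat r A) i j = 0
      change nm i ≠ Equiv.swap a b (nm j) at hij
      rw [Matrix.sub_apply, Matrix.add_apply, Matrix.sub_apply, Matrix.sub_apply]
      unfold ee
      have hy : (y n).1 i j = 0 := h1 i j (by
        rintro ⟨h5, h6⟩
        apply hij
        rw [h6, Equiv.swap_apply_right, h5])
      have hz : (y n).2 i j = 0 := h2 i j (by
        rintro ⟨h5, h6⟩
        apply hij
        rw [h6, Equiv.swap_apply_left, h5])
      rw [hy, hz]
      by_cases hd : i = j
      · subst hd
        rw [Matrix.one_apply_eq, Matrix.diagonal_apply_eq, Matrix.diagonal_apply_eq]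
        by_cases h5 : nm i = a
        · have h6 : nm i ≠ b := fun h6 => hab (h5.symm.trans h6)
          rw [if_pos h5, if_neg h6]
          ring
        · by_cases h6 : nm i = b
          · rw [if_neg h5, if_pos h6]
            ring
          · exact absurd (Equiv.swap_apply_of_ne_of_ne h5 h6).symm hij
      · rw [Matrix.one_apply_ne hd, Matrix.diagonal_apply_ne _ hd, Matrix.diagonal_apply_ne _ hd]
        ring
    · change IsUnit ((1 : Mat r A) - ee (S := A) nm a - ee (S := A) nm b + (y n).1 - (y n).2 :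
        Mat r A)
      have e1 := sym_mul (ee_ee (nm := nm) (S := A) a) (ee_ee (nm := nm) b) (ee_ee_ne hab)
        (ee_ee_ne (Ne.symm hab)) (bb_left h1) (bb_right h1) (bb_left h2) (bb_right h2) h3 h4
      exact IsUnit.of_mul_eq_one _ e1

theorem cev_good {A : Type} [CommRing A] (ι : R →+* A) (y : ℕ → Mat r A × Mat r A) :
    ∀ L : List (Sy R N), (∀ a b n, Sy.Y a b n ∈ L → a ≠ b) → Valid nm y L →
      BM nm (cpm L) (cev nm ι y L) ∧ IsUnit (cev nm ι y L) := by
  intro L
  induction L with
  | nil =>
    intro _ _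
    exact ⟨bm_one, isUnit_one⟩
  | cons s L ih =>
    intro hab hv
    obtain ⟨h1, h2⟩ := ih (fun a b n h => hab a b n (List.mem_cons_of_mem _ h))
      (fun a b n h => hv a b n (List.mem_cons_of_mem _ h))
    obtain ⟨h3, h4⟩ := sym_good (nm := nm) ι y s (fun a b n h => by
      have h5 : Sy.Y a b n ∈ s :: L := by
        rw [← h]
        exact List.mem_cons_self
      exact ⟨hab a b n h5, hv a b n h5⟩)
    have e1 : cpm (s :: L) = s.pm * cpm L := rfl
    have e2 : cev nm ι y (s :: L) = s.ev nm ι y * cev nm ι y L := rfl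
    rw [e1, e2]
    exact ⟨bm_mul h3 h1, h4.mul h2⟩

theorem take_good {A : Type} [CommRing A] (ι : R →+* A) (y : ℕ → Mat r A × Mat r A)
    {L : List (Sy R N)} (hc : Circ L) (hv : Valid nm y L) (n : ℕ) :
    BM nm (cpm (L.take n)) (cev nm ι y (L.take n)) ∧ IsUnit (cev nm ι y (L.take n)) :=
  cev_good ι y _ (fun a b k h => hc.2 a b k (List.mem_of_mem_take h))
    fun a b k h => hv a b k (List.mem_of_mem_take h)

/-! ### Block upper matrices with scalar blocks -/

/-- Block upper matrices with the scalars `D` on the diagonal blocks. -/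
def BD (nm : Fin r → Fin N) (D : Fin r → S) (X : Mat r S) : Prop :=
  ∀ i j, ¬ nm i < nm j → X i j = if i = j then D i else 0

theorem bk_lt {a b : Fin N} : bk N a < bk N b ↔ a < b := Iff.rfl

theorem bd_mul_left {D : Fin r → S} {b X : Mat r S} (hb : BU nm (bk N) b) (hX : BD nm D X) :
    BD nm D (b * X) := by
  intro i j hij
  rw [Matrix.mul_apply, Finset.sum_eq_single i]
  · rw [hb i i (lt_irrefl _), Matrix.one_apply_eq, one_mul, hX i j hij]
  · intro t _ ht
    by_cases h : nm i < nm t
    · have h2 : ¬ nm t < nm j := fun h2 => hij (h.trans h2)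
      rw [hX t j h2, if_neg, mul_zero]
      rintro rfl
      exact hij h
    · rw [hb i t h, Matrix.one_apply_ne (Ne.symm ht), zero_mul]
  · intro h
    exact absurd (Finset.mem_univ i) h

theorem bd_mul_right {D : Fin r → S} {X v : Mat r S} (hX : BD nm D X) (hv : BU nm (bk N) v) :
    BD nm D (X * v) := by
  intro i j hij
  rw [Matrix.mul_apply, Finset.sum_eq_single i]
  · rw [hX i i (lt_irrefl _), if_pos rfl, hv i j hij, Matrix.one_apply]
    split_ifs <;> simp
  · intro t _ ht
    by_cases h : nm i < nm t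
    · have h2 : ¬ nm t < nm j := fun h2 => hij (h.trans h2)
      rw [hv t j h2, Matrix.one_apply_ne, mul_zero]
      rintro rfl
      exact hij h
    · rw [hX i t h, if_neg (Ne.symm ht), zero_mul]
  · intro h
    exact absurd (Finset.mem_univ i) h

theorem bd_diagonal (D : Fin r → S) : BD nm D (Matrix.diagonal D) := by
  intro i j _
  rw [Matrix.diagonal_apply]

theorem perm_eq_one_of_le {π : Equiv.Perm (Fin N)} (h1 : ∀ a, π a ≤ a) : π = 1 := by
  have h2 : ∀ n : ℕ, ∀ j : Fin N, (j : ℕ) = n → π j = j := by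
    intro n
    induction n using Nat.strong_induction_on with
    | _ n ih =>
      intro j hj
      by_contra hne
      have h3 : π j < j := lt_of_le_of_ne (h1 j) hne
      have h4 := ih (π j) (by rw [← hj]; exact h3) (π j) rfl
      exact hne (π.injective h4)
  ext j
  rw [h2 j j rfl, Equiv.Perm.one_apply]

/-- Uniqueness of the monomial part. -/
theorem mono_unique [Nontrivial S] (hs : Function.Surjective nm) {D : Fin r → S}
    {π : Equiv.Perm (Fin N)}
    {b W v X : Mat r S} (hb : BU nm (bk N) b) (hv : BU nm (bk N) v) (hW : BM nm π W)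
    (hU : IsUnit W) (he : X = b * W * v) (hX : BD nm D X) : W = Matrix.diagonal D := by
  obtain ⟨b', hb', hb1, hb2⟩ := bu_inv hb
  obtain ⟨v', hv', hv1, hv2⟩ := bu_inv hv
  have h1 : W = b' * X * v' := by
    rw [he]
    calc W = (b' * b) * W * (v * v') := by rw [hb1, hv2, Matrix.one_mul, Matrix.mul_one]
      _ = b' * (b * W * v) * v' := by simp only [Matrix.mul_assoc]
  have h2 : BD nm D W := by
    rw [h1]
    exact bd_mul_right (bd_mul_left hb' hX) hv'
  have h3 : π = 1 := by
    refine perm_eq_one_of_le fun a => ?_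
    obtain ⟨j, rfl⟩ := hs a
    by_contra hlt
    rw [not_le] at hlt
    -- the column `j` vanishes
    have h4 : ∀ i, W i j = 0 := by
      intro i
      by_cases h5 : nm i = π (nm j)
      · have h6 : ¬ nm i < nm j := by
          rw [h5]
          exact not_lt.2 hlt.le
        rw [h2 i j h6, if_neg]
        rintro rfl
        rw [← h5] at hlt
        exact lt_irrefl _ hlt
      · exact hW i j h5
    obtain ⟨w, rfl⟩ := hU
    have h7 : (((w⁻¹ : (Mat r S)ˣ) : Mat r S) * (w : Mat r S)) j j = 0 := by
      rw [Matrix.mul_apply]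
      exact Finset.sum_eq_zero fun t _ => by rw [h4, mul_zero]
    rw [Units.inv_mul, Matrix.one_apply_eq] at h7
    exact one_ne_zero h7
  subst h3
  ext i j
  by_cases h4 : nm i < nm j
  · rw [hW i j (by rw [Equiv.Perm.one_apply]; exact ne_of_lt h4), Matrix.diagonal_apply_ne]
    rintro rfl
    exact lt_irrefl _ h4
  · rw [h2 i j h4, Matrix.diagonal_apply]

/-! ### Products -/

theorem pp_congr {c c' : ℕ → Mat r S} : ∀ n : ℕ, (∀ i < n, c i = c' i) → PP c n = PP c' n
  | 0, _ => rfl
  | n + 1, h => by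
    change PP c n * c n = PP c' n * c' n
    rw [pp_congr n fun i hi => h i (by omega), h n (by omega)]

theorem pp_map {T : Type*} [CommRing T] (f : S →+* T) (c : ℕ → Mat r S) :
    ∀ n : ℕ, (PP c n).map f = PP (fun i => (c i).map f) n
  | 0 => Matrix.map_one f (map_zero f) (map_one f)
  | n + 1 => by
    change (PP c n * c n).map f = PP (fun i => (c i).map f) n * (c n).map f
    rw [Matrix.map_mul, pp_map f c n]

theorem pp_ofFn (c : ℕ → Mat r S) : ∀ n : ℕ, PP c n = (List.ofFn fun i : Fin n => c i).prod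
  | 0 => by simp [PP]
  | n + 1 => by
    change PP c n * c n = _
    rw [pp_ofFn c n, List.ofFn_succ', List.concat_eq_append, List.prod_append,
      List.prod_singleton]
    rfl

end Vale.Agent.P002B.AsmA
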