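import Vale.Agent.P002B.Defs
import Vale.Agent.P002R.YG0

/-!
# P002, genus 0, arbitrary classes: statements of the parts
-/

namespace Vale.Agent.P002B

open Matrix Vale.Agent.P002R Vale.Agent.P002L

/-- Index shift for the two kinds of sections. -/
def sh : Bool → ℕ
  | false => 0
  | true => 1

/-- T1. Paths of orders exist; the initial segments of their members are the standard ones. -/
def PathStmt : Prop :=
  ∀ (N : ℕ) (κ : Fin N → ℕ), ∃ ks : List (Fin N → ℕ), KP κ (bk N) ks ∧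
    (∀ k ∈ ks, ∀ n : ℕ, ∃ l s s' : ℕ, s' ≤ s ∧ ∀ c, k c < n ↔ Seg κ l s s' c) ∧
    ∀ l s s' : ℕ, s' ≤ s → ∃ k ∈ ks, ∃ n : ℕ, ∀ c, k c < n ↔ Seg κ l s s' c

/-- T4. The lifting theorem: all choices of lifts of the variables are allowed. -/
def LiftStmt : Prop :=
  ∀ {R : Type} [CommRing R] (φ : R →+* ℂ) {r N : ℕ} (nm : Fin r → Fin N) (m : ℕ)
    (κ : ℕ → Fin N → ℕ) (l : ℕ → ℕ → Rˣ) (c u M : ℕ → Mat r ℂ) (ks : ℕ → List (Fin N → ℕ)),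
    (∀ i < m, BU nm (bk N) (u i)) → (∀ i < m, Kup (κ i ∘ nm) (fun j => φ (l i j)) (M i)) →
    (∀ i < m, c i * u i = u i * M i) → (∀ i < m, KP (κ i) (bk N) (ks i)) →
    (∀ i < m, ∀ e : Bool, ∀ k ∈ ks i, ∀ n : ℕ, TP nm (PP c (i + sh e) * u i) fun a => k a < n) →
    ∃ (L : List (Sy R N)) (y₀ : ℕ → Mat r ℂ × Mat r ℂ) (p : ℕ → Bool → (Fin N → ℕ) → ℕ),
      Circ L ∧ Valid nm y₀ L ∧
      ∀ {A : Type} [CommRing A] (ι : R →+* A) (ψ : A →+* ℂ), (∀ x, ψ (ι x) = φ x) →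
        Function.Surjective ψ → ∀ y : ℕ → Mat r A × Mat r A, Valid nm y L →
        (∀ a b n, Sy.Y a b n ∈ L → (y n).1.map ψ = (y₀ n).1 ∧ (y n).2.map ψ = (y₀ n).2) →
        ∃ c' u' M' : ℕ → Mat r A, (∀ i < m, BU nm (bk N) (u' i)) ∧
          (∀ i < m, Kup (κ i ∘ nm) (fun j => ι (l i j)) (M' i)) ∧
          (∀ i < m, c' i * u' i = u' i * M' i) ∧
          (∀ i < m, (c' i).map ψ = c i) ∧
          (∀ i < m, ∀ e : Bool, ∀ k ∈ ks i,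
            InCell nm k (cev nm ι y (L.take (p i e k))) (PP c' (i + sh e) * u' i)) ∧
          InCell nm (bk N) (cev nm ι y L) (PP c' m)

/-- T5. Absorption of the errors. -/
def AbsorbStmt : Prop :=
  ∀ {A B : Type} [CommRing A] [CommRing B] (ψ : A →+* B) {r N : ℕ} (nm : Fin r → Fin N)
    (m : ℕ) (κ : ℕ → Fin N → ℕ) (l : ℕ → ℕ → A) (ks : ℕ → List (Fin N → ℕ))
    (π : ℕ → Bool → (Fin N → ℕ) → Equiv.Perm (Fin N)) (κ₀ : Fin N → ℕ) (τ : ℕ → Aˣ)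
    (rk : Fin N → Fin N → ℕ), Monotone κ₀ →
    (∀ i < m, KP (κ i) (bk N) (ks i)) →
    (∀ p' p q q' : Fin N, p' ≤ p → p < q → q ≤ q' → rk p' q' ≤ rk p q) →
    (∀ p q : Fin N, p < q → κ₀ p = κ₀ q → (∃ i < m, κ i p < κ i q) ∨
      ∃ i < m, ∃ e : Bool, ∃ k ∈ ks i, ∃ n l s s' : ℕ, (∀ c, k c < n ↔ Seg (κ i) l s s' c) ∧
        k ((π i e k).symm p) < n ∧ ¬ k ((π i e k).symm q) < n ∧
        ∀ p' q' : Fin N, p' < q' → (((p' : ℕ) < s ∧ s ≤ (q' : ℕ)) ∨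
          ((p' : ℕ) < s' ∧ s' ≤ (q' : ℕ))) → rk p' q' < rk p q) →
    ∀ c u M : ℕ → Mat r A, (∀ i < m, BU nm (bk N) (u i)) →
      (∀ i < m, Kup (κ i ∘ nm) (l i) (M i)) → (∀ i < m, c i * u i = u i * M i) →
      (∀ i < m, ∀ e : Bool, ∀ k ∈ ks i, ∃ W : Mat r A, BM nm (π i e k) W ∧ IsUnit W ∧
        InCell nm k W (PP c (i + sh e) * u i)) →
      (∀ i j, ¬ nm i < nm j → PP c m i j = if i = j then (τ (κ₀ (nm i)) : A) else 0) →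
      (∀ i j, nm i < nm j → κ₀ (nm i) = κ₀ (nm j) → ψ (PP c m i j) = 0) →
      ∃ c' u' M' : ℕ → Mat r A, (∀ i < m, BU nm (bk N) (u' i)) ∧
        (∀ i < m, Kup (κ i ∘ nm) (l i) (M' i)) ∧ (∀ i < m, c' i * u' i = u' i * M' i) ∧
        (∀ i < m, (c' i).map ψ = (c i).map ψ) ∧
        Kup (κ₀ ∘ nm) (fun j => (τ j : A)) (PP c' m)

/-- T6. Existence of a stable flag with its history (complex linear algebra). `g⁻¹ * c i * g` is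
the tuple in the adapted basis. -/
def FlagStmt : Prop :=
  ∀ {r : ℕ} (m : ℕ) (c : ℕ → Mat r ℂ) (ξ : ℕ → ℕ → ℂ) (s : ℕ → ℕ) (ξ₀ : ℕ → ℂ) (s₀ : ℕ),
    (∀ i < m, IsUnit (c i)) → (∀ i < m, Qp (c i) (ξ i) (s i) = 0) → Qp (PP c m) ξ₀ s₀ = 0 →
    ∃ (g : (Mat r ℂ)ˣ) (N : ℕ) (nm : Fin r → Fin N) (κ : ℕ → Fin N → ℕ) (κ₀ : Fin N → ℕ)
      (d u M : ℕ → Mat r ℂ) (rk : Fin N → Fin N → ℕ),
      (∀ i, d i = ((g⁻¹ : (Mat r ℂ)ˣ) : Mat r ℂ) * c i * (g : Mat r ℂ)) ∧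
      Monotone nm ∧ Function.Surjective nm ∧ Monotone κ₀ ∧
      (∀ i < m, BU nm (bk N) (u i) ∧ Kup (κ i ∘ nm) (ξ i) (M i) ∧ d i * u i = u i * M i ∧
        (∀ x, κ i x < s i) ∧
        ∀ j ≤ s i, Module.finrank ℂ (LinearMap.ker (Qp (d i) (ξ i) j).mulVecLin) =
          (Finset.univ.filter fun x => κ i (nm x) < j).card) ∧
      (Kup (κ₀ ∘ nm) ξ₀ (PP d m) ∧ (∀ x, κ₀ x < s₀) ∧
        ∀ j ≤ s₀, Module.finrank ℂ (LinearMap.ker (Qp (PP d m) ξ₀ j).mulVecLin) =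
          (Finset.univ.filter fun x => κ₀ (nm x) < j).card) ∧
      (∀ i < m, ∀ e : Bool, ∀ l t t' : ℕ, t' ≤ t →
        TP nm (PP d (i + sh e) * u i) (Seg (κ i) l t t')) ∧
      (∀ p' p q q' : Fin N, p' ≤ p → p < q → q ≤ q' → rk p' q' ≤ rk p q) ∧
      ∀ p q : Fin N, p < q → κ₀ p = κ₀ q → (∃ i < m, κ i p < κ i q) ∨
        ∃ i < m, ∃ e : Bool, ∃ l t t' : ℕ, t' ≤ t ∧
          IP nm (PP d (i + sh e) * u i) (Seg (κ i) l t t') p ∧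
          ¬ IP nm (PP d (i + sh e) * u i) (Seg (κ i) l t t') q ∧
          ∀ p' q' : Fin N, p' < q' → (((p' : ℕ) < t ∧ t ≤ (q' : ℕ)) ∨
            ((p' : ℕ) < t' ∧ t' ≤ (q' : ℕ))) → rk p' q' < rk p q

/-- T7. The class of a matrix is an open condition among the matrices of the given type. -/
def TypeStmt : Prop :=
  ∀ {r : ℕ} (c : (Mat r ℂ)ˣ) (ξ : ℕ → ℂ) (s : ℕ) (κ : Fin r → ℕ), Qp (c : Mat r ℂ) ξ s = 0 →
    (∀ x, κ x < s) →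
    (∀ j ≤ s, Module.finrank ℂ (LinearMap.ker (Qp (c : Mat r ℂ) ξ j).mulVecLin) =
      (Finset.univ.filter fun x => κ x < j).card) →
    ∃ h : MvPolynomial (Fin r × Fin r) ℂ,
      MvPolynomial.eval (fun p => (c : Mat r ℂ) p.1 p.2) h ≠ 0 ∧
      ∀ (c' : (Mat r ℂ)ˣ) (u' M' : Mat r ℂ), UU u' → Kup κ ξ M' →
        (c' : Mat r ℂ) * u' = u' * M' →
        MvPolynomial.eval (fun p => (c' : Mat r ℂ) p.1 p.2) h ≠ 0 → IsConj c c'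

/-- T8. Extension of the ring `A` by a point in the Zariski closure of a set of `R`-points. -/
def ExtStmt : Prop :=
  ∀ {R A : Type} [CommRing R] [CommRing A] {φ : R →+* ℂ} {ι : R →+* A} {ψ : A →+* ℂ},
    Lifting φ ι ψ → ∀ {σ : Type} (Sol : Set (σ → R)) (y : σ → ℂ),
    (∀ f : MvPolynomial σ ℂ, (∀ x ∈ Sol, MvPolynomial.eval (fun i => φ (x i)) f = 0) →
      MvPolynomial.eval y f = 0) →
    ∃ (A' : Type) (_ : CommRing A') (ι' : R →+* A') (ψ' : A' →+* ℂ) (j : A →+* A') (Y : σ → A'),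
      Lifting φ ι' ψ' ∧ (∀ a, ψ' (j a) = ψ a) ∧ (∀ a, j (ι a) = ι' a) ∧ (∀ i, ψ' (Y i) = y i) ∧
      ∀ p : MvPolynomial σ R, (∀ x ∈ Sol, MvPolynomial.eval x p = 0) →
        MvPolynomial.eval₂ ι' Y p = 0

/-- The surface word. -/
def swd {G : Type*} [Group G] {g : ℕ} (a b : Fin g → G) : G :=
  (List.ofFn fun i => a i * b i * (a i)⁻¹ * (b i)⁻¹).prod

/-- T10. Every complex solution of the surface relation (with central value) lifts. -/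
def SurfStmt : Prop :=
  ∀ {R A : Type} [CommRing R] [CommRing A] {φ : R →+* ℂ} {ι : R →+* A} {ψ : A →+* ℂ}
    (E : Subgroup ℂˣ) {r d g : ℕ}, 0 < d → d ≤ r → CoefOK φ E (r * r) → Lifting φ ι ψ →
    ∀ (μ : Rˣ) (a b : Fin g → (Mat d ℂ)ˣ),
      ((swd a b : (Mat d ℂ)ˣ) : Mat d ℂ) = φ μ • (1 : Mat d ℂ) →
    ∃ (A' : Type) (_ : CommRing A') (ι' : R →+* A') (ψ' : A' →+* ℂ) (j : A →+* A')
      (a' b' : Fin g → (Mat d A')ˣ), Lifting φ ι' ψ' ∧ (∀ x, ψ' (j x) = ψ x) ∧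
      (∀ x, j (ι x) = ι' x) ∧ (∀ i, (a' i : Mat d A').map ψ' = a i) ∧
      (∀ i, (b' i : Mat d A').map ψ' = b i) ∧
      ((swd a' b' : (Mat d A')ˣ) : Mat d A') = ι' μ • (1 : Mat d A')

/-- T10'. The same as a density statement. -/
def SurfCl (g : ℕ) : Prop :=
  ∀ {R : Type} [CommRing R] {φ : R →+* ℂ} (E : Subgroup ℂˣ) {r d : ℕ}, 0 < d → d ≤ r →
    CoefOK φ E (r * r) → ∀ (μ : Rˣ) (a b : Fin g → (Mat d ℂ)ˣ),
      ((swd a b : (Mat d ℂ)ˣ) : Mat d ℂ) = φ μ • (1 : Mat d ℂ) →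
    ∀ f : MvPolynomial ((Fin g × Bool) × Fin d × Fin d) ℂ,
      (∀ a' b' : Fin g → (Mat d R)ˣ,
        ((swd a' b' : (Mat d R)ˣ) : Mat d R) = (μ : R) • (1 : Mat d R) →
        MvPolynomial.eval (fun x => φ (((if x.1.2 then b' x.1.1 else a' x.1.1 : (Mat d R)ˣ) :
          Mat d R) x.2.1 x.2.2)) f = 0) →
      MvPolynomial.eval (fun x => ((if x.1.2 then b x.1.1 else a x.1.1 : (Mat d ℂ)ˣ) :
          Mat d ℂ) x.2.1 x.2.2) f = 0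

/-- T9. The Levi equation lifts. -/
def LeviStmt : Prop :=
  ∀ {R A : Type} [CommRing R] [CommRing A] {φ : R →+* ℂ} {ι : R →+* A} {ψ : A →+* ℂ}
    (E : Subgroup ℂˣ) {r N : ℕ}, CoefOK φ E (r * r) → Lifting φ ι ψ →
    ∀ (nm : Fin r → Fin N), Function.Surjective nm → ∀ (L : List (Sy R N)) 
      (y₀ : ℕ → Mat r ℂ × Mat r ℂ) (lam : Fin N → Rˣ), Circ L → Valid nm y₀ L →
      cev nm φ y₀ L = Matrix.diagonal (fun i => φ (lam (nm i))) →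
    ∃ (A' : Type) (_ : CommRing A') (ι' : R →+* A') (ψ' : A' →+* ℂ)
      (y : ℕ → Mat r A' × Mat r A'), Lifting φ ι' ψ' ∧ Valid nm y L ∧
      (∀ a b n, Sy.Y a b n ∈ L → (y n).1.map ψ' = (y₀ n).1 ∧ (y n).2.map ψ' = (y₀ n).2) ∧
      cev nm ι' y L = Matrix.diagonal (fun i => ι' (lam (nm i)))

/-- The main theorem in genus zero for irreducible representations, arbitrary classes. -/
def G0All : Prop :=
  ∀ {m r : ℕ}, 0 < r → ∀ {R : Type} [CommRing R] (φ : R →+* ℂ) (E : Subgroup ℂˣ),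
    CoefOK φ E (r * r) →
    ∀ C : Fin (m + 1) → (Mat r ℂ)ˣ, (∀ j, EigIn E (C j : Mat r ℂ)) →
    ∀ x ∈ YG ({relatorU 0 (m + 1)} : Set (FreeGroup ((Fin 0 × Bool) ⊕ Fin (m + 1)))) C,
    (∀ M : Mat r ℂ, (∀ w, Commute M (x w : Mat r ℂ)) → ∃ c : ℂ, M = c • (1 : Mat r ℂ)) →
    ∀ f : MvPolynomial (((Fin 0 × Bool) ⊕ Fin (m + 1)) × Fin r × Fin r) ℂ,
    (∀ y ∈ DGT ({relatorU 0 (m + 1)} : Set (FreeGroup ((Fin 0 × Bool) ⊕ Fin (m + 1)))) φ C,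
      evalG y f = 0) → evalG x f = 0

/-- T15. Assembly. -/
def AssemblyStmt : Prop :=
  PathStmt → LiftStmt → AbsorbStmt → FlagStmt → TypeStmt → LeviStmt → G0All

end Vale.Agent.P002B
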