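import Vale.Agent.P002B.AsmA1
import Vale.Agent.P002B.Stmts

/-!
# P002B, assembly: positions
-/

namespace Vale.Agent.P002B.AsmA

open Matrix Vale.Agent.P002R Vale.Agent.P002L

variable {r N : ℕ} {nm : Fin r → Fin N}

/-- The columns with small label span the kernel. -/
theorem ker_small {κ : Fin r → ℕ} {ξ : ℕ → ℂ} {c u M : Mat r ℂ} (hu : IsUnit u)
    (hM : Kup κ ξ M) (h : c * u = u * M) (j : ℕ)
    (hf : Module.finrank ℂ (LinearMap.ker (Qp c ξ j).mulVecLin) =
      (Finset.univ.filter fun x => κ x < j).card) (v : Fin r → ℂ) (hv : Qp M ξ j *ᵥ v = 0)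
    (i : Fin r) (hi : j ≤ κ i) : v i = 0 := by
  classical
  have hdet : IsUnit u.det := (Matrix.isUnit_iff_isUnit_det u).1 hu
  have hrk : (Qp c ξ j).rank = (Qp M ξ j).rank := by
    have h1 := Qp_conj ξ h j
    have h2 := Matrix.rank_mul_eq_left_of_isUnit_det u (Qp c ξ j) hdet
    have h3 := Matrix.rank_mul_eq_right_of_isUnit_det u (Qp M ξ j) hdet
    rw [← h2, h1, h3]
  have h4 := rank_add_ker (Qp c ξ j)
  have h5 := rank_add_ker (Qp M ξ j)
  have hfM : Module.finrank ℂ (LinearMap.ker (Qp M ξ j).mulVecLin) =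
      (Finset.univ.filter fun x => κ x < j).card := by
    rw [← hf]
    omega
  have hlin : LinearIndependent ℂ (fun i : {i // κ i < j} =>
      (Pi.single (i : Fin r) (1 : ℂ) : Fin r → ℂ)) :=
    (Pi.basisFun ℂ (Fin r)).linearIndependent.comp (fun i : {i // κ i < j} => (i : Fin r))
      Subtype.val_injective |> fun h => by
        convert h using 1
        funext i
        simp
  have hle : Submodule.span ℂ (Set.range fun i : {i // κ i < j} =>
      (Pi.single (i : Fin r) (1 : ℂ) : Fin r → ℂ)) ≤ LinearMap.ker (Qp M ξ j).mulVecLin := by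
    rw [Submodule.span_le]
    rintro w ⟨⟨i, hi⟩, rfl⟩
    change (Qp M ξ j) *ᵥ (Pi.single i 1) = 0
    rw [Matrix.mulVec_single_one]
    funext a
    exact Qp_col hM j a i hi
  have heq := Submodule.eq_of_le_of_finrank_eq hle (by
    rw [finrank_span_eq_card hlin, hfM, Fintype.card_subtype])
  have hv' : v ∈ Submodule.span ℂ (Set.range fun i : {i // κ i < j} =>
      (Pi.single (i : Fin r) (1 : ℂ) : Fin r → ℂ)) := by
    rw [heq]
    exact hv
  have hle2 : Submodule.span ℂ (Set.range fun i : {i // κ i < j} =>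
      (Pi.single (i : Fin r) (1 : ℂ) : Fin r → ℂ)) ≤
      LinearMap.ker (LinearMap.proj i : (Fin r → ℂ) →ₗ[ℂ] ℂ) := by
    rw [Submodule.span_le]
    rintro w ⟨⟨t, ht⟩, rfl⟩
    change (Pi.single t (1 : ℂ) : Fin r → ℂ) i = 0
    rw [Pi.single_eq_of_ne]
    rintro rfl
    omega
  exact hle2 hv'

/-- Two positions of the same matrix differ by a matrix which respects the standard segments. -/
theorem trans_seg {κ : Fin N → ℕ} {ξ : ℕ → ℂ} {c u M u' M' : Mat r ℂ} {s : ℕ}
    (hu : BU nm (bk N) u) (hu' : BU nm (bk N) u') (hM : Kup (κ ∘ nm) ξ M)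
    (hM' : Kup (κ ∘ nm) ξ M') (h : c * u = u * M) (h' : c * u' = u' * M') (hs : ∀ x, κ x < s)
    (hf : ∀ j ≤ s, Module.finrank ℂ (LinearMap.ker (Qp c ξ j).mulVecLin) =
      (Finset.univ.filter fun x => κ (nm x) < j).card) :
    ∃ w : Mat r ℂ, u' = u * w ∧ ∀ l t t' : ℕ, ∀ i j, Seg κ l t t' (nm j) → ¬ Seg κ l t t' (nm i) →
      w i j = 0 := by
  obtain ⟨v, hv, hv1, hv2⟩ := bu_inv hu
  refine ⟨v * u', by rw [← Matrix.mul_assoc, hv2, Matrix.one_mul], ?_⟩
  have hw := bu_mul hv hu'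
  obtain ⟨w, hw0⟩ : ∃ w, w = v * u' := ⟨_, rfl⟩
  rw [← hw0] at hw ⊢
  have huw : u' = u * w := by rw [hw0, ← Matrix.mul_assoc, hv2, Matrix.one_mul]
  have hMw : M * w = w * M' := by
    have h1 : u * (M * w) = u * (w * M') := by
      rw [← Matrix.mul_assoc, ← h, Matrix.mul_assoc, ← huw, h', huw, Matrix.mul_assoc]
    calc M * w = (v * u) * (M * w) := by rw [hv1, Matrix.one_mul]
      _ = v * (u * (M * w)) := by rw [Matrix.mul_assoc]
      _ = v * (u * (w * M')) := by rw [h1]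
      _ = (v * u) * (w * M') := by rw [Matrix.mul_assoc]
      _ = w * M' := by rw [hv1, Matrix.one_mul]
  have hsmall : ∀ i j, κ (nm j) < κ (nm i) → w i j = 0 := by
    intro i j hij
    have h3 := Qp_conj ξ hMw (κ (nm i))
    refine ker_small (bu_isUnit hu) hM h (κ (nm i)) (hf _ (hs _).le) (fun a => w a j) ?_ i
      (le_refl _)
    funext a
    have h4 : (Qp M ξ (κ (nm i)) *ᵥ fun a => w a j) a = (Qp M ξ (κ (nm i)) * w) a j := rfl
    rw [h4, h3, Matrix.mul_apply]
    exact Finset.sum_eq_zero fun b _ => by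
      rw [Qp_col hM' (κ (nm i)) b j hij, mul_zero]
  intro l t t' i j hj hi
  by_cases h1 : κ (nm j) < κ (nm i)
  · exact hsmall i j h1
  · by_cases h2 : nm i < nm j
    · exfalso
      apply hi
      have h3 : (nm i : ℕ) < (nm j : ℕ) := h2
      unfold Seg at hj ⊢
      omega
    · rw [hw i j h2, Matrix.one_apply_ne]
      rintro rfl
      exact hi hj

theorem ip_mul {P w : Mat r ℂ} {T : Fin N → Prop}
    (hw : ∀ i j, T (nm j) → ¬ T (nm i) → w i j = 0) {c : Fin N} (h : IP nm (P * w) T c) :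
    IP nm P T c := by
  intro z
  obtain ⟨v, hv1, hv2, hv3⟩ := h z
  refine ⟨w *ᵥ v, fun i hi => ?_, fun i hi => ?_, fun i hi => ?_⟩
  · rw [Matrix.mulVec, dotProduct]
    refine Finset.sum_eq_zero fun j _ => ?_
    by_cases hj : T (nm j)
    · rw [hw i j hj hi, zero_mul]
    · rw [hv1 j hj, mul_zero]
  · rw [Matrix.mulVec_mulVec]
    exact hv2 i hi
  · rw [Matrix.mulVec_mulVec]
    exact hv3 i hi

theorem ip_of_cell {k : Fin N → ℕ} {n : ℕ} {π : Equiv.Perm (Fin N)} {b W v X : Mat r ℂ}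
    (hb : BU nm (bk N) b) (hv : BU nm k v) (hW : BM nm π W) (hU : IsUnit W) (he : X = b * W * v)
    {c : Fin N} (hc : k (π.symm c) < n) : IP nm X (fun a => k a < n) c := by
  obtain ⟨v', hv', hv1, hv2⟩ := bu_inv hv
  obtain ⟨Wu, hWu⟩ := hU
  obtain ⟨W', hW'⟩ : ∃ W' : Mat r ℂ, W' = ((Wu⁻¹ : (Mat r ℂ)ˣ) : Mat r ℂ) := ⟨_, rfl⟩
  have hW1 : W' * W = 1 := by rw [hW', ← hWu, Units.inv_mul]
  have hW2 : W * W' = 1 := by rw [hW', ← hWu, Units.mul_inv]
  have hWi := bm_inv hW hW1 hW2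
  intro z
  obtain ⟨zc, hzc⟩ : ∃ zc : Fin r → ℂ, ∀ i, zc i = if nm i = c then z i else 0 :=
    ⟨_, fun _ => rfl⟩
  have hX : X *ᵥ (v' *ᵥ (W' *ᵥ zc)) = b *ᵥ zc := by
    rw [Matrix.mulVec_mulVec, Matrix.mulVec_mulVec, he]
    congr 1
    calc b * W * v * v' * W' = b * W * (v * v') * W' := by simp only [Matrix.mul_assoc]
      _ = b * (W * W') := by rw [hv2, Matrix.mul_one, Matrix.mul_assoc]
      _ = b := by rw [hW2, Matrix.mul_one]
  have hbz : ∀ i, ¬ nm i < c → (b *ᵥ zc) i = zc i := by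
    intro i hi
    rw [Matrix.mulVec, dotProduct, Finset.sum_eq_single i]
    · rw [hb i i (lt_irrefl _), Matrix.one_apply_eq, one_mul]
    · intro t _ ht
      by_cases h1 : nm t = c
      · rw [hb i t (by
          rw [h1]
          exact hi), Matrix.one_apply_ne (Ne.symm ht), zero_mul]
      · rw [hzc, if_neg h1, mul_zero]
    · intro h1
      exact absurd (Finset.mem_univ i) h1
  refine ⟨v' *ᵥ (W' *ᵥ zc), fun i hi => ?_, fun i hi => ?_, fun i hi => ?_⟩
  · have hW'z : ∀ j, nm j ≠ π.symm c → (W' *ᵥ zc) j = 0 := by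
      intro j hj
      rw [Matrix.mulVec, dotProduct]
      refine Finset.sum_eq_zero fun t _ => ?_
      by_cases h1 : nm t = c
      · rw [hWi j t, zero_mul]
        rw [h1]
        exact hj
      · rw [hzc, if_neg h1, mul_zero]
    rw [Matrix.mulVec, dotProduct]
    refine Finset.sum_eq_zero fun t _ => ?_
    by_cases h1 : nm t = π.symm c
    · rw [hv' i t, Matrix.one_apply_ne, zero_mul]
      · rintro rfl
        rw [h1] at hi
        exact hi hc
      · rw [h1]
        intro h2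
        exact hi (h2.trans hc)
    · rw [hW'z t h1, mul_zero]
  · rw [hX, hbz i (not_lt.2 hi.le), hzc, if_neg (ne_of_gt hi)]
  · rw [hX, hbz i (by rw [hi]; exact lt_irrefl _), hzc, if_pos hi]

theorem not_ip_of_cell (hs : Function.Surjective nm) {k : Fin N → ℕ} {n : ℕ}
    {π : Equiv.Perm (Fin N)} {b W v X : Mat r ℂ}
    (hb : BU nm (bk N) b) (hv : BU nm k v) (hW : BM nm π W) (he : X = b * W * v)
    {c : Fin N} (hc : IP nm X (fun a => k a < n) c) : k (π.symm c) < n := by
  by_contra hn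
  obtain ⟨b', hb', hb1, hb2⟩ := bu_inv hb
  obtain ⟨i₀, hi₀⟩ := hs c
  obtain ⟨x, hx1, hx2, hx3⟩ := hc fun _ => 1
  have h1 : b' *ᵥ (X *ᵥ x) = W *ᵥ (v *ᵥ x) := by
    rw [Matrix.mulVec_mulVec, Matrix.mulVec_mulVec, he]
    congr 1
    calc b' * (b * W * v) = (b' * b) * (W * v) := by simp only [Matrix.mul_assoc]
      _ = W * v := by rw [hb1, Matrix.one_mul]
  have h2 : (b' *ᵥ (X *ᵥ x)) i₀ = 1 := by
    rw [← hx3 i₀ hi₀, Matrix.mulVec, dotProduct, Finset.sum_eq_single i₀]
    · rw [hb' i₀ i₀ (lt_irrefl _), Matrix.one_apply_eq, one_mul]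
    · intro t _ ht
      by_cases h3 : c < nm t
      · rw [hx2 t h3, mul_zero]
      · rw [hb' i₀ t, Matrix.one_apply_ne (Ne.symm ht), zero_mul]
        rw [hi₀]
        exact h3
    · intro h3
      exact absurd (Finset.mem_univ i₀) h3
  have h3 : (W *ᵥ (v *ᵥ x)) i₀ = 0 := by
    rw [Matrix.mulVec, dotProduct]
    refine Finset.sum_eq_zero fun j _ => ?_
    by_cases h4 : nm i₀ = π (nm j)
    · have h5 : nm j = π.symm c := by rw [← hi₀, h4, Equiv.symm_apply_apply]
      have h6 : (v *ᵥ x) j = 0 := by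
        rw [Matrix.mulVec, dotProduct]
        refine Finset.sum_eq_zero fun t _ => ?_
        by_cases h7 : k (nm t) < n
        · rw [hv j t, Matrix.one_apply_ne, zero_mul]
          · rintro rfl
            rw [h5] at h7
            exact hn h7
          · rw [h5]
            omega
        · rw [hx1 t h7, mul_zero]
      rw [h6, mul_zero]
    · rw [hW i₀ j h4, zero_mul]
  rw [h1, h3] at h2
  exact zero_ne_one h2

end Vale.Agent.P002B.AsmA
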