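import Vale.Agent.P002B.Defs

/-!
# P002, genus 0, arbitrary classes: algebra of block matrices
-/

namespace Vale.Agent.P002B

open Matrix Vale.Agent.P002R Vale.Agent.P002L

section balg

variable {S T : Type*} [CommRing S] [CommRing T] {r N : ℕ} {nm : Fin r → Fin N}

/-! ### The idempotents -/

theorem ee_mul_apply (a : Fin N) (M : Mat r S) (i j : Fin r) :
    ((ee nm a : Mat r S) * M) i j = if nm i = a then M i j else 0 := by
  rw [ee, diagonal_mul, ite_mul, one_mul, zero_mul]

theorem mul_ee_apply (a : Fin N) (M : Mat r S) (i j : Fin r) :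
    (M * (ee nm a : Mat r S)) i j = if nm j = a then M i j else 0 := by
  rw [ee, mul_diagonal, mul_ite, mul_one, mul_zero]

theorem ee_map (a : Fin N) (f : S →+* T) : (ee nm a : Mat r S).map f = ee nm a := by
  rw [ee, ee, diagonal_map (map_zero f)]
  congr 1
  funext i
  change f (if nm i = a then 1 else 0) = if nm i = a then 1 else 0
  split_ifs
  · exact map_one f
  · exact map_zero f

theorem ee_mul_ee (a : Fin N) : (ee nm a : Mat r S) * ee nm a = ee nm a := by
  ext i j
  rw [ee_mul_apply]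
  split_ifs with h
  · rfl
  · rw [ee, diagonal_apply]
    split_ifs <;> rfl

theorem ee_mul_ee_ne {a b : Fin N} (h : a ≠ b) : (ee nm a : Mat r S) * ee nm b = 0 := by
  ext i j
  rw [ee_mul_apply, ee, diagonal_apply]
  split_ifs with h1 h2 h3
  · exact absurd (h1.symm.trans h3) h
  · rfl
  · rfl
  · rfl

theorem sum_ee : ∑ a, (ee nm a : Mat r S) = 1 := by
  ext i j
  rw [Matrix.sum_apply]
  by_cases hij : i = j
  · subst hij
    rw [one_apply_eq, Finset.sum_eq_single (nm i)]
    · rw [ee, diagonal_apply_eq, if_pos rfl]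
    · intro b _ hb
      rw [ee, diagonal_apply_eq, if_neg (Ne.symm hb)]
    · intro h
      exact absurd (Finset.mem_univ _) h
  · rw [one_apply_ne hij]
    exact Finset.sum_eq_zero fun a _ => by rw [ee, diagonal_apply_ne _ hij]

/-! ### Matrices in one block -/

theorem BB.zero (a b : Fin N) : BB nm a b (0 : Mat r S) := fun _ _ _ => rfl

theorem BB.add {a b : Fin N} {y z : Mat r S} (hy : BB nm a b y) (hz : BB nm a b z) :
    BB nm a b (y + z) := fun i j h => by rw [Matrix.add_apply, hy i j h, hz i j h, add_zero]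

theorem BB.neg {a b : Fin N} {y : Mat r S} (hy : BB nm a b y) : BB nm a b (-y) :=
  fun i j h => by rw [Matrix.neg_apply, hy i j h, neg_zero]

theorem BB.sub {a b : Fin N} {y z : Mat r S} (hy : BB nm a b y) (hz : BB nm a b z) :
    BB nm a b (y - z) := fun i j h => by rw [Matrix.sub_apply, hy i j h, hz i j h, sub_zero]

theorem BB.map {a b : Fin N} {y : Mat r S} (hy : BB nm a b y) (f : S →+* T) :
    BB nm a b (y.map f) := fun i j h => by rw [map_apply, hy i j h, map_zero]

theorem bb_ee (a b : Fin N) (M : Mat r S) : BB nm a b (ee nm a * M * ee nm b) := by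
  intro i j h
  rw [mul_ee_apply, ee_mul_apply]
  split_ifs with h1 h2
  · exact absurd ⟨h2, h1⟩ h
  · rfl
  · rfl

theorem bb_ee_self (a : Fin N) : BB nm a a (ee nm a : Mat r S) := by
  intro i j h
  rw [ee, diagonal_apply]
  split_ifs with h1 h2
  · exact absurd ⟨h2, h1 ▸ h2⟩ h
  · rfl
  · rfl

theorem BB.ee_mul {a b : Fin N} {y : Mat r S} (hy : BB nm a b y) : ee nm a * y = y := by
  ext i j
  rw [ee_mul_apply]
  split_ifs with h
  · rfl
  · exact (hy i j fun h' => h h'.1).symm

theorem BB.mul_ee {a b : Fin N} {y : Mat r S} (hy : BB nm a b y) : y * ee nm b = y := by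
  ext i j
  rw [mul_ee_apply]
  split_ifs with h
  · rfl
  · exact (hy i j fun h' => h h'.2).symm

theorem BB.ee_mul_ne {a b c : Fin N} {y : Mat r S} (hy : BB nm a b y) (h : c ≠ a) :
    ee nm c * y = 0 := by rw [← hy.ee_mul, ← mul_assoc, ee_mul_ee_ne h, zero_mul]

theorem BB.mul_ee_ne {a b c : Fin N} {y : Mat r S} (hy : BB nm a b y) (h : b ≠ c) :
    y * ee nm c = 0 := by rw [← hy.mul_ee, mul_assoc, ee_mul_ee_ne h, mul_zero]

theorem BB.ee_mul_ee {a b : Fin N} {y : Mat r S} (hy : BB nm a b y) :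
    ee nm a * y * ee nm b = y := by rw [hy.ee_mul, hy.mul_ee]

theorem BB.mul {a b c : Fin N} {y z : Mat r S} (hy : BB nm a b y) (hz : BB nm b c z) :
    BB nm a c (y * z) := by
  have h : y * z = ee nm a * (y * z) * ee nm c := by
    rw [← mul_assoc, hy.ee_mul, mul_assoc, hz.mul_ee]
  rw [h]
  exact bb_ee _ _ _

theorem BB.mul_ne {a b b' c : Fin N} {y z : Mat r S} (hy : BB nm a b y) (hz : BB nm b' c z)
    (h : b ≠ b') : y * z = 0 := by
  rw [← hz.ee_mul, ← mul_assoc, hy.mul_ee_ne h, zero_mul]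

theorem BB.mul_self {a b : Fin N} {y : Mat r S} (hy : BB nm a b y) (h : a ≠ b) : y * y = 0 :=
  hy.mul_ne hy h.symm

theorem BB.one_add_mul {a b : Fin N} {y z : Mat r S} (hy : BB nm a b y) (hz : BB nm a b z)
    (h : a ≠ b) : (1 + y) * (1 + z) = 1 + (y + z) := by
  rw [mul_add, mul_one, add_mul, one_mul, hy.mul_ne hz h.symm, add_zero, add_assoc]

theorem BB.one_add_mul_neg {a b : Fin N} {y : Mat r S} (hy : BB nm a b y) (h : a ≠ b) :
    (1 + y) * (1 - y) = 1 := by
  rw [sub_eq_add_neg, hy.one_add_mul hy.neg h, add_neg_cancel, add_zero]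

theorem BB.one_sub_mul_add {a b : Fin N} {y : Mat r S} (hy : BB nm a b y) (h : a ≠ b) :
    (1 - y) * (1 + y) = 1 := by
  rw [sub_eq_add_neg, hy.neg.one_add_mul hy h, neg_add_cancel, add_zero]

/-! ### Block unipotent matrices -/

theorem bu_one (k : Fin N → ℕ) : BU nm k (1 : Mat r S) := fun _ _ _ => rfl

theorem BU.mul {k : Fin N → ℕ} {u v : Mat r S} (hu : BU nm k u) (hv : BU nm k v) :
    BU nm k (u * v) := by
  intro i j h
  rw [mul_apply, Finset.sum_eq_single i]
  · rw [hu i i (lt_irrefl _), one_apply_eq, one_mul, hv i j h]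
  · intro l _ hl
    by_cases h1 : k (nm i) < k (nm l)
    · rw [hv l j fun h2 => h (h1.trans h2)]
      by_cases h3 : l = j
      · subst h3
        exact absurd h1 h
      · rw [one_apply_ne h3, mul_zero]
    · rw [hu i l h1, one_apply_ne (Ne.symm hl), zero_mul]
  · intro h'
    exact absurd (Finset.mem_univ _) h'

theorem BU.map {k : Fin N → ℕ} {u : Mat r S} (hu : BU nm k u) (f : S →+* T) :
    BU nm k (u.map f) := fun i j h => by
  rw [map_apply, hu i j h, one_apply, one_apply]
  split_ifs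
  · exact map_one f
  · exact map_zero f

theorem BU.mono {k k' : Fin N → ℕ} {u : Mat r S} (hu : BU nm k u)
    (h : ∀ i j : Fin r, k (nm i) < k (nm j) → k' (nm i) < k' (nm j)) : BU nm k' u :=
  fun i j h' => hu i j fun h'' => h' (h i j h'')

theorem BU.bt {k : Fin N → ℕ} {u : Mat r S} (hu : BU nm k u) :
    BlockTriangular u fun i => k (nm i) := fun i j h => by
  rw [hu i j (not_lt.2 h.le), one_apply_ne]
  rintro rfl
  exact lt_irrefl _ h

theorem BU.det {k : Fin N → ℕ} {u : Mat r S} (hu : BU nm k u) : u.det = 1 := by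
  rw [hu.bt.det]
  refine Finset.prod_eq_one fun a _ => ?_
  have h : u.toSquareBlock (fun i => k (nm i)) a = 1 := by
    ext i j
    rw [toSquareBlock_def, of_apply, hu _ _ (by rw [i.2, j.2]; exact lt_irrefl _), one_apply,
      one_apply]
    simp only [Subtype.ext_iff]
  rw [h, det_one]

theorem BU.isUnit_det {k : Fin N → ℕ} {u : Mat r S} (hu : BU nm k u) : IsUnit u.det := by
  rw [hu.det]
  exact isUnit_one

theorem BU.isUnit {k : Fin N → ℕ} {u : Mat r S} (hu : BU nm k u) : IsUnit u :=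
  (isUnit_iff_isUnit_det _).2 hu.isUnit_det

theorem BU.mul_inv {k : Fin N → ℕ} {u : Mat r S} (hu : BU nm k u) : u * u⁻¹ = 1 :=
  mul_nonsing_inv _ hu.isUnit_det

theorem BU.inv_mul {k : Fin N → ℕ} {u : Mat r S} (hu : BU nm k u) : u⁻¹ * u = 1 :=
  nonsing_inv_mul _ hu.isUnit_det

theorem BU.inv {k : Fin N → ℕ} {u : Mat r S} (hu : BU nm k u) : BU nm k u⁻¹ := by
  have := Matrix.invertibleOfIsUnitDet u hu.isUnit_det
  have h1 : BlockTriangular u⁻¹ fun i => k (nm i) :=
    Matrix.blockTriangular_inv_of_blockTriangular hu.bt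
  intro i j h
  rcases lt_or_eq_of_le (not_lt.1 h) with h2 | h2
  · rw [h1 h2, one_apply_ne]
    rintro rfl
    exact lt_irrefl _ h2
  · have h3 : (u * u⁻¹) i j = (1 : Mat r S) i j := by rw [hu.mul_inv]
    rw [mul_apply, Finset.sum_eq_single i] at h3
    · rw [hu i i (lt_irrefl _), one_apply_eq, one_mul] at h3
      exact h3
    · intro l _ hl
      by_cases h4 : k (nm i) < k (nm l)
      · rw [h1 (i := l) (j := j) (by change k (nm j) < k (nm l); rw [h2]; exact h4), mul_zero]
      · rw [hu i l h4, one_apply_ne (Ne.symm hl), zero_mul]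
    · intro h'
      exact absurd (Finset.mem_univ _) h'

theorem BU.map_inv {k : Fin N → ℕ} {u : Mat r S} (hu : BU nm k u) (f : S →+* T) :
    (u⁻¹).map f = (u.map f)⁻¹ := by
  symm
  refine Matrix.inv_eq_left_inv ?_
  rw [← Matrix.map_mul, hu.inv_mul, Matrix.map_one _ (map_zero f) (map_one f)]

theorem BU.of_mul_left {k : Fin N → ℕ} {u v : Mat r S} (hu : BU nm k u) (h : BU nm k (u * v)) :
    BU nm k v := by
  have h1 : v = u⁻¹ * (u * v) := by rw [← mul_assoc, hu.inv_mul, one_mul]
  rw [h1]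
  exact hu.inv.mul h

theorem BU.of_mul_right {k : Fin N → ℕ} {u v : Mat r S} (hv : BU nm k v)
    (h : BU nm k (u * v)) : BU nm k u := by
  have h1 : u = (u * v) * v⁻¹ := by rw [mul_assoc, hv.mul_inv, mul_one]
  rw [h1]
  exact h.mul hv.inv

theorem bu_one_add {k : Fin N → ℕ} {a b : Fin N} (h : k a < k b) {y : Mat r S}
    (hy : BB nm a b y) : BU nm k (1 + y) := fun i j h' => by
  rw [Matrix.add_apply, hy i j, add_zero]
  rintro ⟨rfl, rfl⟩
  exact h' h

theorem bu_one_sub {k : Fin N → ℕ} {a b : Fin N} (h : k a < k b) {y : Mat r S}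
    (hy : BB nm a b y) : BU nm k (1 - y) := by
  rw [sub_eq_add_neg]
  exact bu_one_add h hy.neg

/-! ### Block monomial matrices -/

theorem bm_diagonal (d : Fin r → S) : BM nm 1 (diagonal d) := fun i j h => by
  rw [diagonal_apply_ne]
  rintro rfl
  exact h rfl

theorem bm_one : BM nm 1 (1 : Mat r S) := fun i j h => by
  rw [one_apply_ne]
  rintro rfl
  exact h rfl

theorem BM.mul {π π' : Equiv.Perm (Fin N)} {W W' : Mat r S} (hW : BM nm π W)
    (hW' : BM nm π' W') : BM nm (π * π') (W * W') := fun i j h => by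
  rw [mul_apply]
  refine Finset.sum_eq_zero fun l _ => ?_
  by_cases h1 : nm i = π (nm l)
  · rw [hW' l j, mul_zero]
    intro h2
    exact h (by rw [h1, h2, Equiv.Perm.mul_apply])
  · rw [hW i l h1, zero_mul]

theorem BM.map {π : Equiv.Perm (Fin N)} {W : Mat r S} (hW : BM nm π W) (f : S →+* T) :
    BM nm π (W.map f) := fun i j h => by rw [map_apply, hW i j h, map_zero]

theorem BM.mul_ee {π : Equiv.Perm (Fin N)} {W : Mat r S} (hW : BM nm π W) (a : Fin N) :
    W * ee nm a = ee nm (π a) * W := by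
  ext i j
  rw [mul_ee_apply, ee_mul_apply]
  by_cases h : nm i = π (nm j)
  · simp only [h, EmbeddingLike.apply_eq_iff_eq]
  · rw [hW i j h, ite_self, ite_self]

theorem bm_of_mul_ee {π : Equiv.Perm (Fin N)} {W : Mat r S}
    (h : ∀ a, W * ee nm a = ee nm (π a) * W) : BM nm π W := by
  intro i j hij
  have h1 := congrFun (congrFun (h (nm j)) i) j
  rw [mul_ee_apply, ee_mul_apply, if_pos rfl, if_neg hij] at h1
  exact h1

theorem BM.inv_of {π : Equiv.Perm (Fin N)} {W W' : Mat r S} (hW : BM nm π W)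
    (h1 : W * W' = 1) (h2 : W' * W = 1) : BM nm π⁻¹ W' := by
  refine bm_of_mul_ee fun a => ?_
  have h3 := hW.mul_ee (π⁻¹ a)
  rw [show π (π⁻¹ a) = a from π.apply_symm_apply a] at h3
  calc W' * ee nm a = W' * (ee nm a * (W * W')) := by rw [h1, mul_one]
    _ = W' * (ee nm a * W) * W' := by simp only [mul_assoc]
    _ = W' * (W * ee nm (π⁻¹ a)) * W' := by rw [h3]
    _ = (W' * W) * ee nm (π⁻¹ a) * W' := by simp only [mul_assoc]
    _ = ee nm (π⁻¹ a) * W' := by rw [h2, one_mul]

theorem BM.inv {π : Equiv.Perm (Fin N)} {W : Mat r S} (hW : BM nm π W) (h : IsUnit W) :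
    BM nm π⁻¹ W⁻¹ :=
  hW.inv_of (mul_nonsing_inv _ ((isUnit_iff_isUnit_det _).1 h))
    (nonsing_inv_mul _ ((isUnit_iff_isUnit_det _).1 h))

theorem BM.mul_bb {π : Equiv.Perm (Fin N)} {W : Mat r S} (hW : BM nm π W) {a b : Fin N}
    {y : Mat r S} (hy : BB nm a b y) : BB nm (π a) b (W * y) := by
  have h : W * y = ee nm (π a) * (W * y) * ee nm b := by
    rw [← mul_assoc, ← hW.mul_ee, mul_assoc W, hy.ee_mul, mul_assoc, hy.mul_ee]
  rw [h]
  exact bb_ee _ _ _

theorem BM.bb_mul {π : Equiv.Perm (Fin N)} {W : Mat r S} (hW : BM nm π⁻¹ W) {a b : Fin N}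
    {y : Mat r S} (hy : BB nm a b y) : BB nm a (π b) (y * W) := by
  have h3 : W * ee nm (π b) = ee nm b * W := by
    have := hW.mul_ee (π b)
    rwa [show π⁻¹ (π b) = b from π.symm_apply_apply b] at this
  have h : y * W = ee nm a * (y * W) * ee nm (π b) := by
    rw [← mul_assoc, hy.ee_mul, mul_assoc, h3, ← mul_assoc, hy.mul_ee]
  rw [h]
  exact bb_ee _ _ _

theorem BM.conj {π : Equiv.Perm (Fin N)} {W W' : Mat r S} (hW : BM nm π W)
    (hW' : BM nm π⁻¹ W') {a b : Fin N} {y : Mat r S} (hy : BB nm a b y) :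
    BB nm (π a) (π b) (W * y * W') := hW'.bb_mul (hW.mul_bb hy)

theorem BM.bu_conj {π : Equiv.Perm (Fin N)} {W : Mat r S} (hW : BM nm π W) (h : IsUnit W)
    {k : Fin N → ℕ} {a b : Fin N} (hk : k (π a) < k (π b)) {y : Mat r S} (hy : BB nm a b y) :
    BU nm k (1 + W * y * W⁻¹) ∧ W * (1 + y) = (1 + W * y * W⁻¹) * W := by
  refine ⟨bu_one_add hk (hW.conj (hW.inv h) hy), ?_⟩
  rw [mul_add, mul_one, add_mul, one_mul, mul_assoc (W * y),
    nonsing_inv_mul _ ((isUnit_iff_isUnit_det _).1 h), mul_one]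

/-! ### The stay identity -/

theorem stay_block {a b : Fin N} (hab : a ≠ b) {y z : Mat r S} (hy : BB nm a b y)
    (hz : BB nm b a z) (h1 : y * z = ee nm a) (h2 : z * y = ee nm b) :
    1 + y = (1 + z) * (1 - ee nm a - ee nm b + y - z) * (1 + z) := by
  have e1 : ee nm a * z = 0 := hz.ee_mul_ne hab
  have e2 : z * ee nm b = 0 := hz.mul_ee_ne hab
  have e3 : z * ee nm a = z := hz.mul_ee
  have e4 : ee nm b * z = z := hz.ee_mul
  have e5 : z * z = 0 := hz.mul_self hab.symm
  simp only [mul_add, add_mul, mul_sub, sub_mul, one_mul, mul_one, h1, h2, e1, e2, e3, e4, e5,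
    zero_mul, mul_zero, mul_assoc]
  abel

theorem stay_mul {a b : Fin N} (hab : a ≠ b) {y z : Mat r S} (hy : BB nm a b y)
    (hz : BB nm b a z) (h1 : y * z = ee nm a) (h2 : z * y = ee nm b) :
    (1 - ee nm a - ee nm b + y - z) * (1 - ee nm a - ee nm b - y + z) = 1 := by
  have e1 : ee nm a * z = 0 := hz.ee_mul_ne hab
  have e2 : z * ee nm b = 0 := hz.mul_ee_ne hab
  have e3 : z * ee nm a = z := hz.mul_ee
  have e4 : ee nm b * z = z := hz.ee_mul
  have e5 : z * z = 0 := hz.mul_self hab.symm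
  have f1 : ee nm b * y = 0 := hy.ee_mul_ne hab.symm
  have f2 : y * ee nm a = 0 := hy.mul_ee_ne hab.symm
  have f3 : y * ee nm b = y := hy.mul_ee
  have f4 : ee nm a * y = y := hy.ee_mul
  have f5 : y * y = 0 := hy.mul_self hab
  have g1 : (ee nm a : Mat r S) * ee nm a = ee nm a := ee_mul_ee a
  have g2 : (ee nm b : Mat r S) * ee nm b = ee nm b := ee_mul_ee b
  have g3 : (ee nm a : Mat r S) * ee nm b = 0 := ee_mul_ee_ne hab
  have g4 : (ee nm b : Mat r S) * ee nm a = 0 := ee_mul_ee_ne hab.symm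
  simp only [mul_add, add_mul, mul_sub, sub_mul, one_mul, mul_one, h1, h2, e1, e2, e3, e4, e5,
    f1, f2, f3, f4, f5, g1, g2, g3, g4]
  abel

theorem stay_isUnit {a b : Fin N} (hab : a ≠ b) {y z : Mat r S} (hy : BB nm a b y)
    (hz : BB nm b a z) (h1 : y * z = ee nm a) (h2 : z * y = ee nm b) :
    IsUnit (1 - ee nm a - ee nm b + y - z : Mat r S) := by
  rw [isUnit_iff_isUnit_det]
  exact isUnit_det_of_right_inverse (stay_mul hab hy hz h1 h2)

theorem stay_bm {a b : Fin N} {y z : Mat r S} (hy : BB nm a b y)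
    (hz : BB nm b a z) : BM nm (Equiv.swap a b) (1 - ee nm a - ee nm b + y - z : Mat r S) := by
  intro i j h
  have e1 : (ee nm a : Mat r S) i j = if i = j then (if nm i = a then 1 else 0) else 0 := by
    rw [ee, diagonal_apply]
  have e2 : (ee nm b : Mat r S) i j = if i = j then (if nm i = b then 1 else 0) else 0 := by
    rw [ee, diagonal_apply]
  have e3 : y i j = 0 := hy i j fun h' => h (by rw [h'.1, h'.2, Equiv.swap_apply_right])
  have e4 : z i j = 0 := hz i j fun h' => h (by rw [h'.1, h'.2, Equiv.swap_apply_left])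
  rw [Matrix.sub_apply, Matrix.add_apply, Matrix.sub_apply, Matrix.sub_apply, e1, e2, e3, e4,
    one_apply]
  by_cases hij : i = j
  · subst hij
    rw [if_pos rfl, if_pos rfl, if_pos rfl]
    by_cases ha : nm i = a
    · by_cases hb : nm i = b
      · exfalso
        rw [← ha, ← hb, Equiv.swap_self] at h
        exact h rfl
      · rw [if_pos ha, if_neg hb]
        ring
    · by_cases hb : nm i = b
      · rw [if_neg ha, if_pos hb]
        ring
      · exfalso
        rw [Equiv.swap_apply_of_ne_of_ne ha hb] at h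
        exact h rfl
  · rw [if_neg hij, if_neg hij, if_neg hij]
    ring

end balg

/-! ### Symbols and circuits -/

section sym

variable {R S T : Type} [CommRing R] [CommRing S] [CommRing T] {r N : ℕ} {nm : Fin r → Fin N}

theorem Sy.ev_map (ι : R →+* S) (f : S →+* T) (y : ℕ → Mat r S × Mat r S) (s : Sy R N) :
    (Sy.ev nm ι y s).map f = Sy.ev nm (f.comp ι) (fun n => ((y n).1.map f, (y n).2.map f)) s := by
  cases s with
  | D d =>
    simp only [Sy.ev]
    rw [diagonal_map (map_zero f)]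
    rfl
  | Y a b n =>
    simp only [Sy.ev]
    rw [Matrix.map_sub f (fun x y => map_sub f x y), Matrix.map_add f (fun x y => map_add f x y),
      Matrix.map_sub f (fun x y => map_sub f x y), Matrix.map_sub f (fun x y => map_sub f x y),
      Matrix.map_one f (map_zero f) (map_one f), ee_map, ee_map]

theorem Valid.map {y : ℕ → Mat r S × Mat r S} {L : List (Sy R N)} (h : Valid nm y L)
    (f : S →+* T) : Valid nm (fun n => ((y n).1.map f, (y n).2.map f)) L := by
  intro a b n hn
  obtain ⟨h1, h2, h3, h4⟩ := h a b n hn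
  refine ⟨h1.map f, h2.map f, ?_, ?_⟩
  · change (y n).1.map f * (y n).2.map f = _
    rw [← Matrix.map_mul, h3, ee_map]
  · change (y n).2.map f * (y n).1.map f = _
    rw [← Matrix.map_mul, h4, ee_map]

theorem Valid.mono {y : ℕ → Mat r S × Mat r S} {L L' : List (Sy R N)} (h : Valid nm y L)
    (h' : ∀ s ∈ L', s ∈ L) : Valid nm y L' := fun a b n hn => h a b n (h' _ hn)

theorem Sy.ev_bm (ι : R →+* S) {y : ℕ → Mat r S × Mat r S} {L : List (Sy R N)}
    (h : Valid nm y L) {s : Sy R N} (hs : s ∈ L) : BM nm s.pm (Sy.ev nm ι y s) := by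
  cases s with
  | D d => exact bm_diagonal _
  | Y a b n => exact stay_bm (h a b n hs).1 (h a b n hs).2.1

theorem Sy.ev_isUnit (ι : R →+* S) {y : ℕ → Mat r S × Mat r S} {L : List (Sy R N)}
    (h : Valid nm y L) (hL : ∀ a b n, Sy.Y a b n ∈ L → a ≠ b) {s : Sy R N} (hs : s ∈ L) :
    IsUnit (Sy.ev nm ι y s) := by
  cases s with
  | D d =>
    rw [isUnit_iff_isUnit_det]
    refine isUnit_det_of_right_inverse
      (B := diagonal fun i => ι (((d (nm i))⁻¹ : Rˣ) : R)) ?_
    change diagonal (fun i => ι (d (nm i))) * _ = _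
    rw [diagonal_mul_diagonal, ← diagonal_one]
    congr 1
    funext i
    rw [← map_mul, Units.mul_inv, map_one]
  | Y a b n =>
    obtain ⟨h1, h2, h3, h4⟩ := h a b n hs
    exact stay_isUnit (hL a b n hs) h1 h2 h3 h4

theorem cev_nil (ι : R →+* S) (y : ℕ → Mat r S × Mat r S) :
    cev nm ι y ([] : List (Sy R N)) = 1 := rfl

theorem cev_append (ι : R →+* S) (y : ℕ → Mat r S × Mat r S) (L L' : List (Sy R N)) :
    cev nm ι y (L ++ L') = cev nm ι y L * cev nm ι y L' := by
  rw [cev, List.map_append, List.prod_append, cev, cev]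

theorem cev_singleton (ι : R →+* S) (y : ℕ → Mat r S × Mat r S) (s : Sy R N) :
    cev nm ι y [s] = Sy.ev nm ι y s := by
  rw [cev, List.map_singleton, List.prod_singleton]

theorem cpm_append (L L' : List (Sy R N)) : cpm (L ++ L') = cpm L * cpm L' := by
  rw [cpm, List.map_append, List.prod_append, cpm, cpm]

theorem cpm_singleton (s : Sy R N) : cpm [s] = s.pm := by
  rw [cpm, List.map_singleton, List.prod_singleton]

theorem cev_map (ι : R →+* S) (f : S →+* T) (y : ℕ → Mat r S × Mat r S) (L : List (Sy R N)) :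
    (cev nm ι y L).map f = cev nm (f.comp ι) (fun n => ((y n).1.map f, (y n).2.map f)) L := by
  induction L with
  | nil => exact Matrix.map_one f (map_zero f) (map_one f)
  | cons s L ih =>
    have h1 : ∀ {S' : Type} [CommRing S'] (ι' : R →+* S') (y' : ℕ → Mat r S' × Mat r S'),
        cev nm ι' y' (s :: L) = Sy.ev nm ι' y' s * cev nm ι' y' L := by
      intro S' _ ι' y'
      rw [cev, List.map_cons, List.prod_cons, cev]
    rw [h1, h1, Matrix.map_mul, ih, Sy.ev_map]

theorem cev_bm (ι : R →+* S) {y : ℕ → Mat r S × Mat r S} {L : List (Sy R N)}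
    (h : Valid nm y L) : BM nm (cpm L) (cev nm ι y L) := by
  induction L with
  | nil => exact bm_one
  | cons s L ih =>
    rw [cev, cpm, List.map_cons, List.prod_cons, List.map_cons, List.prod_cons]
    exact (Sy.ev_bm ι h (List.mem_cons_self)).mul (ih (h.mono fun s hs => List.mem_cons_of_mem _ hs))

theorem cev_isUnit (ι : R →+* S) {y : ℕ → Mat r S × Mat r S} {L : List (Sy R N)}
    (h : Valid nm y L) (hL : ∀ a b n, Sy.Y a b n ∈ L → a ≠ b) : IsUnit (cev nm ι y L) := by
  induction L with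
  | nil => exact isUnit_one
  | cons s L ih =>
    rw [cev, List.map_cons, List.prod_cons]
    exact (Sy.ev_isUnit ι h hL (List.mem_cons_self)).mul
      (ih (h.mono fun s hs => List.mem_cons_of_mem _ hs)
        fun a b n hn => hL a b n (List.mem_cons_of_mem _ hn))

/-- The value depends only on the variables which occur. -/
theorem cev_congr (ι : R →+* S) {y y' : ℕ → Mat r S × Mat r S} {L : List (Sy R N)}
    (h : ∀ a b n, Sy.Y a b n ∈ L → y n = y' n) : cev nm ι y L = cev nm ι y' L := by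
  rw [cev, cev]
  congr 1
  refine List.map_congr_left fun s hs => ?_
  cases s with
  | D d => rfl
  | Y a b n =>
    simp only [Sy.ev]
    rw [h a b n hs]

/-! ### Cells -/

theorem InCell.bu_mul {k : Fin N → ℕ} {W X : Mat r S} (h : InCell nm k W X) {b : Mat r S}
    (hb : BU nm (bk N) b) : InCell nm k W (b * X) := by
  obtain ⟨b', v, hb', hv, rfl⟩ := h
  exact ⟨b * b', v, hb.mul hb', hv, by simp only [mul_assoc]⟩

theorem InCell.mul_bu {k : Fin N → ℕ} {W X : Mat r S} (h : InCell nm k W X) {v : Mat r S}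
    (hv : BU nm k v) : InCell nm k W (X * v) := by
  obtain ⟨b', v', hb', hv', rfl⟩ := h
  exact ⟨b', v' * v, hb', hv'.mul hv, by simp only [mul_assoc]⟩

theorem InCell.map {k : Fin N → ℕ} {W X : Mat r S} (h : InCell nm k W X) (f : S →+* T) :
    InCell nm k (W.map f) (X.map f) := by
  obtain ⟨b', v', hb', hv', rfl⟩ := h
  exact ⟨_, _, hb'.map f, hv'.map f, by rw [Matrix.map_mul, Matrix.map_mul]⟩

theorem inCell_self (k : Fin N → ℕ) (W : Mat r S) : InCell nm k W W :=
  ⟨1, 1, bu_one _, bu_one _, by rw [one_mul, mul_one]⟩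

end sym

end Vale.Agent.P002B
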