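import Vale.Agent.P002B.Stmts2

/-!
# P002, genus 0, arbitrary classes: adapted bases of chains (T6b)
-/

namespace Vale.Agent.P002B

open Matrix Vale.Agent.P002R Vale.Agent.P002L

namespace BasisH

variable {r : ℕ}

theorem step (ℱ : Set (Submodule ℂ (Fin r → ℂ))) (hT : ⊤ ∈ ℱ) (hc : IsChain (· ≤ ·) ℱ)
    (S : Submodule ℂ (Fin r → ℂ)) (hS : ∀ H ∈ ℱ, H ≤ S ∨ S ≤ H) (hne : S ≠ ⊤) :
    ∃ v, v ∉ S ∧ ∀ H ∈ ℱ, H ≤ S ⊔ Submodule.span ℂ {v} ∨ S ⊔ Submodule.span ℂ {v} ≤ H := by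
  obtain ⟨G, ⟨hG, hGS⟩, hmin⟩ := WellFounded.has_min
    (wellFounded_lt : WellFounded ((· < ·) : Submodule ℂ (Fin r → ℂ) → _ → Prop))
    {G | G ∈ ℱ ∧ ¬ G ≤ S} ⟨⊤, hT, fun h => hne (top_le_iff.1 h)⟩
  obtain ⟨v, hvG, hvS⟩ := SetLike.not_le_iff_exists.1 hGS
  refine ⟨v, hvS, fun H hH => ?_⟩
  rcases hS H hH with h | h
  · exact Or.inl (h.trans le_sup_left)
  · by_cases hHS : H ≤ S
    · exact Or.inl (hHS.trans le_sup_left)
    · refine Or.inr (sup_le h ?_)
      rw [Submodule.span_singleton_le_iff_mem]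
      have : G ≤ H := by
        by_contra hn
        rcases hc.total hG hH with h1 | h1
        · exact hn h1
        · exact hmin H ⟨hH, hHS⟩ (lt_of_le_not_ge h1 hn)
      exact this hvG

theorem finrank_succ (S : Submodule ℂ (Fin r → ℂ)) (v : Fin r → ℂ) (hv : v ∉ S) :
    Module.finrank ℂ (S ⊔ Submodule.span ℂ {v} : Submodule ℂ (Fin r → ℂ)) =
      Module.finrank ℂ S + 1 := by
  have h1 := Submodule.finrank_sup_add_finrank_inf_eq S (Submodule.span ℂ {v})
  have h2 : S ⊓ Submodule.span ℂ {v} = ⊥ := by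
    rw [eq_bot_iff]
    intro x hx
    obtain ⟨hx1, hx2⟩ := Submodule.mem_inf.1 hx
    obtain ⟨c, rfl⟩ := Submodule.mem_span_singleton.1 hx2
    by_cases hc : c = 0
    · rw [hc, zero_smul]
      exact Submodule.zero_mem _
    · exact absurd ((Submodule.smul_mem_iff S hc).1 hx1) hv
  have h3 : v ≠ 0 := fun h => hv (h ▸ S.zero_mem)
  rw [h2, finrank_bot, add_zero, finrank_span_singleton h3] at h1
  exact h1

/-- The span of the first vectors. -/
def Sp (v : ℕ → Fin r → ℂ) (k : ℕ) : Submodule ℂ (Fin r → ℂ) :=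
  Submodule.span ℂ (v '' {i | i < k})

theorem Sp_congr {v w : ℕ → Fin r → ℂ} {k : ℕ} (h : ∀ i < k, v i = w i) : Sp v k = Sp w k := by
  have h1 : v '' {i | i < k} = w '' {i | i < k} := Set.image_congr fun i hi => h i hi
  rw [Sp, Sp, h1]

theorem Sp_succ (v : ℕ → Fin r → ℂ) (k : ℕ) :
    Sp v (k + 1) = Sp v k ⊔ Submodule.span ℂ {v k} := by
  rw [Sp, Sp, ← Submodule.span_union]
  congr 1
  ext x
  constructor
  · rintro ⟨i, hi, rfl⟩
    rcases Nat.lt_succ_iff_lt_or_eq.1 hi with h | h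
    · exact Or.inl ⟨i, h, rfl⟩
    · exact Or.inr (by rw [h]; rfl)
  · rintro (⟨i, hi, rfl⟩ | h)
    · exact ⟨i, Nat.lt_succ_of_lt hi, rfl⟩
    · exact ⟨k, Nat.lt_succ_self k, h.symm⟩

theorem seq (ℱ : Set (Submodule ℂ (Fin r → ℂ))) (hT : ⊤ ∈ ℱ) (hc : IsChain (· ≤ ·) ℱ) (k : ℕ)
    (hk : k ≤ r) : ∃ v : ℕ → Fin r → ℂ, ∀ j ≤ k, (∀ H ∈ ℱ, H ≤ Sp v j ∨ Sp v j ≤ H) ∧
      Module.finrank ℂ (Sp v j) = j := by
  induction k with
  | zero =>
    refine ⟨fun _ => 0, fun j hj => ?_⟩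
    obtain rfl : j = 0 := Nat.le_zero.1 hj
    have h0 : Sp (r := r) (fun _ => 0) 0 = ⊥ := by
      rw [Sp]
      simp
    rw [h0]
    exact ⟨fun H _ => Or.inr bot_le, finrank_bot ℂ _⟩
  | succ k ih =>
    obtain ⟨v, hv⟩ := ih (Nat.le_of_succ_le hk)
    have hne : Sp v k ≠ ⊤ := by
      intro h
      have h1 := (hv k le_rfl).2
      rw [h, finrank_top, Module.finrank_fin_fun] at h1
      omega
    obtain ⟨x, hx, hx'⟩ := step ℱ hT hc (Sp v k) (hv k le_rfl).1 hne
    have hagree : ∀ j ≤ k, Sp (Function.update v k x) j = Sp v j := fun j hj =>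
      Sp_congr fun i hi => Function.update_of_ne (by omega) _ _
    refine ⟨Function.update v k x, fun j hj => ?_⟩
    rcases Nat.lt_or_ge k j with h | h
    · obtain rfl : j = k + 1 := by omega
      rw [Sp_succ, hagree k le_rfl, Function.update_self]
      exact ⟨hx', by rw [finrank_succ _ _ hx, (hv k le_rfl).2]⟩
    · rw [hagree j h]
      exact hv j h

theorem numbering (D : Finset ℕ) (h0 : 0 ∈ D) (hr : r ∈ D) (hle : ∀ n ∈ D, n ≤ r) :
    ∃ (N : ℕ) (nm : Fin r → Fin N) (d : ℕ → ℕ), Monotone nm ∧ Function.Surjective nm ∧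
      (∀ t ≤ N, d t ∈ D) ∧ (∀ n ∈ D, ∃ t ≤ N, d t = n) ∧
      ∀ t ≤ N, ∀ i : Fin r, t ≤ (nm i : ℕ) ↔ d t ≤ i := by
  have hcard : 0 < D.card := Finset.card_pos.2 ⟨0, h0⟩
  obtain ⟨N, hN⟩ : ∃ N, D.card = N + 1 := ⟨D.card - 1, by omega⟩
  let e := D.orderEmbOfFin hN
  have hrange : ∀ n, n ∈ D ↔ ∃ t, e t = n := by
    intro n
    have h1 := Finset.range_orderEmbOfFin D hN
    have h2 : n ∈ Set.range e ↔ n ∈ (D : Set ℕ) := by rw [h1]
    exact h2.symm.trans Iff.rfl |>.trans Iff.rfl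
  let d : ℕ → ℕ := fun t => if h : t < N + 1 then e ⟨t, h⟩ else 0
  have hd : ∀ t (h : t < N + 1), d t = e ⟨t, h⟩ := fun t h => dif_pos h
  have hmono : ∀ s t, s < t → t ≤ N → d s < d t := by
    intro s t hst ht
    rw [hd s (by omega), hd t (by omega)]
    exact e.strictMono hst
  have hmono' : ∀ s t, s ≤ t → t ≤ N → d s ≤ d t := by
    intro s t hst ht
    rcases Nat.lt_or_ge s t with h | h
    · exact (hmono s t h ht).le
    · rw [le_antisymm hst h]
  have hmem : ∀ t ≤ N, d t ∈ D := by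
    intro t ht
    rw [hd t (by omega)]
    exact (hrange _).2 ⟨_, rfl⟩
  have hsurj : ∀ n ∈ D, ∃ t ≤ N, d t = n := by
    intro n hn
    obtain ⟨t, ht⟩ := (hrange n).1 hn
    exact ⟨t, by omega, by rw [hd t t.2, ← ht]⟩
  have hd0 : d 0 = 0 := by
    obtain ⟨t, ht, h1⟩ := hsurj 0 h0
    have := hmono' 0 t (Nat.zero_le t) ht
    omega
  have hdN : d N = r := by
    obtain ⟨t, ht, h1⟩ := hsurj r hr
    have h2 := hmono' t N ht le_rfl
    have h3 := hle _ (hmem N le_rfl)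
    omega
  have hlt : ∀ i : Fin r, Nat.findGreatest (fun t => d t ≤ i) N < N := by
    intro i
    have h1 : Nat.findGreatest (fun t => d t ≤ i) N ≤ N := Nat.findGreatest_le N
    rcases Nat.lt_or_ge (Nat.findGreatest (fun t => d t ≤ i) N) N with h | h
    · exact h
    · have h2 : d (Nat.findGreatest (fun t => d t ≤ i) N) ≤ i :=
        Nat.findGreatest_spec (P := fun t => d t ≤ i) (m := 0) (Nat.zero_le N)
          (by rw [hd0]; exact Nat.zero_le _)
      rw [le_antisymm h1 h, hdN] at h2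
      exact absurd i.2 (not_lt.2 h2)
  have hiff : ∀ t ≤ N, ∀ i : Fin r, t ≤ Nat.findGreatest (fun t => d t ≤ i) N ↔ d t ≤ i := by
    intro t ht i
    constructor
    · intro h
      have h2 : d (Nat.findGreatest (fun t => d t ≤ i) N) ≤ i :=
        Nat.findGreatest_spec (P := fun t => d t ≤ i) (m := 0) (Nat.zero_le N)
          (by rw [hd0]; exact Nat.zero_le _)
      exact (hmono' _ _ h (Nat.findGreatest_le N)).trans h2
    · intro h
      exact Nat.le_findGreatest ht h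
  refine ⟨N, fun i => ⟨_, hlt i⟩, d, ?_, ?_, hmem, hsurj, hiff⟩
  · intro i j hij
    change Nat.findGreatest (fun t => d t ≤ i) N ≤ Nat.findGreatest (fun t => d t ≤ j) N
    rw [hiff _ (Nat.findGreatest_le N)]
    exact ((hiff _ (Nat.findGreatest_le N) i).1 le_rfl).trans hij
  · intro t
    have hdt : d t < r := by
      rw [← hdN]
      exact hmono t N t.2 le_rfl
    refine ⟨⟨d t, hdt⟩, ?_⟩
    apply Fin.ext
    change Nat.findGreatest (fun s => d s ≤ d t) N = t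
    have h1 := (hiff t t.2.le ⟨d t, hdt⟩).2 le_rfl
    apply le_antisymm _ h1
    by_contra h2
    have h3 := (hiff (t + 1) t.2 ⟨d t, hdt⟩).1 (by omega)
    have h4 := hmono t (t + 1) (Nat.lt_succ_self t) t.2
    have h5 : d (t + 1) ≤ d t := h3
    omega

end BasisH

/-- T6b. -/
theorem basisStmtH : BasisStmt := by
  classical
  intro r ℱ hB hT hc
  obtain ⟨v, hv⟩ := BasisH.seq ℱ hT hc r le_rfl
  let g₀ : Mat r ℂ := Matrix.of fun i j => v j i
  have hmul : ∀ x : Fin r → ℂ, g₀ *ᵥ x = ∑ j : Fin r, x j • v j := by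
    intro x
    ext i
    rw [Matrix.mulVec, dotProduct, Finset.sum_apply]
    refine Finset.sum_congr rfl fun j _ => ?_
    rw [Pi.smul_apply, smul_eq_mul, mul_comm]
    rfl
  have hSp : ∀ n ≤ r, ∀ S : Submodule ℂ (Fin r → ℂ), (∀ x, x ∈ S ↔ ∀ i : Fin r, n ≤ i → x i = 0) →
      BasisH.Sp v n = S.map (Matrix.mulVecLin g₀) := by
    intro n hn S hS
    apply le_antisymm
    · rw [BasisH.Sp, Submodule.span_le]
      rintro _ ⟨i, hi, rfl⟩
      have hi' : i < n := hi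
      refine ⟨Pi.single ⟨i, by omega⟩ 1, ?_, ?_⟩
      · rw [SetLike.mem_coe, hS]
        intro j hj
        apply Pi.single_eq_of_ne
        intro h
        rw [h] at hj
        exact absurd hi' (not_lt.2 hj)
      · rw [Matrix.mulVecLin_apply, hmul, Finset.sum_eq_single (⟨i, by omega⟩ : Fin r)]
        · rw [Pi.single_eq_same, one_smul]
        · intro j _ hj
          rw [Pi.single_eq_of_ne hj, zero_smul]
        · intro h
          exact absurd (Finset.mem_univ _) h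
    · rintro _ ⟨x, hx, rfl⟩
      rw [SetLike.mem_coe, hS] at hx
      rw [Matrix.mulVecLin_apply, hmul]
      refine Submodule.sum_mem _ fun j _ => ?_
      rcases Nat.lt_or_ge j n with h | h
      · exact Submodule.smul_mem _ _ (Submodule.subset_span ⟨j, h, rfl⟩)
      · rw [hx j h, zero_smul]
        exact Submodule.zero_mem _
  have hu : IsUnit g₀ := by
    rw [← Matrix.mulVec_surjective_iff_isUnit]
    intro y
    have h1 : BasisH.Sp v r = ⊤ := by
      apply Submodule.eq_top_of_finrank_eq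
      rw [(hv r le_rfl).2, Module.finrank_fin_fun]
    have h2 := hSp r le_rfl ⊤ fun x => ⟨fun _ i hi => absurd i.2 (not_lt.2 hi), fun _ => trivial⟩
    have h3 : y ∈ (⊤ : Submodule ℂ (Fin r → ℂ)).map (Matrix.mulVecLin g₀) := by
      rw [← h2, h1]
      trivial
    obtain ⟨x, _, hx⟩ := h3
    exact ⟨x, hx⟩
  obtain ⟨g, hg⟩ := hu
  have hmemD : ∀ n, n ∈ (Finset.range (r + 1)).filter (fun n => ∃ G ∈ ℱ, Module.finrank ℂ G = n) ↔
      ∃ G ∈ ℱ, Module.finrank ℂ G = n := by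
    intro n
    rw [Finset.mem_filter, Finset.mem_range]
    refine ⟨fun h => h.2, fun h => ⟨?_, h⟩⟩
    obtain ⟨G, _, rfl⟩ := h
    have := Submodule.finrank_le G
    rw [Module.finrank_fin_fun] at this
    omega
  obtain ⟨N, nm, d, hmono, hsurj, hd1, hd2, hd3⟩ := BasisH.numbering (r := r)
    ((Finset.range (r + 1)).filter (fun n => ∃ G ∈ ℱ, Module.finrank ℂ G = n))
    ((hmemD 0).2 ⟨⊥, hB, finrank_bot ℂ _⟩)
    ((hmemD r).2 ⟨⊤, hT, by rw [finrank_top, Module.finrank_fin_fun]⟩)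
    (fun n hn => by
      have := Finset.mem_range.1 (Finset.mem_filter.1 hn).1
      omega)
  have hG : ∀ G ∈ ℱ, G = BasisH.Sp v (Module.finrank ℂ G) := by
    intro G hG
    have hle : Module.finrank ℂ G ≤ r := by
      have := Submodule.finrank_le G
      rwa [Module.finrank_fin_fun] at this
    rcases (hv _ hle).1 G hG with h | h
    · exact Submodule.eq_of_le_of_finrank_eq h (hv _ hle).2.symm
    · exact (Submodule.eq_of_le_of_finrank_eq h (hv _ hle).2).symm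
  have hFl : ∀ t ≤ N, (Fl nm t).map (Matrix.mulVecLin (g : Mat r ℂ)) = BasisH.Sp v (d t) := by
    intro t ht
    rw [hg]
    refine (hSp (d t) ?_ _ fun x => ?_).symm
    · have := Finset.mem_range.1 (Finset.mem_filter.1 (hd1 t ht)).1
      omega
    · exact forall_congr' fun i => by rw [hd3 t ht i]
  refine ⟨g, N, nm, hmono, hsurj, fun G => ⟨fun h => ?_, ?_⟩⟩
  · obtain ⟨t, ht, ht'⟩ := hd2 _ ((hmemD _).2 ⟨G, h, rfl⟩)
    exact ⟨t, ht, by rw [hFl t ht, ht']; exact hG G h⟩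
  · rintro ⟨t, ht, rfl⟩
    obtain ⟨G, h1, h2⟩ := (hmemD _).1 (hd1 t ht)
    rw [hFl t ht, ← h2, ← hG G h1]
    exact h1

end Vale.Agent.P002B
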