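import Vale.Agent.P002B.Stmts2

/-!
# P002, genus 0, arbitrary classes: adapted bases of chains (T6b)
-/

namespace Vale.Agent.P002B

open Matrix Vale.Agent.P002R Vale.Agent.P002L

/-- Linearly independent vectors in given large subspaces. -/
theorem exists_linInd {r : ℕ} (M : ℕ → Submodule ℂ (Fin r → ℂ))
    (hM : ∀ i < r, i < Module.finrank ℂ (M i)) :
    ∀ k ≤ r, ∃ v : Fin k → (Fin r → ℂ), LinearIndependent ℂ v ∧ ∀ i : Fin k, v i ∈ M i := by
  intro k
  induction k with
  | zero => exact fun _ => ⟨Fin.elim0, linearIndependent_empty_type, fun i => i.elim0⟩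
  | succ k ih =>
    intro hk
    obtain ⟨v, hv, hm⟩ := ih (by omega)
    have h1 : ¬ M k ≤ Submodule.span ℂ (Set.range v) := by
      intro h
      have h2 := Submodule.finrank_mono h
      rw [finrank_span_eq_card hv, Fintype.card_fin] at h2
      have := hM k (by omega)
      omega
    obtain ⟨x, hx, hx'⟩ := Set.not_subset.1 h1
    refine ⟨Fin.snoc v x, linearIndependent_finSnoc.2 ⟨hv, hx'⟩, fun i => ?_⟩
    refine Fin.lastCases ?_ (fun j => ?_) i
    · rw [Fin.snoc_last, Fin.val_last]
      exact hx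
    · rw [Fin.snoc_castSucc, Fin.val_castSucc]
      exact hm j

/-- The smallest member of a chain of dimension larger than `i`. -/
theorem exists_least {r : ℕ} {ℱ : Set (Submodule ℂ (Fin r → ℂ))} (hT : ⊤ ∈ ℱ)
    (hc : IsChain (· ≤ ·) ℱ) (i : ℕ) (hi : i < r) :
    ∃ G ∈ ℱ, i < Module.finrank ℂ G ∧ ∀ G' ∈ ℱ, i < Module.finrank ℂ G' → G ≤ G' := by
  classical
  have hex : ∃ d, ∃ G ∈ ℱ, Module.finrank ℂ G = d ∧ i < d := by
    refine ⟨r, ⊤, hT, ?_, hi⟩
    rw [finrank_top, Module.finrank_fin_fun]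
  obtain ⟨G, hG, hd, hid⟩ := Nat.find_spec hex
  refine ⟨G, hG, by rw [hd]; exact hid, fun G' hG' hi' => ?_⟩
  rcases hc.total hG hG' with h | h
  · exact h
  · have h1 : Nat.find hex ≤ Module.finrank ℂ G' := Nat.find_min' hex ⟨G', hG', rfl, hi'⟩
    have h2 : Module.finrank ℂ G' ≤ Module.finrank ℂ G := Submodule.finrank_mono h
    exact (Submodule.eq_of_le_of_finrank_eq h (by omega)).ge

/-- An adapted basis. -/
theorem exists_adapted {r : ℕ} {ℱ : Set (Submodule ℂ (Fin r → ℂ))} (hT : ⊤ ∈ ℱ)
    (hc : IsChain (· ≤ ·) ℱ) : ∃ v : Fin r → (Fin r → ℂ), LinearIndependent ℂ v ∧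
      ∀ G ∈ ℱ, ∀ i : Fin r, (i : ℕ) < Module.finrank ℂ G → v i ∈ G := by
  classical
  choose! M hM using fun (i : ℕ) (hi : i < r) => exists_least hT hc i hi
  obtain ⟨v, hv, hm⟩ := exists_linInd M (fun i hi => (hM i hi).2.1) r le_rfl
  exact ⟨v, hv, fun G hG i hi => (hM i i.2).2.2 G hG hi (hm i)⟩

/-- The members of the chain in an adapted basis. -/
theorem map_Fl_eq {r N : ℕ} {nm : Fin r → Fin N} {v : Fin r → (Fin r → ℂ)}
    (hv : LinearIndependent ℂ v) {G : Submodule ℂ (Fin r → ℂ)}
    (hG : ∀ i : Fin r, (i : ℕ) < Module.finrank ℂ G → v i ∈ G) {t : ℕ}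
    (ht : ∀ i : Fin r, (nm i : ℕ) < t ↔ (i : ℕ) < Module.finrank ℂ G) :
    (Fl nm t).map (Matrix.mulVecLin (Matrix.of fun a i => v i a)) = G := by
  classical
  have hcol : ∀ x : Fin r → ℂ, (Matrix.of fun a i => v i a) *ᵥ x = ∑ i, x i • v i := by
    intro x
    funext a
    rw [Matrix.mulVec, Finset.sum_apply]
    refine Finset.sum_congr rfl fun i _ => ?_
    simp [mul_comm]
  have h1 : (Fl nm t).map (Matrix.mulVecLin (Matrix.of fun a i => v i a)) ≤ G := by
    rintro _ ⟨x, hx, rfl⟩
    rw [Matrix.mulVecLin_apply, hcol]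
    refine Submodule.sum_mem _ fun i _ => ?_
    by_cases h : (nm i : ℕ) < t
    · exact Submodule.smul_mem _ _ (hG i ((ht i).1 h))
    · have : x i = 0 := hx i (not_lt.1 h)
      rw [this, zero_smul]
      exact Submodule.zero_mem _
  set d := Module.finrank ℂ G with hd
  have hdr : d ≤ r := by
    have := Submodule.finrank_le G
    rwa [Module.finrank_fin_fun] at this
  let u : Fin d → (Fin r → ℂ) := fun j => v (Fin.castLE hdr j)
  have hu : LinearIndependent ℂ u := hv.comp _ (Fin.castLE_injective hdr)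
  have h2 : Submodule.span ℂ (Set.range u) ≤
      (Fl nm t).map (Matrix.mulVecLin (Matrix.of fun a i => v i a)) := by
    rw [Submodule.span_le]
    rintro _ ⟨j, rfl⟩
    refine ⟨Pi.single (Fin.castLE hdr j) 1, fun i hi => ?_, ?_⟩
    · refine Pi.single_eq_of_ne ?_ _
      rintro rfl
      have := (ht (Fin.castLE hdr j)).2 (by simp)
      omega
    · rw [Matrix.mulVecLin_apply, hcol]
      simp [Pi.single_apply, u]
  have h3 : Submodule.span ℂ (Set.range u) = G := by
    refine Submodule.eq_of_le_of_finrank_eq (h2.trans h1) ?_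
    rw [finrank_span_eq_card hu, Fintype.card_fin]
  exact le_antisymm h1 (h3 ▸ h2)

theorem basisStmt : BasisStmt := by
  classical
  intro r ℱ hB hT hc
  obtain ⟨v, hv, hm⟩ := exists_adapted hT hc
  -- the dimensions of the members
  set D : Finset ℕ := (Finset.range (r + 1)).filter fun d => ∃ G ∈ ℱ, Module.finrank ℂ G = d
    with hD
  have memD : ∀ G ∈ ℱ, Module.finrank ℂ G ∈ D := fun G hG => by
    rw [hD, Finset.mem_filter, Finset.mem_range]
    refine ⟨?_, G, hG, rfl⟩
    have := Submodule.finrank_le G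
    rw [Module.finrank_fin_fun] at this
    omega
  have h0 : 0 ∈ D := by
    have := memD _ hB
    rwa [finrank_bot] at this
  have hr : r ∈ D := by
    have := memD _ hT
    rwa [finrank_top, Module.finrank_fin_fun] at this
  have hle : ∀ d ∈ D, d ≤ r := fun d hd => by
    have := (Finset.mem_filter.1 hd).1
    rw [Finset.mem_range] at this
    omega
  -- ranks
  let lo : ℕ → ℕ := fun d => (D.filter (· < d)).card
  let le' : ℕ → ℕ := fun d => (D.filter (· ≤ d)).card
  have le_pos : ∀ d, 0 < le' d := fun d => Finset.card_pos.2 ⟨0, by simp [h0]⟩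
  have le_of_mem : ∀ d ∈ D, le' d = lo d + 1 := by
    intro d hd
    have : D.filter (· ≤ d) = insert d (D.filter (· < d)) := by
      ext x
      simp only [Finset.mem_filter, Finset.mem_insert]
      constructor
      · rintro ⟨h1, h2⟩
        rcases h2.lt_or_eq with h3 | h3
        · exact Or.inr ⟨h1, h3⟩
        · exact Or.inl h3
      · rintro (rfl | ⟨h1, h2⟩)
        · exact ⟨hd, le_rfl⟩
        · exact ⟨h1, h2.le⟩
    show (D.filter (· ≤ d)).card = _
    rw [this, Finset.card_insert_of_notMem (by simp)]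
  have lo_mono : ∀ {d d'}, d ≤ d' → lo d ≤ lo d' := fun h =>
    Finset.card_le_card fun x hx => by
      rw [Finset.mem_filter] at hx ⊢
      exact ⟨hx.1, by omega⟩
  have le_mono : ∀ {d d'}, d ≤ d' → le' d ≤ le' d' := fun h =>
    Finset.card_le_card fun x hx => by
      rw [Finset.mem_filter] at hx ⊢
      exact ⟨hx.1, by omega⟩
  have le_lo : ∀ {d d'}, d < d' → le' d ≤ lo d' := fun h =>
    Finset.card_le_card fun x hx => by
      rw [Finset.mem_filter] at hx ⊢
      exact ⟨hx.1, by omega⟩
  have le_r : le' r = D.card := by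
    show (D.filter (· ≤ r)).card = _
    rw [Finset.filter_true_of_mem hle]
  have lo_r : lo r + 1 = D.card := by rw [← le_of_mem r hr, le_r]
  -- the names
  have hlt : ∀ i : Fin r, le' i - 1 < D.card - 1 := fun i => by
    have h1 := le_lo i.2
    have h2 := le_pos i
    omega
  let nm : Fin r → Fin (D.card - 1) := fun i => ⟨le' i - 1, hlt i⟩
  have hnm : ∀ d ∈ D, ∀ i : Fin r, (nm i : ℕ) < lo d ↔ (i : ℕ) < d := by
    intro d hd i
    show le' i - 1 < lo d ↔ _
    have h2 := le_pos i
    constructor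
    · intro h
      by_contra h3
      have h4 := le_mono (not_lt.1 h3)
      rw [le_of_mem d hd] at h4
      omega
    · intro h
      have := le_lo h
      omega
  -- every rank occurs
  have hsurj : ∀ t < D.card, ∃ d ∈ D, lo d = t := by
    have hinj : Set.InjOn lo (D : Set ℕ) := by
      intro d hd d' hd' h
      rcases lt_trichotomy d d' with h1 | h1 | h1
      · have h2 := le_lo h1
        rw [le_of_mem d hd] at h2
        omega
      · exact h1
      · have h2 := le_lo h1
        rw [le_of_mem d' hd'] at h2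
        omega
    have hmaps : Set.MapsTo lo (D : Set ℕ) (Finset.range D.card : Finset ℕ) := by
      intro d hd
      rw [Finset.mem_coe, Finset.mem_range]
      have := lo_mono (hle d hd)
      omega
    have := Finset.surjOn_of_injOn_of_card_le lo hmaps hinj (by rw [Finset.card_range])
    intro t ht
    obtain ⟨d, hd, hd'⟩ := this (by rw [Finset.mem_coe, Finset.mem_range]; exact ht)
    exact ⟨d, hd, hd'⟩
  have hunit : IsUnit (Matrix.of fun a i => v i a : Mat r ℂ) :=
    Matrix.linearIndependent_cols_iff_isUnit.1 hv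
  refine ⟨hunit.unit, D.card - 1, nm, ?_, ?_, fun G => ?_⟩
  · intro i j hij
    show le' i - 1 ≤ le' j - 1
    have := le_mono (d := (i : ℕ)) (d' := j) hij
    omega
  · intro t
    obtain ⟨d, hd, hdt⟩ := hsurj t (by omega)
    have hdr : d < r := by
      refine lt_of_le_of_ne (hle d hd) ?_
      rintro rfl
      omega
    refine ⟨⟨d, hdr⟩, Fin.ext ?_⟩
    show le' d - 1 = t
    rw [le_of_mem d hd]
    omega
  · rw [IsUnit.unit_spec]
    constructor
    · intro hG
      have hd := memD G hG
      refine ⟨lo (Module.finrank ℂ G), ?_, (map_Fl_eq hv (hm G hG) (hnm _ hd)).symm⟩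
      have := lo_mono (hle _ hd)
      omega
    · rintro ⟨t, ht, rfl⟩
      obtain ⟨d, hd, rfl⟩ := hsurj t (by have := le_pos r; omega)
      obtain ⟨-, G, hG, rfl⟩ := Finset.mem_filter.1 hd
      rw [map_Fl_eq hv (hm G hG) (hnm _ hd)]
      exact hG

end Vale.Agent.P002B
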