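import Vale.Agent.P002B.Defs

/-!
# P002, genus 0, arbitrary classes: block cells
-/

namespace Vale.Agent.P002B

open Matrix Vale.Agent.P002R Vale.Agent.P002L

variable {r N : ℕ}

/-! ### Block unipotent matrices -/

theorem cell_BU_one {S : Type*} [CommRing S] (nm : Fin r → Fin N) (k : Fin N → ℕ) :
    BU nm k (1 : Mat r S) := fun _ _ _ => rfl

theorem cell_BU_mul {S : Type*} [CommRing S] {nm : Fin r → Fin N} {k : Fin N → ℕ} {u v : Mat r S}
    (hu : BU nm k u) (hv : BU nm k v) : BU nm k (u * v) := by
  intro i j hij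
  rw [Matrix.mul_apply, Finset.sum_eq_single i]
  · rw [hu i i (lt_irrefl _), Matrix.one_apply_eq, one_mul, hv i j hij]
  · intro l _ hl
    by_cases h : k (nm i) < k (nm l)
    · have h2 : ¬ k (nm l) < k (nm j) := fun h' => hij (h.trans h')
      have h3 : l ≠ j := by
        rintro rfl
        exact hij h
      rw [hv l j h2, Matrix.one_apply_ne h3, mul_zero]
    · rw [hu i l h, Matrix.one_apply_ne (Ne.symm hl), zero_mul]
  · intro h
    exact absurd (Finset.mem_univ _) h

/-- The powers of the strictly upper part. -/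
theorem cell_pow {S : Type*} [CommRing S] {nm : Fin r → Fin N} {k : Fin N → ℕ} {u : Mat r S}
    (hu : BU nm k u) (m : ℕ) :
    ∀ i j, ¬ k (nm i) + m ≤ k (nm j) → ((1 - u) ^ m) i j = if m = 0 then (1 : Mat r S) i j else 0 := by
  induction m with
  | zero =>
    intro i j _
    simp
  | succ m ih =>
    intro i j hij
    rw [if_neg (Nat.succ_ne_zero m), pow_succ, Matrix.mul_apply]
    refine Finset.sum_eq_zero fun l _ => ?_
    by_cases h : k (nm l) < k (nm j)
    · rw [ih i l (by omega)]
      split_ifs with h0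
      · subst h0
        by_cases hil : i = l
        · subst hil
          omega
        · rw [Matrix.one_apply_ne hil, zero_mul]
      · rw [zero_mul]
    · rw [Matrix.sub_apply, hu l j h, sub_self, mul_zero]

theorem cell_pow_lt {S : Type*} [CommRing S] {nm : Fin r → Fin N} {k : Fin N → ℕ} {u : Mat r S}
    (hu : BU nm k u) (m : ℕ) (hm : m ≠ 0) :
    ∀ i j, ¬ k (nm i) < k (nm j) → ((1 - u) ^ m) i j = 0 := by
  intro i j hij
  rw [cell_pow hu m i j (by omega), if_neg hm]

/-- Block unipotent matrices are invertible and the inverse is block unipotent. -/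
theorem cell_BU_inv {S : Type*} [CommRing S] {nm : Fin r → Fin N} {k : Fin N → ℕ} {u : Mat r S}
    (hu : BU nm k u) : ∃ u' : Mat r S, BU nm k u' ∧ u * u' = 1 ∧ u' * u = 1 := by
  obtain ⟨m, hm⟩ : ∃ m : ℕ, ∀ j, k (nm j) < m := by
    refine ⟨(Finset.univ.sup fun j => k (nm j)) + 1, fun j => ?_⟩
    exact Nat.lt_succ_of_le (Finset.le_sup (f := fun j => k (nm j)) (Finset.mem_univ j))
  have h0 : (1 - u) ^ (m + 1) = 0 := by
    ext i j
    rw [cell_pow hu (m + 1) i j (by have := hm j; omega), if_neg (Nat.succ_ne_zero m)]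
    rfl
  refine ⟨∑ i ∈ Finset.range (m + 1), (1 - u) ^ i, ?_, ?_, ?_⟩
  · intro i j hij
    rw [Finset.sum_range_succ', Matrix.add_apply, pow_zero, Matrix.sum_apply,
      Finset.sum_eq_zero, zero_add]
    intro l _
    exact cell_pow_lt hu (l + 1) (Nat.succ_ne_zero l) i j hij
  · have h := mul_neg_geom_sum (1 - u) (m + 1)
    rw [sub_sub_cancel, h0, sub_zero] at h
    exact h
  · have h := geom_sum_mul_neg (1 - u) (m + 1)
    rw [sub_sub_cancel, h0, sub_zero] at h
    exact h

/-! ### Block monomial matrices -/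

theorem cell_BM_one {S : Type*} [CommRing S] (nm : Fin r → Fin N) :
    BM nm 1 (1 : Mat r S) := by
  intro i j hij
  refine Matrix.one_apply_ne ?_
  rintro rfl
  exact hij rfl

theorem cell_BM_diag {S : Type*} [CommRing S] (nm : Fin r → Fin N) (t : Fin r → S) :
    BM nm 1 (Matrix.diagonal t) := by
  intro i j hij
  refine Matrix.diagonal_apply_ne _ ?_
  rintro rfl
  exact hij rfl

theorem cell_BM_mul {S : Type*} [CommRing S] {nm : Fin r → Fin N} {π σ : Equiv.Perm (Fin N)}
    {W V : Mat r S} (hW : BM nm π W) (hV : BM nm σ V) : BM nm (π * σ) (W * V) := by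
  intro i j hij
  rw [Matrix.mul_apply]
  refine Finset.sum_eq_zero fun l _ => ?_
  by_cases h : nm i = π (nm l)
  · by_cases h' : nm l = σ (nm j)
    · exact absurd (by rw [h, h']; rfl) hij
    · rw [hV l j h', mul_zero]
  · rw [hW i l h, zero_mul]

/-- The inverse of a block monomial matrix. -/
theorem cell_BM_inv {S : Type*} [CommRing S] {nm : Fin r → Fin N} {π : Equiv.Perm (Fin N)}
    {W W' : Mat r S} (hW : BM nm π W) (h1 : W * W' = 1) (h2 : W' * W = 1) :
    BM nm π.symm W' := by
  have hcomm : ∀ a, W * ee nm a = ee nm (π a) * W := by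
    intro a
    ext i j
    rw [ee, ee, Matrix.mul_diagonal, Matrix.diagonal_mul]
    by_cases h : nm i = π (nm j)
    · by_cases hj : nm j = a
      · rw [if_pos hj, if_pos (by rw [h, hj]), mul_one, one_mul]
      · rw [if_neg hj, if_neg (fun h' => hj (π.injective (h.symm.trans h'))), mul_zero, zero_mul]
    · rw [hW i j h, zero_mul, mul_zero]
  have hcomm' : ∀ a, ee nm a * W' = W' * ee nm (π a) := by
    intro a
    calc ee nm a * W' = (W' * W) * ee nm a * W' := by rw [h2, one_mul]
      _ = W' * (W * ee nm a) * W' := by rw [mul_assoc W']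
      _ = W' * ee nm (π a) * (W * W') := by rw [hcomm]; simp only [mul_assoc]
      _ = W' * ee nm (π a) := by rw [h1, mul_one]
  intro i j hij
  have h := congrFun (congrFun (hcomm' (π.symm (nm j))) i) j
  rw [Equiv.apply_symm_apply, ee, ee, Matrix.mul_diagonal, Matrix.diagonal_mul, if_neg hij,
    if_pos rfl, zero_mul, mul_one] at h
  exact h.symm

/-! ### Values of circuits -/

theorem cell_ee_mul {S : Type*} [CommRing S] (nm : Fin r → Fin N) (a : Fin N) :
    ee nm a * ee nm a = (ee nm a : Mat r S) := by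
  rw [ee, Matrix.diagonal_mul_diagonal]
  congr 1
  ext i
  split_ifs <;> simp

theorem cell_ee_mul_ne {S : Type*} [CommRing S] (nm : Fin r → Fin N) {a b : Fin N} (h : a ≠ b) :
    ee nm a * ee nm b = (0 : Mat r S) := by
  rw [ee, ee, Matrix.diagonal_mul_diagonal, ← Matrix.diagonal_zero]
  congr 1
  ext i
  by_cases h1 : nm i = a
  · rw [if_neg (fun h2 => h (h1.symm.trans h2)), mul_zero]
  · rw [if_neg h1, zero_mul]

theorem cell_BB_left {S : Type*} [CommRing S] {nm : Fin r → Fin N} {a b : Fin N} {y : Mat r S}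
    (h : BB nm a b y) : ee nm a * y = y := by
  ext i j
  rw [ee, Matrix.diagonal_mul]
  by_cases h1 : nm i = a
  · rw [if_pos h1, one_mul]
  · rw [if_neg h1, zero_mul, h i j (fun h2 => h1 h2.1)]

theorem cell_BB_right {S : Type*} [CommRing S] {nm : Fin r → Fin N} {a b : Fin N} {y : Mat r S}
    (h : BB nm a b y) : y * ee nm b = y := by
  ext i j
  rw [ee, Matrix.mul_diagonal]
  by_cases h1 : nm j = b
  · rw [if_pos h1, mul_one]
  · rw [if_neg h1, mul_zero, h i j (fun h2 => h1 h2.2)]

/-- The identity behind the invertibility of the exchange letter. -/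
theorem cell_exch {A : Type*} [Ring A] {e f y z : A} (he : e * e = e) (hf : f * f = f)
    (hef : e * f = 0) (hfe : f * e = 0) (hey : e * y = y) (hyf : y * f = y) (hfz : f * z = z)
    (hze : z * e = z) (hyz : y * z = e) (hzy : z * y = f) :
    (1 - e - f + y - z) * (1 - e - f - y + z) = 1 := by
  have hyy : y * y = 0 := by
    calc y * y = (y * f) * (e * y) := by rw [hyf, hey]
      _ = y * (f * e) * y := by simp only [mul_assoc]
      _ = 0 := by rw [hfe, mul_zero, zero_mul]
  have hzz : z * z = 0 := by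
    calc z * z = (z * e) * (f * z) := by rw [hze, hfz]
      _ = z * (e * f) * z := by simp only [mul_assoc]
      _ = 0 := by rw [hef, mul_zero, zero_mul]
  have hye : y * e = 0 := by rw [← hyf, mul_assoc, hfe, mul_zero]
  have hfy : f * y = 0 := by rw [← hey, ← mul_assoc, hfe, zero_mul]
  have hzf : z * f = 0 := by rw [← hze, mul_assoc, hef, mul_zero]
  have hez : e * z = 0 := by rw [← hfz, ← mul_assoc, hef, zero_mul]
  simp only [mul_add, add_mul, mul_sub, sub_mul, one_mul, mul_one, he, hf, hef, hfe, hey, hyf,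
    hfz, hze, hyz, hzy, hyy, hzz, hye, hfy, hzf, hez]
  abel

theorem cell_BM_ev {R : Type} [CommRing R] {S : Type} [CommRing S] {nm : Fin r → Fin N}
    {ι : R →+* S} {y : ℕ → Mat r S × Mat r S} (s : Sy R N)
    (h : ∀ a b n, s = Sy.Y a b n → BB nm a b (y n).1 ∧ BB nm b a (y n).2) :
    BM nm s.pm (s.ev nm ι y) := by
  cases s with
  | D d => exact cell_BM_diag nm _
  | Y a b n =>
    obtain ⟨h1, h2⟩ := h a b n rfl
    intro i j hij
    change nm i ≠ Equiv.swap a b (nm j) at hij
    change (1 - ee nm a - ee nm b + (y n).1 - (y n).2 : Mat r S) i j = 0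
    rw [Matrix.sub_apply, Matrix.add_apply, Matrix.sub_apply, Matrix.sub_apply, ee, ee]
    by_cases hb : nm j = b
    · rw [hb, Equiv.swap_apply_right] at hij
      rw [h1 i j (fun h3 => hij h3.1)]
      by_cases hij' : i = j
      · subst hij'
        rw [h2 i i (fun h3 => hij h3.2), Matrix.one_apply_eq, Matrix.diagonal_apply_eq,
          Matrix.diagonal_apply_eq, if_neg hij, if_pos hb]
        ring
      · rw [Matrix.one_apply_ne hij', Matrix.diagonal_apply_ne _ hij',
          Matrix.diagonal_apply_ne _ hij']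
        by_cases ha : nm j = a
        · rw [h2 i j (fun h3 => hij (h3.1.trans (hb.symm.trans ha)))]
          ring
        · rw [h2 i j (fun h3 => ha h3.2)]
          ring
    · by_cases ha : nm j = a
      · rw [ha, Equiv.swap_apply_left] at hij
        rw [h1 i j (fun h3 => hb h3.2), h2 i j (fun h3 => hij h3.1)]
        by_cases hij' : i = j
        · subst hij'
          rw [Matrix.one_apply_eq, Matrix.diagonal_apply_eq, Matrix.diagonal_apply_eq, if_pos ha,
            if_neg hb]
          ring
        · rw [Matrix.one_apply_ne hij', Matrix.diagonal_apply_ne _ hij',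
            Matrix.diagonal_apply_ne _ hij']
          ring
      · rw [Equiv.swap_apply_of_ne_of_ne ha hb] at hij
        have hij' : i ≠ j := by
          rintro rfl
          exact hij rfl
        rw [h1 i j (fun h3 => hb h3.2), h2 i j (fun h3 => ha h3.2), Matrix.one_apply_ne hij',
          Matrix.diagonal_apply_ne _ hij', Matrix.diagonal_apply_ne _ hij']
        ring

theorem cell_isUnit_ev {R : Type} [CommRing R] {S : Type} [CommRing S] {nm : Fin r → Fin N}
    {ι : R →+* S} {y : ℕ → Mat r S × Mat r S} (s : Sy R N)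
    (h : ∀ a b n, s = Sy.Y a b n → a ≠ b ∧ BB nm a b (y n).1 ∧ BB nm b a (y n).2 ∧
      (y n).1 * (y n).2 = ee nm a ∧ (y n).2 * (y n).1 = ee nm b) :
    IsUnit (s.ev nm ι y) := by
  cases s with
  | D d =>
    change IsUnit (Matrix.diagonal fun i => ι (d (nm i)))
    rw [Matrix.isUnit_diagonal, Pi.isUnit_iff]
    intro i
    exact (d (nm i)).isUnit.map ι
  | Y a b n =>
    obtain ⟨hab, h1, h2, h3, h4⟩ := h a b n rfl
    change IsUnit (1 - ee nm a - ee nm b + (y n).1 - (y n).2 : Mat r S)
    refine IsUnit.of_mul_eq_one (1 - ee nm a - ee nm b - (y n).1 + (y n).2) ?_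
    exact cell_exch (cell_ee_mul nm a) (cell_ee_mul nm b) (cell_ee_mul_ne nm hab)
      (cell_ee_mul_ne nm hab.symm) (cell_BB_left h1) (cell_BB_right h1) (cell_BB_left h2)
      (cell_BB_right h2) h3 h4

theorem Valid.of_cons {R : Type} [CommRing R] {S : Type} [CommRing S] {nm : Fin r → Fin N}
    {y : ℕ → Mat r S × Mat r S} {s : Sy R N} {L : List (Sy R N)} (h : Valid nm y (s :: L)) :
    Valid nm y L := fun a b n hn => h a b n (List.mem_cons_of_mem _ hn)

/-- (1) Values of circuits are block monomial. -/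
theorem bm_cev {R : Type} [CommRing R] {S : Type} [CommRing S] {nm : Fin r → Fin N}
    (ι : R →+* S) {y : ℕ → Mat r S × Mat r S} {L : List (Sy R N)} (hV : Valid nm y L) :
    BM nm (cpm L) (cev nm ι y L) := by
  induction L with
  | nil => exact cell_BM_one nm
  | cons s L ih =>
    have h1 : cpm (s :: L) = s.pm * cpm L := by simp [cpm]
    have h2 : cev nm ι y (s :: L) = s.ev nm ι y * cev nm ι y L := by simp [cev]
    rw [h1, h2]
    refine cell_BM_mul (cell_BM_ev s ?_) (ih hV.of_cons)
    rintro a b n rfl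
    have h3 := hV a b n (by simp)
    exact ⟨h3.1, h3.2.1⟩

/-- (1') Values of circuits are units. -/
theorem isUnit_cev {R : Type} [CommRing R] {S : Type} [CommRing S] {nm : Fin r → Fin N}
    (ι : R →+* S) {y : ℕ → Mat r S × Mat r S} {L : List (Sy R N)} (hV : Valid nm y L)
    (hne : ∀ a b n, Sy.Y a b n ∈ L → a ≠ b) : IsUnit (cev nm ι y L) := by
  induction L with
  | nil => exact isUnit_one
  | cons s L ih =>
    have h2 : cev nm ι y (s :: L) = s.ev nm ι y * cev nm ι y L := by simp [cev]
    rw [h2]
    refine (cell_isUnit_ev s ?_).mul (ih hV.of_cons fun a b n hn => hne a b n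
      (List.mem_cons_of_mem _ hn))
    rintro a b n rfl
    exact ⟨hne a b n (by simp), hV a b n (by simp)⟩

/-! ### Cells -/

/-- Block unipotent matrices preserve the vectors supported on an initial segment. -/
theorem cell_supp {S : Type*} [CommRing S] {nm : Fin r → Fin N} {k : Fin N → ℕ} {v : Mat r S}
    (hv : BU nm k v) {n : ℕ} {x : Fin r → S} (hx : ∀ i, ¬ k (nm i) < n → x i = 0) :
    ∀ i, ¬ k (nm i) < n → (v *ᵥ x) i = 0 := by
  intro i hi
  change ∑ j, v i j * x j = 0
  refine Finset.sum_eq_zero fun j _ => ?_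
  by_cases h : k (nm j) < n
  · rw [hv i j (by omega), Matrix.one_apply_ne, zero_mul]
    rintro rfl
    exact hi h
  · rw [hx j h, mul_zero]

/-- The last nonzero block of a vector is not changed by a block unipotent matrix. -/
theorem cell_last {S : Type*} [CommRing S] {nm : Fin r → Fin N} {b : Mat r S}
    (hb : BU nm (bk N) b) {c : Fin N} {x : Fin r → S} (hx : ∀ i, c < nm i → x i = 0) :
    (∀ i, c < nm i → (b *ᵥ x) i = 0) ∧ ∀ i, nm i = c → (b *ᵥ x) i = x i := by
  refine ⟨fun i hi => ?_, fun i hi => ?_⟩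
  · change ∑ j, b i j * x j = 0
    refine Finset.sum_eq_zero fun j _ => ?_
    by_cases h : c < nm j
    · rw [hx j h, mul_zero]
    · rw [hb i j, Matrix.one_apply_ne, zero_mul]
      · rintro rfl
        exact h hi
      · simp only [bk]
        rw [Fin.lt_def] at h hi
        omega
  · change ∑ j, b i j * x j = x i
    rw [Finset.sum_eq_single i]
    · rw [hb i i (lt_irrefl _), Matrix.one_apply_eq, one_mul]
    · intro j _ hj
      by_cases h : c < nm j
      · rw [hx j h, mul_zero]
      · rw [hb i j, Matrix.one_apply_ne (Ne.symm hj), zero_mul]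
        simp only [bk]
        rw [Fin.lt_def] at h
        rw [← hi] at h
        omega
    · intro h
      exact absurd (Finset.mem_univ _) h

/-- (2) The blocks met by the image of an initial segment. -/
theorem ip_cell {nm : Fin r → Fin N} (hnm : Function.Surjective nm) {π : Equiv.Perm (Fin N)}
    {k : Fin N → ℕ} {W X : Mat r ℂ} (hW : BM nm π W) (hWu : IsUnit W) (hX : InCell nm k W X)
    (n : ℕ) (c : Fin N) : IP nm X (fun a => k a < n) c ↔ k (π.symm c) < n := by
  obtain ⟨b, v, hb, hv, rfl⟩ := hX
  obtain ⟨b', hb', hbb', hb'b⟩ := cell_BU_inv hb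
  obtain ⟨v', hv', hvv', hv'v⟩ := cell_BU_inv hv
  obtain ⟨⟨W1, W2, h12, h21⟩, hW1⟩ := hWu
  change W1 = W at hW1
  subst hW1
  have hW2 : BM nm π.symm W2 := cell_BM_inv hW h12 h21
  constructor
  · intro hIP
    by_contra hc
    obtain ⟨i₀, hi₀⟩ := hnm c
    obtain ⟨x, hx1, hx2, hx3⟩ := hIP (fun _ => 1)
    set z := (W1 * v) *ᵥ x with hz
    have hbz : (b * W1 * v) *ᵥ x = b *ᵥ z := by
      rw [hz, Matrix.mulVec_mulVec, Matrix.mul_assoc]
    have hzb : z = b' *ᵥ (b *ᵥ z) := by
      rw [Matrix.mulVec_mulVec, hb'b, Matrix.one_mulVec]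
    have h1 : ∀ i, c < nm i → (b *ᵥ z) i = 0 := fun i hi => by rw [← hbz]; exact hx2 i hi
    have h2 := (cell_last hb' h1).2 i₀ hi₀
    rw [← hzb, ← hbz, hx3 i₀ hi₀] at h2
    have h3 : z i₀ = 0 := by
      rw [hz, ← Matrix.mulVec_mulVec]
      change ∑ j, W1 i₀ j * (v *ᵥ x) j = 0
      refine Finset.sum_eq_zero fun j _ => ?_
      by_cases h : nm i₀ = π (nm j)
      · rw [cell_supp hv hx1 j, mul_zero]
        have h4 : π.symm c = nm j := by
          rw [← hi₀, h, Equiv.symm_apply_apply]
        rw [← h4]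
        exact hc
      · rw [hW i₀ j h, zero_mul]
    rw [h3] at h2
    exact zero_ne_one h2
  · intro hc w
    set x : Fin r → ℂ := fun i => if nm i = c then w i else 0 with hx
    have hx1 : ∀ i, ¬ k (nm i) < n → (W2 *ᵥ x) i = 0 := by
      intro i hi
      change ∑ j, W2 i j * x j = 0
      refine Finset.sum_eq_zero fun j _ => ?_
      by_cases h : nm j = c
      · rw [hW2 i j, zero_mul]
        intro h2
        rw [h2, h] at hi
        exact hi hc
      · rw [hx]
        simp only [if_neg h, mul_zero]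
    have hx2 : ∀ i, c < nm i → x i = 0 := by
      intro i hi
      rw [hx]
      simp only [if_neg hi.ne']
    have h1 : (b * W1 * v) *ᵥ (v' *ᵥ (W2 *ᵥ x)) = b *ᵥ x := by
      rw [Matrix.mulVec_mulVec, Matrix.mul_assoc (b * W1), hvv', Matrix.mul_one,
        Matrix.mulVec_mulVec, Matrix.mul_assoc b, h12, Matrix.mul_one]
    refine ⟨v' *ᵥ (W2 *ᵥ x), cell_supp hv' hx1, fun i hi => ?_, fun i hi => ?_⟩
    · rw [h1]
      exact (cell_last hb hx2).1 i hi
    · rw [h1, (cell_last hb hx2).2 i hi, hx]
      simp only [if_pos hi]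

/-- Products of upper triangular matrices with prescribed diagonal blocks. -/
theorem cell_up {S : Type*} [CommRing S] {nm : Fin r → Fin N} {b v X : Mat r S} {t : Fin N → S}
    (hb : BU nm (bk N) b) (hv : BU nm (bk N) v)
    (hX : ∀ i j, ¬ nm i < nm j → X i j = if i = j then t (nm i) else 0) :
    ∀ i j, ¬ nm i < nm j → (b * X * v) i j = if i = j then t (nm i) else 0 := by
  have h1 : ∀ i j, ¬ nm i < nm j → (b * X) i j = if i = j then t (nm i) else 0 := by
    intro i j hij
    rw [Matrix.mul_apply, Finset.sum_eq_single i]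
    · rw [hb i i (lt_irrefl _), Matrix.one_apply_eq, one_mul, hX i j hij]
    · intro l _ hl
      by_cases h : nm i < nm l
      · have h2 : ¬ nm l < nm j := fun h' => hij (h.trans h')
        rw [hX l j h2, if_neg, mul_zero]
        rintro rfl
        exact hij h
      · rw [hb i l (by simpa [bk] using h), Matrix.one_apply_ne (Ne.symm hl), zero_mul]
    · intro h
      exact absurd (Finset.mem_univ _) h
  intro i j hij
  rw [Matrix.mul_apply, Finset.sum_eq_single j]
  · rw [hv j j (lt_irrefl _), Matrix.one_apply_eq, mul_one, h1 i j hij]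
  · intro l _ hl
    by_cases h : nm l < nm j
    · have h2 : ¬ nm i < nm l := fun h' => hij (h'.trans h)
      rw [h1 i l h2, if_neg, zero_mul]
      rintro rfl
      exact hij h
    · rw [hv l j (by simpa [bk] using h), Matrix.one_apply_ne hl, mul_zero]
  · intro h
    exact absurd (Finset.mem_univ _) h

/-- (4) The cell of a diagonal matrix. -/
theorem cell_diag {S : Type*} [CommRing S] {nm : Fin r → Fin N} {t : Fin N → S} {X : Mat r S}
    (h : InCell nm (bk N) (Matrix.diagonal fun i => t (nm i)) X) :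
    ∀ i j, ¬ nm i < nm j → X i j = if i = j then t (nm i) else 0 := by
  obtain ⟨b, v, hb, hv, rfl⟩ := h
  refine cell_up hb hv fun i j _ => ?_
  rw [Matrix.diagonal_apply]

/-- (3) Uniqueness, over any ring in which the entries `t a` are nonzero. -/
theorem cell_unique' {S : Type*} [CommRing S] {nm : Fin r → Fin N} {π : Equiv.Perm (Fin N)}
    {W X : Mat r S} {t : Fin N → S} (hX : InCell nm (bk N) W X) (hW : BM nm π W)
    (hXt : ∀ i j, ¬ nm i < nm j → X i j = if i = j then t (nm i) else 0) (ht : ∀ i, t (nm i) ≠ 0) :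
    W = Matrix.diagonal fun i => t (nm i) := by
  obtain ⟨b, v, hb, hv, rfl⟩ := hX
  obtain ⟨b', hb', hbb', hb'b⟩ := cell_BU_inv hb
  obtain ⟨v', hv', hvv', hv'v⟩ := cell_BU_inv hv
  have h1 := cell_up hb' hv' hXt
  have h2 : b' * (b * W * v) * v' = W := by
    calc b' * (b * W * v) * v' = (b' * b) * W * (v * v') := by simp only [Matrix.mul_assoc]
      _ = W := by rw [hb'b, hvv', Matrix.one_mul, Matrix.mul_one]
  rw [h2] at h1
  have h3 : ∀ j, π (nm j) = nm j := by
    intro j
    by_contra hj
    have h4 := h1 j j (lt_irrefl _)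
    rw [hW j j (fun h => hj h.symm), if_pos rfl] at h4
    exact ht j h4.symm
  ext i j
  rw [Matrix.diagonal_apply]
  by_cases hij : nm i < nm j
  · rw [hW i j (fun h => by rw [h3 j] at h; exact absurd h hij.ne), if_neg]
    rintro rfl
    exact lt_irrefl _ hij
  · exact h1 i j hij

/-- (3) Uniqueness of the monomial part. -/
theorem cell_unique {nm : Fin r → Fin N} {π : Equiv.Perm (Fin N)}
    {W X : Mat r ℂ} {t : Fin N → ℂ} (hX : InCell nm (bk N) W X) (hW : BM nm π W)
    (hXt : ∀ i j, ¬ nm i < nm j → X i j = if i = j then t (nm i) else 0) (ht : ∀ a, t a ≠ 0) :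
    W = Matrix.diagonal fun i => t (nm i) :=
  cell_unique' hX hW hXt fun i => ht (nm i)

/-! ### Keys -/

theorem Adj.injective {k k' : Fin N → ℕ} {a b : Fin N} (h : Adj k k' a b)
    (hk : Function.Injective k) : Function.Injective k' := by
  obtain ⟨h1, h2, h3, h4⟩ := h
  intro c d hcd
  by_contra hne
  by_cases hab : c = a ∧ d = b
  · rw [hab.1, hab.2] at hcd
    omega
  · by_cases hba : c = b ∧ d = a
    · rw [hba.1, hba.2] at hcd
      omega
    · have h5 := h3 c d hab hba
      have h6 := h3 d c (fun h => hba ⟨h.2, h.1⟩) (fun h => hab ⟨h.2, h.1⟩)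
      have h7 : k c ≠ k d := fun h => hne (hk h)
      omega

/-- (5) All keys of a path are injective. -/
theorem KP.injective {κ k : Fin N → ℕ} {ks : List (Fin N → ℕ)} (h : KP κ k ks)
    (hk : Function.Injective k) : ∀ k' ∈ ks, Function.Injective k' := by
  induction h with
  | last k h =>
    intro k' hk'
    rw [List.mem_singleton] at hk'
    rw [hk']
    exact hk
  | step k k' ks a b hab hκ h hkp ih =>
    intro k'' hk''
    rcases List.mem_cons.mp hk'' with rfl | h'
    · exact hk
    · exact ih (h.injective hk) k'' h'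

theorem bk_injective : Function.Injective (bk N) := Fin.val_injective

end Vale.Agent.P002B
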