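import Vale.Agent.P002B.Stmts2

/-! # P002B, T6a: stable refinements of chains -/

namespace Vale.Agent.P002B

open Matrix Vale.Agent.P002R Vale.Agent.P002L

/-- The invariants of the refinement process. -/
structure ChInv {r : ℕ} (ℰ : Set (Submodule ℂ (Fin r → ℂ))) {J : Type}
    (w : J → Submodule ℂ (Fin r → ℂ) → Submodule ℂ (Fin r → ℂ) → Submodule ℂ (Fin r → ℂ))
    (ℱ₀ ℱ : Set (Submodule ℂ (Fin r → ℂ))) (τ : Submodule ℂ (Fin r → ℂ) → ℕ) (n : ℕ) : Prop where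
  chain : IsChain (· ≤ ·) ℱ
  sub : ℱ₀ ⊆ ℱ
  zero : ∀ G ∈ ℱ₀, τ G = 0
  pos : ∀ G ∈ ℱ, G ∉ ℱ₀ → 0 < τ G
  bd : ∀ G ∈ ℱ, τ G ≤ n
  inj : ∀ G ∈ ℱ, ∀ G' ∈ ℱ, G ∉ ℱ₀ → G' ∉ ℱ₀ → τ G = τ G' → G = G'
  hist : ∀ G ∈ ℱ, G ∉ ℱ₀ → ∃ A ∈ ℱ, ∃ B ∈ ℱ, A < G ∧ G < B ∧ τ A < τ G ∧ τ B < τ G ∧
    (∀ C ∈ ℱ, A < C → C < B → τ G ≤ τ C) ∧ ∃ W, (W ∈ ℰ ∨ ∃ j, ∃ F ∈ ℱ, ∃ F' ∈ ℱ, F' ≤ F ∧
      τ F < τ G ∧ τ F' < τ G ∧ W = w j F F') ∧ G = A ⊔ (B ⊓ W)

/-- Chains of subspaces are finite. -/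
theorem chain_card {r : ℕ} {ℱ : Set (Submodule ℂ (Fin r → ℂ))} (hc : IsChain (· ≤ ·) ℱ) :
    ℱ.Finite ∧ ℱ.ncard ≤ r + 1 := by
  have hmap : ∀ V ∈ ℱ, Module.finrank ℂ V ∈ (Finset.range (r + 1) : Set ℕ) := by
    intro V _
    rw [Finset.coe_range, Set.mem_Iio]
    have h := Submodule.finrank_le V
    rw [Module.finrank_fin_fun] at h
    omega
  have hinj : Set.InjOn (fun V : Submodule ℂ (Fin r → ℂ) => Module.finrank ℂ V) ℱ := by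
    intro V hV V' hV' h
    rcases hc.total hV hV' with h1 | h1
    · exact Submodule.eq_of_le_of_finrank_eq h1 h
    · exact (Submodule.eq_of_le_of_finrank_eq h1 h.symm).symm
  refine ⟨Set.Finite.of_injOn hmap hinj (Finset.finite_toSet _), ?_⟩
  have h := Set.ncard_le_ncard_of_injOn _ hmap hinj (Finset.finite_toSet _)
  rwa [Set.ncard_coe_finset, Finset.card_range] at h

/-- One step. -/
theorem ChInv.step {r : ℕ} {ℰ : Set (Submodule ℂ (Fin r → ℂ))} {J : Type}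
    {w : J → Submodule ℂ (Fin r → ℂ) → Submodule ℂ (Fin r → ℂ) → Submodule ℂ (Fin r → ℂ)}
    {ℱ₀ ℱ : Set (Submodule ℂ (Fin r → ℂ))} {τ : Submodule ℂ (Fin r → ℂ) → ℕ} {n : ℕ}
    (h : ChInv ℰ w ℱ₀ ℱ τ n) {A B W : Submodule ℂ (Fin r → ℂ)} (hA : A ∈ ℱ) (hB : B ∈ ℱ)
    (hAB : A ≤ B) (hcon : ∀ C ∈ ℱ, A < C → ¬ C < B)
    (hW : W ∈ ℰ ∨ ∃ j, ∃ F ∈ ℱ, ∃ F' ∈ ℱ, F' ≤ F ∧ W = w j F F') (hnot : A ⊔ (B ⊓ W) ∉ ℱ) :
    ∃ τ', ChInv ℰ w ℱ₀ (insert (A ⊔ (B ⊓ W)) ℱ) τ' (n + 1) := by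
  classical
  set H := A ⊔ (B ⊓ W) with hH
  have hAH : A < H := lt_of_le_of_ne le_sup_left fun h1 => hnot (h1 ▸ hA)
  have hHB : H < B := lt_of_le_of_ne (sup_le hAB inf_le_left) fun h1 => hnot (h1 ▸ hB)
  have hne : ∀ G ∈ ℱ, G ≠ H := fun G hG h1 => hnot (h1 ▸ hG)
  have hH0 : H ∉ ℱ₀ := fun h1 => hnot (h.sub h1)
  have hτ : ∀ G ∈ ℱ, Function.update τ H (n + 1) G = τ G := fun G hG =>
    Function.update_of_ne (hne G hG) _ _
  have hτH : Function.update τ H (n + 1) H = n + 1 := Function.update_self _ _ _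
  refine ⟨Function.update τ H (n + 1), ?_, ?_, ?_, ?_, ?_, ?_, ?_⟩
  · refine h.chain.insert fun C hC _ => ?_
    rcases h.chain.total hA hC with h1 | h1
    · rcases eq_or_lt_of_le h1 with h2 | h2
      · exact Or.inr (h2 ▸ hAH.le)
      · rcases h.chain.total hC hB with h3 | h3
        · rcases eq_or_lt_of_le h3 with h4 | h4
          · exact Or.inl (h4 ▸ hHB.le)
          · exact absurd h4 (hcon C hC h2)
        · exact Or.inl (hHB.le.trans h3)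
    · exact Or.inr (h1.trans hAH.le)
  · exact h.sub.trans (Set.subset_insert _ _)
  · intro G hG
    rw [hτ G (h.sub hG)]
    exact h.zero G hG
  · rintro G (rfl | hG) h0
    · rw [hτH]
      exact Nat.succ_pos n
    · rw [hτ G hG]
      exact h.pos G hG h0
  · rintro G (rfl | hG)
    · rw [hτH]
    · rw [hτ G hG]
      exact (h.bd G hG).trans (Nat.le_succ n)
  · rintro G (rfl | hG) G' (rfl | hG') h0 h0' he
    · rfl
    · rw [hτH, hτ G' hG'] at he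
      have := h.bd G' hG'
      omega
    · rw [hτH, hτ G hG] at he
      have := h.bd G hG
      omega
    · rw [hτ G hG, hτ G' hG'] at he
      exact h.inj G hG G' hG' h0 h0' he
  · rintro G (rfl | hG) h0
    · refine ⟨A, Or.inr hA, B, Or.inr hB, hAH, hHB, ?_, ?_, ?_, W, ?_, rfl⟩
      · rw [hτH, hτ A hA]
        exact Nat.lt_succ_of_le (h.bd A hA)
      · rw [hτH, hτ B hB]
        exact Nat.lt_succ_of_le (h.bd B hB)
      · rintro C (rfl | hC) h1 h2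
        · exact le_rfl
        · exact absurd h2 (hcon C hC h1)
      · rcases hW with h1 | ⟨j, F, hF, F', hF', hle, h1⟩
        · exact Or.inl h1
        · refine Or.inr ⟨j, F, Or.inr hF, F', Or.inr hF', hle, ?_, ?_, h1⟩
          · rw [hτH, hτ F hF]
            exact Nat.lt_succ_of_le (h.bd F hF)
          · rw [hτH, hτ F' hF']
            exact Nat.lt_succ_of_le (h.bd F' hF')
    · obtain ⟨A', hA', B', hB', h1, h2, h3, h4, h5, W', h6, h7⟩ := h.hist G hG h0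
      refine ⟨A', Or.inr hA', B', Or.inr hB', h1, h2, ?_, ?_, ?_, W', ?_, h7⟩
      · rw [hτ A' hA', hτ G hG]
        exact h3
      · rw [hτ B' hB', hτ G hG]
        exact h4
      · rintro C (rfl | hC) h8 h9
        · rw [hτH, hτ G hG]
          exact (h.bd G hG).trans (Nat.le_succ n)
        · rw [hτ C hC, hτ G hG]
          exact h5 C hC h8 h9
      · rcases h6 with h8 | ⟨j, F, hF, F', hF', hle, h8, h9, h10⟩
        · exact Or.inl h8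
        · refine Or.inr ⟨j, F, Or.inr hF, F', Or.inr hF', hle, ?_, ?_, h10⟩
          · rw [hτ F hF, hτ G hG]
            exact h8
          · rw [hτ F' hF', hτ G hG]
            exact h9

/-- The end of the process. -/
theorem ChInv.exists_stable {r : ℕ} {ℰ : Set (Submodule ℂ (Fin r → ℂ))} {J : Type}
    {w : J → Submodule ℂ (Fin r → ℂ) → Submodule ℂ (Fin r → ℂ) → Submodule ℂ (Fin r → ℂ)}
    {ℱ₀ : Set (Submodule ℂ (Fin r → ℂ))} (m : ℕ) :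
    ∀ (ℱ : Set (Submodule ℂ (Fin r → ℂ))) (τ : Submodule ℂ (Fin r → ℂ) → ℕ) (n : ℕ),
      ChInv ℰ w ℱ₀ ℱ τ n → r + 1 ≤ ℱ.ncard + m →
      ∃ (ℱ' : Set (Submodule ℂ (Fin r → ℂ))) (τ' : Submodule ℂ (Fin r → ℂ) → ℕ) (n' : ℕ),
        ChInv ℰ w ℱ₀ ℱ' τ' n' ∧
        ∀ A ∈ ℱ', ∀ B ∈ ℱ', A ≤ B → (∀ C ∈ ℱ', A < C → ¬ C < B) → ∀ W,
          (W ∈ ℰ ∨ ∃ j, ∃ F ∈ ℱ', ∃ F' ∈ ℱ', F' ≤ F ∧ W = w j F F') → A ⊔ (B ⊓ W) ∈ ℱ' := by
  induction m with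
  | zero =>
    intro ℱ τ n h hm
    refine ⟨ℱ, τ, n, h, ?_⟩
    intro A hA B hB hAB hcon W hW
    by_contra hnot
    obtain ⟨τ', h'⟩ := h.step hA hB hAB hcon hW hnot
    have h1 := (chain_card h'.chain).2
    rw [Set.ncard_insert_of_notMem hnot (chain_card h.chain).1] at h1
    omega
  | succ m ih =>
    intro ℱ τ n h hm
    by_cases hst : ∃ A ∈ ℱ, ∃ B ∈ ℱ, A ≤ B ∧ (∀ C ∈ ℱ, A < C → ¬ C < B) ∧ ∃ W,
        (W ∈ ℰ ∨ ∃ j, ∃ F ∈ ℱ, ∃ F' ∈ ℱ, F' ≤ F ∧ W = w j F F') ∧ A ⊔ (B ⊓ W) ∉ ℱ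
    · obtain ⟨A, hA, B, hB, hAB, hcon, W, hW, hnot⟩ := hst
      obtain ⟨τ', h'⟩ := h.step hA hB hAB hcon hW hnot
      refine ih _ τ' (n + 1) h' ?_
      rw [Set.ncard_insert_of_notMem hnot (chain_card h.chain).1]
      omega
    · refine ⟨ℱ, τ, n, h, fun A hA B hB hAB hcon W hW => ?_⟩
      by_contra hnot
      exact hst ⟨A, hA, B, hB, hAB, hcon, W, hW, hnot⟩

/-- **T6a** -/
theorem chainStmt : ChainStmt := by
  intro r ℰ J w ℱ₀ hbot htop hchain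
  have h0 : ChInv ℰ w ℱ₀ ℱ₀ (fun _ => 0) 0 :=
    { chain := hchain
      sub := subset_rfl
      zero := fun _ _ => rfl
      pos := fun G hG h => absurd hG h
      bd := fun _ _ => le_rfl
      inj := fun G hG _ _ h => absurd hG h
      hist := fun G hG h => absurd hG h }
  obtain ⟨ℱ, τ, n, h, hst⟩ := ChInv.exists_stable (r + 1) ℱ₀ _ 0 h0 (Nat.le_add_left _ _)
  exact ⟨ℱ, τ, h.chain, h.sub, h.zero, hst, h.pos, h.inj, h.hist⟩

end Vale.Agent.P002B
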