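import Vale.Agent.P002B.Stmts3
import Vale.Agent.P002B.BAlg

/-!
# P002B, T4.5: the chain over the classes (hedge)
-/

namespace Vale.Agent.P002B

open Matrix Vale.Agent.P002R Vale.Agent.P002L

theorem chH_pp_congr {S : Type*} [CommRing S] {r : ℕ} {c c' : ℕ → Mat r S} {n : ℕ}
    (h : ∀ i < n, c i = c' i) : PP c n = PP c' n := by
  induction n with
  | zero => rfl
  | succ n ih =>
    rw [PP, PP, ih (fun i hi => h i (Nat.lt_succ_of_lt hi)), h n (Nat.lt_succ_self n)]

theorem chH_pp_succ {S : Type*} [CommRing S] {r : ℕ} (c : ℕ → Mat r S) (n : ℕ) :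
    PP c (n + 1) = PP c n * c n := rfl

theorem chH_take_min {α : Type*} (l : List α) (n : ℕ) : l.take (min n l.length) = l.take n := by
  rw [List.take_eq_take_iff]
  omega

theorem chH_mem_vr {R : Type} [CommRing R] {N : ℕ} {L : List (Sy R N)} {a b : Fin N} {n : ℕ}
    (h : Sy.Y a b n ∈ L) : n ∈ L.filterMap Sy.vr :=
  List.mem_filterMap.2 ⟨_, h, rfl⟩

/-- The chain. -/
theorem chainH (hC : ClassStmt) {R : Type} [CommRing R] (φ : R →+* ℂ) {r N : ℕ}
    (nm : Fin r → Fin N) (m : ℕ) (κ : ℕ → Fin N → ℕ) (l : ℕ → ℕ → Rˣ) (c u M : ℕ → Mat r ℂ)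
    (ks : ℕ → List (Fin N → ℕ))
    (h1 : ∀ i < m, BU nm (bk N) (u i))
    (h2 : ∀ i < m, Kup (κ i ∘ nm) (fun j => φ (l i j)) (M i))
    (h3 : ∀ i < m, c i * u i = u i * M i) (h4 : ∀ i < m, KP (κ i) (bk N) (ks i))
    (h5 : ∀ i < m, ∀ e : Bool, ∀ k ∈ ks i, ∀ n : ℕ,
      TP nm (PP c (i + sh e) * u i) fun a => k a < n) :
    ∀ i ≤ m, ∃ (L : List (Sy R N)) (y₀ : ℕ → Mat r ℂ × Mat r ℂ) (n₀ : ℕ)
      (p : ℕ → Bool → (Fin N → ℕ) → ℕ) (b₀ v₀ : Mat r ℂ),
      Circ L ∧ (∀ n ∈ L.filterMap Sy.vr, n < n₀) ∧ Valid nm y₀ L ∧ BU nm (bk N) b₀ ∧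
      BU nm (bk N) v₀ ∧ PP c i = b₀ * cev nm φ y₀ L * v₀ ∧
      (∀ j < i, ∀ e k, p j e k ≤ L.length) ∧
      ∀ {A : Type} [CommRing A] (ι : R →+* A) (ψ : A →+* ℂ), (∀ x, ψ (ι x) = φ x) →
        Function.Surjective ψ → ∀ y : ℕ → Mat r A × Mat r A, Valid nm y L →
        (∀ a b n, Sy.Y a b n ∈ L → (y n).1.map ψ = (y₀ n).1 ∧ (y n).2.map ψ = (y₀ n).2) →
        ∃ c' u' M' : ℕ → Mat r A, (∀ j < i, BU nm (bk N) (u' j)) ∧
          (∀ j < i, Kup (κ j ∘ nm) (fun x => ι (l j x)) (M' j)) ∧
          (∀ j < i, c' j * u' j = u' j * M' j) ∧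
          (∀ j < i, (c' j).map ψ = c j) ∧
          (∀ j < i, ∀ e : Bool, ∀ k ∈ ks j,
            InCell nm k (cev nm ι y (L.take (p j e k))) (PP c' (j + sh e) * u' j)) ∧
          ∃ b v : Mat r A, BU nm (bk N) b ∧ BU nm (bk N) v ∧ v.map ψ = v₀ ∧
            PP c' i = b * cev nm ι y L * v := by
  intro i
  induction i with
  | zero =>
    intro _
    refine ⟨[], fun _ => (0, 0), 0, fun _ _ _ => 0, 1, 1, ⟨List.nodup_nil, ?_⟩, ?_, ?_, bu_one _,
      bu_one _, ?_, ?_, ?_⟩
    · intro a b n h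
      exact absurd h List.not_mem_nil
    · intro n h
      exact absurd h List.not_mem_nil
    · intro a b n h
      exact absurd h List.not_mem_nil
    · rw [cev_nil, one_mul, mul_one, PP]
    · intro j hj
      exact absurd hj (Nat.not_lt_zero j)
    · intro A _ ι ψ _ _ y _ _
      refine ⟨fun _ => 0, fun _ => 0, fun _ => 0, ?_, ?_, ?_, ?_, ?_, 1, 1, bu_one _, bu_one _,
        ?_, ?_⟩
      · intro j hj
        exact absurd hj (Nat.not_lt_zero j)
      · intro j hj
        exact absurd hj (Nat.not_lt_zero j)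
      · intro j hj
        exact absurd hj (Nat.not_lt_zero j)
      · intro j hj
        exact absurd hj (Nat.not_lt_zero j)
      · intro j hj
        exact absurd hj (Nat.not_lt_zero j)
      · exact Matrix.map_one ψ (map_zero ψ) (map_one ψ)
      · rw [cev_nil, one_mul, mul_one, PP]
  | succ i ih =>
    intro him
    have hi : i < m := him
    obtain ⟨L, y₀, n₀, p, b₀, v₀, hL, hLn, hV, hb₀, hv₀, hPP, hp, hA⟩ := ih hi.le
    have e1 : b₀ * cev nm φ y₀ L * v₀ * u i * M i = PP c (i + 1) * u i := by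
      rw [chH_pp_succ, ← hPP, mul_assoc, mul_assoc, ← h3 i hi]
    have hTP : ∀ k₁ ∈ ks i, ∀ n : ℕ,
        TP nm (b₀ * cev nm φ y₀ L * v₀ * u i) (fun a => k₁ a < n) ∧
        TP nm (b₀ * cev nm φ y₀ L * v₀ * u i * M i) (fun a => k₁ a < n) := by
      intro k₁ hk n
      refine ⟨?_, ?_⟩
      · rw [← hPP]
        exact h5 i hi false k₁ hk n
      · rw [e1]
        exact h5 i hi true k₁ hk n
    obtain ⟨L₁, y₁, n₁, v₁, p₁, hy, hn, hL', hLn', hV', hv₁, hB⟩ :=
      hC φ nm (κ i) (l i) (bk N) (ks i) (h4 i hi) (fun a b hab _ => hab) L y₀ n₀ b₀ v₀ (u i)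
        (M i) hL hLn hV hb₀ hv₀ (h1 i hi) (h1 i hi) (h2 i hi) hTP
    have hy' : ∀ a b n, Sy.Y a b n ∈ L → y₁ n = y₀ n := fun a b n h => hy n (hLn n (chH_mem_vr h))
    have hci : c i = u i * M i * (u i)⁻¹ := by
      rw [← h3 i hi, mul_assoc, (h1 i hi).mul_inv, mul_one]
    -- the complex section
    obtain ⟨b, hb, hPP'⟩ : ∃ b : Mat r ℂ, BU nm (bk N) b ∧
        PP c (i + 1) = b₀ * b * cev nm φ y₁ (L ++ L₁) * (v₁ * (u i)⁻¹) := by
      obtain ⟨u₂, M₂, b, v₂, hu1, hu2, hu3, hM1, hM2, hb, hv1, hv2, he, -⟩ :=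
        hB φ (RingHom.id ℂ) (fun _ => rfl) Function.surjective_id y₁ hV'
          (fun a b n _ => ⟨Matrix.map_id _, Matrix.map_id _⟩) v₀ hv₀ (Matrix.map_id _)
      have hu4 : u₂ = u i := by rw [← hu3]; exact (Matrix.map_id _).symm
      have hM4 : M₂ = M i := by rw [← hM2]; exact (Matrix.map_id _).symm
      have hv4 : v₂ = v₁ := by rw [← hv2]; exact (Matrix.map_id _).symm
      rw [hu4, hM4, hv4, cev_congr φ hy'] at he
      refine ⟨b, hb, ?_⟩
      calc PP c (i + 1) = b₀ * (cev nm φ y₀ L * v₀ * u i * M i) * (u i)⁻¹ := by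
            rw [chH_pp_succ, hPP, hci]
            simp only [mul_assoc]
        _ = b₀ * b * cev nm φ y₁ (L ++ L₁) * (v₁ * (u i)⁻¹) := by
            rw [he]
            simp only [mul_assoc]
    refine ⟨L ++ L₁, y₁, n₁,
      fun j e k => if j = i then min (p₁ e k) (L ++ L₁).length else p j e k, b₀ * b,
      v₁ * (u i)⁻¹, hL', hLn', hV', hb₀.mul hb, hv₁.mul (h1 i hi).inv, hPP', ?_, ?_⟩
    · intro j hj e k
      show (if j = i then min (p₁ e k) (L ++ L₁).length else p j e k) ≤ _
      split_ifs with hji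
      · exact min_le_right _ _
      · rw [List.length_append]
        exact (hp j (by omega) e k).trans (Nat.le_add_right _ _)
    · intro A _ ι ψ hι hψ y hVy hy2
      obtain ⟨c', u', M', g1, g2, g3, g4, g5, b', v', hb', hv', hv'0, hPA⟩ :=
        hA ι ψ hι hψ y (hVy.mono fun s hs => List.mem_append_left _ hs) (by
          intro a b n h
          rw [← hy' a b n h]
          exact hy2 a b n (List.mem_append_left _ h))
      obtain ⟨u₂, M₂, b₂, v₂, f1, f2, f3, f4, f5, f6, f7, f8, he, hcell⟩ :=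
        hB ι ψ hι hψ y hVy hy2 v' hv' hv'0
      have hcc : ∀ j < i, Function.update c' i (u₂ * M₂ * u₂⁻¹) j = c' j := fun j hj =>
        Function.update_of_ne hj.ne _ _
      have hPi : ∀ j ≤ i, PP (Function.update c' i (u₂ * M₂ * u₂⁻¹)) j = PP c' j := fun j hj =>
        chH_pp_congr fun x hx => hcc x (by omega)
      refine ⟨Function.update c' i (u₂ * M₂ * u₂⁻¹), Function.update u' i u₂,
        Function.update M' i M₂, ?_, ?_, ?_, ?_, ?_, b' * b₂, v₂ * u₂⁻¹, hb'.mul f6,
        f7.mul f1.inv, ?_, ?_⟩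
      · intro j hj
        rcases Nat.lt_succ_iff_lt_or_eq.1 hj with h | rfl
        · rw [Function.update_of_ne h.ne]
          exact g1 j h
        · rw [Function.update_self]
          exact f1
      · intro j hj
        rcases Nat.lt_succ_iff_lt_or_eq.1 hj with h | rfl
        · rw [Function.update_of_ne h.ne]
          exact g2 j h
        · rw [Function.update_self]
          exact f4
      · intro j hj
        rcases Nat.lt_succ_iff_lt_or_eq.1 hj with h | rfl
        · rw [Function.update_of_ne h.ne, Function.update_of_ne h.ne, Function.update_of_ne h.ne]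
          exact g3 j h
        · rw [Function.update_self, Function.update_self, Function.update_self, mul_assoc,
            f1.inv_mul, mul_one]
      · intro j hj
        rcases Nat.lt_succ_iff_lt_or_eq.1 hj with h | rfl
        · rw [Function.update_of_ne h.ne]
          exact g4 j h
        · rw [Function.update_self, Matrix.map_mul, Matrix.map_mul, f1.map_inv, f3, f5, hci]
      · intro j hj e k hk
        beta_reduce
        rcases Nat.lt_succ_iff_lt_or_eq.1 hj with h | rfl
        · have hle : j + sh e ≤ i := by cases e <;> simp only [sh] <;> omega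
          rw [Function.update_of_ne h.ne, hPi _ hle, if_neg h.ne,
            List.take_append_of_le_length (hp j h e k)]
          exact g5 j h e k hk
        · rw [Function.update_self, if_pos rfl, chH_take_min]
          cases e with
          | false =>
            have e2 : PP (Function.update c' j (u₂ * M₂ * u₂⁻¹)) (j + sh false) * u₂ =
                b' * (cev nm ι y L * v' * u₂) := by
              rw [show j + sh false = j from rfl, hPi j le_rfl, hPA]
              simp only [mul_assoc]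
            rw [e2]
            exact (hcell k hk).1.bu_mul hb'
          | true =>
            have e2 : PP (Function.update c' j (u₂ * M₂ * u₂⁻¹)) (j + sh true) * u₂ =
                b' * (cev nm ι y L * v' * u₂ * M₂) := by
              rw [show j + sh true = j + 1 from rfl, chH_pp_succ, hPi j le_rfl, hPA,
                Function.update_self]
              have e3 : u₂ * M₂ * u₂⁻¹ * u₂ = u₂ * M₂ := by
                rw [mul_assoc, f1.inv_mul, mul_one]
              rw [mul_assoc, e3]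
              simp only [mul_assoc]
            rw [e2]
            exact (hcell k hk).2.bu_mul hb'
      · rw [Matrix.map_mul, f1.map_inv, f3, f8]
      · rw [chH_pp_succ, hPi i le_rfl, hPA, Function.update_self]
        calc b' * cev nm ι y L * v' * (u₂ * M₂ * u₂⁻¹) =
            b' * (cev nm ι y L * v' * u₂ * M₂) * u₂⁻¹ := by simp only [mul_assoc]
          _ = b' * b₂ * cev nm ι y (L ++ L₁) * (v₂ * u₂⁻¹) := by
            rw [he]
            simp only [mul_assoc]

/-- T4.5 (hedge). -/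
theorem chainAsmStmtH : ChainAsmStmt := by
  intro hC R _ φ r N nm m κ l c u M ks h1 h2 h3 h4 h5
  obtain ⟨L, y₀, n₀, p, b₀, v₀, hL, -, hV, -, -, -, -, hA⟩ :=
    chainH hC φ nm m κ l c u M ks h1 h2 h3 h4 h5 m le_rfl
  refine ⟨L, y₀, p, hL, hV, ?_⟩
  intro A _ ι ψ hι hψ y hVy hy
  obtain ⟨c', u', M', g1, g2, g3, g4, g5, b, v, hb, hv, -, hPA⟩ := hA ι ψ hι hψ y hVy hy
  exact ⟨c', u', M', g1, g2, g3, g4, g5, b, v, hb, hv, hPA⟩

end Vale.Agent.P002B
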