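import Vale.Agent.P002B.Stmts2

/-!
# P002, genus 0, arbitrary classes: T6a, stable refinements of chains
-/

namespace Vale.Agent.P002B

namespace ChainT

variable {r : ℕ}

theorem inj_of_chain {ℱ : Set (Submodule ℂ (Fin r → ℂ))} (h : IsChain (· ≤ ·) ℱ) :
    Set.InjOn (fun G : Submodule ℂ (Fin r → ℂ) => Module.finrank ℂ G) ℱ := by
  intro A hA B hB hAB
  have hAB' : Module.finrank ℂ A = Module.finrank ℂ B := hAB
  rcases h.total hA hB with h1 | h1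
  · exact Submodule.eq_of_le_of_finrank_eq h1 hAB'
  · exact (Submodule.eq_of_le_of_finrank_eq h1 hAB'.symm).symm

theorem mapsTo {ℱ : Set (Submodule ℂ (Fin r → ℂ))} :
    Set.MapsTo (fun G : Submodule ℂ (Fin r → ℂ) => Module.finrank ℂ G) ℱ
      (Set.Iic r) := by
  intro A _
  have h := Submodule.finrank_le A
  rw [Module.finrank_fin_fun] at h
  exact h

theorem fin_of_chain {ℱ : Set (Submodule ℂ (Fin r → ℂ))} (h : IsChain (· ≤ ·) ℱ) :
    ℱ.Finite :=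
  Set.Finite.of_injOn mapsTo (inj_of_chain h) (Set.finite_Iic r)

theorem ncard_of_chain {ℱ : Set (Submodule ℂ (Fin r → ℂ))} (h : IsChain (· ≤ ·) ℱ) :
    ℱ.ncard ≤ r + 1 := by
  have h1 := Set.ncard_le_ncard_of_injOn _ (mapsTo (ℱ := ℱ)) (inj_of_chain h) (Set.finite_Iic r)
  have h2 : (Set.Iic r : Set ℕ).ncard = r + 1 := by
    rw [Set.ncard_eq_toFinset_card' , Set.toFinset_Iic, Nat.card_Iic]
  rw [h2] at h1
  exact h1

end ChainT

open ChainT in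
theorem chainStmt : ChainStmt := by
  intro r ℰ J w ℱ₀ h0 h1 hc
  suffices H : ∀ (k : ℕ) (ℱ : Set (Submodule ℂ (Fin r → ℂ)))
      (τ : Submodule ℂ (Fin r → ℂ) → ℕ) (n : ℕ), r + 2 ≤ ℱ.ncard + k → IsChain (· ≤ ·) ℱ →
      ℱ₀ ⊆ ℱ → (∀ G ∈ ℱ₀, τ G = 0) → (∀ G ∈ ℱ, τ G ≤ n) →
      (∀ G ∈ ℱ, G ∉ ℱ₀ → 0 < τ G) →
      (∀ G ∈ ℱ, ∀ G' ∈ ℱ, G ∉ ℱ₀ → G' ∉ ℱ₀ → τ G = τ G' → G = G') →
      (∀ G ∈ ℱ, G ∉ ℱ₀ → ∃ A ∈ ℱ, ∃ B ∈ ℱ, A < G ∧ G < B ∧ τ A < τ G ∧ τ B < τ G ∧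
        (∀ C ∈ ℱ, A < C → C < B → τ G ≤ τ C) ∧ ∃ W, (W ∈ ℰ ∨ ∃ j, ∃ F ∈ ℱ, ∃ F' ∈ ℱ, F' ≤ F ∧
          τ F < τ G ∧ τ F' < τ G ∧ W = w j F F') ∧ G = A ⊔ (B ⊓ W)) →
      ∃ (ℱ : Set (Submodule ℂ (Fin r → ℂ))) (τ : Submodule ℂ (Fin r → ℂ) → ℕ),
      IsChain (· ≤ ·) ℱ ∧ ℱ₀ ⊆ ℱ ∧ (∀ G ∈ ℱ₀, τ G = 0) ∧
      (∀ A ∈ ℱ, ∀ B ∈ ℱ, A ≤ B → (∀ C ∈ ℱ, A < C → ¬ C < B) → ∀ W,
        (W ∈ ℰ ∨ ∃ j, ∃ F ∈ ℱ, ∃ F' ∈ ℱ, F' ≤ F ∧ W = w j F F') → A ⊔ (B ⊓ W) ∈ ℱ) ∧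
      (∀ G ∈ ℱ, G ∉ ℱ₀ → 0 < τ G) ∧
      (∀ G ∈ ℱ, ∀ G' ∈ ℱ, G ∉ ℱ₀ → G' ∉ ℱ₀ → τ G = τ G' → G = G') ∧
      ∀ G ∈ ℱ, G ∉ ℱ₀ → ∃ A ∈ ℱ, ∃ B ∈ ℱ, A < G ∧ G < B ∧ τ A < τ G ∧ τ B < τ G ∧
        (∀ C ∈ ℱ, A < C → C < B → τ G ≤ τ C) ∧ ∃ W, (W ∈ ℰ ∨ ∃ j, ∃ F ∈ ℱ, ∃ F' ∈ ℱ, F' ≤ F ∧
          τ F < τ G ∧ τ F' < τ G ∧ W = w j F F') ∧ G = A ⊔ (B ⊓ W) by
    refine H (r + 2) ℱ₀ (fun _ => 0) 0 (by omega) hc subset_rfl (fun _ _ => rfl)
      (fun _ _ => le_rfl) (fun G hG hG' => absurd hG hG') (fun G hG _ _ hG' => absurd hG hG')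
      (fun G hG hG' => absurd hG hG')
  intro k
  induction k with
  | zero =>
    intro ℱ τ n hk hch
    have := ncard_of_chain hch
    omega
  | succ k ih =>
    intro ℱ τ n hk hch hsub hz hn hpos hinj hwit
    by_cases hst : ∀ A ∈ ℱ, ∀ B ∈ ℱ, A ≤ B → (∀ C ∈ ℱ, A < C → ¬ C < B) → ∀ W,
        (W ∈ ℰ ∨ ∃ j, ∃ F ∈ ℱ, ∃ F' ∈ ℱ, F' ≤ F ∧ W = w j F F') → A ⊔ (B ⊓ W) ∈ ℱ
    · exact ⟨ℱ, τ, hch, hsub, hz, hst, hpos, hinj, hwit⟩
    push Not at hst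
    obtain ⟨A, hA, B, hB, hAB, hcons, W, hW, hG⟩ := hst
    set G₁ := A ⊔ (B ⊓ W) with hG₁
    have hAG : A < G₁ := lt_of_le_of_ne le_sup_left fun h => hG (h ▸ hA)
    have hGB : G₁ < B := lt_of_le_of_ne (sup_le hAB inf_le_left) fun h => hG (h ▸ hB)
    have hne : ∀ C ∈ ℱ, C ≠ G₁ := fun C hC h => hG (h ▸ hC)
    have hτ : ∀ C ∈ ℱ, Function.update τ G₁ (n + 1) C = τ C := fun C hC =>
      Function.update_of_ne (hne C hC) _ _
    have hτ1 : Function.update τ G₁ (n + 1) G₁ = n + 1 := Function.update_self _ _ _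
    refine ih (insert G₁ ℱ) (Function.update τ G₁ (n + 1)) (n + 1) ?_ ?_ ?_ ?_ ?_ ?_ ?_ ?_
    · rw [Set.ncard_insert_of_notMem hG (fin_of_chain hch)]
      omega
    · refine hch.insert fun C hC _ => ?_
      rcases hch.total hA hC with h | h
      · rcases h.lt_or_eq with h' | h'
        · left
          rcases hch.total hC hB with h2 | h2
          · rcases h2.lt_or_eq with h3 | h3
            · exact absurd h3 (hcons C hC h')
            · exact h3 ▸ hGB.le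
          · exact hGB.le.trans h2
        · right
          exact h' ▸ hAG.le
      · exact Or.inr (h.trans hAG.le)
    · exact hsub.trans (Set.subset_insert _ _)
    · intro G hG0
      rw [hτ G (hsub hG0)]
      exact hz G hG0
    · intro G hG'
      rcases hG' with rfl | hG'
      · rw [hτ1]
      · rw [hτ G hG']
        exact (hn G hG').trans (Nat.le_succ n)
    · intro G hG' hG0
      rcases hG' with rfl | hG'
      · rw [hτ1]
        exact Nat.succ_pos n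
      · rw [hτ G hG']
        exact hpos G hG' hG0
    · intro G hG' G' hG'' hG0 hG0' he
      rcases hG' with rfl | hG' <;> rcases hG'' with rfl | hG''
      · rfl
      · rw [hτ1, hτ G' hG''] at he
        have := hn G' hG''
        omega
      · rw [hτ1, hτ G hG'] at he
        have := hn G hG'
        omega
      · rw [hτ G hG', hτ G' hG''] at he
        exact hinj G hG' G' hG'' hG0 hG0' he
    · intro G hG' hG0
      rcases hG' with rfl | hG'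
      · refine ⟨A, Or.inr hA, B, Or.inr hB, hAG, hGB, ?_, ?_, ?_, W, ?_, rfl⟩
        · rw [hτ1, hτ A hA]
          exact Nat.lt_succ_of_le (hn A hA)
        · rw [hτ1, hτ B hB]
          exact Nat.lt_succ_of_le (hn B hB)
        · intro C hC h2 h3
          rcases hC with rfl | hC
          · exact le_rfl
          · exact absurd h3 (hcons C hC h2)
        · rcases hW with hW | ⟨j, F, hF, F', hF', hle, rfl⟩
          · exact Or.inl hW
          · refine Or.inr ⟨j, F, Or.inr hF, F', Or.inr hF', hle, ?_, ?_, rfl⟩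
            · rw [hτ1, hτ F hF]
              exact Nat.lt_succ_of_le (hn F hF)
            · rw [hτ1, hτ F' hF']
              exact Nat.lt_succ_of_le (hn F' hF')
      · obtain ⟨A', hA', B', hB', h2, h3, h4, h5, h6, W', hW', h7⟩ := hwit G hG' hG0
        refine ⟨A', Or.inr hA', B', Or.inr hB', h2, h3, ?_, ?_, ?_, W', ?_, h7⟩
        · rw [hτ G hG', hτ A' hA']
          exact h4
        · rw [hτ G hG', hτ B' hB']
          exact h5
        · intro C hC h8 h9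
          rw [hτ G hG']
          rcases hC with rfl | hC
          · rw [hτ1]
            exact (hn G hG').trans (Nat.le_succ n)
          · rw [hτ C hC]
            exact h6 C hC h8 h9
        · rcases hW' with hW' | ⟨j, F, hF, F', hF', hle, h8, h9, h10⟩
          · exact Or.inl hW'
          · refine Or.inr ⟨j, F, Or.inr hF, F', Or.inr hF', hle, ?_, ?_, h10⟩
            · rw [hτ G hG', hτ F hF]
              exact h8
            · rw [hτ G hG', hτ F' hF']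
              exact h9

end Vale.Agent.P002B
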