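import Vale.Agent.P002.JordanForm

/-!
# P002B: cyclic endomorphisms that commute with a given one
-/

set_option linter.all false

namespace Vale.Agent.P002B.CP

open Matrix Module Vale.Agent.P002

universe u

/-- Splitting off a Jordan chain. -/
theorem jordan_split {V : Type u} [AddCommGroup V] [Module ℂ V] [FiniteDimensional ℂ V]
    [Nontrivial V] (T : Module.End ℂ V) :
    ∃ (lam : ℂ) (m : ℕ) (v : V) (U : Submodule ℂ V), (∀ x ∈ U, (T - lam • 1) x ∈ U) ∧
      ((T - lam • 1) ^ m) v = 0 ∧ v ≠ 0 ∧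
      IsCompl (Submodule.span ℂ (Set.range fun k : ℕ => ((T - lam • 1) ^ k) v)) U := by
  obtain ⟨lam, m, v, φ, hm, hv, hφ0, hφ1⟩ := jordan_vector T
  set N : Module.End ℂ V := T - lam • 1 with hN
  let α : (Fin m → ℂ) →ₗ[ℂ] V := Fintype.linearCombination ℂ fun k : Fin m => (N ^ (k : ℕ)) v
  have hα : ∀ a, α a = ∑ k, a k • (N ^ (k : ℕ)) v := fun a =>
    Fintype.linearCombination_apply ℂ _ a
  let β : V →ₗ[ℂ] (Fin m → ℂ) := LinearMap.pi fun k : Fin m => φ ∘ₗ (N ^ (k : ℕ))
  have hβ : ∀ x k, β x k = φ ((N ^ (k : ℕ)) x) := fun x k => rfl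
  have hvbig : ∀ k, m ≤ k → (N ^ k) v = 0 := by
    intro k hk
    obtain ⟨l, rfl⟩ := Nat.exists_eq_add_of_le' hk
    rw [pow_add, Module.End.mul_apply, hv, map_zero]
  have hinj : ∀ a, β (α a) = 0 → a = 0 := by
    intro a ha
    by_contra hne
    have hex : ∃ k : ℕ, ∃ hk : k < m, a ⟨k, hk⟩ ≠ 0 := by
      by_contra hcon
      push Not at hcon
      exact hne (funext fun k => hcon k k.2)
    obtain ⟨hk, hak⟩ := Nat.find_spec hex
    set k₀ := Nat.find hex with hk₀
    have hmin : ∀ k (hk : k < m), k < k₀ → a ⟨k, hk⟩ = 0 := by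
      intro k hk' hlt
      by_contra hcon
      exact Nat.find_min hex hlt ⟨hk', hcon⟩
    have h1 := congrFun ha ⟨m - 1 - k₀, by omega⟩
    rw [hβ, hα, map_sum, map_sum, Finset.sum_eq_single ⟨k₀, hk⟩] at h1
    · rw [map_smul, map_smul, ← Module.End.mul_apply, ← pow_add, smul_eq_mul] at h1
      simp only [Pi.zero_apply] at h1
      have e : m - 1 - k₀ + k₀ = m - 1 := by omega
      rw [e] at h1
      rcases mul_eq_zero.mp h1 with h2 | h2
      · exact hak h2
      · exact hφ1 h2
    · intro k _ hkne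
      rcases lt_or_ge (k : ℕ) k₀ with hlt | hge
      · rw [hmin k k.2 hlt, zero_smul, map_zero, map_zero]
      · have hgt : k₀ < (k : ℕ) := by
          rcases Nat.lt_or_eq_of_le hge with h | h
          · exact h
          · exact absurd (Fin.ext h.symm) hkne
        rw [map_smul, ← Module.End.mul_apply, ← pow_add, hvbig _ (by
          simp only
          omega), smul_zero, map_zero]
    · intro h
      exact absurd (Finset.mem_univ _) h
  have hsurj0 : Function.Surjective (β ∘ₗ α) := by
    rw [← LinearMap.injective_iff_surjective, ← LinearMap.ker_eq_bot, LinearMap.ker_eq_bot']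
    exact hinj
  have hspan : ∀ x ∈ Submodule.span ℂ (Set.range fun k : ℕ => (N ^ k) v), ∃ a, α a = x := by
    intro x hx
    have : Submodule.span ℂ (Set.range fun k : ℕ => (N ^ k) v) ≤ LinearMap.range α := by
      rw [Submodule.span_le]
      rintro _ ⟨k, rfl⟩
      by_cases hk : k < m
      · refine ⟨Pi.single ⟨k, hk⟩ 1, ?_⟩
        rw [hα]
        simp [Pi.single_apply]
      · have : (N ^ k) v = 0 := hvbig k (by omega)
        simp only [this]
        exact Submodule.zero_mem _
    exact this hx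
  have hαm : ∀ a, α a ∈ Submodule.span ℂ (Set.range fun k : ℕ => (N ^ k) v) := by
    intro a
    rw [hα]
    exact Submodule.sum_mem _ fun k _ => Submodule.smul_mem _ _
      (Submodule.subset_span ⟨(k : ℕ), rfl⟩)
  refine ⟨lam, m, v, LinearMap.ker β, ?_, hv, ?_, ?_⟩
  · intro x hx
    rw [LinearMap.mem_ker] at hx ⊢
    funext k
    rw [hβ, ← Module.End.mul_apply, ← pow_succ]
    by_cases hk : (k : ℕ) + 1 < m
    · have := congrFun hx ⟨(k : ℕ) + 1, hk⟩
      rw [hβ] at this
      exact this
    · have : (k : ℕ) + 1 = m := by omega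
      rw [this, hφ0]
      rfl
  · intro h0
    apply hφ1
    rw [h0, map_zero, map_zero]
  · rw [isCompl_iff, Submodule.disjoint_def, codisjoint_iff, eq_top_iff]
    refine ⟨fun x hx hx' => ?_, fun x _ => ?_⟩
    · obtain ⟨a, rfl⟩ := hspan x hx
      rw [hinj a hx', map_zero]
    · obtain ⟨a, ha⟩ := hsurj0 (β x)
      have ha' : β (α a) = β x := ha
      rw [Submodule.mem_sup]
      refine ⟨α a, hαm a, x - α a, ?_, by abel⟩
      rw [LinearMap.mem_ker, map_sub, ha', sub_self]

end Vale.Agent.P002B.CP
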