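import Vale.Agent.P002.JordanForm
import Vale.Agent.P002G.Cyc
import Vale.Agent.P002R.YTri

/-!
# P002B: commuting pairs are limits of simultaneously diagonalisable pairs (algebraic form)
-/

set_option linter.all false

namespace Vale.Agent.P002B.CP

open Matrix Module Vale.Agent.P002

variable {d : ℕ}

/-- The entries of a pair. -/
def pt (A B : Matrix (Fin d) (Fin d) ℂ) : Bool × Fin d × Fin d → ℂ :=
  fun x => if x.1 then B x.2.1 x.2.2 else A x.2.1 x.2.2

theorem zero_of_cofinite {p : Polynomial ℂ} {S : Set ℂ} (hS : S.Finite)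
    (h : ∀ s, s ∉ S → p.eval s = 0) : ∀ s, p.eval s = 0 := by
  have hp : p = 0 := by
    refine Polynomial.eq_zero_of_infinite_isRoot p (Set.Infinite.mono ?_ hS.infinite_compl)
    intro s hs
    exact h s hs
  intro s
  rw [hp, Polynomial.eval_zero]

/-- Evaluation of a matrix of polynomials. -/
noncomputable def ev (s : ℂ) : Matrix (Fin d) (Fin d) (Polynomial ℂ) →ₐ[ℂ] Matrix (Fin d) (Fin d) ℂ :=
  (Polynomial.aeval s : Polynomial ℂ →ₐ[ℂ] ℂ).mapMatrix

theorem ev_apply (s : ℂ) (M : Matrix (Fin d) (Fin d) (Polynomial ℂ)) (i j : Fin d) :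
    ev s M i j = (M i j).eval s := by
  unfold ev
  rw [AlgHom.mapMatrix_apply, Matrix.map_apply, Polynomial.coe_aeval_eq_eval]

theorem eval_pt_poly (f : MvPolynomial (Bool × Fin d × Fin d) ℂ)
    (F G : Matrix (Fin d) (Fin d) (Polynomial ℂ)) :
    ∃ p : Polynomial ℂ, ∀ s, p.eval s = MvPolynomial.eval (pt (ev s F) (ev s G)) f := by
  refine ⟨MvPolynomial.eval₂ Polynomial.C (fun x : Bool × Fin d × Fin d =>
    if x.1 then G x.2.1 x.2.2 else F x.2.1 x.2.2) f, fun s => ?_⟩
  have h := MvPolynomial.hom_eval₂ f Polynomial.C (Polynomial.evalRingHom s)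
    (fun x : Bool × Fin d × Fin d => if x.1 then G x.2.1 x.2.2 else F x.2.1 x.2.2)
  rw [Polynomial.coe_evalRingHom] at h
  rw [h]
  have h1 : (Polynomial.evalRingHom s).comp (Polynomial.C : ℂ →+* Polynomial ℂ) = RingHom.id ℂ := by
    ext x
    simp
  rw [h1]
  show _ = MvPolynomial.eval₂ (RingHom.id ℂ) _ f
  congr 1
  funext x
  unfold pt
  obtain ⟨e, i, j⟩ := x
  cases e
  · simp [ev_apply]
  · simp [ev_apply]

/-- A line of matrices. -/
noncomputable def ln (X M : Matrix (Fin d) (Fin d) ℂ) : Matrix (Fin d) (Fin d) (Polynomial ℂ) :=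
  Matrix.of fun i j => Polynomial.C (X i j) + Polynomial.X * Polynomial.C (M i j)

theorem ev_ln (X M : Matrix (Fin d) (Fin d) ℂ) (s : ℂ) : ev s (ln X M) = X + s • M := by
  ext i j
  rw [ev_apply]
  simp [ln]
  ring

theorem ev_aeval (F : Matrix (Fin d) (Fin d) (Polynomial ℂ)) (q : Polynomial ℂ) (s : ℂ) :
    ev s (Polynomial.aeval F q) = Polynomial.aeval (ev s F) q :=
  (Polynomial.aeval_algHom_apply (ev s) F q).symm

theorem aeval_diag {A W : Matrix (Fin d) (Fin d) ℂ} {E : Fin d → ℂ}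
    (h : A * W = W * diagonal E) (q : Polynomial ℂ) :
    Polynomial.aeval A q * W = W * diagonal fun i => q.eval (E i) := by
  induction q using Polynomial.induction_on' with
  | add p q hp hq =>
    rw [map_add, Matrix.add_mul, hp, hq, ← Matrix.mul_add, Matrix.diagonal_add]
    congr 2
    funext i
    rw [Polynomial.eval_add]
  | monomial n a =>
    have h1 : ∀ k : ℕ, A ^ k * W = W * diagonal fun i => E i ^ k := by
      intro k
      induction k with
      | zero => simp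
      | succ k ih =>
        rw [pow_succ, mul_assoc, h, ← mul_assoc, ih, mul_assoc, Matrix.diagonal_mul_diagonal]
        congr 2
    rw [Polynomial.aeval_monomial, ← Algebra.smul_def, Matrix.smul_mul, h1, ← Matrix.mul_smul]
    congr 1
    ext i j
    rw [Matrix.smul_apply]
    by_cases hij : i = j
    · subst hij
      simp
    · rw [Matrix.diagonal_apply_ne _ hij, Matrix.diagonal_apply_ne _ hij, smul_zero]

/-- `f` vanishes at all pairs `(X, q(X))`. -/
theorem f_poly (f : MvPolynomial (Bool × Fin d × Fin d) ℂ)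
    (hf : ∀ (P : (Matrix (Fin d) (Fin d) ℂ)ˣ) (D D' : Fin d → ℂ), MvPolynomial.eval
      (pt ((P : Matrix (Fin d) (Fin d) ℂ) * diagonal D *
          ((P⁻¹ : (Matrix (Fin d) (Fin d) ℂ)ˣ) : Matrix (Fin d) (Fin d) ℂ))
        ((P : Matrix (Fin d) (Fin d) ℂ) * diagonal D' *
          ((P⁻¹ : (Matrix (Fin d) (Fin d) ℂ)ˣ) : Matrix (Fin d) (Fin d) ℂ))) f = 0)
    (X : Matrix (Fin d) (Fin d) ℂ) (q : Polynomial ℂ) :
    MvPolynomial.eval (pt X (Polynomial.aeval X q)) f = 0 := by
  obtain ⟨D, ν, -, hν, -, hP⟩ := exists_jordan X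
  obtain ⟨P, hP⟩ := hP 1 one_ne_zero
  set U : Matrix (Fin d) (Fin d) ℂ := diagonal D + (1 : ℂ) • ν.map (Int.cast : ℤ → ℂ) with hU
  set I : Matrix (Fin d) (Fin d) ℂ := diagonal fun i => ((i : ℕ) : ℂ) with hI
  set M : Matrix (Fin d) (Fin d) ℂ := (P : Matrix (Fin d) (Fin d) ℂ) * I *
    ((P⁻¹ : (Matrix (Fin d) (Fin d) ℂ)ˣ) : Matrix (Fin d) (Fin d) ℂ) with hM
  obtain ⟨p, hp⟩ := eval_pt_poly f (ln X M) (Polynomial.aeval (ln X M) q)
  simp only [ev_aeval, ev_ln] at hp
  have hS : (Set.range fun p : Fin d × Fin d => (D p.2 - D p.1) /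
      (((p.1 : ℕ) : ℂ) - ((p.2 : ℕ) : ℂ))).Finite := Set.finite_range _
  have key : ∀ s, s ∉ (Set.range fun p : Fin d × Fin d => (D p.2 - D p.1) /
      (((p.1 : ℕ) : ℂ) - ((p.2 : ℕ) : ℂ))) → p.eval s = 0 := by
    intro s hs
    rw [hp]
    -- the triangular matrix
    have hdiag : ∀ i, (U + s • I) i i = D i + s * ((i : ℕ) : ℂ) := by
      intro i
      rw [hU, hI, Matrix.add_apply, Matrix.add_apply, Matrix.smul_apply, Matrix.smul_apply,
        Matrix.diagonal_apply_eq, Matrix.diagonal_apply_eq, Matrix.map_apply,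
        hν i i (lt_irrefl i)]
      simp
    have hUT : Vale.Agent.P002R.UpT (U + s • I) := by
      intro i j hji
      rw [hU, hI, Matrix.add_apply, Matrix.add_apply, Matrix.smul_apply, Matrix.smul_apply,
        Matrix.diagonal_apply_ne _ (ne_of_gt hji), Matrix.diagonal_apply_ne _ (ne_of_gt hji),
        Matrix.map_apply, hν i j (not_lt.mpr (le_of_lt hji))]
      simp
    have hdist : ∀ i j, i ≠ j → IsUnit ((U + s • I) i i - (U + s • I) j j) := by
      intro i j hij
      rw [isUnit_iff_ne_zero, hdiag, hdiag]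
      intro h0
      apply hs
      refine ⟨(i, j), ?_⟩
      have hne : ((i : ℕ) : ℂ) - ((j : ℕ) : ℂ) ≠ 0 := by
        rw [sub_ne_zero]
        intro h1
        exact hij (Fin.ext (by exact_mod_cast h1))
      rw [div_eq_iff hne]
      linear_combination -h0
    obtain ⟨Q, hQ1, hQ2, hQ3⟩ := Vale.Agent.P002R.exists_diag_upT hUT hdist
    have hQu : IsUnit Q := by
      rw [Matrix.isUnit_iff_isUnit_det, hQ1.det, isUnit_iff_ne_zero, Finset.prod_ne_zero_iff]
      exact fun i _ => by rw [hQ2]; exact one_ne_zero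
    obtain ⟨Q', rfl⟩ := hQu
    set E : Fin d → ℂ := fun i => (U + s • I) i i with hE
    -- the conjugated matrix
    have hXs : (X + s • M) * ((P * Q' : (Matrix (Fin d) (Fin d) ℂ)ˣ) : Matrix (Fin d) (Fin d) ℂ) =
        ((P * Q' : (Matrix (Fin d) (Fin d) ℂ)ˣ) : Matrix (Fin d) (Fin d) ℂ) * diagonal E := by
      have h1 : X + s • M = (P : Matrix (Fin d) (Fin d) ℂ) * (U + s • I) *
          ((P⁻¹ : (Matrix (Fin d) (Fin d) ℂ)ˣ) : Matrix (Fin d) (Fin d) ℂ) := by
        rw [Matrix.mul_add, Matrix.add_mul, ← hP, hM, Matrix.mul_smul, Matrix.smul_mul]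
      rw [h1, Units.val_mul, ← mul_assoc, mul_assoc ((P : Matrix (Fin d) (Fin d) ℂ) * (U + s • I)),
        Units.inv_mul, mul_one, mul_assoc, hQ3, mul_assoc]
    have h2 := aeval_diag hXs q
    have e1 : X + s • M = ((P * Q' : (Matrix (Fin d) (Fin d) ℂ)ˣ) : Matrix (Fin d) (Fin d) ℂ) *
        diagonal E * (((P * Q')⁻¹ : (Matrix (Fin d) (Fin d) ℂ)ˣ) : Matrix (Fin d) (Fin d) ℂ) := by
      rw [← hXs, mul_assoc, Units.mul_inv, mul_one]
    have e2 : Polynomial.aeval (X + s • M) q =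
        ((P * Q' : (Matrix (Fin d) (Fin d) ℂ)ˣ) : Matrix (Fin d) (Fin d) ℂ) *
        diagonal (fun i => q.eval (E i)) *
          (((P * Q')⁻¹ : (Matrix (Fin d) (Fin d) ℂ)ˣ) : Matrix (Fin d) (Fin d) ℂ) := by
      rw [← h2, mul_assoc, Units.mul_inv, mul_one]
    rw [e2]
    nth_rewrite 1 [e1]
    exact hf (P * Q') E _
  have h0 := zero_of_cofinite hS key 0
  rw [hp] at h0
  simpa using h0

theorem comm_eq_aeval (X B : Matrix (Fin d) (Fin d) ℂ) (v : Fin d → ℂ)
    (hv : (kry X v).det ≠ 0) (h : Commute X B) : ∃ q : Polynomial ℂ, B = Polynomial.aeval X q := by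
  have hcyc : P002G.Cyc X v := by
    rw [P002G.cyc_iff, Matrix.isUnit_iff_isUnit_det]
    exact isUnit_iff_ne_zero.2 hv
  obtain ⟨q, hq⟩ := hcyc.exists_poly (B *ᵥ v)
  refine ⟨q, ?_⟩
  have hXq : X * Polynomial.aeval X q = Polynomial.aeval X q * X := by
    have : Polynomial.aeval X (Polynomial.X * q) = Polynomial.aeval X (q * Polynomial.X) := by
      rw [mul_comm]
    rwa [map_mul, map_mul, Polynomial.aeval_X] at this
  have hXB : X * B = B * X := h
  have htop := hcyc
    { carrier := {y | B *ᵥ y = Polynomial.aeval X q *ᵥ y}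
      add_mem' := fun {x y} hx hy => by
        show B *ᵥ (x + y) = Polynomial.aeval X q *ᵥ (x + y)
        rw [Matrix.mulVec_add, Matrix.mulVec_add]
        exact congrArg₂ _ hx hy
      zero_mem' := by
        show B *ᵥ 0 = Polynomial.aeval X q *ᵥ 0
        rw [Matrix.mulVec_zero, Matrix.mulVec_zero]
      smul_mem' := fun c x hx => by
        show B *ᵥ (c • x) = Polynomial.aeval X q *ᵥ (c • x)
        rw [Matrix.mulVec_smul, Matrix.mulVec_smul]
        exact congrArg _ hx } hq.symm (fun y hy => by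
      have hy' : B *ᵥ y = Polynomial.aeval X q *ᵥ y := hy
      show B *ᵥ (X *ᵥ y) = Polynomial.aeval X q *ᵥ (X *ᵥ y)
      rw [Matrix.mulVec_mulVec, ← hXB, ← Matrix.mulVec_mulVec, hy', Matrix.mulVec_mulVec, hXq,
        Matrix.mulVec_mulVec])
  refine Matrix.ext_of_mulVec_single fun i => ?_
  have : (Pi.single i 1 : Fin d → ℂ) ∈ (⊤ : Submodule ℂ (Fin d → ℂ)) := trivial
  rw [← htop] at this
  exact this

/-- Commuting pairs. -/
theorem commPairs (hcyc : ∀ B : Matrix (Fin d) (Fin d) ℂ, ∃ (N : Matrix (Fin d) (Fin d) ℂ)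
      (v : Fin d → ℂ), Commute N B ∧ (kry N v).det ≠ 0)
    (A B : Matrix (Fin d) (Fin d) ℂ) (h : Commute A B)
    (f : MvPolynomial (Bool × Fin d × Fin d) ℂ)
    (hf : ∀ (P : (Matrix (Fin d) (Fin d) ℂ)ˣ) (D D' : Fin d → ℂ), MvPolynomial.eval
      (pt ((P : Matrix (Fin d) (Fin d) ℂ) * diagonal D *
          ((P⁻¹ : (Matrix (Fin d) (Fin d) ℂ)ˣ) : Matrix (Fin d) (Fin d) ℂ))
        ((P : Matrix (Fin d) (Fin d) ℂ) * diagonal D' *
          ((P⁻¹ : (Matrix (Fin d) (Fin d) ℂ)ˣ) : Matrix (Fin d) (Fin d) ℂ))) f = 0) :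
    MvPolynomial.eval (pt A B) f = 0 := by
  obtain ⟨N, v, hNB, hN⟩ := hcyc B
  -- the Krylov determinant along the line
  obtain ⟨D, hD⟩ : ∃ D : Polynomial ℂ, ∀ s, D.eval s = (kry (A + s • (N - A)) v).det := by
    refine ⟨(kry (ln A (N - A)) fun i => Polynomial.C (v i)).det, fun s => ?_⟩
    have h1 := RingHom.map_det (Polynomial.evalRingHom s)
      (kry (ln A (N - A)) fun i => Polynomial.C (v i))
    rw [Polynomial.coe_evalRingHom] at h1
    rw [h1]
    congr 1
    ext i j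
    rw [RingHom.mapMatrix_apply, Matrix.map_apply, kry, kry, Matrix.of_apply, Matrix.of_apply]
    have h2 : (ev s (ln A (N - A) ^ (j : ℕ))) = (A + s • (N - A)) ^ (j : ℕ) := by
      rw [map_pow, ev_ln]
    rw [← h2, Matrix.mulVec, Matrix.mulVec, dotProduct, dotProduct, Polynomial.coe_evalRingHom,
      Polynomial.eval_finset_sum]
    refine Finset.sum_congr rfl fun k _ => ?_
    rw [Polynomial.eval_mul, Polynomial.eval_C, ev_apply]
  have hD0 : D ≠ 0 := by
    intro h0
    have := hD 1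
    rw [h0, Polynomial.eval_zero, one_smul, add_sub_cancel] at this
    exact hN this.symm
  obtain ⟨p, hp⟩ := eval_pt_poly f (ln A (N - A)) (ln B 0)
  simp only [ev_ln, smul_zero, add_zero] at hp
  have key : ∀ s, s ∉ {s : ℂ | D.IsRoot s} → p.eval s = 0 := by
    intro s hs
    rw [hp]
    have hs' : (kry (A + s • (N - A)) v).det ≠ 0 := by
      rw [← hD]; exact hs
    have hcomm : Commute (A + s • (N - A)) B := by
      refine Commute.add_left h (Commute.smul_left ?_ s)
      exact Commute.sub_left hNB h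
    obtain ⟨q, hq⟩ := comm_eq_aeval _ B v hs' hcomm
    rw [hq]
    exact f_poly f hf _ q
  have h0 := zero_of_cofinite (Polynomial.finite_setOf_isRoot hD0) key 0
  rw [hp] at h0
  simpa using h0

/-- The determinants as polynomials. -/
noncomputable def dtP (d : ℕ) (e : Bool) : MvPolynomial (Bool × Fin d × Fin d) ℂ :=
  (Matrix.of fun i j => MvPolynomial.X (e, i, j) :
    Matrix (Fin d) (Fin d) (MvPolynomial (Bool × Fin d × Fin d) ℂ)).det

theorem eval_dtP (e : Bool) (A B : Matrix (Fin d) (Fin d) ℂ) :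
    MvPolynomial.eval (pt A B) (dtP d e) = (if e then B else A).det := by
  unfold dtP
  rw [RingHom.map_det]
  congr 1
  ext i j
  rw [RingHom.mapMatrix_apply, Matrix.map_apply, Matrix.of_apply, MvPolynomial.eval_X]
  cases e <;> rfl

/-- Commuting pairs of invertible matrices. -/
theorem commPairs_units (hcyc : ∀ B : Matrix (Fin d) (Fin d) ℂ, ∃ (N : Matrix (Fin d) (Fin d) ℂ)
      (v : Fin d → ℂ), Commute N B ∧ (kry N v).det ≠ 0)
    (A B : Matrix (Fin d) (Fin d) ℂ) (h : Commute A B) (hA : IsUnit A) (hB : IsUnit B)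
    (f : MvPolynomial (Bool × Fin d × Fin d) ℂ)
    (hf : ∀ (P : (Matrix (Fin d) (Fin d) ℂ)ˣ) (D D' : Fin d → ℂ), (∀ i, D i ≠ 0) →
      (∀ i, D' i ≠ 0) → MvPolynomial.eval
      (pt ((P : Matrix (Fin d) (Fin d) ℂ) * diagonal D *
          ((P⁻¹ : (Matrix (Fin d) (Fin d) ℂ)ˣ) : Matrix (Fin d) (Fin d) ℂ))
        ((P : Matrix (Fin d) (Fin d) ℂ) * diagonal D' *
          ((P⁻¹ : (Matrix (Fin d) (Fin d) ℂ)ˣ) : Matrix (Fin d) (Fin d) ℂ))) f = 0) :
    MvPolynomial.eval (pt A B) f = 0 := by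
  have h1 := commPairs hcyc A B h (f * (dtP d false * dtP d true)) (fun P D D' => by
    by_cases hD : (∀ i, D i ≠ 0) ∧ ∀ i, D' i ≠ 0
    · rw [map_mul, hf P D D' hD.1 hD.2, zero_mul]
    · have hdet : ∀ D : Fin d → ℂ, (¬ ∀ i, D i ≠ 0) → ((P : Matrix (Fin d) (Fin d) ℂ) *
          diagonal D * ((P⁻¹ : (Matrix (Fin d) (Fin d) ℂ)ˣ) : Matrix (Fin d) (Fin d) ℂ)).det = 0 := by
        intro D hD
        push Not at hD
        obtain ⟨i, hi⟩ := hD
        rw [Matrix.det_mul, Matrix.det_mul, Matrix.det_diagonal,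
          Finset.prod_eq_zero (Finset.mem_univ i) hi, mul_zero, zero_mul]
      rw [map_mul, map_mul, eval_dtP, eval_dtP]
      rw [not_and_or] at hD
      rcases hD with hD | hD
      · rw [if_neg (by simp), hdet D hD, zero_mul, mul_zero]
      · rw [if_pos rfl, hdet D' hD, mul_zero, mul_zero])
  rw [map_mul, map_mul, eval_dtP, eval_dtP, if_neg (by simp), if_pos rfl] at h1
  have hA' := ((Matrix.isUnit_iff_isUnit_det _).1 hA).ne_zero
  have hB' := ((Matrix.isUnit_iff_isUnit_det _).1 hB).ne_zero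
  exact (mul_eq_zero.1 h1).resolve_right (mul_ne_zero hA' hB')

end Vale.Agent.P002B.CP
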