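import Vale.Agent.P002.Krylov
import Mathlib

/-!
# P002, genus 0, arbitrary classes: cyclic matrices commuting with a given matrix
-/

namespace Vale.Agent.P002B

open Matrix Polynomial

/-- Every complex matrix commutes with a cyclic one. -/
theorem exists_cyclic_comm' {m : ℕ} (B : Matrix (Fin m) (Fin m) ℂ) :
    ∃ (N : Matrix (Fin m) (Fin m) ℂ) (v : Fin m → ℂ), Commute N B ∧
      ∀ u : Fin m → ℂ, ∃ P : ℂ[X], (aeval N P) *ᵥ v = u := by
  classical
  let T : Module.End ℂ (Fin m → ℂ) := Matrix.toLin' B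
  obtain ⟨ι, _, p, hp, e, ⟨E₀⟩⟩ := Module.equiv_directSum_of_isTorsion (R := ℂ[X])
    (M := Module.AEval' T) (Module.AEval.isTorsion_of_finiteDimensional ℂ (Fin m → ℂ) T)
  let E : Module.AEval' T ≃ₗ[ℂ[X]] ((i : ι) → ℂ[X] ⧸ Submodule.span ℂ[X] {p i ^ e i}) :=
    E₀.trans (DirectSum.linearEquivFunOnFintype ℂ[X] ι _)
  have hl : ∀ i, ∃ l : ℂ, Associated (p i) (X - C l) := by
    intro i
    obtain ⟨l, hl⟩ := IsAlgClosed.exists_root (p i) (by
      rw [IsAlgClosed.degree_eq_one_of_irreducible ℂ (hp i)]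
      exact one_ne_zero)
    refine ⟨l, ?_⟩
    have h1 := dvd_iff_isRoot.2 hl
    exact ((irreducible_X_sub_C l).associated_of_dvd (hp i) h1).symm
  choose l hl using hl
  let c : ι → ℂ := fun i => ((Fintype.equivFin ι i : ℕ) : ℂ)
  have hc : Function.Injective c := by
    intro i j hij
    have h1 : ((Fintype.equivFin ι i : ℕ) : ℂ) = ((Fintype.equivFin ι j : ℕ) : ℂ) := hij
    have h2 := Nat.cast_injective h1
    exact (Fintype.equivFin ι).injective (Fin.ext h2)
  let q : ι → ℂ[X] := fun i => X - C (l i) + C (c i)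
  let D : ((i : ι) → ℂ[X] ⧸ Submodule.span ℂ[X] {p i ^ e i}) →ₗ[ℂ[X]]
      ((i : ι) → ℂ[X] ⧸ Submodule.span ℂ[X] {p i ^ e i}) :=
    LinearMap.pi fun i => q i • LinearMap.proj i
  let N₁ : Module.AEval' T →ₗ[ℂ[X]] Module.AEval' T :=
    E.symm.toLinearMap ∘ₗ D ∘ₗ E.toLinearMap
  let N₂ : Module.End ℂ (Fin m → ℂ) := (Module.AEval'.of T).symm.toLinearMap ∘ₗ
    (N₁.restrictScalars ℂ) ∘ₗ (Module.AEval'.of T).toLinearMap
  have hN₂ : ∀ x, Module.AEval'.of T (N₂ x) = N₁ (Module.AEval'.of T x) := by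
    intro x
    simp [N₂]
  have hcomm : ∀ x, N₂ (T x) = T (N₂ x) := by
    intro x
    apply (Module.AEval'.of T).injective
    rw [hN₂, ← Module.AEval'.X_smul_of, ← Module.AEval'.X_smul_of, hN₂, map_smul]
  have hEN : ∀ x i, E (Module.AEval'.of T (N₂ x)) i = q i • E (Module.AEval'.of T x) i := by
    intro x i
    rw [hN₂]
    simp [N₁, D]
  have hpow : ∀ (n : ℕ) x i, E (Module.AEval'.of T ((N₂ ^ n) x)) i =
      q i ^ n • E (Module.AEval'.of T x) i := by
    intro n
    induction n with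
    | zero =>
      intro x i
      simp
    | succ n ih =>
      intro x i
      rw [pow_succ, Module.End.mul_apply, ih, hEN, smul_smul, pow_succ]
  have hpoly : ∀ (P : ℂ[X]) x i, E (Module.AEval'.of T ((aeval N₂ P) x)) i =
      P.comp (q i) • E (Module.AEval'.of T x) i := by
    intro P
    induction P using Polynomial.induction_on' with
    | add P Q hP hQ =>
      intro x i
      rw [map_add, LinearMap.add_apply, map_add, map_add, Pi.add_apply, hP, hQ, add_comp,
        add_smul]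
    | monomial n a =>
      intro x i
      rw [aeval_monomial, Module.End.mul_apply, Module.algebraMap_end_apply, map_smul,
        ← Module.AEval.C_smul, map_smul, Pi.smul_apply, hpow, smul_smul, monomial_comp]
  let v : Fin m → ℂ := (Module.AEval'.of T).symm (E.symm fun i => Submodule.Quotient.mk 1)
  have hcyc : ∀ u : Fin m → ℂ, ∃ P : ℂ[X], (aeval N₂ P) v = u := by
    intro u
    have h1 : ∀ i, ∃ y : ℂ[X], Submodule.Quotient.mk y = E (Module.AEval'.of T u) i :=
      fun i => Submodule.Quotient.mk_surjective _ _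
    choose y hy using h1
    obtain ⟨P, hP⟩ := Ideal.exists_forall_sub_mem_ideal
      (I := fun i => Ideal.span {(X - C (c i)) ^ e i}) (by
        intro i j hij
        rw [Function.onFun, Ideal.isCoprime_span_singleton_iff]
        exact (pairwise_coprime_X_sub_C hc hij).pow)
      (fun i => (y i).comp (X - C (c i) + C (l i)))
    refine ⟨P, ?_⟩
    apply (Module.AEval'.of T).injective
    apply E.injective
    funext i
    rw [hpoly, ← hy i]
    have h2 : E (Module.AEval'.of T v) i = Submodule.Quotient.mk 1 := by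
      simp [v]
    rw [h2, ← Submodule.Quotient.mk_smul, smul_eq_mul, mul_one, Submodule.Quotient.eq]
    have h3 := hP i
    rw [Ideal.mem_span_singleton] at h3
    have h4 := map_dvd (compRingHom (q i)) h3
    simp only [coe_compRingHom_apply, pow_comp, sub_comp, X_comp, C_comp] at h4
    have h5 : ((y i).comp (X - C (c i) + C (l i))).comp (q i) = y i := by
      rw [comp_assoc]
      have : (X - C (c i) + C (l i) : ℂ[X]).comp (q i) = X := by
        simp [q]
      rw [this, comp_X]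
    rw [h5] at h4
    have h6 : (q i - C (c i)) = X - C (l i) := by simp [q]
    rw [h6] at h4
    have h7 : p i ^ e i ∣ P.comp (q i) - y i := ((hl i).pow_pow).dvd.trans h4
    exact Ideal.mem_span_singleton.2 h7
  refine ⟨LinearMap.toMatrix' N₂, v, ?_, fun u => ?_⟩
  · have h1 : N₂ * T = T * N₂ := LinearMap.ext hcomm
    have h2 := congrArg LinearMap.toMatrix' h1
    rw [LinearMap.toMatrix'_mul, LinearMap.toMatrix'_mul] at h2
    have h3 : LinearMap.toMatrix' T = B := LinearMap.toMatrix'_toLin' B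
    rw [h3] at h2
    exact h2
  · obtain ⟨P, hP⟩ := hcyc u
    refine ⟨P, ?_⟩
    rw [← hP]
    have h1 : Matrix.toLinAlgEquiv' (aeval (LinearMap.toMatrix' N₂) P) = aeval N₂ P := by
      rw [← Polynomial.aeval_algHom_apply (Matrix.toLinAlgEquiv' : _ ≃ₐ[ℂ] _)]
      congr 1
      congr 1
      exact Matrix.toLin'_toMatrix' N₂
    rw [← h1]
    rfl

theorem aeval_mulVec_eq_kry {m : ℕ} (N : Matrix (Fin m) (Fin m) ℂ) (v : Fin m → ℂ) (Q : ℂ[X])
    (hQ : Q.natDegree < m) :
    (aeval N Q) *ᵥ v = P002.kry N v *ᵥ fun j => Q.coeff (j : ℕ) := by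
  rw [aeval_eq_sum_range' hQ, ← Fin.sum_univ_eq_sum_range (fun j => Q.coeff j • N ^ j) m,
    Matrix.sum_mulVec]
  ext i
  rw [Finset.sum_apply, Matrix.mulVec, dotProduct]
  refine Finset.sum_congr rfl fun j _ => ?_
  rw [Matrix.smul_mulVec, Pi.smul_apply, smul_eq_mul, mul_comm]
  rfl

theorem det_kry_ne_zero {m : ℕ} {N : Matrix (Fin m) (Fin m) ℂ} {v : Fin m → ℂ}
    (h : ∀ u : Fin m → ℂ, ∃ P : ℂ[X], (aeval N P) *ᵥ v = u) : (P002.kry N v).det ≠ 0 := by
  rcases Nat.eq_zero_or_pos m with rfl | hm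
  · simp
  have h1 : Function.Surjective (P002.kry N v).mulVec := by
    intro u
    obtain ⟨P, hP⟩ := h u
    refine ⟨fun j => (P %ₘ N.charpoly).coeff (j : ℕ), ?_⟩
    rw [← hP, Matrix.aeval_eq_aeval_mod_charpoly, aeval_mulVec_eq_kry]
    have h2 : N.charpoly.natDegree = m := by
      rw [Matrix.charpoly_natDegree_eq_dim, Fintype.card_fin]
    have h3 := natDegree_modByMonic_lt P (Matrix.charpoly_monic N) (by
      intro h4
      rw [h4, natDegree_one] at h2
      omega)
    rwa [h2] at h3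
  rw [Matrix.mulVec_surjective_iff_isUnit, Matrix.isUnit_iff_isUnit_det] at h1
  exact h1.ne_zero

/-- Every complex matrix commutes with a cyclic one. -/
theorem exists_cyclic_comm {m : ℕ} (B : Matrix (Fin m) (Fin m) ℂ) :
    ∃ (N : Matrix (Fin m) (Fin m) ℂ) (v : Fin m → ℂ), Commute N B ∧ (P002.kry N v).det ≠ 0 := by
  obtain ⟨N, v, h1, h2⟩ := exists_cyclic_comm' B
  exact ⟨N, v, h1, det_kry_ne_zero h2⟩

end Vale.Agent.P002B
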