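import Vale.Agent.P002B.CommPairs
import Vale.Agent.P002B.MTCyc

/-!
# P002B: commuting pairs, unconditional form
-/

set_option linter.all false

namespace Vale.Agent.P002B.CP

open Matrix Vale.Agent.P002

variable {d : ℕ}

/-- Commuting pairs. -/
theorem commPairsU (A B : Matrix (Fin d) (Fin d) ℂ) (h : Commute A B)
    (f : MvPolynomial (Bool × Fin d × Fin d) ℂ)
    (hf : ∀ (P : (Matrix (Fin d) (Fin d) ℂ)ˣ) (D D' : Fin d → ℂ), MvPolynomial.eval
      (pt ((P : Matrix (Fin d) (Fin d) ℂ) * diagonal D *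
          ((P⁻¹ : (Matrix (Fin d) (Fin d) ℂ)ˣ) : Matrix (Fin d) (Fin d) ℂ))
        ((P : Matrix (Fin d) (Fin d) ℂ) * diagonal D' *
          ((P⁻¹ : (Matrix (Fin d) (Fin d) ℂ)ˣ) : Matrix (Fin d) (Fin d) ℂ))) f = 0) :
    MvPolynomial.eval (pt A B) f = 0 :=
  commPairs (fun B => exists_cyclic_comm B) A B h f hf

/-- Commuting pairs of invertible matrices. -/
theorem commPairsU_units (A B : Matrix (Fin d) (Fin d) ℂ) (h : Commute A B) (hA : IsUnit A)
    (hB : IsUnit B) (f : MvPolynomial (Bool × Fin d × Fin d) ℂ)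
    (hf : ∀ (P : (Matrix (Fin d) (Fin d) ℂ)ˣ) (D D' : Fin d → ℂ), (∀ i, D i ≠ 0) →
      (∀ i, D' i ≠ 0) → MvPolynomial.eval
      (pt ((P : Matrix (Fin d) (Fin d) ℂ) * diagonal D *
          ((P⁻¹ : (Matrix (Fin d) (Fin d) ℂ)ˣ) : Matrix (Fin d) (Fin d) ℂ))
        ((P : Matrix (Fin d) (Fin d) ℂ) * diagonal D' *
          ((P⁻¹ : (Matrix (Fin d) (Fin d) ℂ)ˣ) : Matrix (Fin d) (Fin d) ℂ))) f = 0) :
    MvPolynomial.eval (pt A B) f = 0 :=
  commPairs_units (fun B => exists_cyclic_comm B) A B h hA hB f hf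

end Vale.Agent.P002B.CP
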