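import Vale.Agent.P002L.T5
import Vale.Agent.P002L.L5Main

/-!
# P002, genus 0, arbitrary classes: definitions (block version of P002L)

Names are elements of `Fin N`; `nm : Fin r → Fin N` gives the name (block) of a basis vector.
-/

namespace Vale.Agent.P002B

open Matrix Vale.Agent.P002R Vale.Agent.P002L

variable {r N : ℕ}

/-- The base order of the names. -/
def bk (N : ℕ) : Fin N → ℕ := fun a => a

/-- Block unipotent matrices for the order of the names given by the key `k`. -/
def BU {S : Type*} [CommRing S] (nm : Fin r → Fin N) (k : Fin N → ℕ) (u : Mat r S) : Prop :=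
  ∀ i j, ¬ k (nm i) < k (nm j) → u i j = (1 : Mat r S) i j

/-- Block monomial matrices for the permutation `π` of the names. -/
def BM {S : Type*} [CommRing S] (nm : Fin r → Fin N) (π : Equiv.Perm (Fin N)) (W : Mat r S) :
    Prop :=
  ∀ i j, nm i ≠ π (nm j) → W i j = 0

/-- Matrices concentrated in the block `(a, b)`. -/
def BB {S : Type*} [CommRing S] (nm : Fin r → Fin N) (a b : Fin N) (y : Mat r S) : Prop :=
  ∀ i j, ¬ (nm i = a ∧ nm j = b) → y i j = 0

/-- The idempotent of the name `a`. -/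
def ee {S : Type*} [CommRing S] (nm : Fin r → Fin N) (a : Fin N) : Mat r S :=
  Matrix.diagonal fun i => if nm i = a then 1 else 0

/-- The cell of `W` for the key `k`. -/
def InCell {S : Type*} [CommRing S] (nm : Fin r → Fin N) (k : Fin N → ℕ) (W X : Mat r S) : Prop :=
  ∃ b v : Mat r S, BU nm (bk N) b ∧ BU nm k v ∧ X = b * W * v

/-- Products of initial segments. -/
def PP {S : Type*} [CommRing S] (c : ℕ → Mat r S) : ℕ → Mat r S
  | 0 => 1
  | n + 1 => PP c n * c n

/-- The equations of `PP`, generated here once for all modules. -/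
theorem PP_zero_def {S : Type*} [CommRing S] (c : ℕ → Mat r S) : PP c 0 = 1 := by rw [PP]

theorem PP_succ_def {S : Type*} [CommRing S] (c : ℕ → Mat r S) (n : ℕ) :
    PP c (n + 1) = PP c n * c n := by rw [PP]

/-- The key `k'` arises from `k` by exchanging the adjacent names `a`, `b`. -/
def Adj (k k' : Fin N → ℕ) (a b : Fin N) : Prop :=
  k a < k b ∧ k' b < k' a ∧
    (∀ c d, ¬ (c = a ∧ d = b) → ¬ (c = b ∧ d = a) → (k c < k d ↔ k' c < k' d)) ∧
    ∀ c, c ≠ a → c ≠ b → (k c < k a ↔ k c < k b)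

/-- Paths of orders (minimal galleries) from `k` to the order of `κ`. -/
inductive KP (κ : Fin N → ℕ) : (Fin N → ℕ) → List (Fin N → ℕ) → Prop
  | last (k : Fin N → ℕ) (h : ∀ a b, k a < k b ↔ (κ a < κ b ∨ (κ a = κ b ∧ a < b))) : KP κ k [k]
  | step (k k' : Fin N → ℕ) (ks : List (Fin N → ℕ)) (a b : Fin N) (hab : a < b)
      (hκ : κ b < κ a) (h : Adj k k' a b) (hk : KP κ k' ks) : KP κ k (k :: ks)

/-- The standard initial segments. -/
def Seg (κ : Fin N → ℕ) (l s s' : ℕ) (c : Fin N) : Prop :=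
  κ c < l ∨ (κ c = l ∧ (c : ℕ) < s) ∨ (c : ℕ) < s'

/-- The image of the names in `T` under `X` meets the block `c` in everything. -/
def IP (nm : Fin r → Fin N) (X : Mat r ℂ) (T : Fin N → Prop) (c : Fin N) : Prop :=
  ∀ w : Fin r → ℂ, ∃ v : Fin r → ℂ, (∀ i, ¬ T (nm i) → v i = 0) ∧
    (∀ i, c < nm i → (X *ᵥ v) i = 0) ∧ ∀ i, nm i = c → (X *ᵥ v) i = w i

/-- The image of the names in `T` under `X` does not meet the block `c`. -/
def NP (nm : Fin r → Fin N) (X : Mat r ℂ) (T : Fin N → Prop) (c : Fin N) : Prop :=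
  ∀ v : Fin r → ℂ, (∀ i, ¬ T (nm i) → v i = 0) → (∀ i, c < nm i → (X *ᵥ v) i = 0) →
    ∀ i, nm i = c → (X *ᵥ v) i = 0

/-- Trivial position: each block is met in nothing or in everything. -/
def TP (nm : Fin r → Fin N) (X : Mat r ℂ) (T : Fin N → Prop) : Prop :=
  ∀ c, NP nm X T c ∨ IP nm X T c

/-- Symbols of the monomial circuit: a diagonal matrix of units of `R` (one for each name), or a
variable number `n` which exchanges the names `a` and `b`. -/
inductive Sy (R : Type) [CommRing R] (N : ℕ)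
  | D (d : Fin N → Rˣ)
  | Y (a b : Fin N) (n : ℕ)

/-- The value of a symbol; a variable is given by a matrix in the block `(a, b)` and its inverse in
the block `(b, a)`. -/
def Sy.ev {R : Type} [CommRing R] {S : Type} [CommRing S] (nm : Fin r → Fin N) (ι : R →+* S)
    (y : ℕ → Mat r S × Mat r S) : Sy R N → Mat r S
  | Sy.D d => Matrix.diagonal fun i => ι (d (nm i))
  | Sy.Y a b n => 1 - ee nm a - ee nm b + (y n).1 - (y n).2

/-- The equations of `Sy.ev`, generated here once for all modules. -/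
theorem Sy.ev_D_def {R : Type} [CommRing R] {S : Type} [CommRing S] (nm : Fin r → Fin N)
    (ι : R →+* S) (y : ℕ → Mat r S × Mat r S) (d : Fin N → Rˣ) :
    Sy.ev nm ι y (Sy.D d) = Matrix.diagonal fun i => ι (d (nm i)) := by simp only [Sy.ev]

theorem Sy.ev_Y_def {R : Type} [CommRing R] {S : Type} [CommRing S] (nm : Fin r → Fin N)
    (ι : R →+* S) (y : ℕ → Mat r S × Mat r S) (a b : Fin N) (n : ℕ) :
    Sy.ev nm ι y (Sy.Y a b n) = 1 - ee nm a - ee nm b + (y n).1 - (y n).2 := by
  simp only [Sy.ev]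

/-- The permutation of a symbol. -/
def Sy.pm {R : Type} [CommRing R] : Sy R N → Equiv.Perm (Fin N)
  | Sy.D _ => 1
  | Sy.Y a b _ => Equiv.swap a b

theorem Sy.pm_D_def {R : Type} [CommRing R] (d : Fin N → Rˣ) : Sy.pm (Sy.D d) = 1 := by
  simp only [Sy.pm]

theorem Sy.pm_Y_def {R : Type} [CommRing R] (a b : Fin N) (n : ℕ) :
    Sy.pm (R := R) (Sy.Y a b n) = Equiv.swap a b := by
  simp only [Sy.pm]

/-- The variable of a symbol. -/
def Sy.vr {R : Type} [CommRing R] : Sy R N → Option ℕ
  | Sy.D _ => none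
  | Sy.Y _ _ n => some n

theorem Sy.vr_D_def {R : Type} [CommRing R] (d : Fin N → Rˣ) : Sy.vr (Sy.D d) = none := by
  simp only [Sy.vr]

theorem Sy.vr_Y_def {R : Type} [CommRing R] (a b : Fin N) (n : ℕ) :
    Sy.vr (R := R) (Sy.Y a b n) = some n := by
  simp only [Sy.vr]

/-- Value of a circuit. -/
def cev {R : Type} [CommRing R] {S : Type} [CommRing S] (nm : Fin r → Fin N) (ι : R →+* S)
    (y : ℕ → Mat r S × Mat r S) (L : List (Sy R N)) : Mat r S := (L.map (Sy.ev nm ι y)).prod

/-- Permutation of a circuit. -/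
def cpm {R : Type} [CommRing R] (L : List (Sy R N)) : Equiv.Perm (Fin N) := (L.map Sy.pm).prod

/-- Valid assignments of the variables of a circuit. -/
def Valid {R : Type} [CommRing R] {S : Type} [CommRing S] (nm : Fin r → Fin N)
    (y : ℕ → Mat r S × Mat r S) (L : List (Sy R N)) : Prop :=
  ∀ a b n, Sy.Y a b n ∈ L → BB nm a b (y n).1 ∧ BB nm b a (y n).2 ∧
    (y n).1 * (y n).2 = ee nm a ∧ (y n).2 * (y n).1 = ee nm b

/-- Circuits: every variable occurs once and exchanges two different names. -/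
def Circ {R : Type} [CommRing R] (L : List (Sy R N)) : Prop :=
  (L.filterMap Sy.vr).Nodup ∧ ∀ a b n, Sy.Y a b n ∈ L → a ≠ b

end Vale.Agent.P002B
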