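import Vale.Agent.P002B.Stmts3

/-!
# P002B, T4.3: the dichotomy from trivial position
-/

namespace Vale.Agent.P002B

open Matrix Vale.Agent.P002R Vale.Agent.P002L

namespace Dich

variable {r N : ℕ} {nm : Fin r → Fin N}

theorem bu_top {k : Fin N → ℕ} {u : Mat r ℂ} (hu : BU nm k u) {x : Fin r → ℂ} {i : Fin r}
    (h : ∀ j, k (nm i) < k (nm j) → u i j * x j = 0) : (u *ᵥ x) i = x i := by
  rw [Matrix.mulVec, dotProduct, Finset.sum_eq_single i]
  · rw [hu i i (lt_irrefl _), Matrix.one_apply_eq, one_mul]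
  · intro j _ hj
    by_cases hlt : k (nm i) < k (nm j)
    · exact h j hlt
    · rw [hu i j hlt, Matrix.one_apply_ne hj.symm, zero_mul]
  · intro h
    exact absurd (Finset.mem_univ i) h

theorem bu_inj {k : Fin N → ℕ} {u : Mat r ℂ} (hu : BU nm k u) {x : Fin r → ℂ}
    (Q : Fin r → Prop) (hQ : ∀ i j, Q i → k (nm i) < k (nm j) → Q j)
    (h : ∀ i, Q i → (u *ᵥ x) i = 0) : ∀ i, Q i → x i = 0 := by
  classical
  by_contra hne
  push Not at hne
  obtain ⟨i₁, hi₁, hx₁⟩ := hne
  obtain ⟨i, hi, hmax⟩ := Finset.exists_max_image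
    (Finset.univ.filter fun i : Fin r => Q i ∧ x i ≠ 0) (fun i => k (nm i))
    ⟨i₁, by simp [hi₁, hx₁]⟩
  rw [Finset.mem_filter] at hi
  refine hi.2.2 ?_
  rw [← h i hi.2.1, bu_top hu]
  intro j hj
  have hQj := hQ i j hi.2.1 hj
  by_cases hxj : x j = 0
  · rw [hxj, mul_zero]
  · exact absurd (hmax j (by simp [hQj, hxj])) (not_le.2 hj)

theorem bm_zero {π : Equiv.Perm (Fin N)} {W : Mat r ℂ} (hW : BM nm π W) {x : Fin r → ℂ}
    {i : Fin r} (h : ∀ j, nm i = π (nm j) → x j = 0) : (W *ᵥ x) i = 0 := by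
  rw [Matrix.mulVec, dotProduct]
  refine Finset.sum_eq_zero fun j _ => ?_
  by_cases hj : nm i = π (nm j)
  · rw [h j hj, mul_zero]
  · rw [hW i j hj, zero_mul]

theorem bm_congr {π : Equiv.Perm (Fin N)} {W : Mat r ℂ} (hW : BM nm π W) {x x' : Fin r → ℂ}
    {i : Fin r} (h : ∀ j, nm i = π (nm j) → x j = x' j) : (W *ᵥ x) i = (W *ᵥ x') i := by
  rw [← sub_eq_zero, ← Pi.sub_apply, ← Matrix.mulVec_sub]
  exact bm_zero hW fun j hj => by rw [Pi.sub_apply, h j hj, sub_self]

theorem unit_inj {W : Mat r ℂ} (hW : IsUnit W) {x x' : Fin r → ℂ} (h : W *ᵥ x = W *ᵥ x') :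
    x = x' := Matrix.mulVec_injective_of_isUnit hW h

theorem bb_zero {a b : Fin N} {y : Mat r ℂ} (hy : BB nm a b y) {x : Fin r → ℂ} {i : Fin r}
    (h : nm i ≠ a) : (y *ᵥ x) i = 0 := by
  rw [Matrix.mulVec, dotProduct]
  exact Finset.sum_eq_zero fun j _ => by rw [hy i j (fun h' => h h'.1), zero_mul]

theorem bb_congr {a b : Fin N} {y : Mat r ℂ} (hy : BB nm a b y) {x x' : Fin r → ℂ}
    (h : ∀ j, nm j = b → x j = x' j) : y *ᵥ x = y *ᵥ x' := by
  funext i
  rw [Matrix.mulVec, dotProduct, Matrix.mulVec, dotProduct]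
  refine Finset.sum_congr rfl fun j _ => ?_
  by_cases hj : nm j = b
  · rw [h j hj]
  · rw [hy i j (fun h' => hj h'.2), zero_mul, zero_mul]

theorem ee_mul_apply (a b : Fin N) (v : Mat r ℂ) (i j : Fin r) :
    (ee nm a * v * ee nm b : Mat r ℂ) i j = if nm i = a ∧ nm j = b then v i j else 0 := by
  unfold ee
  rw [Matrix.mul_diagonal, Matrix.diagonal_mul]
  by_cases h1 : nm i = a <;> by_cases h2 : nm j = b <;> simp [h1, h2]

theorem yy_bb {a b : Fin N} {v ζ : Mat r ℂ} (hζ : BB nm a b ζ) : BB nm a b (yy nm a b v ζ) := by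
  intro i j h
  unfold yy
  rw [Matrix.add_apply, ee_mul_apply, if_neg h, hζ i j h, add_zero]

/-- Facts about adjacent keys. -/
theorem adj_facts {k k' : Fin N → ℕ} {a b : Fin N} (h : Adj k k' a b) {c : Fin N} (hc : c ≠ b)
    (hT : k' c < k' b + 1) : c ≠ a ∧ k c < k a := by
  obtain ⟨h1, h2, h3, h4⟩ := h
  have hca : c ≠ a := by
    rintro rfl
    omega
  refine ⟨hca, ?_⟩
  rw [h4 c hca hc]
  have hbc := h3 b c (fun h => h1.ne (by rw [← h.1])) (fun h => hca h.2)
  have hcb := h3 c b (fun h => hca h.1) (fun h => hc h.1)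
  have hac := h3 a c (fun h => hc h.2) (fun h => h1.ne (by rw [← h.1]))
  by_contra hlt
  have h5 : k b ≤ k c := not_lt.1 hlt
  have h6 : k a < k c := lt_of_lt_of_le h1 h5
  have h7 := hac.1 h6
  omega


/-- The segment as a subspace. -/
def sub (nm : Fin r → Fin N) (T : Fin N → Prop) : Submodule ℂ (Fin r → ℂ) where
  carrier := {v | ∀ i, ¬ T (nm i) → v i = 0}
  zero_mem' := fun _ _ => rfl
  add_mem' := fun {x y} hx hy i hi => by rw [Pi.add_apply, hx i hi, hy i hi, add_zero]
  smul_mem' := fun c x hx i hi => by rw [Pi.smul_apply, hx i hi, smul_zero]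

/-- An injective matrix which preserves a segment is surjective on it. -/
theorem sub_surj {T : Fin N → Prop} {X : Mat r ℂ}
    (hX : ∀ v ∈ sub nm T, X *ᵥ v ∈ sub nm T) (hinj : ∀ v, X *ᵥ v = 0 → v = 0)
    {w : Fin r → ℂ} (hw : w ∈ sub nm T) : ∃ v ∈ sub nm T, X *ᵥ v = w := by
  let f : sub nm T →ₗ[ℂ] sub nm T := (Matrix.mulVecLin X).restrict hX
  have hf : Function.Injective f := by
    rw [← LinearMap.ker_eq_bot, LinearMap.ker_eq_bot']
    intro v hv
    apply Subtype.ext
    apply hinj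
    exact congrArg Subtype.val hv
  obtain ⟨v, hv⟩ := LinearMap.injective_iff_surjective.1 hf ⟨w, hw⟩
  exact ⟨v, v.2, congrArg Subtype.val hv⟩

theorem main {k k' : Fin N → ℕ} {a b : Fin N} (hadj : Adj k k' a b)
    (π : Equiv.Perm (Fin N)) {b₀ W v₀ ζ₀ u₁ : Mat r ℂ} (hb₀ : BU nm (bk N) b₀) (hW : BM nm π W)
    (hWu : IsUnit W) (hv₀ : BU nm k v₀) (hζ₀ : BB nm a b ζ₀) (hu₁ : BU nm k' u₁)
    (hπ : π b < π a)
    (hTP : TP nm (b₀ * W * v₀ * (1 + ζ₀) * u₁) (fun c => k' c < k' b + 1)) :
    yy nm a b v₀ ζ₀ = 0 ∨ ∃ z₀, BInv nm a b (yy nm a b v₀ ζ₀) z₀ := by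
  classical
  obtain ⟨hab, hba', -, hadj4⟩ := id hadj
  have hne : a ≠ b := fun h => by rw [h] at hab; exact lt_irrefl _ hab
  set T : Fin N → Prop := fun c => k' c < k' b + 1 with hT
  have hTb : T b := Nat.lt_succ_self _
  have hTa : ¬ T a := by rw [hT]; simp only; omega
  set y := yy nm a b v₀ ζ₀ with hy
  have hyB : BB nm a b y := yy_bb hζ₀
  have hTk : ∀ c, T c → c ≠ b → k c < k a := fun c hc hcb => (adj_facts hadj hcb hc).2
  -- `T` is an initial segment
  have hkT : ∀ c, k c < k a → T c := by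
    intro c hc
    have hcb : c ≠ b := fun h => by rw [h] at hc; omega
    have h1 := (hadj.2.2.1 c b (fun h => hne (by
      rw [← h.1] at hab ⊢
      exact absurd hc (by rw [h.1]; exact lt_irrefl _))) (fun h => hcb h.1)).1 (hc.trans hab)
    rw [hT]
    simp only
    omega
  -- the matrix which preserves the segment
  set Q : Mat r ℂ := (1 - y) * v₀ * (1 + ζ₀) * u₁ with hQ
  have hyy : y * y = 0 := by
    ext i j
    rw [Matrix.mul_apply, Matrix.zero_apply]
    refine Finset.sum_eq_zero fun l _ => ?_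
    by_cases hl : nm l = b
    · rw [hyB l j (fun h => hne (h.1.symm.trans hl)), mul_zero]
    · rw [hyB i l (fun h => hl h.2), zero_mul]
  have hζζ : ζ₀ * ζ₀ = 0 := by
    ext i j
    rw [Matrix.mul_apply, Matrix.zero_apply]
    refine Finset.sum_eq_zero fun l _ => ?_
    by_cases hl : nm l = b
    · rw [hζ₀ l j (fun h => hne (h.1.symm.trans hl)), mul_zero]
    · rw [hζ₀ i l (fun h => hl h.2), zero_mul]
  have hX : b₀ * W * v₀ * (1 + ζ₀) * u₁ = b₀ * W * (1 + y) * Q := by
    have h1 : (1 + y) * (1 - y) = 1 := by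
      have : (1 + y) * (1 - y) = 1 - y * y := by noncomm_ring
      rw [this, hyy, sub_zero]
    calc b₀ * W * v₀ * (1 + ζ₀) * u₁ = b₀ * W * 1 * (v₀ * (1 + ζ₀) * u₁) := by noncomm_ring
      _ = b₀ * W * ((1 + y) * (1 - y)) * (v₀ * (1 + ζ₀) * u₁) := by rw [h1]
      _ = b₀ * W * (1 + y) * Q := by rw [hQ]; noncomm_ring
  have hQinj : ∀ v, Q *ᵥ v = 0 → v = 0 := by
    intro v hv
    have e1 : v₀ *ᵥ ((1 + ζ₀) *ᵥ (u₁ *ᵥ v)) = 0 := by
      have h1 : (1 + y) * (1 - y) = 1 := by
        have : (1 + y) * (1 - y) = 1 - y * y := by noncomm_ring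
        rw [this, hyy, sub_zero]
      have h2 : (1 + y) *ᵥ (Q *ᵥ v) = v₀ *ᵥ ((1 + ζ₀) *ᵥ (u₁ *ᵥ v)) := by
        rw [Matrix.mulVec_mulVec, Matrix.mulVec_mulVec, Matrix.mulVec_mulVec, hQ]
        congr 1
        calc (1 + y) * ((1 - y) * v₀ * (1 + ζ₀) * u₁)
            = ((1 + y) * (1 - y)) * (v₀ * (1 + ζ₀) * u₁) := by noncomm_ring
          _ = v₀ * (1 + ζ₀) * u₁ := by rw [h1]; noncomm_ring
      rw [← h2, hv, Matrix.mulVec_zero]
    have e2 : (1 + ζ₀) *ᵥ (u₁ *ᵥ v) = 0 := by
      funext i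
      exact bu_inj hv₀ (fun _ => True) (fun _ _ _ _ => trivial)
        (fun j _ => by rw [e1]; rfl) i trivial
    have e3 : u₁ *ᵥ v = 0 := by
      have h1 : (1 - ζ₀) * (1 + ζ₀) = 1 := by
        have : (1 - ζ₀) * (1 + ζ₀) = 1 - ζ₀ * ζ₀ := by noncomm_ring
        rw [this, hζζ, sub_zero]
      have h2 : (1 - ζ₀) *ᵥ ((1 + ζ₀) *ᵥ (u₁ *ᵥ v)) = u₁ *ᵥ v := by
        rw [Matrix.mulVec_mulVec, h1, Matrix.one_mulVec]
      rw [← h2, e2, Matrix.mulVec_zero]
    funext i
    exact bu_inj hu₁ (fun _ => True) (fun _ _ _ _ => trivial) (fun j _ => by rw [e3]; rfl) i trivial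
  have hQT : ∀ v ∈ sub nm T, Q *ᵥ v ∈ sub nm T := by
    intro v hv
    set t : Fin r → ℂ := u₁ *ᵥ v with ht
    have htT : ∀ i, ¬ T (nm i) → t i = 0 := by
      intro i hi
      rw [ht, bu_top hu₁, hv i hi]
      intro j hj
      rw [hv j, mul_zero]
      intro hTj
      apply hi
      rw [hT] at hTj ⊢
      simp only at hTj ⊢
      omega
    set s : Fin r → ℂ := (1 + ζ₀) *ᵥ t with hs
    have hsi : ∀ i, s i = t i + (ζ₀ *ᵥ t) i := by
      intro i
      rw [hs, Matrix.add_mulVec, Matrix.one_mulVec, Pi.add_apply]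
    have hs1 : ∀ i, nm i ≠ a → s i = t i := fun i hi => by
      rw [hsi, bb_zero hζ₀ hi, add_zero]
    -- `v₀ s`
    have hv1 : ∀ i, nm i ≠ a → ¬ T (nm i) → (v₀ *ᵥ s) i = 0 := by
      intro i hi hTi
      rw [bu_top hv₀, hs1 i hi, htT i hTi]
      intro j hj
      by_cases hja : nm j = a
      · exact absurd (hkT _ (by rw [← hja]; exact hj)) hTi
      · rw [hs1 j hja]
        by_cases hTj : T (nm j)
        · exfalso
          apply hTi
          by_cases hjb : nm j = b
          · rw [hjb] at hj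
            have hib : nm i ≠ b := fun h => by rw [h] at hj; exact lt_irrefl _ hj
            exact hkT _ ((hadj4 _ hi hib).2 hj)
          · exact hkT _ (hj.trans (hTk _ hTj hjb))
        · rw [htT j hTj, mul_zero]
    have hv2 : ∀ i, nm i = b → (v₀ *ᵥ s) i = t i := by
      intro i hi
      rw [bu_top hv₀, hs1 i (by rw [hi]; exact hne.symm)]
      intro j hj
      rw [hi] at hj
      have hja : nm j ≠ a := fun h => by rw [h] at hj; omega
      rw [hs1 j hja, htT j, mul_zero]
      intro hTj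
      have hjb : nm j ≠ b := fun h => by rw [h] at hj; omega
      have := hTk _ hTj hjb
      omega
    have hv3 : ∀ i, nm i = a → (v₀ *ᵥ s) i = (y *ᵥ t) i := by
      intro i hi
      have hyt : (y *ᵥ t) i = ∑ j, (if nm j = b then v₀ i j * t j else 0) + (ζ₀ *ᵥ t) i := by
        rw [hy]
        unfold yy
        rw [Matrix.add_mulVec, Pi.add_apply]
        congr 1
        rw [Matrix.mulVec, dotProduct]
        refine Finset.sum_congr rfl fun j _ => ?_
        rw [ee_mul_apply]
        by_cases hj : nm j = b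
        · rw [if_pos ⟨hi, hj⟩, if_pos hj]
        · rw [if_neg (fun h => hj h.2), if_neg hj, zero_mul]
      rw [hyt, Matrix.mulVec, dotProduct, ← Finset.add_sum_erase Finset.univ _ (Finset.mem_univ i),
        hv₀ i i (lt_irrefl _), Matrix.one_apply_eq, one_mul, hsi i,
        htT i (by rw [hi]; exact hTa), zero_add, add_comm,
        ← Finset.add_sum_erase Finset.univ (fun j => if nm j = b then v₀ i j * t j else 0)
          (Finset.mem_univ i), if_neg (by rw [hi]; exact hne), zero_add]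
      congr 1
      refine Finset.sum_congr rfl fun j hj => ?_
      have hij : i ≠ j := (Finset.ne_of_mem_erase hj).symm
      by_cases hjb : nm j = b
      · rw [if_pos hjb, hs1 j (by rw [hjb]; exact hne.symm)]
      · rw [if_neg hjb]
        by_cases hlt : k (nm i) < k (nm j)
        · have hja : nm j ≠ a := fun h => by rw [h, hi] at hlt; exact lt_irrefl _ hlt
          rw [hs1 j hja, htT j, mul_zero]
          intro hTj
          have := hTk _ hTj hjb
          rw [hi] at hlt
          omega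
        · rw [hv₀ i j hlt, Matrix.one_apply_ne hij, zero_mul]
    intro i hi
    have hQv : Q *ᵥ v = v₀ *ᵥ s - y *ᵥ (v₀ *ᵥ s) := by
      rw [hQ, ← Matrix.mulVec_mulVec, ← Matrix.mulVec_mulVec, ← Matrix.mulVec_mulVec,
        Matrix.sub_mulVec, Matrix.one_mulVec]
    rw [hQv, Pi.sub_apply, bb_congr hyB hv2]
    by_cases hia : nm i = a
    · rw [hv3 i hia, sub_self]
    · rw [hv1 i hia hi, bb_zero hyB hia, sub_zero]
  -- the image of the segment
  have himg : ∀ v ∈ sub nm T, (b₀ * W * v₀ * (1 + ζ₀) * u₁) *ᵥ v =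
      b₀ *ᵥ (W *ᵥ (Q *ᵥ v + y *ᵥ (Q *ᵥ v))) := by
    intro v _
    calc (b₀ * W * v₀ * (1 + ζ₀) * u₁) *ᵥ v = (b₀ * W * (1 + y) * Q) *ᵥ v := by rw [hX]
      _ = b₀ *ᵥ (W *ᵥ ((1 + y) *ᵥ (Q *ᵥ v))) := by
          simp only [Matrix.mulVec_mulVec, Matrix.mul_assoc]
      _ = b₀ *ᵥ (W *ᵥ (Q *ᵥ v + y *ᵥ (Q *ᵥ v))) := by
          rw [Matrix.add_mulVec, Matrix.one_mulVec]
  generalize b₀ * W * v₀ * (1 + ζ₀) * u₁ = X at hTP himg
  clear hX
  have htop : ∀ (c : Fin N) (x : Fin r → ℂ), (∀ i, c < nm i → x i = 0) →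
      ∀ i, c ≤ nm i → (b₀ *ᵥ x) i = x i := by
    intro c x hx i hi
    refine bu_top hb₀ fun j hj => ?_
    rw [hx j (lt_of_le_of_lt hi hj), mul_zero]
  have hbot : ∀ (c : Fin N) (x : Fin r → ℂ), (∀ i, c < nm i → (b₀ *ᵥ x) i = 0) →
      ∀ i, c < nm i → x i = 0 := fun c x hx =>
    bu_inj hb₀ (fun i => c < nm i) (fun _ _ h1 h2 => lt_trans h1 h2) hx
  have hWy : ∀ (t : Fin r → ℂ) (i : Fin r), nm i ≠ π a → (W *ᵥ (y *ᵥ t)) i = 0 := by
    intro t i hi
    refine bm_zero hW fun j hj => ?_
    refine bb_zero hyB fun h => hi ?_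
    rw [hj, h]
  have hWT : ∀ t ∈ sub nm T, ∀ i, nm i = π a → (W *ᵥ t) i = 0 := by
    intro t ht i hi
    refine bm_zero hW fun j hj => ?_
    have : nm j = a := π.injective (hj.symm.trans hi)
    exact ht j (by rw [this]; exact hTa)
  have hWs : ∀ (d : Fin N) (t : Fin r → ℂ), (∀ j, nm j ≠ d → t j = 0) →
      ∀ i, nm i ≠ π d → (W *ᵥ t) i = 0 := by
    intro d t ht i hi
    refine bm_zero hW fun j hj => ht j fun h => hi ?_
    rw [hj, h]
  have hbT : ∀ t : Fin r → ℂ, (∀ j, nm j ≠ b → t j = 0) → t ∈ sub nm T := by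
    intro t ht i hi
    exact ht i fun h => hi (by rw [h]; exact hTb)
  have hsing : ∀ j l : Fin r, nm l ≠ nm j → (Pi.single j (1 : ℂ) : Fin r → ℂ) l = 0 := by
    intro j l hl
    exact Pi.single_eq_of_ne (fun h => hl (by rw [h])) _
  have hcol : ∀ (Z : Mat r ℂ) (i j : Fin r), (Z *ᵥ Pi.single j 1) i = Z i j := by
    intro Z i j
    rw [Matrix.mulVec_single_one]
    rfl
  rcases hTP (π a) with hNP | hIP
  · -- nothing is met: `y = 0`
    left
    ext i j
    rw [Matrix.zero_apply]
    by_cases hj : nm j = b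
    · have hts : ∀ l, nm l ≠ b → (Pi.single j (1 : ℂ) : Fin r → ℂ) l = 0 := fun l hl =>
        hsing j l (by rw [hj]; exact hl)
      obtain ⟨v, hv, hQv⟩ := sub_surj hQT hQinj (hbT _ hts)
      have hx0 : ∀ l, π a < nm l →
          (W *ᵥ (Pi.single j 1 + y *ᵥ Pi.single j 1)) l = 0 := by
        intro l hl
        rw [Matrix.mulVec_add, Pi.add_apply, hWy _ l hl.ne',
          hWs b _ hts l (hπ.trans hl).ne', add_zero]
      have h1 := himg v hv
      rw [hQv] at h1
      have h2 := hNP v hv (fun l hl => by rw [h1, htop _ _ hx0 l hl.le, hx0 l hl])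
      have h3 : W *ᵥ (y *ᵥ Pi.single j 1) = W *ᵥ 0 := by
        rw [Matrix.mulVec_zero]
        funext l
        by_cases hl : nm l = π a
        · have h4 := h2 l hl
          rw [h1, htop _ _ hx0 l hl.ge, Matrix.mulVec_add, Pi.add_apply,
            hWs b _ hts l (by rw [hl]; exact hπ.ne'), zero_add] at h4
          exact h4
        · exact hWy _ l hl
      have h5 := unit_inj hWu h3
      have h6 := congrFun h5 i
      rw [hcol] at h6
      exact h6
    · exact hyB i j fun h => hj h.2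
  · -- the block of `a` is met in everything: `y` is surjective
    have hsurj : ∀ i₀, nm i₀ = a → ∃ t : Fin r → ℂ, (∀ j, nm j ≠ b → t j = 0) ∧
        y *ᵥ t = Pi.single i₀ 1 := by
      intro i₀ hi₀
      obtain ⟨v, hv, hv0, hv1⟩ := hIP (W *ᵥ Pi.single i₀ 1)
      have hQv := hQT v hv
      set t := Q *ᵥ v with ht
      have h1 := himg v hv
      rw [← ht] at h1
      have hx0 : ∀ l, π a < nm l → (W *ᵥ (t + y *ᵥ t)) l = 0 :=
        hbot _ _ fun l hl => by rw [← h1]; exact hv0 l hl
      have h3 : W *ᵥ (y *ᵥ t) = W *ᵥ Pi.single i₀ 1 := by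
        funext l
        by_cases hl : nm l = π a
        · have h4 := hv1 l hl
          rw [h1, htop _ _ hx0 l hl.ge, Matrix.mulVec_add, Pi.add_apply, hWT t hQv l hl,
            zero_add] at h4
          exact h4
        · rw [hWy _ l hl, hWs a _ (fun j hj => hsing i₀ j (by rw [hi₀]; exact hj)) l hl]
      have h5 := unit_inj hWu h3
      refine ⟨fun j => if nm j = b then t j else 0, fun j hj => if_neg hj, ?_⟩
      rw [← h5]
      exact bb_congr hyB fun j hj => if_pos hj
    rcases hTP (π b) with hNP' | hIP'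
    · -- `y` is injective on the block of `b`
      right
      have hinj : ∀ t : Fin r → ℂ, (∀ j, nm j ≠ b → t j = 0) → y *ᵥ t = 0 → t = 0 := by
        intro t ht hyt
        obtain ⟨v, hv, hQv⟩ := sub_surj hQT hQinj (hbT t ht)
        have h1 := himg v hv
        rw [hQv, hyt, add_zero] at h1
        have hx0 : ∀ l, π b < nm l → (W *ᵥ t) l = 0 := fun l hl => hWs b t ht l hl.ne'
        have h2 := hNP' v hv (fun l hl => by rw [h1, htop _ _ hx0 l hl.le, hx0 l hl])
        apply unit_inj hWu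
        rw [Matrix.mulVec_zero]
        funext l
        by_cases hl : nm l = π b
        · have h4 := h2 l hl
          rw [h1, htop _ _ hx0 l hl.ge] at h4
          exact h4
        · exact hWs b t ht l hl
      choose! t ht0 ht1 using hsurj
      refine ⟨Matrix.of fun i j => if nm i = b ∧ nm j = a then t j i else 0, ?_⟩
      set z : Mat r ℂ := Matrix.of fun i j => if nm i = b ∧ nm j = a then t j i else 0 with hz
      have hzB : BB nm b a z := fun i j h => by rw [hz, Matrix.of_apply, if_neg h]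
      have hz1 : ∀ j, nm j = a → z *ᵥ Pi.single j 1 = t j := by
        intro j hj
        funext i
        rw [hcol, hz, Matrix.of_apply]
        by_cases hi : nm i = b
        · rw [if_pos ⟨hi, hj⟩]
        · rw [if_neg (fun h => hi h.1), ht0 j hj i hi]
      have hyz : y * z = ee nm a := by
        ext i j
        rw [← hcol (y * z) i j, ← Matrix.mulVec_mulVec]
        by_cases hj : nm j = a
        · rw [hz1 j hj, ht1 j hj]
          unfold ee
          by_cases hij : i = j
          · rw [hij, Pi.single_eq_same, Matrix.diagonal_apply_eq, if_pos hj]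
          · rw [Pi.single_eq_of_ne hij, Matrix.diagonal_apply_ne _ hij]
        · have h0 : z *ᵥ Pi.single j 1 = 0 := by
            funext l
            rw [hcol, hzB l j (fun h => hj h.2)]
            rfl
          rw [h0, Matrix.mulVec_zero, Pi.zero_apply]
          unfold ee
          by_cases hij : i = j
          · rw [hij, Matrix.diagonal_apply_eq, if_neg hj]
          · rw [Matrix.diagonal_apply_ne _ hij]
      have hay : ee nm a * y = y := by
        ext i j
        unfold ee
        rw [Matrix.diagonal_mul]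
        by_cases hi : nm i = a
        · rw [if_pos hi, one_mul]
        · rw [if_neg hi, zero_mul, hyB i j (fun h => hi h.1)]
      refine ⟨hyB, hzB, hyz, ?_⟩
      ext i j
      rw [← hcol (z * y) i j]
      by_cases hj : nm j = b
      · have h1 : (z * y) *ᵥ Pi.single j 1 - Pi.single j 1 = 0 := by
          apply hinj
          · intro l hl
            rw [Pi.sub_apply, ← Matrix.mulVec_mulVec, bb_zero hzB hl,
              hsing j l (by rw [hj]; exact hl), sub_zero]
          · rw [Matrix.mulVec_sub, Matrix.mulVec_mulVec, ← Matrix.mul_assoc, hyz, hay, sub_self]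
        rw [sub_eq_zero.1 h1]
        unfold ee
        by_cases hij : i = j
        · rw [hij, Pi.single_eq_same, Matrix.diagonal_apply_eq, if_pos hj]
        · rw [Pi.single_eq_of_ne hij, Matrix.diagonal_apply_ne _ hij]
      · have h0 : y *ᵥ Pi.single j 1 = 0 := by
          funext l
          rw [hcol, hyB l j (fun h => hj h.2)]
          rfl
        rw [← Matrix.mulVec_mulVec, h0, Matrix.mulVec_zero, Pi.zero_apply]
        unfold ee
        by_cases hij : i = j
        · rw [hij, Matrix.diagonal_apply_eq, if_neg hj]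
        · rw [Matrix.diagonal_apply_ne _ hij]
    · -- the kernel is everything
      left
      ext i j
      rw [Matrix.zero_apply]
      by_cases hj : nm j = b
      · obtain ⟨v, hv, hv0, hv1⟩ := hIP' (W *ᵥ Pi.single j 1)
        set t := Q *ᵥ v with ht
        have h1 := himg v hv
        rw [← ht] at h1
        have hx0 : ∀ l, π b < nm l → (W *ᵥ (t + y *ᵥ t)) l = 0 :=
          hbot _ _ fun l hl => by rw [← h1]; exact hv0 l hl
        have hyt : y *ᵥ t = 0 := by
          apply unit_inj hWu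
          rw [Matrix.mulVec_zero]
          funext l
          by_cases hl : nm l = π a
          · have h4 := hx0 l (by rw [hl]; exact hπ)
            rw [Matrix.mulVec_add, Pi.add_apply, hWT t (hQT v hv) l hl, zero_add] at h4
            exact h4
          · exact hWy _ l hl
        have htb : ∀ l, nm l = b → t l = (Pi.single j (1 : ℂ) : Fin r → ℂ) l := by
          have h5 : W *ᵥ (fun l => if nm l = b then t l else 0) = W *ᵥ Pi.single j 1 := by
            funext l
            by_cases hl : nm l = π b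
            · have h4 := hv1 l hl
              rw [h1, htop _ _ hx0 l hl.ge, hyt, add_zero] at h4
              rw [← h4]
              refine bm_congr hW fun q hq => ?_
              have : nm q = b := π.injective (hq.symm.trans hl)
              exact if_pos this
            · rw [hWs b _ (fun q hq => if_neg hq) l hl,
                hWs b _ (fun q hq => hsing j q (by rw [hj]; exact hq)) l hl]
          have h6 := unit_inj hWu h5
          intro l hl
          rw [← h6]
          exact (if_pos hl).symm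
        have h7 : y *ᵥ Pi.single j 1 = 0 := by
          rw [← hyt]
          exact bb_congr hyB fun l hl => (htb l hl).symm
        have h8 := congrFun h7 i
        rw [hcol] at h8
        exact h8
      · exact hyB i j fun h => hj h.2

end Dich

/-- T4.3. -/
theorem dichStmt : DichStmt := fun _ _ _ _ _ hadj π _ _ _ _ _ hb₀ hW hWu hv₀ hζ₀ hu₁ hπ hTP =>
  Dich.main hadj π hb₀ hW hWu hv₀ hζ₀ hu₁ hπ hTP

end Vale.Agent.P002B
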