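import Vale.Agent.P002B.LiftLetter

/-!
# P002, genus 0, arbitrary classes: the dichotomy from trivial position (T4.3)
-/

namespace Vale.Agent.P002B

open Matrix Vale.Agent.P002R Vale.Agent.P002L

namespace LL

section inverse

variable {S : Type*} [CommRing S] {r N : ℕ} {nm : Fin r → Fin N}

theorem strict_pow {k : Fin N → ℕ} {n : Mat r S}
    (hn : ∀ i j, ¬ k (nm i) < k (nm j) → n i j = 0) (m : ℕ) :
    ∀ i j, ¬ k (nm i) + m ≤ k (nm j) → (n ^ m) i j = 0 := by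
  induction m with
  | zero =>
    intro i j h
    rw [pow_zero, one_apply_ne]
    rintro rfl
    exact h (by simp)
  | succ m ih =>
    intro i j h
    rw [pow_succ, mul_apply]
    refine Finset.sum_eq_zero fun l _ => ?_
    by_cases h1 : k (nm i) + m ≤ k (nm l)
    · rw [hn l j (fun h2 => h (by omega)), mul_zero]
    · rw [ih i l h1, zero_mul]

theorem bu_inv {k : Fin N → ℕ} {u : Mat r S} (hu : BU nm k u) :
    ∃ u' : Mat r S, BU nm k u' ∧ u * u' = 1 ∧ u' * u = 1 := by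
  obtain ⟨n, hn⟩ : ∃ n : Mat r S, n = 1 - u := ⟨_, rfl⟩
  have hn' : ∀ i j, ¬ k (nm i) < k (nm j) → n i j = 0 := by
    intro i j h
    rw [hn, Matrix.sub_apply, hu i j h, sub_self]
  obtain ⟨K, hK⟩ : ∃ K : ℕ, ∀ c, k c < K :=
    ⟨(Finset.univ.sup k) + 1, fun c => Nat.lt_succ_of_le (Finset.le_sup (Finset.mem_univ c))⟩
  have hz : n ^ K = 0 := by
    ext i j
    rw [strict_pow hn' K i j, Matrix.zero_apply]
    have := hK (nm j)
    omega
  have hu1 : u = 1 - n := by rw [hn]; abel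
  refine ⟨∑ m ∈ Finset.range K, n ^ m, ?_, ?_, ?_⟩
  · intro i j h
    rw [Matrix.sum_apply]
    cases K with
    | zero => exact absurd (hK (nm i)) (by omega)
    | succ K =>
      rw [Finset.sum_range_succ', pow_zero, Finset.sum_eq_zero, zero_add]
      intro m _
      exact strict_pow hn' (m + 1) i j (by omega)
  · rw [hu1, mul_neg_geom_sum, hz, sub_zero]
  · rw [hu1, geom_sum_mul_neg, hz, sub_zero]

end inverse

variable {r N : ℕ} {nm : Fin r → Fin N}

theorem bu_base_keep {b : Mat r ℂ} (hb : BU nm (bk N) b) {c : Fin N} {x : Fin r → ℂ}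
    (hx : ∀ i, c < nm i → x i = 0) : ∀ i, c ≤ nm i → (b *ᵥ x) i = x i := by
  intro i hi
  rw [mulVec, dotProduct, Finset.sum_eq_single i]
  · rw [hb i i (lt_irrefl _), one_apply_eq, one_mul]
  · intro j _ hj
    by_cases h : bk N (nm i) < bk N (nm j)
    · rw [hx j (lt_of_le_of_lt hi h), mul_zero]
    · rw [hb i j h, one_apply_ne hj.symm, zero_mul]
  · intro h
    exact absurd (Finset.mem_univ _) h

theorem bu_base_iff {b : Mat r ℂ} (hb : BU nm (bk N) b) {c : Fin N} {x : Fin r → ℂ} :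
    (∀ i, c < nm i → (b *ᵥ x) i = 0) ↔ ∀ i, c < nm i → x i = 0 := by
  constructor
  · intro h
    obtain ⟨b', hb', -, h2⟩ := bu_inv hb
    intro i hi
    have h3 : x = b' *ᵥ (b *ᵥ x) := by rw [mulVec_mulVec, h2, one_mulVec]
    rw [h3, bu_base_keep hb' h i hi.le]
    exact h i hi
  · intro h i hi
    rw [bu_base_keep hb h i hi.le]
    exact h i hi

theorem bu_seg {k : Fin N → ℕ} {v : Mat r ℂ} (hv : BU nm k v) (n : ℕ) {x : Fin r → ℂ}
    (hx : ∀ i, ¬ k (nm i) < n → x i = 0) : ∀ i, ¬ k (nm i) < n → (v *ᵥ x) i = 0 := by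
  intro i hi
  rw [mulVec, dotProduct]
  refine Finset.sum_eq_zero fun j _ => ?_
  by_cases h : k (nm j) < n
  · rw [hv i j (by omega), one_apply_ne, zero_mul]
    rintro rfl
    exact hi h
  · rw [hx j h, mul_zero]

theorem np_trans {k : Fin N → ℕ} {b Z v : Mat r ℂ} (hb : BU nm (bk N) b) (hv : BU nm k v)
    (n : ℕ) (c : Fin N) (h : NP nm (b * Z * v) (fun a => k a < n) c) :
    NP nm Z (fun a => k a < n) c := by
  obtain ⟨v', hv', h1, -⟩ := bu_inv hv
  intro x hx hz i hi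
  have e : (b * Z * v) *ᵥ (v' *ᵥ x) = b *ᵥ (Z *ᵥ x) := by
    rw [mulVec_mulVec, mulVec_mulVec, Matrix.mul_assoc, h1, Matrix.mul_one]
  have h2 := h (v' *ᵥ x) (bu_seg hv' n hx) (by rw [e]; exact (bu_base_iff hb).2 hz) i hi
  rw [e, bu_base_keep hb hz i hi.ge] at h2
  exact h2

theorem ip_trans {k : Fin N → ℕ} {b Z v : Mat r ℂ} (hb : BU nm (bk N) b) (hv : BU nm k v)
    (n : ℕ) (c : Fin N) (h : IP nm (b * Z * v) (fun a => k a < n) c) :
    IP nm Z (fun a => k a < n) c := by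
  intro w
  obtain ⟨x, hx, hz, hw⟩ := h w
  have e : (b * Z * v) *ᵥ x = b *ᵥ (Z *ᵥ (v *ᵥ x)) := by
    rw [mulVec_mulVec, mulVec_mulVec, Matrix.mul_assoc]
  rw [e] at hz hw
  have hz' := (bu_base_iff hb).1 hz
  refine ⟨v *ᵥ x, bu_seg hv n hx, hz', fun i hi => ?_⟩
  rw [← hw i hi, bu_base_keep hb hz' i hi.ge]

theorem ee_mulVec (a : Fin N) (x : Fin r → ℂ) (i : Fin r) :
    ((ee nm a : Mat r ℂ) *ᵥ x) i = if nm i = a then x i else 0 := by
  rw [ee, mulVec_diagonal]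
  split_ifs
  · rw [one_mul]
  · rw [zero_mul]

theorem ee_mulVec_eq_zero {a : Fin N} {x : Fin r → ℂ} (h : ∀ i, nm i = a → x i = 0) :
    (ee nm a : Mat r ℂ) *ᵥ x = 0 := by
  funext i
  rw [ee_mulVec]
  split_ifs with h1
  · exact h i h1
  · rfl

theorem ee_mulVec_congr {a : Fin N} {x w : Fin r → ℂ} (h : ∀ i, nm i = a → x i = w i) :
    (ee nm a : Mat r ℂ) *ᵥ x = (ee nm a : Mat r ℂ) *ᵥ w := by
  funext i
  rw [ee_mulVec, ee_mulVec]
  split_ifs with h1
  · exact h i h1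
  · rfl

theorem ee_supp {a : Fin N} {x : Fin r → ℂ} (h : (ee nm a : Mat r ℂ) *ᵥ x = x) {i : Fin r}
    (hi : nm i ≠ a) : x i = 0 := by
  rw [← h, ee_mulVec, if_neg hi]

theorem unit_mulVec {W : Mat r ℂ} (hW : IsUnit W) {x : Fin r → ℂ} (h : W *ᵥ x = 0) : x = 0 := by
  obtain ⟨w, rfl⟩ := hW
  have : (↑w⁻¹ : Mat r ℂ) *ᵥ ((w : Mat r ℂ) *ᵥ x) = x := by
    rw [mulVec_mulVec, w.inv_mul, one_mulVec]
  rw [← this, h, mulVec_zero]

theorem unit_mulVec_inj {W : Mat r ℂ} (hW : IsUnit W) {x y : Fin r → ℂ}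
    (h : W *ᵥ x = W *ᵥ y) : x = y := by
  have := unit_mulVec hW (x := x - y) (by rw [mulVec_sub, h, sub_self])
  exact sub_eq_zero.1 this

theorem eq_zero_of_mulVec {y : Mat r ℂ} (h : ∀ x : Fin r → ℂ, y *ᵥ x = 0) : y = 0 := by
  ext i j
  have := congrFun (h (Pi.single j 1)) i
  rw [mulVec_single_one] at this
  exact this

/-- the core: `W (1 + y)` -/
theorem dich_core {T : Fin N → Prop} {a b : Fin N} (hTb : T b) (hTa : ¬ T a)
    {π : Equiv.Perm (Fin N)} {W y : Mat r ℂ} (hW : BM nm π W) (hWu : IsUnit W)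
    (hy : BB nm a b y) (hab : a ≠ b) (hπ : π b < π a)
    (hb : NP nm (W * (1 + y)) T (π b) ∨ IP nm (W * (1 + y)) T (π b))
    (ha : NP nm (W * (1 + y)) T (π a) ∨ IP nm (W * (1 + y)) T (π a)) :
    y = 0 ∨ ∃ z, BInv nm a b y z := by
  have hey : ee nm b * y = 0 := by
    rw [← bb_left hy, ← Matrix.mul_assoc, ee_mul_ee_ne hab.symm, Matrix.zero_mul]
  have hZ : ∀ x, (W * (1 + y)) *ᵥ x = W *ᵥ (x + y *ᵥ x) := by
    intro x
    rw [← mulVec_mulVec, add_mulVec, one_mulVec]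
  have hZc : ∀ c x, (ee nm (π c) : Mat r ℂ) *ᵥ ((W * (1 + y)) *ᵥ x) =
      W *ᵥ ((ee nm c : Mat r ℂ) *ᵥ (x + y *ᵥ x)) := by
    intro c x
    rw [hZ, mulVec_mulVec, ← bm_ee hW, ← mulVec_mulVec]
  have hTsup : ∀ x : Fin r → ℂ, (ee nm b : Mat r ℂ) *ᵥ x = x → ∀ i, ¬ T (nm i) → x i = 0 := by
    intro x hx i hi
    refine ee_supp hx ?_
    rintro h
    exact hi (h ▸ hTb)
  have hxa : ∀ x : Fin r → ℂ, (∀ i, ¬ T (nm i) → x i = 0) → (ee nm a : Mat r ℂ) *ᵥ x = 0 :=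
    fun x hx => ee_mulVec_eq_zero fun i hi => hx i (hi ▸ hTa)
  have hya : ∀ x, (ee nm a : Mat r ℂ) *ᵥ (y *ᵥ x) = y *ᵥ x := by
    intro x
    rw [mulVec_mulVec, bb_left hy]
  have hyb : ∀ x, (ee nm b : Mat r ℂ) *ᵥ (y *ᵥ x) = 0 := by
    intro x
    rw [mulVec_mulVec, hey, zero_mulVec]
  have hyb' : ∀ x, y *ᵥ ((ee nm b : Mat r ℂ) *ᵥ x) = y *ᵥ x := by
    intro x
    rw [mulVec_mulVec, bb_right hy]
  have hbb : ∀ x, (ee nm b : Mat r ℂ) *ᵥ ((ee nm b : Mat r ℂ) *ᵥ x) = (ee nm b : Mat r ℂ) *ᵥ x := by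
    intro x
    rw [mulVec_mulVec, ee_mul_ee_same]
  have y_zero : (∀ x : Fin r → ℂ, (ee nm b : Mat r ℂ) *ᵥ x = x → y *ᵥ x = 0) → y = 0 := by
    intro h
    refine eq_zero_of_mulVec fun x => ?_
    rw [← hyb']
    exact h _ (hbb x)
  rcases hb with hb | hb
  · rcases ha with ha | ha
    · -- `NP` at `π a`
      left
      refine y_zero fun x hx => ?_
      have h1 := ha x (hTsup x hx) (fun i hi => ?_)
      · have h2 := ee_mulVec_eq_zero h1
        rw [hZc, mulVec_add, hya, hxa x (hTsup x hx), zero_add] at h2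
        exact unit_mulVec hWu h2
      · rw [hZ, mulVec_add, Pi.add_apply]
        have e1 : W *ᵥ x = (ee nm (π b) : Mat r ℂ) *ᵥ (W *ᵥ x) := by
          conv_lhs => rw [← hx]
          rw [mulVec_mulVec, bm_ee hW, ← mulVec_mulVec]
        have e2 : W *ᵥ (y *ᵥ x) = (ee nm (π a) : Mat r ℂ) *ᵥ (W *ᵥ (y *ᵥ x)) := by
          conv_lhs => rw [← hya]
          rw [mulVec_mulVec, bm_ee hW, ← mulVec_mulVec]
        rw [e1, e2, ee_mulVec, ee_mulVec, if_neg (hπ.trans hi).ne', if_neg hi.ne', add_zero]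
    · -- bijective
      right
      have inj : ∀ x : Fin r → ℂ, (ee nm b : Mat r ℂ) *ᵥ x = x → y *ᵥ x = 0 → x = 0 := by
        intro x hx hyx
        have e1 : (W * (1 + y)) *ᵥ x = (ee nm (π b) : Mat r ℂ) *ᵥ ((W * (1 + y)) *ᵥ x) := by
          rw [hZc, mulVec_add, hx, hyb, add_zero, hZ, hyx, add_zero]
        have h1 := hb x (hTsup x hx) (fun i hi => ?_)
        · have h2 := ee_mulVec_eq_zero h1
          rw [← e1, hZ, hyx, add_zero] at h2
          exact unit_mulVec hWu h2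
        · rw [e1, ee_mulVec, if_neg hi.ne']
      have sur : ∀ w : Fin r → ℂ, ∃ x : Fin r → ℂ, (ee nm b : Mat r ℂ) *ᵥ x = x ∧
          y *ᵥ x = (ee nm a : Mat r ℂ) *ᵥ w := by
        intro w
        obtain ⟨x, hxT, -, hw⟩ := ha (W *ᵥ w)
        refine ⟨(ee nm b : Mat r ℂ) *ᵥ x, hbb x, ?_⟩
        rw [hyb']
        have h2 := ee_mulVec_congr hw
        rw [hZc, mulVec_add, hxa x hxT, zero_add, hya, mulVec_mulVec (v := w), ← bm_ee hW,
          ← mulVec_mulVec (v := w)] at h2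
        exact unit_mulVec_inj hWu h2
      choose s hs1 hs2 using sur
      obtain ⟨z₀, hz₀⟩ : ∃ z₀ : Mat r ℂ, z₀ = Matrix.of fun i j => s (Pi.single j 1) i := ⟨_, rfl⟩
      have hcol : ∀ (M : Mat r ℂ) j, (M * z₀).col j = M *ᵥ s (Pi.single j 1) := by
        intro M j
        funext i
        rw [Matrix.col_apply, mul_apply, mulVec, dotProduct, hz₀]
        rfl
      have h1 : y * z₀ = ee nm a := by
        ext i j
        have := congrFun (hcol y j) i
        rw [Matrix.col_apply, hs2, mulVec_single_one] at this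
        exact this
      have h2 : ee nm b * z₀ = z₀ := by
        ext i j
        have := congrFun (hcol (ee nm b) j) i
        rw [Matrix.col_apply, hs1] at this
        rw [this, hz₀]
        rfl
      have hz : BB nm b a (z₀ * ee nm a) := by
        refine bb_of ?_ ?_
        · rw [← Matrix.mul_assoc, h2]
        · rw [Matrix.mul_assoc, ee_mul_ee_same]
      have h3 : y * (z₀ * ee nm a) = ee nm a := by
        rw [← Matrix.mul_assoc, h1, ee_mul_ee_same]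
      refine ⟨z₀ * ee nm a, hy, hz, h3, ?_⟩
      have h4 : ∀ x : Fin r → ℂ, (z₀ * ee nm a * y - ee nm b) *ᵥ x = 0 := by
        intro x
        refine inj _ ?_ ?_
        · rw [mulVec_mulVec, Matrix.mul_sub, ee_mul_ee_same, ← Matrix.mul_assoc, bb_left hz]
        · rw [mulVec_mulVec, Matrix.mul_sub, bb_right hy, ← Matrix.mul_assoc, h3, bb_left hy,
            sub_self, zero_mulVec]
      exact sub_eq_zero.1 (eq_zero_of_mulVec h4)
  · -- `IP` at `π b`
    left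
    refine y_zero fun x hx => ?_
    obtain ⟨x', hxT, hz, hw⟩ := hb (W *ᵥ x)
    have h2 := ee_mulVec_congr hw
    rw [hZc, mulVec_add, hyb, add_zero, mulVec_mulVec (v := x), ← bm_ee hW,
      ← mulVec_mulVec (v := x), hx] at h2
    have h3 := unit_mulVec_inj hWu h2
    have h4 : (ee nm (π a) : Mat r ℂ) *ᵥ ((W * (1 + y)) *ᵥ x') = 0 :=
      ee_mulVec_eq_zero fun i hi => hz i (by rw [hi]; exact hπ)
    rw [hZc, mulVec_add, hya, hxa x' hxT, zero_add] at h4
    have h5 := unit_mulVec hWu h4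
    rw [← h3, hyb']
    exact h5

end LL

open LL

/-- T4.3. -/
theorem dichStmt : DichStmt := by
  intro r N nm k k' a b hA π b₀ W v₀ ζ₀ u₁ hb₀ hW hWu hv₀ hζ₀ hu₁ hπ hTP
  have hne : a ≠ b := fun h' => by
    have := hA.1
    rw [h'] at this
    exact lt_irrefl _ this
  have hy : BB nm a b (yy nm a b v₀ ζ₀) := bb_add (bb_ee a b v₀) hζ₀
  have e : b₀ * W * v₀ * (1 + ζ₀) * u₁ = b₀ * (W * (1 + yy nm a b v₀ ζ₀)) *
      ((1 - yy nm a b v₀ ζ₀) * v₀ * (1 + ζ₀) * u₁) := by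
    rw [Matrix.mul_assoc (b₀ * W), elim_eq hne hζ₀]
    simp only [Matrix.mul_assoc]
  have hv : BU nm k' ((1 - yy nm a b v₀ ζ₀) * v₀ * (1 + ζ₀) * u₁) :=
    bu_mul (bu_elim hA hv₀ hζ₀) hu₁
  rw [e] at hTP
  refine dich_core (T := fun c => k' c < k' b + 1) (Nat.lt_succ_self _) ?_ hW hWu hy hne hπ ?_ ?_
  · have := hA.2.1
    change ¬ k' a < k' b + 1
    omega
  · exact (hTP (π b)).imp (np_trans hb₀ hv _ _) (ip_trans hb₀ hv _ _)
  · exact (hTP (π a)).imp (np_trans hb₀ hv _ _) (ip_trans hb₀ hv _ _)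

end Vale.Agent.P002B
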