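import Vale.Agent.P002B.Stmts

/-!
# P002B, T8: extension of the ring by a point in the closure of a set of integral points
-/

namespace Vale.Agent.P002B

open Matrix Vale.Agent.P002R Vale.Agent.P002L

/-- The ideal of the polynomials over `A` which vanish at all pairs (retraction, point). -/
noncomputable def extI {R A : Type} [CommRing R] [CommRing A] (ι : R →+* A) {σ : Type}
    (Sol : Set (σ → R)) : Ideal (MvPolynomial σ A) :=
  ⨅ (p : {η : A →+* R // ∀ s, η (ι s) = s} × Sol),
    RingHom.ker (MvPolynomial.eval₂Hom p.1.1 (p.2 : σ → R))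

theorem mem_extI {R A : Type} [CommRing R] [CommRing A] (ι : R →+* A) {σ : Type}
    (Sol : Set (σ → R)) (F : MvPolynomial σ A) :
    F ∈ extI ι Sol ↔ ∀ η : A →+* R, (∀ s, η (ι s) = s) → ∀ x ∈ Sol,
      MvPolynomial.eval₂ η x F = 0 := by
  simp only [extI, Ideal.mem_iInf, RingHom.mem_ker, MvPolynomial.coe_eval₂Hom, Prod.forall,
    Subtype.forall]

theorem ext_map_eval {R A : Type} [CommRing R] [CommRing A] {B : Type*} [CommRing B]
    (ι : R →+* A) (ψ : A →+* B) {σ : Type} (x : σ → R) (F : MvPolynomial σ A) :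
    ψ (MvPolynomial.eval (fun i => ι (x i)) F) =
      MvPolynomial.eval₂ ψ (fun i => ψ (ι (x i))) F := by
  rw [MvPolynomial.eval, MvPolynomial.coe_eval₂Hom, MvPolynomial.hom_eval₂]
  rfl

theorem ext_aux {R A : Type} [CommRing R] [CommRing A] {φ : R →+* ℂ} {ι : R →+* A} {ψ : A →+* ℂ}
    (hL : Lifting φ ι ψ) {σ : Type} (Sol : Set (σ → R)) (y : σ → ℂ)
    (hy : ∀ f : MvPolynomial σ ℂ, (∀ x ∈ Sol, MvPolynomial.eval (fun i => φ (x i)) f = 0) →
      MvPolynomial.eval y f = 0) {τ : Type} (f : MvPolynomial τ ℂ) (F : τ → MvPolynomial σ A)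
    (h : ∀ η : A →+* R, (∀ s, η (ι s) = s) → ∀ x ∈ Sol,
      MvPolynomial.eval (fun i => φ (MvPolynomial.eval₂ η x (F i))) f = 0) :
    MvPolynomial.eval (fun i => MvPolynomial.eval₂ ψ y (F i)) f = 0 := by
  have key := hy (MvPolynomial.bind₁ (fun i => MvPolynomial.map ψ (F i)) f) ?_
  · have e : ∀ i, MvPolynomial.eval₂ ψ y (F i) = MvPolynomial.eval y (MvPolynomial.map ψ (F i)) :=
      fun i => (MvPolynomial.eval_map ψ y (F i)).symm
    simp only [e]
    rw [← key]
    exact (MvPolynomial.eval₂Hom_bind₁ (RingHom.id ℂ) y _ f).symm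
  · intro x hx
    have e1 : MvPolynomial.eval (fun i => φ (x i))
        (MvPolynomial.bind₁ (fun i => MvPolynomial.map ψ (F i)) f) =
        MvPolynomial.eval (fun i => ψ (MvPolynomial.eval (fun s => ι (x s)) (F i))) f := by
      have e2 : ∀ i, ψ (MvPolynomial.eval (fun s => ι (x s)) (F i)) =
          MvPolynomial.eval (fun s => φ (x s)) (MvPolynomial.map ψ (F i)) := by
        intro i
        rw [ext_map_eval, MvPolynomial.eval_map]
        simp only [hL.comp]
      simp only [e2]
      exact MvPolynomial.eval₂Hom_bind₁ (RingHom.id ℂ) _ _ f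
    rw [e1]
    apply hL.dens
    intro η hη
    have e3 : ∀ i, η (MvPolynomial.eval (fun s => ι (x s)) (F i)) =
        MvPolynomial.eval₂ η x (F i) := by
      intro i
      rw [ext_map_eval]
      simp only [hη]
    simp only [e3]
    exact h η hη x hx

theorem extStmt : ExtStmt := by
  intro R A _ _ φ ι ψ hL σ Sol y hy
  have h0 : ∀ F ∈ extI ι Sol, MvPolynomial.eval₂Hom ψ y F = 0 := by
    intro F hF
    rw [mem_extI] at hF
    have := ext_aux hL Sol y hy (MvPolynomial.X () : MvPolynomial Unit ℂ) (fun _ => F) (by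
      intro η hη x hx
      rw [MvPolynomial.eval_X, hF η hη x hx, map_zero])
    rwa [MvPolynomial.eval_X] at this
  refine ⟨MvPolynomial σ A ⧸ extI ι Sol, inferInstance,
    (Ideal.Quotient.mk (extI ι Sol)).comp (MvPolynomial.C.comp ι),
    Ideal.Quotient.lift (extI ι Sol) (MvPolynomial.eval₂Hom ψ y) h0,
    (Ideal.Quotient.mk (extI ι Sol)).comp MvPolynomial.C,
    fun i => Ideal.Quotient.mk (extI ι Sol) (MvPolynomial.X i), ?_, ?_, ?_, ?_, ?_⟩
  · refine ⟨?_, hL.inj, ?_, ?_, ?_⟩
    · intro a
      simp only [RingHom.comp_apply, Ideal.Quotient.lift_mk, MvPolynomial.eval₂Hom_C, hL.comp]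
    · intro c
      obtain ⟨a, ha⟩ := hL.surj c
      refine ⟨Ideal.Quotient.mk (extI ι Sol) (MvPolynomial.C a), ?_⟩
      rw [Ideal.Quotient.lift_mk, MvPolynomial.eval₂Hom_C, ha]
    · intro c
      obtain ⟨a, ha⟩ := hL.unit c
      refine ⟨Units.map ((Ideal.Quotient.mk (extI ι Sol)).comp MvPolynomial.C : A →* _) a, ?_⟩
      rw [Units.coe_map]
      change Ideal.Quotient.lift (extI ι Sol) (MvPolynomial.eval₂Hom ψ y) h0
        (Ideal.Quotient.mk (extI ι Sol) (MvPolynomial.C (a : A))) = _
      rw [Ideal.Quotient.lift_mk, MvPolynomial.eval₂Hom_C, ha]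
    · intro τ f a h
      choose F hF using fun i => Ideal.Quotient.mk_surjective (I := extI ι Sol) (a i)
      have e : ∀ i, Ideal.Quotient.lift (extI ι Sol) (MvPolynomial.eval₂Hom ψ y) h0 (a i) =
          MvPolynomial.eval₂ ψ y (F i) := by
        intro i
        rw [← hF i, Ideal.Quotient.lift_mk, MvPolynomial.coe_eval₂Hom]
      simp only [e]
      apply ext_aux hL Sol y hy f F
      intro η hη x hx
      have h1 : ∀ G ∈ extI ι Sol, MvPolynomial.eval₂Hom η x G = 0 := by
        intro G hG
        rw [mem_extI] at hG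
        exact hG η hη x hx
      have h2 := h (Ideal.Quotient.lift (extI ι Sol) (MvPolynomial.eval₂Hom η x) h1) (by
        intro s
        simp only [RingHom.comp_apply, Ideal.Quotient.lift_mk, MvPolynomial.eval₂Hom_C, hη])
      have e2 : ∀ i, Ideal.Quotient.lift (extI ι Sol) (MvPolynomial.eval₂Hom η x) h1 (a i) =
          MvPolynomial.eval₂ η x (F i) := by
        intro i
        rw [← hF i, Ideal.Quotient.lift_mk, MvPolynomial.coe_eval₂Hom]
      simpa only [e2] using h2
  · intro a
    simp only [RingHom.comp_apply, Ideal.Quotient.lift_mk, MvPolynomial.eval₂Hom_C]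
  · intro a
    rfl
  · intro i
    rw [Ideal.Quotient.lift_mk, MvPolynomial.eval₂Hom_X']
  · intro p hp
    have e : MvPolynomial.eval₂ ((Ideal.Quotient.mk (extI ι Sol)).comp (MvPolynomial.C.comp ι))
        (fun i => Ideal.Quotient.mk (extI ι Sol) (MvPolynomial.X i)) p =
        Ideal.Quotient.mk (extI ι Sol) (MvPolynomial.map ι p) := by
      have e' : MvPolynomial.eval₂Hom
          ((Ideal.Quotient.mk (extI ι Sol)).comp (MvPolynomial.C.comp ι))
          (fun i => Ideal.Quotient.mk (extI ι Sol) (MvPolynomial.X i)) =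
          (Ideal.Quotient.mk (extI ι Sol)).comp (MvPolynomial.map ι) := by
        refine MvPolynomial.ringHom_ext ?_ ?_
        · intro s
          simp only [MvPolynomial.eval₂Hom_C, RingHom.comp_apply, MvPolynomial.map_C]
        · intro i
          simp only [MvPolynomial.eval₂Hom_X', RingHom.comp_apply, MvPolynomial.map_X]
      exact RingHom.congr_fun e' p
    rw [e, Ideal.Quotient.eq_zero_iff_mem, mem_extI]
    intro η hη x hx
    rw [MvPolynomial.eval₂_map]
    have e3 : η.comp ι = RingHom.id R := RingHom.ext hη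
    rw [e3]
    exact hp x hx

end Vale.Agent.P002B
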