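import Vale.Agent.P002B.Stmts

/-!
# P002, genus 0, arbitrary classes: T8, extension of the ring by a point of a Zariski closure
-/

open MvPolynomial

namespace Vale.Agent.P002B

open Matrix Vale.Agent.P002L

/-- value of a polynomial at an `R`-point after a ring map -/
lemma x2_eval {S T U σ : Type} [CommRing S] [CommRing T] [CommRing U] (g : S →+* T)
    (h : T →+* U) (x : σ → T) (F : MvPolynomial σ S) :
    h (eval₂ g x F) = eval₂ (h.comp g) (fun i => h (x i)) F := by
  rw [← coe_eval₂Hom, ← coe_eval₂Hom, ← RingHom.comp_apply]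
  congr 1
  ext <;> simp

lemma x2_bind {σ τ : Type} (y : σ → ℂ) (G : τ → MvPolynomial σ ℂ) (f : MvPolynomial τ ℂ) :
    eval y (bind₁ G f) = eval (fun i => eval y (G i)) f := by
  change (eval₂Hom (RingHom.id ℂ) y) (bind₁ G f) = _
  rw [eval₂Hom_bind₁]
  rfl

theorem extStmt2 : ExtStmt := by
  intro R A _ _ φ ι ψ hL σ Sol y hy
  -- the evaluations
  set ev : {p : (A →+* R) × (σ → R) // (∀ s, p.1 (ι s) = s) ∧ p.2 ∈ Sol} →
    (MvPolynomial σ A →+* R) := fun p => eval₂Hom p.1.1 p.1.2 with hev
  set I : Ideal (MvPolynomial σ A) := ⨅ p, RingHom.ker (ev p) with hI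
  have memI : ∀ F, F ∈ I ↔ ∀ (η : A →+* R) (x : σ → R), (∀ s, η (ι s) = s) → x ∈ Sol →
      eval₂ η x F = 0 := by
    intro F
    rw [hI, Ideal.mem_iInf]
    constructor
    · intro h η x h1 h2
      exact h ⟨(η, x), h1, h2⟩
    · intro h p
      exact h p.1.1 p.1.2 p.2.1 p.2.2
  -- the complex point
  set e : MvPolynomial σ A →+* ℂ := eval₂Hom ψ y with he
  have key : ∀ {τ : Type} (f : MvPolynomial τ ℂ) (F : τ → MvPolynomial σ A),
      (∀ (η : A →+* R) (x : σ → R), (∀ s, η (ι s) = s) → x ∈ Sol →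
        eval (fun i => φ (eval₂ η x (F i))) f = 0) → eval (fun i => e (F i)) f = 0 := by
    intro τ f F hF
    have h1 : eval (fun i => e (F i)) f = eval y (bind₁ (fun i => map ψ (F i)) f) := by
      rw [x2_bind]
      congr 2
      funext i
      rw [eval_map]
      rfl
    rw [h1]
    refine hy _ fun x hx => ?_
    have h2 : eval (fun i => φ (x i)) (bind₁ (fun i => map ψ (F i)) f) =
        eval (fun i => ψ (eval₂ (RingHom.id A) (fun i => ι (x i)) (F i))) f := by
      rw [x2_bind]
      congr 2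
      funext i
      rw [x2_eval (RingHom.id A) ψ, eval_map, RingHom.comp_id]
      simp only [hL.comp]
    rw [h2]
    refine hL.dens f _ fun η hη => ?_
    have h3 := hF η x hη hx
    have h4 : (fun i => φ (η (eval₂ (RingHom.id A) (fun i => ι (x i)) (F i)))) =
        fun i => φ (eval₂ η x (F i)) := by
      funext i
      rw [x2_eval (RingHom.id A) η, RingHom.comp_id]
      simp only [hη]
    rw [h4]
    exact h3
  have hIe : ∀ F ∈ I, e F = 0 := by
    intro F hF
    have h1 := key (X () : MvPolynomial Unit ℂ) (fun _ => F) (fun η x hη hx => by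
      rw [eval_X, (memI F).1 hF η x hη hx, map_zero])
    rwa [eval_X] at h1
  refine ⟨MvPolynomial σ A ⧸ I, inferInstance,
    (Ideal.Quotient.mk I).comp (C.comp ι), Ideal.Quotient.lift I e hIe,
    (Ideal.Quotient.mk I).comp C, fun i => Ideal.Quotient.mk I (X i), ⟨?_, hL.inj, ?_, ?_, ?_⟩,
    ?_, ?_, ?_, ?_⟩
  · intro a
    simp [he, hL.comp]
  · intro c
    obtain ⟨a, ha⟩ := hL.surj c
    exact ⟨Ideal.Quotient.mk I (C a), by simp [he, ha]⟩
  · intro c
    obtain ⟨a, ha⟩ := hL.unit c
    refine ⟨Units.map ((Ideal.Quotient.mk I).comp C : A →+* _).toMonoidHom a, ?_⟩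
    simp [he, ha]
  · intro τ f a hf
    choose F hF using fun i => Ideal.Quotient.mk_surjective (a i)
    have h1 : ∀ i, Ideal.Quotient.lift I e hIe (a i) = e (F i) := fun i => by
      rw [← hF i, Ideal.Quotient.lift_mk]
    simp only [h1]
    refine key f F fun η x hη hx => ?_
    have hker : ∀ G ∈ I, eval₂Hom η x G = 0 := fun G hG => (memI G).1 hG η x hη hx
    have h2 := hf (Ideal.Quotient.lift I (eval₂Hom η x) hker) (fun s => by
      simp [hη])
    have h3 : (fun i => φ (Ideal.Quotient.lift I (eval₂Hom η x) hker (a i))) =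
        fun i => φ (eval₂ η x (F i)) := by
      funext i
      rw [← hF i, Ideal.Quotient.lift_mk, coe_eval₂Hom]
    rw [h3] at h2
    exact h2
  · intro a
    simp [he]
  · intro a
    rfl
  · intro i
    simp [he]
  · intro p hp
    have h1 : eval₂ ((Ideal.Quotient.mk I).comp (C.comp ι)) (fun i => Ideal.Quotient.mk I (X i)) p =
        Ideal.Quotient.mk I (eval₂ (C.comp ι) X p) := by
      rw [x2_eval]
    rw [h1, Ideal.Quotient.eq_zero_iff_mem, memI]
    intro η x hη hx
    have h2 : eval₂ η x (eval₂ (C.comp ι) X p) = eval₂Hom η x (eval₂ (C.comp ι) X p) := rfl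
    rw [h2, x2_eval]
    have h3 : ((eval₂Hom η x).comp (C.comp ι) : R →+* R) = RingHom.id R := by
      ext s
      simp [hη]
    rw [h3]
    simp only [eval₂Hom_X']
    exact hp x hx

end Vale.Agent.P002B
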