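import Vale.Agent.P002B.Stmts2

/-!
# P002, genus 0, arbitrary classes: T6e, assembly of the stable flag
-/

namespace Vale.Agent.P002B

open Matrix Vale.Agent.P002R Vale.Agent.P002L

namespace FA

variable {r N : ℕ}

/-- multiplication with an invertible matrix -/
noncomputable def ge (g : (Mat r ℂ)ˣ) : (Fin r → ℂ) ≃ₗ[ℂ] (Fin r → ℂ) :=
  LinearEquiv.ofLinearMap (Matrix.mulVecLin (g : Mat r ℂ))
    (Matrix.mulVecLin ((g⁻¹ : (Mat r ℂ)ˣ) : Mat r ℂ))
    (by rw [← Matrix.mulVecLin_mul, Units.mul_inv, Matrix.mulVecLin_one])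
    (by rw [← Matrix.mulVecLin_mul, Units.inv_mul, Matrix.mulVecLin_one])

/-- the action on subspaces -/
noncomputable def gm (g : (Mat r ℂ)ˣ) : Submodule ℂ (Fin r → ℂ) ≃o Submodule ℂ (Fin r → ℂ) :=
  Submodule.orderIsoMapComap (ge g)

theorem gm_apply (g : (Mat r ℂ)ˣ) (G : Submodule ℂ (Fin r → ℂ)) :
    gm g G = G.map (Matrix.mulVecLin (g : Mat r ℂ)) := rfl

/-- the kernels -/
noncomputable def KK (c : Mat r ℂ) (ξ : ℕ → ℂ) (j : ℕ) : Submodule ℂ (Fin r → ℂ) :=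
  LinearMap.ker (Qp c ξ j).mulVecLin

theorem mem_KK {c : Mat r ℂ} {ξ : ℕ → ℂ} {j : ℕ} {v : Fin r → ℂ} :
    v ∈ KK c ξ j ↔ Qp c ξ j *ᵥ v = 0 := by
  rw [KK, LinearMap.mem_ker, Matrix.mulVecLin_apply]

theorem KK_zero (c : Mat r ℂ) (ξ : ℕ → ℂ) : KK c ξ 0 = ⊥ := by
  rw [eq_bot_iff]
  intro v hv
  rw [mem_KK, Qp_zero, Matrix.one_mulVec] at hv
  rw [hv]
  exact Submodule.zero_mem _

theorem KK_top {c : Mat r ℂ} {ξ : ℕ → ℂ} {s : ℕ} (h : Qp c ξ s = 0) : KK c ξ s = ⊤ := by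
  rw [eq_top_iff]
  intro v _
  rw [mem_KK, h, Matrix.zero_mulVec]

theorem KK_mono (c : Mat r ℂ) (ξ : ℕ → ℂ) : Monotone (KK c ξ) := by
  refine monotone_nat_of_le_succ fun j v hv => ?_
  rw [mem_KK] at hv ⊢
  rw [Qp_succ, (Qp_comm c ξ j (ξ j)).eq, ← Matrix.mulVec_mulVec, hv, Matrix.mulVec_zero]

theorem KK_step (c : Mat r ℂ) (ξ : ℕ → ℂ) (j : ℕ) (v : Fin r → ℂ) (hv : v ∈ KK c ξ (j + 1)) :
    c *ᵥ v - ξ j • v ∈ KK c ξ j := by
  rw [mem_KK] at hv ⊢
  rw [Qp_succ, ← Matrix.mulVec_mulVec, Matrix.sub_mulVec, Matrix.smul_mulVec,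
    Matrix.one_mulVec] at hv
  exact hv

theorem gm_map (g : (Mat r ℂ)ˣ) {X Y : Mat r ℂ} (h : X * (g : Mat r ℂ) = (g : Mat r ℂ) * Y)
    (H : Submodule ℂ (Fin r → ℂ)) : gm g (H.map Y.mulVecLin) = (gm g H).map X.mulVecLin := by
  rw [gm_apply, gm_apply, ← Submodule.map_comp, ← Submodule.map_comp, ← Matrix.mulVecLin_mul,
    ← Matrix.mulVecLin_mul, h]

theorem KK_conj (g : (Mat r ℂ)ˣ) {c d : Mat r ℂ} (h : c * (g : Mat r ℂ) = (g : Mat r ℂ) * d)
    (ξ : ℕ → ℂ) (j : ℕ) : gm g (KK d ξ j) = KK c ξ j := by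
  have h1 := Qp_conj ξ h j
  ext v
  rw [gm_apply, Submodule.mem_map]
  constructor
  · rintro ⟨w, hw, rfl⟩
    rw [mem_KK] at hw ⊢
    rw [Matrix.mulVecLin_apply, Matrix.mulVec_mulVec, h1, ← Matrix.mulVec_mulVec, hw,
      Matrix.mulVec_zero]
  · intro hv
    refine ⟨((g⁻¹ : (Mat r ℂ)ˣ) : Mat r ℂ) *ᵥ v, ?_, ?_⟩
    · rw [mem_KK] at hv ⊢
      have h2 : (g : Mat r ℂ) *ᵥ (Qp d ξ j *ᵥ (((g⁻¹ : (Mat r ℂ)ˣ) : Mat r ℂ) *ᵥ v)) = 0 := by
        rw [Matrix.mulVec_mulVec, Matrix.mulVec_mulVec, ← h1, Matrix.mul_assoc, Units.mul_inv,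
          Matrix.mul_one, hv]
      have h3 := congrArg (fun z => ((g⁻¹ : (Mat r ℂ)ˣ) : Mat r ℂ) *ᵥ z) h2
      simp only [Matrix.mulVec_zero] at h3
      rw [Matrix.mulVec_mulVec, Units.inv_mul, Matrix.one_mulVec] at h3
      exact h3
    · rw [Matrix.mulVecLin_apply, Matrix.mulVec_mulVec, Units.mul_inv, Matrix.one_mulVec]

/-! ### the standard flag -/

theorem mem_Fl {nm : Fin r → Fin N} {t : ℕ} {v : Fin r → ℂ} :
    v ∈ Fl nm t ↔ ∀ i, t ≤ (nm i : ℕ) → v i = 0 := Iff.rfl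

theorem mem_Co {nm : Fin r → Fin N} {T : Fin N → Prop} {v : Fin r → ℂ} :
    v ∈ Co nm T ↔ ∀ i, ¬ T (nm i) → v i = 0 := Iff.rfl

theorem Fl_mono (nm : Fin r → Fin N) {t t' : ℕ} (h : t ≤ t') : Fl nm t ≤ Fl nm t' :=
  fun _ hv i hi => hv i (h.trans hi)

theorem single_Fl {nm : Fin r → Fin N} {t : ℕ} {i : Fin r} :
    (Pi.single i 1 : Fin r → ℂ) ∈ Fl nm t ↔ (nm i : ℕ) < t := by
  constructor
  · intro h
    by_contra hc
    have := h i (not_lt.1 hc)
    rw [Pi.single_eq_same] at this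
    exact one_ne_zero this
  · intro h j hj
    rw [Pi.single_apply, if_neg]
    rintro rfl
    omega

theorem Fl_le {nm : Fin r → Fin N} (hs : Function.Surjective nm) {t t' : ℕ} (ht : t ≤ N)
    (h : Fl nm t ≤ Fl nm t') : t ≤ t' := by
  by_contra hc
  obtain ⟨i, hi⟩ := hs ⟨t', by omega⟩
  have h1 : (Pi.single i 1 : Fin r → ℂ) ∈ Fl nm t := single_Fl.2 (by rw [hi]; simp; omega)
  have h2 := single_Fl.1 (h h1)
  rw [hi] at h2
  simp at h2

theorem Fl_big (nm : Fin r → Fin N) {t : ℕ} (h : N ≤ t) : Fl nm t = ⊤ := by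
  rw [eq_top_iff]
  intro v _ i hi
  have := (nm i).2
  omega

section pos

variable {nm : Fin r → Fin N} {g : (Mat r ℂ)ˣ} {ℱ : Set (Submodule ℂ (Fin r → ℂ))}
  (hℱ : ∀ G, G ∈ ℱ ↔ ∃ t ≤ N, G = (Fl nm t).map (Matrix.mulVecLin (g : Mat r ℂ)))

include hℱ

theorem mem_of (t : ℕ) : gm g (Fl nm t) ∈ ℱ := by
  rw [hℱ]
  rcases le_total t N with h | h
  · exact ⟨t, h, rfl⟩
  · refine ⟨N, le_rfl, ?_⟩
    rw [Fl_big nm h, ← Fl_big nm (le_refl N)]
    rfl

theorem pos_of {H : Submodule ℂ (Fin r → ℂ)} {t : ℕ}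
    (h : gm g (Fl nm t) ⊔ (gm g (Fl nm (t + 1)) ⊓ gm g H) ∈ ℱ) :
    Fl nm t ⊔ (Fl nm (t + 1) ⊓ H) = Fl nm t ∨ Fl nm t ⊔ (Fl nm (t + 1) ⊓ H) = Fl nm (t + 1) := by
  rw [← OrderIso.map_inf, ← OrderIso.map_sup, hℱ] at h
  obtain ⟨t', -, h⟩ := h
  have h1 : Fl nm t ⊔ (Fl nm (t + 1) ⊓ H) = Fl nm t' := (gm g).injective h
  by_cases ht : t' ≤ t
  · left
    refine le_antisymm ?_ le_sup_left
    rw [h1]
    exact Fl_mono nm ht
  · right
    refine le_antisymm (sup_le (Fl_mono nm (Nat.le_succ t)) inf_le_left) ?_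
    rw [h1]
    exact Fl_mono nm (by omega)

theorem consec (t : ℕ) : ∀ C ∈ ℱ, gm g (Fl nm t) < C → ¬ C < gm g (Fl nm (t + 1)) := by
  intro C hC h1 h2
  rw [hℱ] at hC
  obtain ⟨t', -, rfl⟩ := hC
  rw [← gm_apply, OrderIso.lt_iff_lt] at h1 h2
  have h3 : t < t' := by
    by_contra hc
    exact absurd (Fl_mono nm (not_lt.1 hc)) (not_le_of_gt h1)
  have h4 : t' < t + 1 := by
    by_contra hc
    exact absurd (Fl_mono nm (not_lt.1 hc)) (not_le_of_gt h2)
  omega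

end pos

/-! ### block unipotent matrices -/

theorem bu_det {nm : Fin r → Fin N} (hm : Monotone nm) {u : Mat r ℂ} (hu : BU nm (bk N) u) :
    u.det = 1 := by
  have h1 : u.BlockTriangular id := by
    intro i j hij
    simp only [id] at hij
    have h2 : nm j ≤ nm i := hm hij.le
    rw [hu i j (by simp only [bk]; exact not_lt.2 h2), Matrix.one_apply_ne hij.ne']
  rw [Matrix.det_of_isUpperTriangular h1]
  refine Finset.prod_eq_one fun i _ => ?_
  rw [hu i i (lt_irrefl _), Matrix.one_apply_eq]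

theorem bu_inj {nm : Fin r → Fin N} (hm : Monotone nm) {u : Mat r ℂ} (hu : BU nm (bk N) u) :
    Function.Injective u.mulVecLin := by
  have h1 : IsUnit u.det := by rw [bu_det hm hu]; exact isUnit_one
  have h2 := Matrix.mulVec_injective_iff_isUnit.2 ((Matrix.isUnit_iff_isUnit_det u).2 h1)
  exact h2

theorem bu_Fl {nm : Fin r → Fin N} (hm : Monotone nm) {u : Mat r ℂ} (hu : BU nm (bk N) u)
    (t : ℕ) : (Fl nm t).map u.mulVecLin = Fl nm t := by
  refine Submodule.eq_of_le_of_finrank_eq ?_ ?_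
  · rintro _ ⟨v, hv, rfl⟩ i hi
    rw [Matrix.mulVecLin_apply, Matrix.mulVec, dotProduct]
    refine Finset.sum_eq_zero fun j _ => ?_
    by_cases h : nm i < nm j
    · have : t ≤ (nm j : ℕ) := hi.trans (Fin.lt_def.1 h).le
      rw [hv j this, mul_zero]
    · rw [hu i j h]
      by_cases hij : i = j
      · subst hij
        rw [hv i hi, mul_zero]
      · rw [Matrix.one_apply_ne hij, zero_mul]
  · exact (Submodule.equivMapOfInjective _ (bu_inj hm hu) _).finrank_eq.symm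

theorem bu_IP {nm : Fin r → Fin N} (hm : Monotone nm) (hs : Function.Surjective nm) {u : Mat r ℂ}
    (hu : BU nm (bk N) u) (T : Fin N → Prop) (c : Fin N) :
    Fl nm (c + 1) ≤ Fl nm c ⊔ (Fl nm (c + 1) ⊓ (Co nm T).map u.mulVecLin) ↔ T c := by
  have hi := bu_inj hm hu
  have h1 : Fl nm c ⊔ (Fl nm (c + 1) ⊓ (Co nm T).map u.mulVecLin) =
      (Fl nm c ⊔ (Fl nm (c + 1) ⊓ Co nm T)).map u.mulVecLin := by
    rw [Submodule.map_sup, Submodule.map_inf _ hi, bu_Fl hm hu, bu_Fl hm hu]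
  rw [h1, ← bu_Fl hm hu (c + 1), Submodule.map_le_map_iff_of_injective hi]
  rw [bu_Fl hm hu (c + 1)]
  obtain ⟨i, hic⟩ := hs c
  constructor
  · intro h
    have h2 : (Pi.single i 1 : Fin r → ℂ) ∈ Fl nm (c + 1) := single_Fl.2 (by rw [hic]; omega)
    obtain ⟨a, ha, b, hb, hab⟩ := Submodule.mem_sup.1 (h h2)
    by_contra hT
    have h3 : a i = 0 := ha i (by rw [hic])
    have h4 : b i = 0 := hb.2 i (by rwa [hic])
    have h5 := congrFun hab i
    rw [Pi.add_apply, h3, h4, Pi.single_eq_same, add_zero] at h5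
    exact zero_ne_one h5
  · intro hT v hv
    refine Submodule.mem_sup.2 ⟨fun j => if nm j = c then 0 else v j, ?_,
      fun j => if nm j = c then v j else 0, ⟨?_, ?_⟩, ?_⟩
    · intro j hj
      by_cases h : nm j = c
      · simp [h]
      · simp only [h, if_false]
        refine hv j ?_
        have : (nm j : ℕ) ≠ c := fun h' => h (Fin.ext h')
        omega
    · intro j hj
      by_cases h : nm j = c
      · rw [h] at hj; omega
      · simp [h]
    · intro j hj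
      by_cases h : nm j = c
      · rw [h] at hj; exact absurd hT hj
      · simp [h]
    · ext j
      by_cases h : nm j = c <;> simp [h]

open Classical in
theorem finrank_Co (nm : Fin r → Fin N) (T : Fin N → Prop) :
    Module.finrank ℂ (Co nm T) = (Finset.univ.filter fun x => T (nm x)).card := by
  have e : (Co nm T) ≃ₗ[ℂ] ({x // T (nm x)} → ℂ) :=
    { toFun := fun v x => (v : Fin r → ℂ) x.1
      map_add' := fun _ _ => rfl
      map_smul' := fun _ _ => rfl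
      invFun := fun w => ⟨fun i => if h : T (nm i) then w ⟨i, h⟩ else 0, fun i hi => dif_neg hi⟩
      left_inv := by
        intro v
        ext i
        by_cases h : T (nm i)
        · simp [h]
        · simp only [h, dif_neg, not_false_eq_true]
          exact (v.2 i h).symm
      right_inv := by
        intro w
        ext ⟨x, hx⟩
        simp [hx] }
  rw [e.finrank_eq, Module.finrank_fintype_fun_eq_card, Fintype.card_subtype]

/-- The standard flag for the product. -/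
theorem exists_k0 {nm : Fin r → Fin N} (hs : Function.Surjective nm) {P : Mat r ℂ} {ξ : ℕ → ℂ}
    {s : ℕ} (h0 : Qp P ξ s = 0) (hF : ∀ j, ∃ t, KK P ξ j = Fl nm t) :
    ∃ κ₀ : Fin N → ℕ, Monotone κ₀ ∧ Kup (κ₀ ∘ nm) ξ P ∧ (∀ x, κ₀ x < s) ∧
      ∀ j, KK P ξ j = Co nm fun a => κ₀ a < j := by
  classical
  have hne : ∀ x : Fin N, 0 < s := by
    intro x
    rcases Nat.eq_zero_or_pos s with h | h
    · exfalso
      obtain ⟨i, -⟩ := hs x
      have h1 := KK_top h0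
      rw [h, KK_zero] at h1
      have h2 : (Pi.single i 1 : Fin r → ℂ) ∈ (⊥ : Submodule ℂ (Fin r → ℂ)) := by
        rw [h1]; trivial
      rw [Submodule.mem_bot] at h2
      have h3 := congrFun h2 i
      rw [Pi.single_eq_same] at h3
      exact one_ne_zero h3
    · exact h
  have hex : ∀ x : Fin N, ∃ j, Fl nm (x + 1) ≤ KK P ξ (j + 1) := fun x =>
    ⟨s - 1, by rw [Nat.sub_add_cancel (hne x), KK_top h0]; exact le_top⟩
  refine ⟨fun x => Nat.find (hex x), ?_, ?_⟩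
  · intro x y hxy
    refine Nat.find_min' _ ((Fl_mono nm ?_).trans (Nat.find_spec (hex y)))
    have : (x : ℕ) ≤ y := hxy
    omega
  have hlt : ∀ (x : Fin N) j, Nat.find (hex x) < j ↔ Fl nm (x + 1) ≤ KK P ξ j := by
    intro x j
    constructor
    · intro h
      exact (Nat.find_spec (hex x)).trans (KK_mono P ξ h)
    · intro h
      rcases j with _ | j
      · exfalso
        obtain ⟨i, hi⟩ := hs x
        rw [KK_zero] at h
        have h2 : (Pi.single i 1 : Fin r → ℂ) ∈ Fl nm (x + 1) := single_Fl.2 (by rw [hi]; omega)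
        have h3 := h h2
        rw [Submodule.mem_bot] at h3
        have h3 := congrFun h3 i
        rw [Pi.single_eq_same] at h3
        exact one_ne_zero h3
      · exact Nat.lt_succ_of_le (Nat.find_min' _ h)
  have hCo : ∀ j, KK P ξ j = Co nm fun a => Nat.find (hex a) < j := by
    intro j
    obtain ⟨t, ht⟩ := hF j
    ext v
    rw [ht, mem_Fl, mem_Co]
    refine forall_congr' fun i => ?_
    rw [hlt, ht]
    have : (¬ Fl nm (nm i + 1) ≤ Fl nm t) ↔ t ≤ (nm i : ℕ) := by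
      constructor
      · intro h
        by_contra hc
        exact h (Fl_mono nm (by omega))
      · intro h h'
        have := Fl_le hs (nm i).2 h'
        omega
    rw [this]
  have hcol : ∀ i j : Fin r, ¬ Nat.find (hex (nm i)) < Nat.find (hex (nm j)) →
      P i j - ξ (Nat.find (hex (nm j))) * (1 : Mat r ℂ) i j = 0 := by
    intro i j hij
    have h1 : (Pi.single j 1 : Fin r → ℂ) ∈ KK P ξ (Nat.find (hex (nm j)) + 1) := by
      rw [hCo]
      intro i' hi'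
      rw [Pi.single_apply, if_neg]
      rintro rfl
      exact hi' (Nat.lt_succ_self _)
    have h2 := KK_step P ξ _ _ h1
    rw [hCo] at h2
    have h3 := h2 i hij
    rw [Pi.sub_apply, Matrix.mulVec_single_one, Pi.smul_apply, smul_eq_mul] at h3
    rw [Matrix.one_apply]
    rw [Pi.single_apply] at h3
    exact h3
  refine ⟨⟨fun i => ?_, fun i j hij hk => ?_⟩, fun x => ?_, hCo⟩
  · have h := hcol i i (lt_irrefl _)
    rw [Matrix.one_apply_eq, mul_one, sub_eq_zero] at h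
    exact h
  · have h := hcol i j hk
    rw [Matrix.one_apply_ne hij, mul_zero, sub_zero] at h
    exact h
  · rw [hlt, KK_top h0]
    exact le_top

theorem PP_conj {c d : ℕ → Mat r ℂ} {g : Mat r ℂ} (h : ∀ i, c i * g = g * d i) (n : ℕ) :
    PP c n * g = g * PP d n := by
  induction n with
  | zero => rw [PP, PP, Matrix.one_mul, Matrix.mul_one]
  | succ n ih => rw [PP, PP, Matrix.mul_assoc, h, ← Matrix.mul_assoc, ih, Matrix.mul_assoc]

end FA

open FA in
theorem flagAsm : FlagAsmStmt := by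
  classical
  intro hC hB hP hS r m c ξ s ξ₀ s₀ _ hc h0
  -- the chain
  obtain ⟨ℱ, τ, c1, c2, c3, c4, c5, -, c7⟩ := hC
    {W | ∃ i < m, ∃ j, W = KK (c i) (ξ i) j}
    (J := Fin m × Bool × ℕ)
    (fun j F F' => (KK (c j.1) (ξ j.1) j.2.2 ⊔ (KK (c j.1) (ξ j.1) (j.2.2 + 1) ⊓ F) ⊔ F').map
      (PP c (j.1 + sh j.2.1)).mulVecLin)
    (Set.range (KK (PP c m) ξ₀)) ⟨0, KK_zero _ _⟩ ⟨s₀, KK_top h0⟩ (by
      rintro _ ⟨i, rfl⟩ _ ⟨j, rfl⟩ -
      rcases le_total i j with h | h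
      · exact Or.inl (KK_mono _ _ h)
      · exact Or.inr (KK_mono _ _ h))
  obtain ⟨g, N, nm, nmm, nms, hℱ⟩ := hB ℱ (c2 ⟨0, KK_zero _ _⟩) (c2 ⟨s₀, KK_top h0⟩) c1
  obtain ⟨d, hd⟩ : ∃ d : ℕ → Mat r ℂ, ∀ i, d i = ((g⁻¹ : (Mat r ℂ)ˣ) : Mat r ℂ) * c i * (g : Mat r ℂ) :=
    ⟨_, fun _ => rfl⟩
  have hcd : ∀ i, c i * (g : Mat r ℂ) = (g : Mat r ℂ) * d i := fun i => by
    rw [hd, ← Matrix.mul_assoc, ← Matrix.mul_assoc, Units.mul_inv, Matrix.one_mul]
  have hPP := PP_conj hcd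
  have hmem := mem_of hℱ
  have hcon := consec hℱ
  -- stability in the adapted basis
  have hst1 : ∀ i < m, ∀ j, ∀ t < N, Fl nm t ⊔ (Fl nm (t + 1) ⊓ KK (d i) (ξ i) j) = Fl nm t ∨
      Fl nm t ⊔ (Fl nm (t + 1) ⊓ KK (d i) (ξ i) j) = Fl nm (t + 1) := by
    intro i hi j t _
    refine pos_of hℱ ?_
    rw [KK_conj g (hcd i)]
    exact c4 _ (hmem t) _ (hmem (t + 1)) ((gm g).monotone (Fl_mono nm (Nat.le_succ t))) (hcon t) _
      (Or.inl ⟨i, hi, j, rfl⟩)
  -- positions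
  have hpos : ∀ i, ∃ (κ : Fin N → ℕ) (u M : Mat r ℂ), i < m → BU nm (bk N) u ∧
      Kup (κ ∘ nm) (ξ i) M ∧ d i * u = u * M ∧ (∀ x, κ x < s i) ∧
      ∀ j, KK (d i) (ξ i) j = (Co nm fun a => κ a < j).map (Matrix.mulVecLin u) := by
    intro i
    by_cases hi : i < m
    · have htop : KK (d i) (ξ i) (s i) = ⊤ := by
        refine (gm g).injective ?_
        rw [KK_conj g (hcd i), KK_top (hc i hi), OrderIso.map_top]
      obtain ⟨κ, u, M, h⟩ := hP nm nmm nms (d i) (ξ i) (s i) (KK (d i) (ξ i)) (KK_zero _ _) htop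
        (KK_mono _ _) (KK_step _ _) (hst1 i hi)
      exact ⟨κ, u, M, fun _ => h⟩
    · exact ⟨fun _ => 0, 0, 0, fun h => absurd h hi⟩
  choose κ u M hpos using hpos
  -- the product
  have hQ0 : Qp (PP d m) ξ₀ s₀ = 0 := by
    have h1 := Qp_conj ξ₀ (hPP m) s₀
    rw [h0, Matrix.zero_mul] at h1
    have h2 := congrArg (fun z => ((g⁻¹ : (Mat r ℂ)ˣ) : Mat r ℂ) * z) h1
    simp only [Matrix.mul_zero] at h2
    rw [← Matrix.mul_assoc, Units.inv_mul, Matrix.one_mul] at h2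
    exact h2.symm
  have hF0 : ∀ j, ∃ t, KK (PP d m) ξ₀ j = Fl nm t := by
    intro j
    have h1 : gm g (KK (PP d m) ξ₀ j) ∈ ℱ := by
      rw [KK_conj g (hPP m)]
      exact c2 ⟨j, rfl⟩
    rw [hℱ] at h1
    obtain ⟨t, -, ht⟩ := h1
    exact ⟨t, (gm g).injective ht⟩
  obtain ⟨κ₀, k1, k2, k3, k4⟩ := exists_k0 nms hQ0 hF0
  have hsegs : ∀ i < m, ∀ (e : Bool) (l t t' : ℕ), t' ≤ t →
      gm g ((Co nm (Seg (κ i) l t t')).map (Matrix.mulVecLin (PP d (i + sh e) * u i))) =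
      (KK (c i) (ξ i) l ⊔ (KK (c i) (ξ i) (l + 1) ⊓ gm g (Fl nm t)) ⊔ gm g (Fl nm t')).map
        (PP c (i + sh e)).mulVecLin := by
    intro i hi e l t t' htt
    rw [(hS nm nmm nms).1 (κ i) (u i) (PP d (i + sh e)) (KK (d i) (ξ i)) (hpos i hi).1
      (hpos i hi).2.2.2.2 l t t' htt, gm_map g (hPP (i + sh e)), OrderIso.map_sup, OrderIso.map_sup,
      OrderIso.map_inf, KK_conj g (hcd i), KK_conj g (hcd i)]
  -- rank function
  have hrk : ∃ rk : Fin N → Fin N → ℕ, ∀ p q, rk p q =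
      sInf {n | ∃ t : ℕ, (p : ℕ) < t ∧ t ≤ q ∧ n = τ (gm g (Fl nm t))} := ⟨_, fun _ _ => rfl⟩
  obtain ⟨rk, hrk⟩ := hrk
  have hrk1 : ∀ (p q : Fin N) (t : ℕ), (p : ℕ) < t → t ≤ q → rk p q ≤ τ (gm g (Fl nm t)) := by
    intro p q t h1 h2
    rw [hrk]
    exact Nat.sInf_le ⟨t, h1, h2, rfl⟩
  have hrk2 : ∀ p q : Fin N, p < q → ∃ t : ℕ, (p : ℕ) < t ∧ t ≤ q ∧ rk p q = τ (gm g (Fl nm t)) := by
    intro p q hpq
    have hne : {n | ∃ t : ℕ, (p : ℕ) < t ∧ t ≤ q ∧ n = τ (gm g (Fl nm t))}.Nonempty :=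
      ⟨_, q, hpq, le_rfl, rfl⟩
    have := Nat.sInf_mem hne
    rw [← hrk] at this
    exact this
  refine ⟨g, N, nm, κ, κ₀, d, u, M, rk, hd, nmm, nms, k1, ?_, ⟨k2, k3, ?_⟩, ?_, ?_, ?_⟩
  · intro i hi
    obtain ⟨h1, h2, h3, h4, h5⟩ := hpos i hi
    refine ⟨h1, h2, h3, h4, fun j _ => ?_⟩
    change Module.finrank ℂ (KK (d i) (ξ i) j) = _
    rw [h5 j, ← (Submodule.equivMapOfInjective _ (bu_inj nmm h1) _).finrank_eq, finrank_Co]
    congr!
  · intro j _
    change Module.finrank ℂ (KK (PP d m) ξ₀ j) = _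
    rw [k4 j, finrank_Co]
    congr!
  · intro i hi e l t t' htt
    refine (hS nm nmm nms).2.1 _ _ fun x => pos_of hℱ ?_
    refine c4 _ (hmem x) _ (hmem (x + 1)) ((gm g).monotone (Fl_mono nm (Nat.le_succ x))) (hcon x) _
      (Or.inr ⟨(⟨i, hi⟩, e, l), gm g (Fl nm t), hmem t, gm g (Fl nm t'), hmem t',
        (gm g).monotone (Fl_mono nm htt), ?_⟩)
    exact hsegs i hi e l t t' htt
  · intro p' p q q' h1 h2 h3
    obtain ⟨t, ht1, ht2, ht3⟩ := hrk2 p q h2
    rw [ht3]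
    refine hrk1 p' q' t ?_ ?_
    · have : (p' : ℕ) ≤ p := h1
      omega
    · have : (q : ℕ) ≤ q' := h3
      omega
  · intro p q hpq hk
    obtain ⟨t, ht1, ht2, ht3⟩ := hrk2 p q hpq
    have hG0 : gm g (Fl nm t) ∉ Set.range (KK (PP c m) ξ₀) := by
      rintro ⟨j, hj⟩
      rw [← KK_conj g (hPP m)] at hj
      have h1 : KK (PP d m) ξ₀ j = Fl nm t := (gm g).injective hj
      rw [k4] at h1
      obtain ⟨i, hi⟩ := nms p
      obtain ⟨i', hi'⟩ := nms q
      have h2 : (Pi.single i 1 : Fin r → ℂ) ∈ Fl nm t := single_Fl.2 (by rw [hi]; exact ht1)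
      rw [← h1] at h2
      have h3 : κ₀ p < j := by
        by_contra hc
        have := h2 i (by rwa [hi])
        rw [Pi.single_eq_same] at this
        exact one_ne_zero this
      have h4 : (Pi.single i' 1 : Fin r → ℂ) ∈ Co nm fun a => κ₀ a < j := by
        intro x hx
        rw [Pi.single_apply, if_neg]
        rintro rfl
        rw [hi'] at hx
        exact hx (lt_of_eq_of_lt hk.symm h3)
      rw [h1] at h4
      have h5 := single_Fl.1 h4
      rw [hi'] at h5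
      omega
    obtain ⟨A, hA, B, hB', hAG, hGB, hτA, hτB, -, W, hW, hG⟩ := c7 _ (hmem t) hG0
    rw [hℱ] at hA hB'
    obtain ⟨a, haN, rfl⟩ := hA
    obtain ⟨b, hbN, rfl⟩ := hB'
    rw [← gm_apply] at hAG hGB hτA hτB hG
    rw [← gm_apply] at hG
    have hat : a < t := by
      by_contra hcon'
      exact absurd ((gm g).monotone (Fl_mono nm (not_lt.1 hcon'))) (not_le_of_gt hAG)
    have htb : t < b := by
      by_contra hcon'
      exact absurd ((gm g).monotone (Fl_mono nm (not_lt.1 hcon'))) (not_le_of_gt hGB)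
    have hap : a ≤ p := by
      by_contra hcon'
      have := hrk1 p q a (by omega) (by omega)
      omega
    have hqb : (q : ℕ) < b := by
      by_contra hcon'
      have := hrk1 p q b (by omega) (by omega)
      omega
    obtain ⟨W', rfl⟩ : ∃ W', gm g W' = W := (gm g).surjective W
    have hG' : Fl nm t = Fl nm a ⊔ (Fl nm b ⊓ W') := by
      refine (gm g).injective ?_
      rw [OrderIso.map_sup, OrderIso.map_inf]
      exact hG
    have hWp : Fl nm (p + 1) ≤ Fl nm p ⊔ (Fl nm (p + 1) ⊓ W') := by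
      intro v hv
      have h1 : v ∈ Fl nm t := Fl_mono nm ht1 hv
      rw [hG'] at h1
      obtain ⟨v1, hv1, v2, hv2, rfl⟩ := Submodule.mem_sup.1 h1
      have h2 : v1 ∈ Fl nm (p + 1) := Fl_mono nm (by omega) hv1
      refine Submodule.mem_sup.2 ⟨v1, Fl_mono nm hap hv1, v2, ⟨?_, hv2.2⟩, rfl⟩
      have h3 := Submodule.sub_mem _ hv h2
      rwa [add_sub_cancel_left] at h3
    have hWq : ¬ Fl nm (q + 1) ≤ Fl nm q ⊔ (Fl nm (q + 1) ⊓ W') := by
      intro h
      have h1 : Fl nm (q + 1) ⊓ W' ≤ Fl nm q := by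
        refine (inf_le_inf_right W' (Fl_mono nm (by omega : (q : ℕ) + 1 ≤ b))).trans ?_
        refine (le_sup_right : _ ≤ Fl nm a ⊔ (Fl nm b ⊓ W')).trans ?_
        rw [← hG']
        exact Fl_mono nm ht2
      have h2 := Fl_le nms q.2 (h.trans (sup_le le_rfl h1))
      omega
    rcases hW with ⟨i, hi, l, hW⟩ | ⟨⟨⟨i, hi⟩, e, l⟩, F, hF, F', hF', hFF, hτF, hτF', hW⟩
    · left
      refine ⟨i, hi, ?_⟩
      obtain ⟨h1, -, -, -, h5⟩ := hpos i hi
      rw [← KK_conj g (hcd i)] at hW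
      have hW' := (gm g).injective hW
      rw [hW', h5 l] at hWp hWq
      rw [bu_IP nmm nms h1] at hWp hWq
      omega
    · right
      rw [hℱ] at hF hF'
      obtain ⟨a', ha', rfl⟩ := hF
      obtain ⟨b', hb', rfl⟩ := hF'
      rw [← gm_apply, ← gm_apply, OrderIso.le_iff_le] at hFF
      rw [← gm_apply] at hτF hτF' hW
      rw [← gm_apply] at hW
      have hba : b' ≤ a' := Fl_le nms hb' hFF
      rw [← hsegs i hi e l a' b' hba] at hW
      have hW' := (gm g).injective hW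
      rw [hW'] at hWp hWq
      refine ⟨i, hi, e, l, a', b', hba, ((hS nm nmm nms).2.2 _ _ p).2 hWp,
        fun h => hWq (((hS nm nmm nms).2.2 _ _ q).1 h), ?_⟩
      intro p' q' _ hsep
      rcases hsep with ⟨h1, h2⟩ | ⟨h1, h2⟩
      · have := hrk1 p' q' a' h1 h2
        omega
      · have := hrk1 p' q' b' h1 h2
        omega

end Vale.Agent.P002B
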