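import Vale.Agent.P002B.Stmts2

/-!
# P002, genus 0, arbitrary classes: assembly of the stable flag (T6e)
-/

namespace Vale.Agent.P002B.FB

open Matrix Vale.Agent.P002R Vale.Agent.P002L Vale.Agent.P002B

variable {r N : ℕ}

theorem Fl_mono (nm : Fin r → Fin N) {t t' : ℕ} (h : t ≤ t') : Fl nm t ≤ Fl nm t' :=
  fun _ hv i hi => hv i (h.trans hi)

theorem Fl_le_iff {nm : Fin r → Fin N} (hs : Function.Surjective nm) {t t' : ℕ} (ht : t ≤ N) :
    Fl nm t ≤ Fl nm t' ↔ t ≤ t' := by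
  refine ⟨fun h => ?_, Fl_mono nm⟩
  by_contra hlt
  rw [not_le] at hlt
  obtain ⟨x, hx⟩ := hs ⟨t', hlt.trans_le ht⟩
  have h1 : (Pi.single x 1 : Fin r → ℂ) ∈ Fl nm t := by
    intro i hi
    refine Pi.single_eq_of_ne ?_ _
    rintro rfl
    rw [hx] at hi
    exact absurd hi (not_le.2 hlt)
  have h2 := h h1 x (by rw [hx])
  rw [Pi.single_eq_same] at h2
  exact one_ne_zero h2

theorem Fl_inj {nm : Fin r → Fin N} (hs : Function.Surjective nm) {t t' : ℕ} (ht : t ≤ N)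
    (ht' : t' ≤ N) (h : Fl nm t = Fl nm t') : t = t' :=
  le_antisymm ((Fl_le_iff hs ht).1 h.le) ((Fl_le_iff hs ht').1 h.ge)

theorem lt_of_Fl_lt {nm : Fin r → Fin N} {t t' : ℕ} (h : Fl nm t < Fl nm t') : t < t' := by
  by_contra h1
  exact absurd (Fl_mono nm (not_lt.1 h1)) (not_le_of_gt h)

theorem Fl_zero (nm : Fin r → Fin N) : Fl nm 0 = ⊥ := by
  rw [eq_bot_iff]
  intro v hv
  rw [Submodule.mem_bot]
  exact funext fun i => hv i (Nat.zero_le _)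

theorem Fl_top (nm : Fin r → Fin N) : Fl nm N = ⊤ := by
  rw [eq_top_iff]
  intro v _ i hi
  exact absurd (nm i).2 (not_lt.2 hi)

theorem Fl_min (nm : Fin r → Fin N) (t : ℕ) : Fl nm (min t N) = Fl nm t := by
  rcases le_total t N with h | h
  · rw [min_eq_left h]
  · rw [min_eq_right h, Fl_top]
    symm
    rw [eq_top_iff]
    intro v _ i hi
    exact absurd (nm i).2 (not_lt.2 (h.trans hi))

theorem BU.apply {nm : Fin r → Fin N} {u : Mat r ℂ} (hu : BU nm (bk N) u) {v : Fin r → ℂ}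
    {i : Fin r} (h : ∀ j, nm i < nm j → v j = 0) : (u *ᵥ v) i = v i := by
  rw [mulVec, dotProduct, Finset.sum_eq_single i]
  · rw [hu i i (lt_irrefl _), one_apply_eq, one_mul]
  · intro j _ hj
    by_cases h1 : nm i < nm j
    · rw [h j h1, mul_zero]
    · rw [hu i j h1, one_apply_ne hj.symm, zero_mul]
  · intro h
    exact absurd (Finset.mem_univ _) h

theorem BU.zero_of {nm : Fin r → Fin N} {u : Mat r ℂ} (hu : BU nm (bk N) u) {t : ℕ}
    {v : Fin r → ℂ} (hv : ∀ i, t ≤ (nm i : ℕ) → (u *ᵥ v) i = 0) :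
    ∀ i, t ≤ (nm i : ℕ) → v i = 0 := by
  have key : ∀ n : ℕ, ∀ i, t ≤ (nm i : ℕ) → N - (nm i : ℕ) ≤ n → v i = 0 := by
    intro n
    induction n with
    | zero =>
      intro i _ h
      have h1 := (nm i).2
      omega
    | succ n ih =>
      intro i hi h
      rw [← BU.apply hu (v := v) (i := i) fun j hj => ?_]
      · exact hv i hi
      · have h1 : (nm i : ℕ) < nm j := hj
        have h2 := (nm j).2
        exact ih j (by omega) (by omega)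
  exact fun i hi => key _ i hi le_rfl

theorem lt_of_IP {nm : Fin r → Fin N} (hs : Function.Surjective nm) {u : Mat r ℂ}
    (hu : BU nm (bk N) u) {T : Fin N → Prop} {p : Fin N} (h : IP nm u T p) : T p := by
  by_contra hp
  obtain ⟨x, hx⟩ := hs p
  obtain ⟨v, hv1, hv2, hv3⟩ := h fun _ => 1
  have h1 := BU.zero_of hu (t := p + 1) (v := v) fun i hi => hv2 i (Fin.lt_def.2 hi)
  have h2 := BU.apply hu (v := v) (i := x) fun j hj => h1 j (by
    rw [hx] at hj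
    exact hj)
  rw [hv3 x hx, hv1 x (by rw [hx]; exact hp)] at h2
  exact one_ne_zero h2

theorem IP_of {nm : Fin r → Fin N} {u : Mat r ℂ}
    (hu : BU nm (bk N) u) {T : Fin N → Prop} {p : Fin N} (h : T p) : IP nm u T p := by
  classical
  intro w
  have h1 : ∀ i j, p ≤ nm i → nm i < nm j → (if nm j = p then w j else 0) = 0 := by
    intro i j hi hj
    rw [if_neg (ne_of_gt (lt_of_le_of_lt hi hj))]
  refine ⟨fun i => if nm i = p then w i else 0, fun i hi => ?_, fun i hi => ?_, fun i hi => ?_⟩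
  · refine if_neg ?_
    rintro rfl
    exact hi h
  · rw [BU.apply hu fun j => h1 i j hi.le]
    exact if_neg (ne_of_gt hi)
  · rw [BU.apply hu fun j => h1 i j hi.ge]
    exact if_pos hi

/-- The kernel filtration. -/
def K (c : Mat r ℂ) (ξ : ℕ → ℂ) (j : ℕ) : Submodule ℂ (Fin r → ℂ) :=
  LinearMap.ker (Qp c ξ j).mulVecLin

theorem mem_K {c : Mat r ℂ} {ξ : ℕ → ℂ} {j : ℕ} {v : Fin r → ℂ} :
    v ∈ K c ξ j ↔ Qp c ξ j *ᵥ v = 0 := Iff.rfl

theorem K_zero (c : Mat r ℂ) (ξ : ℕ → ℂ) : K c ξ 0 = ⊥ := by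
  rw [K, Qp_zero, Matrix.mulVecLin_one]
  exact LinearMap.ker_id

theorem K_top {c : Mat r ℂ} {ξ : ℕ → ℂ} {s : ℕ} (h : Qp c ξ s = 0) : K c ξ s = ⊤ := by
  rw [K, h, Matrix.mulVecLin_zero]
  exact LinearMap.ker_zero

theorem K_mono (c : Mat r ℂ) (ξ : ℕ → ℂ) : Monotone (K c ξ) := by
  refine monotone_nat_of_le_succ fun j v hv => ?_
  rw [mem_K] at hv ⊢
  rw [Qp_succ, (Qp_comm _ _ _ _).eq, ← Matrix.mulVec_mulVec, hv, Matrix.mulVec_zero]

theorem K_sub (c : Mat r ℂ) (ξ : ℕ → ℂ) (j : ℕ) (v : Fin r → ℂ) (hv : v ∈ K c ξ (j + 1)) :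
    c *ᵥ v - ξ j • v ∈ K c ξ j := by
  rw [mem_K] at hv ⊢
  have h1 : c *ᵥ v - ξ j • v = (c - ξ j • (1 : Mat r ℂ)) *ᵥ v := by
    rw [Matrix.sub_mulVec, Matrix.smul_mulVec, Matrix.one_mulVec]
  rw [h1, Matrix.mulVec_mulVec, ← Qp_succ, hv]

theorem inj_g (g : (Mat r ℂ)ˣ) : Function.Injective (Matrix.mulVecLin (g : Mat r ℂ)) := by
  intro v w h
  have h1 : (g : Mat r ℂ) *ᵥ v = (g : Mat r ℂ) *ᵥ w := h
  have h2 := congrArg (fun x => ((g⁻¹ : (Mat r ℂ)ˣ) : Mat r ℂ) *ᵥ x) h1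
  simpa only [Matrix.mulVec_mulVec, Units.inv_mul, Matrix.one_mulVec] using h2

theorem surj_g (g : (Mat r ℂ)ˣ) : Function.Surjective (Matrix.mulVecLin (g : Mat r ℂ)) := by
  intro v
  refine ⟨((g⁻¹ : (Mat r ℂ)ˣ) : Mat r ℂ) *ᵥ v, ?_⟩
  rw [Matrix.mulVecLin_apply, Matrix.mulVec_mulVec, Units.mul_inv, Matrix.one_mulVec]

theorem conj_g (g : (Mat r ℂ)ˣ) (c : Mat r ℂ) :
    c * (g : Mat r ℂ) = g * (((g⁻¹ : (Mat r ℂ)ˣ) : Mat r ℂ) * c * (g : Mat r ℂ)) := by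
  rw [← mul_assoc, ← mul_assoc, Units.mul_inv, one_mul]

theorem K_conj (g : (Mat r ℂ)ˣ) {c d : Mat r ℂ} (h : c * (g : Mat r ℂ) = g * d) (ξ : ℕ → ℂ)
    (j : ℕ) : (K d ξ j).map (Matrix.mulVecLin (g : Mat r ℂ)) = K c ξ j := by
  have h1 : K d ξ j = (K c ξ j).comap (Matrix.mulVecLin (g : Mat r ℂ)) := by
    ext v
    rw [Submodule.mem_comap, mem_K, mem_K, Matrix.mulVecLin_apply, Matrix.mulVec_mulVec,
      Qp_conj ξ h, ← Matrix.mulVec_mulVec]
    refine ⟨fun h => by rw [h, Matrix.mulVec_zero], fun h => ?_⟩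
    exact inj_g g (by rw [Matrix.mulVecLin_apply, h, map_zero])
  rw [h1, Submodule.map_comap_eq_of_surjective (surj_g g)]

theorem PP_conj (g : (Mat r ℂ)ˣ) {c d : ℕ → Mat r ℂ} (h : ∀ i, c i * (g : Mat r ℂ) = g * d i)
    (n : ℕ) : PP c n * (g : Mat r ℂ) = g * PP d n := by
  induction n with
  | zero => rw [PP, PP, one_mul, mul_one]
  | succ n ih => rw [PP, PP, mul_assoc, h, ← mul_assoc, ih, mul_assoc]

theorem PP_conj' (g : (Mat r ℂ)ˣ) {c d : ℕ → Mat r ℂ} (h : ∀ i, c i * (g : Mat r ℂ) = g * d i)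
    (n : ℕ) (S : Submodule ℂ (Fin r → ℂ)) :
    (S.map (Matrix.mulVecLin (g : Mat r ℂ))).map (Matrix.mulVecLin (PP c n)) =
      (S.map (Matrix.mulVecLin (PP d n))).map (Matrix.mulVecLin (g : Mat r ℂ)) := by
  rw [← Submodule.map_comp, ← Submodule.map_comp, ← Matrix.mulVecLin_mul, ← Matrix.mulVecLin_mul,
    PP_conj g h]

theorem finrank_Co (nm : Fin r → Fin N) (T : Fin N → Prop) [DecidablePred fun x => T (nm x)] :
    Module.finrank ℂ (Co nm T) = (Finset.univ.filter fun x => T (nm x)).card := by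
  classical
  have h1 : Co nm T = Submodule.span ℂ (Set.range fun i : {i // T (nm i)} =>
      (Pi.single (i : Fin r) 1 : Fin r → ℂ)) := by
    apply le_antisymm
    · intro v hv
      rw [← Finset.univ_sum_single v]
      refine Submodule.sum_mem _ fun i _ => ?_
      by_cases hi : T (nm i)
      · have h2 : (Pi.single i (v i) : Fin r → ℂ) = v i • Pi.single i 1 := by
          rw [← Pi.single_smul, smul_eq_mul, mul_one]
        rw [h2]
        exact Submodule.smul_mem _ _ (Submodule.subset_span ⟨⟨i, hi⟩, rfl⟩)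
      · rw [hv i hi, Pi.single_zero]
        exact Submodule.zero_mem _
    · rw [Submodule.span_le]
      rintro _ ⟨i, rfl⟩ j hj
      refine Pi.single_eq_of_ne ?_ _
      rintro rfl
      exact hj i.2
  have h2 : LinearIndependent ℂ fun i : {i // T (nm i)} =>
      (Pi.single (i : Fin r) 1 : Fin r → ℂ) :=
    (Pi.linearIndependent_single_one (Fin r) ℂ).comp (fun i : {i // T (nm i)} => (i : Fin r))
      Subtype.val_injective
  rw [h1, finrank_span_eq_card h2, Fintype.card_subtype]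

theorem finrank_map_BU {nm : Fin r → Fin N} {u : Mat r ℂ} (hu : BU nm (bk N) u)
    (S : Submodule ℂ (Fin r → ℂ)) :
    Module.finrank ℂ (S.map (Matrix.mulVecLin u)) = Module.finrank ℂ S := by
  have hinj : Function.Injective (Matrix.mulVecLin u) := by
    rw [← LinearMap.ker_eq_bot, LinearMap.ker_eq_bot']
    intro v hv
    refine funext fun i => BU.zero_of hu (t := 0) (fun i _ => ?_) i (Nat.zero_le _)
    exact congrFun hv i
  exact (LinearEquiv.finrank_eq (Submodule.equivMapOfInjective _ hinj S)).symm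

/-- T6e. -/
theorem flagAsm : FlagAsmStmt := by
  intro hchain hbasis hpos hseg r m c ξ s ξ₀ s₀ _ hQ hQ0
  classical
  obtain ⟨ℱ₀, hℱ₀⟩ : ∃ ℱ₀ : Set (Submodule ℂ (Fin r → ℂ)), ∀ G, G ∈ ℱ₀ ↔
      G = ⊥ ∨ G = ⊤ ∨ ∃ j, G = K (PP c m) ξ₀ j :=
    ⟨{G | G = ⊥ ∨ G = ⊤ ∨ ∃ j, G = K (PP c m) ξ₀ j}, fun _ => Iff.rfl⟩
  obtain ⟨ℰ, hℰ⟩ : ∃ ℰ : Set (Submodule ℂ (Fin r → ℂ)), ∀ W, W ∈ ℰ ↔
      ∃ i < m, ∃ l, W = K (c i) (ξ i) l :=
    ⟨{W | ∃ i < m, ∃ l, W = K (c i) (ξ i) l}, fun _ => Iff.rfl⟩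
  obtain ⟨w, hw⟩ : ∃ w : Fin m × Bool × ℕ → Submodule ℂ (Fin r → ℂ) →
      Submodule ℂ (Fin r → ℂ) → Submodule ℂ (Fin r → ℂ), ∀ (i : Fin m) (e : Bool) (l : ℕ)
      (F F' : Submodule ℂ (Fin r → ℂ)), w (i, e, l) F F' =
        (K (c i) (ξ i) l ⊔ (K (c i) (ξ i) (l + 1) ⊓ F) ⊔ F').map
          (Matrix.mulVecLin (PP c (i + sh e))) :=
    ⟨fun j F F' => (K (c j.1) (ξ j.1) j.2.2 ⊔ (K (c j.1) (ξ j.1) (j.2.2 + 1) ⊓ F) ⊔ F').map
          (Matrix.mulVecLin (PP c (j.1 + sh j.2.1))), fun _ _ _ _ _ => rfl⟩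
  have hbot : (⊥ : Submodule ℂ (Fin r → ℂ)) ∈ ℱ₀ := (hℱ₀ _).2 (Or.inl rfl)
  have htop : (⊤ : Submodule ℂ (Fin r → ℂ)) ∈ ℱ₀ := (hℱ₀ _).2 (Or.inr (Or.inl rfl))
  have hch0 : IsChain (· ≤ ·) ℱ₀ := by
    intro A hA B hB _
    rcases (hℱ₀ _).1 hA with rfl | rfl | ⟨j, rfl⟩
    · exact Or.inl bot_le
    · exact Or.inr le_top
    · rcases (hℱ₀ _).1 hB with rfl | rfl | ⟨j', rfl⟩
      · exact Or.inr bot_le
      · exact Or.inl le_top
      · rcases le_total j j' with h | h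
        · exact Or.inl (K_mono _ _ h)
        · exact Or.inr (K_mono _ _ h)
  obtain ⟨ℱ, τ, hch, hsub, -, hst, -, -, hhist⟩ := hchain ℰ w ℱ₀ hbot htop hch0
  obtain ⟨g, N, nm, hnm, hsurj, hF⟩ := hbasis ℱ (hsub hbot) (hsub htop) hch
  obtain ⟨d, hd⟩ : ∃ d : ℕ → Mat r ℂ, ∀ i, d i =
    ((g⁻¹ : (Mat r ℂ)ˣ) : Mat r ℂ) * c i * (g : Mat r ℂ) := ⟨_, fun _ => rfl⟩
  have hcd : ∀ i, c i * (g : Mat r ℂ) = g * d i := fun i => by
    rw [hd]
    exact conj_g g (c i)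
  have hinj := inj_g g
  obtain ⟨G, hG⟩ : ∃ G : Submodule ℂ (Fin r → ℂ) → Submodule ℂ (Fin r → ℂ), ∀ S, G S =
    S.map (Matrix.mulVecLin (g : Mat r ℂ)) := ⟨_, fun _ => rfl⟩
  have hGle : ∀ S S', G S ≤ G S' ↔ S ≤ S' := fun S S' => by
    rw [hG, hG]
    exact Submodule.map_le_map_iff_of_injective hinj S S'
  have hGlt : ∀ S S', G S < G S' ↔ S < S' := fun S S' => by
    rw [lt_iff_le_not_ge, lt_iff_le_not_ge, hGle, hGle]
  have hGinj : ∀ S S', G S = G S' → S = S' := fun S S' h =>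
    le_antisymm ((hGle _ _).1 h.le) ((hGle _ _).1 h.ge)
  have hGsup : ∀ S S', G (S ⊔ S') = G S ⊔ G S' := fun S S' => by
    rw [hG, hG, hG, Submodule.map_sup]
  have hGinf : ∀ S S', G (S ⊓ S') = G S ⊓ G S' := fun S S' => by
    rw [hG, hG, hG, Submodule.map_inf _ hinj]
  have hGtop : G ⊤ = ⊤ := by
    rw [hG, Submodule.map_top, LinearMap.range_eq_top]
    exact surj_g g
  have hGbot : G ⊥ = ⊥ := by
    rw [hG, Submodule.map_bot]
  have hFl : ∀ t, G (Fl nm t) ∈ ℱ := fun t =>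
    (hF _).2 ⟨min t N, min_le_right _ _, by rw [hG, Fl_min]⟩
  have hF' : ∀ A ∈ ℱ, ∃ t ≤ N, A = G (Fl nm t) := fun A hA => by
    obtain ⟨t, ht, h⟩ := (hF _).1 hA
    exact ⟨t, ht, by rw [hG]; exact h⟩
  have hGK : ∀ i j, G (K (d i) (ξ i) j) = K (c i) (ξ i) j := fun i j => by
    rw [hG]
    exact K_conj g (hcd i) _ _
  have hGK0 : ∀ j, G (K (PP d m) ξ₀ j) = K (PP c m) ξ₀ j := fun j => by
    rw [hG]
    exact K_conj g (PP_conj g hcd m) _ _
  have hGw : ∀ (i : Fin m) (e : Bool) (l t t' : ℕ),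
      G ((K (d i) (ξ i) l ⊔ (K (d i) (ξ i) (l + 1) ⊓ Fl nm t) ⊔ Fl nm t').map
        (Matrix.mulVecLin (PP d (i + sh e)))) = w (i, e, l) (G (Fl nm t)) (G (Fl nm t')) := by
    intro i e l t t'
    rw [hw, ← hGK i l, ← hGK i (l + 1), ← hGinf, ← hGsup, ← hGsup, hG, hG]
    exact (PP_conj' g hcd _ _).symm
  -- stability
  have hstab : ∀ W, (G W ∈ ℰ ∨ ∃ j, ∃ F ∈ ℱ, ∃ F' ∈ ℱ, F' ≤ F ∧ G W = w j F F') → ∀ t < N,
      Fl nm t ⊔ (Fl nm (t + 1) ⊓ W) = Fl nm t ∨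
        Fl nm t ⊔ (Fl nm (t + 1) ⊓ W) = Fl nm (t + 1) := by
    intro W hW t ht
    have h0 : ∀ C ∈ ℱ, G (Fl nm t) < C → ¬ C < G (Fl nm (t + 1)) := by
      intro C hC h6 h7
      obtain ⟨t'', ht'', rfl⟩ := hF' _ hC
      have h8 := lt_of_Fl_lt ((hGlt _ _).1 h6)
      have h9 := lt_of_Fl_lt ((hGlt _ _).1 h7)
      omega
    have h1 := hst (G (Fl nm t)) (hFl t) (G (Fl nm (t + 1))) (hFl (t + 1))
      ((hGle _ _).2 (Fl_mono nm (Nat.le_succ t))) h0 (G W) hW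
    rw [← hGinf, ← hGsup] at h1
    obtain ⟨t'', ht'', h2⟩ := hF' _ h1
    have h3 := hGinj _ _ h2
    have h4 : t ≤ t'' := (Fl_le_iff hsurj ht.le).1 (by rw [← h3]; exact le_sup_left)
    have h5 : t'' ≤ t + 1 := (Fl_le_iff hsurj ht'').1 (by
      rw [← h3]
      exact sup_le (Fl_mono nm (Nat.le_succ t)) inf_le_left)
    rw [h3]
    rcases Nat.eq_or_lt_of_le h4 with h | h
    · exact Or.inl (by rw [h])
    · exact Or.inr (by rw [Nat.le_antisymm h5 h])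
  -- positions
  have hposi : ∀ i, ∃ (κ : Fin N → ℕ) (u M : Mat r ℂ), i < m →
      BU nm (bk N) u ∧ Kup (κ ∘ nm) (ξ i) M ∧ d i * u = u * M ∧ (∀ x, κ x < s i) ∧
      ∀ j, K (d i) (ξ i) j = (Co nm fun a => κ a < j).map (Matrix.mulVecLin u) := by
    intro i
    by_cases hi : i < m
    · obtain ⟨κ, u, M, h⟩ := hpos nm hnm hsurj (d i) (ξ i) (s i) (K (d i) (ξ i)) (K_zero _ _)
        (hGinj _ _ (by rw [hGK, K_top (hQ i hi), hGtop])) (K_mono _ _) (K_sub _ _)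
        fun j => hstab _ (Or.inl ((hℰ _).2 ⟨i, hi, j, hGK i j⟩))
      exact ⟨κ, u, M, fun _ => h⟩
    · exact ⟨fun _ => 0, 1, 1, fun h => absurd h hi⟩
  choose κ u M hκ using hposi
  -- the last class
  have hK0 : ∀ j, ∃ t ≤ N, K (PP d m) ξ₀ j = Fl nm t := by
    intro j
    obtain ⟨t, ht, h⟩ := hF' (K (PP c m) ξ₀ j) (hsub ((hℱ₀ _).2 (Or.inr (Or.inr ⟨j, rfl⟩))))
    exact ⟨t, ht, hGinj _ _ (by rw [hGK0, h])⟩
  choose t₀ ht₀ hK0' using hK0
  obtain ⟨κ₀, u₀, M₀, hu₀, -, -, hκs₀, hE₀⟩ := hpos nm hnm hsurj (PP d m) ξ₀ s₀ (K (PP d m) ξ₀)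
    (K_zero _ _) (hGinj _ _ (by rw [hGK0, K_top hQ0, hGtop])) (K_mono _ _) (K_sub _ _) (by
      intro j t _
      rw [hK0' j]
      rcases Nat.lt_or_ge t (t₀ j) with h | h
      · right
        rw [inf_eq_left.2 (Fl_mono nm (Nat.succ_le_of_lt h)),
          sup_eq_right.2 (Fl_mono nm (Nat.le_succ t))]
      · left
        exact sup_eq_left.2 (inf_le_right.trans (Fl_mono nm h)))
  have hseg3 := (hseg nm hnm hsurj).2.2
  have hκ₀ : ∀ (j : ℕ) (a : Fin N), κ₀ a < j ↔ (a : ℕ) < t₀ j := by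
    intro j a
    have h1 : IP nm u₀ (fun a => κ₀ a < j) a ↔ κ₀ a < j :=
      ⟨fun h => lt_of_IP hsurj hu₀ h, fun h => IP_of hu₀ h⟩
    rw [← h1, hseg3, ← hE₀, hK0' j]
    constructor
    · intro h
      by_contra h2
      rw [not_lt] at h2
      have h3 := h.trans (sup_le le_rfl (inf_le_right.trans (Fl_mono nm h2)))
      have h4 := (Fl_le_iff hsurj (Nat.succ_le_of_lt a.2)).1 h3
      omega
    · intro h
      rw [inf_eq_left.2 (Fl_mono nm (Nat.succ_le_of_lt h))]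
      exact le_sup_right
  have hκ₀m : Monotone κ₀ := by
    intro a b hab
    by_contra h
    rw [not_le] at h
    have h1 := (hκ₀ (κ₀ a) b).1 h
    have h2 := (hκ₀ (κ₀ a) a).2 (lt_of_le_of_lt hab h1)
    exact lt_irrefl _ h2
  have hK0Co : ∀ j, K (PP d m) ξ₀ j = Co nm fun a => κ₀ a < j := by
    intro j
    rw [hK0' j]
    ext v
    constructor
    · intro hv i hi
      refine hv i ?_
      rw [← not_lt, ← hκ₀]
      exact hi
    · intro hv i hi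
      exact hv i fun h => absurd ((hκ₀ j (nm i)).1 h) (not_lt.2 hi)
  have hcol : ∀ i j, ¬ κ₀ (nm i) < κ₀ (nm j) →
      PP d m i j - ξ₀ (κ₀ (nm j)) * (if i = j then 1 else 0) = 0 := by
    intro i j hij
    have h1 : (Pi.single j 1 : Fin r → ℂ) ∈ K (PP d m) ξ₀ (κ₀ (nm j) + 1) := by
      rw [hK0Co]
      intro k hk
      refine Pi.single_eq_of_ne ?_ _
      rintro rfl
      exact hk (Nat.lt_succ_self _)
    have h2 := K_sub _ _ _ _ h1
    rw [hK0Co] at h2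
    have h3 := h2 i hij
    rw [Pi.sub_apply, Pi.smul_apply, Matrix.mulVec_single_one, Matrix.col_apply, smul_eq_mul,
      Pi.single_apply] at h3
    exact h3
  -- trivial position
  have hSegW : ∀ i < m, ∀ (e : Bool) (l t t' : ℕ), t' ≤ t →
      (Co nm (Seg (κ i) l t t')).map (Matrix.mulVecLin (PP d (i + sh e) * u i)) =
        (K (d i) (ξ i) l ⊔ (K (d i) (ξ i) (l + 1) ⊓ Fl nm t) ⊔ Fl nm t').map
          (Matrix.mulVecLin (PP d (i + sh e))) := fun i hi e l t t' htt =>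
    (hseg nm hnm hsurj).1 (κ i) (u i) (PP d (i + sh e)) (K (d i) (ξ i)) (hκ i hi).1
      (hκ i hi).2.2.2.2 l t t' htt
  obtain ⟨rk, hrk⟩ : ∃ rk : Fin N → Fin N → ℕ, ∀ p q, rk p q =
    sInf {n | ∃ t : ℕ, (p : ℕ) < t ∧ t ≤ (q : ℕ) ∧ n = τ (G (Fl nm t))} := ⟨_, fun _ _ => rfl⟩
  have hrk1 : ∀ p q : Fin N, p < q → ∃ t : ℕ, (p : ℕ) < t ∧ t ≤ (q : ℕ) ∧
      rk p q = τ (G (Fl nm t)) := by
    intro p q hpq
    rw [hrk]
    exact Nat.sInf_mem (s := {n | ∃ t : ℕ, (p : ℕ) < t ∧ t ≤ (q : ℕ) ∧ n = τ (G (Fl nm t))})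
      ⟨_, q, hpq, le_rfl, rfl⟩
  have hrk2 : ∀ (p q : Fin N) (t : ℕ), (p : ℕ) < t → t ≤ (q : ℕ) → rk p q ≤ τ (G (Fl nm t)) := by
    intro p q t h1 h2
    rw [hrk]
    exact Nat.sInf_le ⟨t, h1, h2, rfl⟩
  refine ⟨g, N, nm, κ, κ₀, d, u, M, rk, hd, hnm, hsurj, hκ₀m, fun i hi => ?_, ?_, ?_, ?_, ?_⟩
  · obtain ⟨h1, h2, h3, h4, h5⟩ := hκ i hi
    refine ⟨h1, h2, h3, h4, fun j _ => ?_⟩
    have h6 : LinearMap.ker (Qp (d i) (ξ i) j).mulVecLin =
      (Co nm fun a => κ i a < j).map (Matrix.mulVecLin (u i)) := h5 j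
    rw [h6, finrank_map_BU h1]
    exact finrank_Co nm _
  · refine ⟨⟨fun i => ?_, fun i j hij h => ?_⟩, hκs₀, fun j _ => ?_⟩
    · have h1 := hcol i i (lt_irrefl _)
      rw [if_pos rfl, mul_one, sub_eq_zero] at h1
      exact h1
    · have h1 := hcol i j h
      rw [if_neg hij, mul_zero, sub_zero] at h1
      exact h1
    · have h6 : LinearMap.ker (Qp (PP d m) ξ₀ j).mulVecLin = Co nm fun a => κ₀ a < j := hK0Co j
      rw [h6]
      exact finrank_Co nm _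
  · intro i hi e l t t' htt
    refine (hseg nm hnm hsurj).2.1 _ _ fun a => ?_
    rw [hSegW i hi e l t t' htt]
    exact hstab _ (Or.inr ⟨(⟨i, hi⟩, e, l), _, hFl t, _, hFl t', (hGle _ _).2 (Fl_mono nm htt),
      hGw ⟨i, hi⟩ e l t t'⟩) a a.2
  · intro p' p q q' h1 h2 h3
    obtain ⟨t, ht1, ht2, ht3⟩ := hrk1 p q h2
    rw [ht3]
    exact hrk2 p' q' t (lt_of_le_of_lt h1 ht1) (ht2.trans h3)
  · intro p q hpq hκpq
    obtain ⟨t, ht1, ht2, ht3⟩ := hrk1 p q hpq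
    have htN : t < N := lt_of_le_of_lt ht2 q.2
    have hnot : G (Fl nm t) ∉ ℱ₀ := by
      intro h
      rcases (hℱ₀ _).1 h with h | h | ⟨j, h⟩
      · have h1 := hGinj _ _ (h.trans hGbot.symm)
        rw [← Fl_zero nm] at h1
        have h2 := Fl_inj hsurj htN.le (Nat.zero_le _) h1
        omega
      · have h1 := hGinj _ _ (h.trans hGtop.symm)
        rw [← Fl_top nm] at h1
        have h2 := Fl_inj hsurj htN.le le_rfl h1
        omega
      · rw [← hGK0] at h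
        have h1 := hGinj _ _ h
        rw [hK0' j] at h1
        have h2 := Fl_inj hsurj htN.le (ht₀ j) h1
        have h3 := (hκ₀ j p).2 (h2 ▸ ht1)
        rw [hκpq] at h3
        have h4 := (hκ₀ j q).1 h3
        omega
    obtain ⟨A, hA, B, hB, hAG, hGB, hτA, hτB, -, W, hW, hGW⟩ := hhist _ (hFl t) hnot
    obtain ⟨a, haN, rfl⟩ := hF' _ hA
    obtain ⟨b, hbN, rfl⟩ := hF' _ hB
    have hat := lt_of_Fl_lt ((hGlt _ _).1 hAG)
    have htb := lt_of_Fl_lt ((hGlt _ _).1 hGB)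
    have hap : a ≤ p := by
      by_contra h
      have h1 := hrk2 p q a (not_le.1 h) (hat.le.trans ht2)
      omega
    have hqb : (q : ℕ) < b := by
      by_contra h
      have h1 := hrk2 p q b (ht1.trans htb) (not_lt.1 h)
      omega
    -- consequences
    have hcons : ∀ W', G W' = W → Fl nm (p + 1) ≤ Fl nm p ⊔ (Fl nm (p + 1) ⊓ W') ∧
        ¬ Fl nm (q + 1) ≤ Fl nm q ⊔ (Fl nm (q + 1) ⊓ W') := by
      rintro W' rfl
      rw [← hGinf, ← hGsup] at hGW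
      have h1 := hGinj _ _ hGW
      constructor
      · intro v hv
        have h2 : v ∈ Fl nm a ⊔ Fl nm b ⊓ W' := by
          rw [← h1]
          exact Fl_mono nm (Nat.succ_le_of_lt ht1) hv
        obtain ⟨x, hx, y, hy, rfl⟩ := Submodule.mem_sup.1 h2
        have hx' : x ∈ Fl nm p := Fl_mono nm hap hx
        have hy' : y ∈ Fl nm (p + 1) := by
          have h3 := (Fl nm (p + 1)).sub_mem hv (Fl_mono nm (Nat.le_succ p) hx')
          rwa [add_sub_cancel_left] at h3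
        exact Submodule.add_mem_sup hx' ⟨hy', hy.2⟩
      · intro h2
        have h3 : Fl nm (q + 1) ⊓ W' ≤ Fl nm q := by
          refine le_trans ?_ (Fl_mono nm ht2)
          rw [h1]
          exact le_sup_of_le_right (inf_le_inf_right _ (Fl_mono nm (Nat.succ_le_of_lt hqb)))
        have h4 := (Fl_le_iff hsurj (Nat.succ_le_of_lt q.2)).1 (h2.trans (sup_le le_rfl h3))
        omega
    rcases hW with hW | ⟨⟨i, e, l⟩, F, hFF, F', hFF', hle, hτF, hτF', hW⟩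
    · left
      obtain ⟨i, hi, l, hW⟩ := (hℰ _).1 hW
      obtain ⟨h1, h2⟩ := hcons (K (d i) (ξ i) l) (by rw [hGK, hW])
      rw [(hκ i hi).2.2.2.2 l, ← hseg3 (u i) (fun a => κ i a < l)] at h1
      rw [(hκ i hi).2.2.2.2 l, ← hseg3 (u i) (fun a => κ i a < l)] at h2
      refine ⟨i, hi, lt_of_lt_of_le (lt_of_IP hsurj (hκ i hi).1 h1) ?_⟩
      by_contra h3
      exact h2 (IP_of (hκ i hi).1 (not_le.1 h3))
    · right
      obtain ⟨t1, ht1N, rfl⟩ := hF' _ hFF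
      obtain ⟨t2, ht2N, rfl⟩ := hF' _ hFF'
      have ht12 : t2 ≤ t1 := (Fl_le_iff hsurj ht2N).1 ((hGle _ _).1 hle)
      obtain ⟨h1, h2⟩ := hcons _ ((hGw i e l t1 t2).trans hW.symm)
      rw [← hSegW i i.2 e l t1 t2 ht12, ← hseg3] at h1
      rw [← hSegW i i.2 e l t1 t2 ht12, ← hseg3] at h2
      refine ⟨i, i.2, e, l, t1, t2, ht12, h1, h2, fun p' q' _ h => ?_⟩
      rw [ht3]
      rcases h with h | h
      · exact lt_of_le_of_lt (hrk2 p' q' t1 h.1 h.2) hτF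
      · exact lt_of_le_of_lt (hrk2 p' q' t2 h.1 h.2) hτF'

end Vale.Agent.P002B.FB
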