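import Vale.Agent.P002B.Stmts

/-!
# P002, genus 0, arbitrary classes: statements of the parts, second file
-/

namespace Vale.Agent.P002B

open Matrix Vale.Agent.P002R Vale.Agent.P002L

/-- T12. Generic points of algebraic sets defined by few equations. -/
def GenStmt : Prop :=
  ∀ (K₀ : Subfield ℂ), Countable K₀ → ∀ {σ ι τ : Type} [Fintype σ] [Fintype ι] [Fintype τ]
    (F : ι → MvPolynomial σ K₀) (x : σ → ℂ), (∀ i, MvPolynomial.aeval x (F i) = 0) →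
    ∃ (Y : σ → ℂ) (T : Submodule ℂ (σ → ℂ)) (c : τ → ℂ),
      (∀ G : MvPolynomial σ K₀, MvPolynomial.aeval Y G = 0 → MvPolynomial.aeval x G = 0) ∧
      (∀ i, MvPolynomial.aeval Y (F i) = 0) ∧
      Fintype.card σ ≤ Module.finrank ℂ T + Fintype.card ι ∧
      ∀ H ∈ T, ∀ γ : τ → ℂ, ∃ δ : Derivation ℤ ℂ ℂ, (∀ z ∈ K₀, δ z = 0) ∧
        (∀ i, δ (Y i) = H i) ∧ ∀ p, δ (c p) = γ p

/-- The value of a polynomial at a tuple of handles. -/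
noncomputable def evH {g d : ℕ} (f : MvPolynomial ((Fin g × Bool) × Fin d × Fin d) ℂ)
    (a b : Fin g → (Mat d ℂ)ˣ) : ℂ :=
  MvPolynomial.eval (fun x => ((if x.1.2 then b x.1.1 else a x.1.1 : (Mat d ℂ)ˣ) :
    Mat d ℂ) x.2.1 x.2.2) f

/-- T13a. Every solution of the surface relation of genus at least two is in the closure of those
all of whose handles have scalar commutant. -/
def Star1Stmt : Prop :=
  ∀ {g d : ℕ}, 0 < d → ∀ (z : ℂ) (a b : Fin (g + 2) → (Mat d ℂ)ˣ),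
    ((swd a b : (Mat d ℂ)ˣ) : Mat d ℂ) = z • (1 : Mat d ℂ) →
    ∀ f : MvPolynomial ((Fin (g + 2) × Bool) × Fin d × Fin d) ℂ,
    (∀ a' b' : Fin (g + 2) → (Mat d ℂ)ˣ,
      ((swd a' b' : (Mat d ℂ)ˣ) : Mat d ℂ) = z • (1 : Mat d ℂ) →
      (∀ i, ∀ X : Mat d ℂ, Commute X (a' i : Mat d ℂ) → Commute X (b' i : Mat d ℂ) →
        ∃ c : ℂ, X = c • (1 : Mat d ℂ)) → evH f a' b' = 0) → evH f a b = 0

/-- T13b. The same with irreducible representations. -/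
def Star2Stmt : Prop :=
  ∀ {g d : ℕ}, 0 < d → ∀ (z : ℂ) (a b : Fin (g + 2) → (Mat d ℂ)ˣ),
    ((swd a b : (Mat d ℂ)ˣ) : Mat d ℂ) = z • (1 : Mat d ℂ) →
    ∀ f : MvPolynomial ((Fin (g + 2) × Bool) × Fin d × Fin d) ℂ,
    (∀ a' b' : Fin (g + 2) → (Mat d ℂ)ˣ,
      ((swd a' b' : (Mat d ℂ)ˣ) : Mat d ℂ) = z • (1 : Mat d ℂ) →
      Algebra.adjoin ℂ (Set.range fun x : Fin (g + 2) × Bool =>
        ((if x.2 then b' x.1 else a' x.1 : (Mat d ℂ)ˣ) : Mat d ℂ)) = ⊤ →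
      evH f a' b' = 0) → evH f a b = 0

section flag

variable {r N : ℕ}

/-- The standard flag of the blocks. -/
def Fl (nm : Fin r → Fin N) (t : ℕ) : Submodule ℂ (Fin r → ℂ) where
  carrier := {v | ∀ i, t ≤ (nm i : ℕ) → v i = 0}
  add_mem' := fun {v w} hv hw i hi => by rw [Pi.add_apply, hv i hi, hw i hi, add_zero]
  zero_mem' := fun i _ => rfl
  smul_mem' := fun c v hv i hi => by rw [Pi.smul_apply, hv i hi, smul_zero]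

/-- The coordinate subspace of a set of names. -/
def Co (nm : Fin r → Fin N) (T : Fin N → Prop) : Submodule ℂ (Fin r → ℂ) where
  carrier := {v | ∀ i, ¬ T (nm i) → v i = 0}
  add_mem' := fun {v w} hv hw i hi => by rw [Pi.add_apply, hv i hi, hw i hi, add_zero]
  zero_mem' := fun i _ => rfl
  smul_mem' := fun c v hv i hi => by rw [Pi.smul_apply, hv i hi, smul_zero]

end flag

/-- T6a. Stable refinements of a chain of subspaces, with the history `τ`. -/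
def ChainStmt : Prop :=
  ∀ {r : ℕ} (ℰ : Set (Submodule ℂ (Fin r → ℂ))) {J : Type}
    (w : J → Submodule ℂ (Fin r → ℂ) → Submodule ℂ (Fin r → ℂ) → Submodule ℂ (Fin r → ℂ))
    (ℱ₀ : Set (Submodule ℂ (Fin r → ℂ))), ⊥ ∈ ℱ₀ → ⊤ ∈ ℱ₀ → IsChain (· ≤ ·) ℱ₀ →
    ∃ (ℱ : Set (Submodule ℂ (Fin r → ℂ))) (τ : Submodule ℂ (Fin r → ℂ) → ℕ),
      IsChain (· ≤ ·) ℱ ∧ ℱ₀ ⊆ ℱ ∧ (∀ G ∈ ℱ₀, τ G = 0) ∧
      (∀ A ∈ ℱ, ∀ B ∈ ℱ, A ≤ B → (∀ C ∈ ℱ, A < C → ¬ C < B) → ∀ W,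
        (W ∈ ℰ ∨ ∃ j, ∃ F ∈ ℱ, ∃ F' ∈ ℱ, F' ≤ F ∧ W = w j F F') → A ⊔ (B ⊓ W) ∈ ℱ) ∧
      (∀ G ∈ ℱ, G ∉ ℱ₀ → 0 < τ G) ∧
      (∀ G ∈ ℱ, ∀ G' ∈ ℱ, G ∉ ℱ₀ → G' ∉ ℱ₀ → τ G = τ G' → G = G') ∧
      ∀ G ∈ ℱ, G ∉ ℱ₀ → ∃ A ∈ ℱ, ∃ B ∈ ℱ, A < G ∧ G < B ∧ τ A < τ G ∧ τ B < τ G ∧
        (∀ C ∈ ℱ, A < C → C < B → τ G ≤ τ C) ∧ ∃ W, (W ∈ ℰ ∨ ∃ j, ∃ F ∈ ℱ, ∃ F' ∈ ℱ, F' ≤ F ∧
          τ F < τ G ∧ τ F' < τ G ∧ W = w j F F') ∧ G = A ⊔ (B ⊓ W)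

/-- T6b. Adapted bases of chains. -/
def BasisStmt : Prop :=
  ∀ {r : ℕ} (ℱ : Set (Submodule ℂ (Fin r → ℂ))), ⊥ ∈ ℱ → ⊤ ∈ ℱ → IsChain (· ≤ ·) ℱ →
    ∃ (g : (Mat r ℂ)ˣ) (N : ℕ) (nm : Fin r → Fin N), Monotone nm ∧ Function.Surjective nm ∧
      ∀ G, G ∈ ℱ ↔ ∃ t ≤ N, G = (Fl nm t).map (Matrix.mulVecLin (g : Mat r ℂ))

/-- T6c. Flags in trivial position with respect to the blocks. -/
def PosStmt : Prop :=
  ∀ {r N : ℕ} (nm : Fin r → Fin N), Monotone nm → Function.Surjective nm →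
    ∀ (c : Mat r ℂ) (ξ : ℕ → ℂ) (s : ℕ) (E : ℕ → Submodule ℂ (Fin r → ℂ)), E 0 = ⊥ → E s = ⊤ →
    Monotone E → (∀ j, ∀ v ∈ E (j + 1), c *ᵥ v - ξ j • v ∈ E j) →
    (∀ j, ∀ t < N, Fl nm t ⊔ (Fl nm (t + 1) ⊓ E j) = Fl nm t ∨
      Fl nm t ⊔ (Fl nm (t + 1) ⊓ E j) = Fl nm (t + 1)) →
    ∃ (κ : Fin N → ℕ) (u M : Mat r ℂ), BU nm (bk N) u ∧ Kup (κ ∘ nm) ξ M ∧ c * u = u * M ∧
      (∀ x, κ x < s) ∧ ∀ j, E j = (Co nm fun a => κ a < j).map (Matrix.mulVecLin u)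

/-- T6d. Standard initial segments and trivial position in terms of subspaces. -/
def SegPosStmt : Prop :=
  ∀ {r N : ℕ} (nm : Fin r → Fin N), Monotone nm → Function.Surjective nm →
    (∀ (κ : Fin N → ℕ) (u X : Mat r ℂ) (E : ℕ → Submodule ℂ (Fin r → ℂ)), BU nm (bk N) u →
      (∀ j, E j = (Co nm fun a => κ a < j).map (Matrix.mulVecLin u)) → ∀ l t t' : ℕ, t' ≤ t →
      (Co nm (Seg κ l t t')).map (Matrix.mulVecLin (X * u)) =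
        (E l ⊔ (E (l + 1) ⊓ Fl nm t) ⊔ Fl nm t').map (Matrix.mulVecLin X)) ∧
    (∀ (X : Mat r ℂ) (T : Fin N → Prop),
      (∀ c : Fin N, Fl nm c ⊔ (Fl nm (c + 1) ⊓ (Co nm T).map (Matrix.mulVecLin X)) = Fl nm c ∨
        Fl nm c ⊔ (Fl nm (c + 1) ⊓ (Co nm T).map (Matrix.mulVecLin X)) = Fl nm (c + 1)) →
      TP nm X T) ∧
    ∀ (X : Mat r ℂ) (T : Fin N → Prop) (c : Fin N), IP nm X T c ↔
      Fl nm (c + 1) ≤ Fl nm c ⊔ (Fl nm (c + 1) ⊓ (Co nm T).map (Matrix.mulVecLin X))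

/-- T6e. -/
def FlagAsmStmt : Prop := ChainStmt → BasisStmt → PosStmt → SegPosStmt → FlagStmt

end Vale.Agent.P002B
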