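import Vale.Agent.P002B.GenBAsm
import Vale.Agent.P002B.Stmts2

/-!
# P002B, T12: GenStmt
-/

namespace Vale.Agent.P002B.GB

theorem genStmt : GenStmt := gen_subfield

end Vale.Agent.P002B.GB
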