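import Vale.Agent.P002B.Stmts4

/-!
# P002, genus 0, arbitrary classes: quadratic systems of words lift (T9, second part)
-/

namespace Vale.Agent.P002B

open Matrix Vale.Agent.P002R Vale.Agent.P002L

namespace QS

section Words

variable {G H : Type*} [Group G] [Group H]

/-- The inverse letter. -/
def iv (x : ℕ × Bool) : ℕ × Bool := (x.1, !x.2)

theorem iv_fst (x : ℕ × Bool) : (iv x).1 = x.1 := rfl

theorem iv_iv (x : ℕ × Bool) : iv (iv x) = x := by
  simp [iv]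

theorem iv_ne (x : ℕ × Bool) : iv x ≠ x := by
  intro h
  have := congrArg Prod.snd h
  simp [iv] at this

theorem eq_or_eq_iv {x y : ℕ × Bool} (h : x.1 = y.1) : x = y ∨ x = iv y := by
  obtain ⟨a, b⟩ := x
  obtain ⟨c, d⟩ := y
  simp only at h
  subst h
  cases b <;> cases d <;> simp [iv]

/-- Value of a letter. -/
def lv (Y : ℕ → G) (x : ℕ × Bool) : G := if x.2 then Y x.1 else (Y x.1)⁻¹

theorem lv_iv (Y : ℕ → G) (x : ℕ × Bool) : lv Y (iv x) = (lv Y x)⁻¹ := by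
  obtain ⟨a, b⟩ := x
  cases b <;> simp [lv, iv]

theorem wev_nil (Y : ℕ → G) : wev Y [] = 1 := rfl

theorem wev_cons (Y : ℕ → G) (x : ℕ × Bool) (w : List (ℕ × Bool)) :
    wev Y (x :: w) = lv Y x * wev Y w := by
  simp [wev, lv]

theorem wev_append (Y : ℕ → G) (v w : List (ℕ × Bool)) :
    wev Y (v ++ w) = wev Y v * wev Y w := by
  simp [wev]

theorem wev_congr {Y Y' : ℕ → G} {w : List (ℕ × Bool)} (h : ∀ x ∈ w, Y x.1 = Y' x.1) :
    wev Y w = wev Y' w := by
  unfold wev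
  refine congrArg List.prod (List.map_congr_left fun x hx => ?_)
  rw [h x hx]

theorem map_lv (f : G →* H) (Y : ℕ → G) (x : ℕ × Bool) :
    f (lv Y x) = lv (fun n => f (Y n)) x := by
  obtain ⟨a, b⟩ := x
  cases b <;> simp [lv]

theorem map_wev (f : G →* H) (Y : ℕ → G) (w : List (ℕ × Bool)) :
    f (wev Y w) = wev (fun n => f (Y n)) w := by
  induction w with
  | nil => simp [wev_nil]
  | cons x w ih => rw [wev_cons, wev_cons, map_mul, ih, map_lv]

theorem wev_conj (s : G) (Y : ℕ → G) (w : List (ℕ × Bool)) :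
    wev (fun n => s * Y n * s⁻¹) w = s * wev Y w * s⁻¹ :=
  (map_wev (MulAut.conj s).toMonoidHom Y w).symm

/-- Change of the value of one letter. -/
def st (Y : ℕ → G) (x : ℕ × Bool) (s : G) : ℕ → G :=
  Function.update Y x.1 (if x.2 then s else s⁻¹)

theorem st_ne (Y : ℕ → G) (x : ℕ × Bool) (s : G) {n : ℕ} (h : n ≠ x.1) : st Y x s n = Y n :=
  Function.update_of_ne h _ _

theorem lv_st (Y : ℕ → G) (x : ℕ × Bool) (s : G) : lv (st Y x s) x = s := by
  obtain ⟨a, b⟩ := x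
  cases b <;> simp [lv, st]

theorem wev_st (Y : ℕ → G) (x : ℕ × Bool) (s : G) {w : List (ℕ × Bool)}
    (h : ∀ y ∈ w, y.1 ≠ x.1) : wev (st Y x s) w = wev Y w :=
  wev_congr fun y hy => st_ne Y x s (h y hy)

theorem map_st (f : G →* H) (Y : ℕ → G) (x : ℕ × Bool) (s : G) (n : ℕ) :
    f (st Y x s n) = st (fun n => f (Y n)) x (f s) n := by
  by_cases h : n = x.1
  · subst h
    obtain ⟨a, b⟩ := x
    cases b <;> simp [st]
  · rw [st_ne _ _ _ h, st_ne _ _ _ h]

theorem st_self (Y : ℕ → G) (x : ℕ × Bool) : st Y x (lv Y x) = Y := by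
  obtain ⟨a, b⟩ := x
  cases b <;> simp [st, lv]

/-- A product of commutators. -/
def cm (l : List (G × G)) : G := (l.map fun p => p.1 * p.2 * p.1⁻¹ * p.2⁻¹).prod

/-- Conjugation of pairs. -/
def cj (t : G) (p : G × G) : G × G := (t * p.1 * t⁻¹, t * p.2 * t⁻¹)

theorem cm_cj (t : G) (l : List (G × G)) : cm (l.map (cj t)) = t * cm l * t⁻¹ := by
  induction l with
  | nil => simp [cm]
  | cons p l ih =>
    simp only [cm, List.map_cons, List.prod_cons] at ih ⊢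
    rw [ih]
    simp only [cj]
    group

theorem cm_concat (l : List (G × G)) (p : G × G) :
    cm (l ++ [p]) = cm l * (p.1 * p.2 * p.1⁻¹ * p.2⁻¹) := by
  simp [cm]

theorem map_cm (f : G →* H) (l : List (G × G)) : f (cm l) = cm (l.map (Prod.map f f)) := by
  induction l with
  | nil => simp [cm]
  | cons p l ih =>
    simp only [cm, List.map_cons, List.prod_cons, map_mul, map_inv] at ih ⊢
    rw [ih]
    rfl

/-- Quadratic words. -/
def Qw (w : List (ℕ × Bool)) : Prop := w.Nodup ∧ ∀ x ∈ w, iv x ∈ w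

theorem Qw.perm {v w : List (ℕ × Bool)} (h : v.Perm w) (hv : Qw v) : Qw w :=
  ⟨h.nodup_iff.1 hv.1, fun x hx => h.mem_iff.1 (hv.2 x (h.mem_iff.2 hx))⟩

theorem Qw.tail {x : ℕ × Bool} {w : List (ℕ × Bool)} (h : Qw (x :: iv x :: w)) :
    Qw w ∧ ∀ y ∈ w, y.1 ≠ x.1 := by
  obtain ⟨h1, h2⟩ := h
  rw [List.nodup_cons, List.nodup_cons] at h1
  obtain ⟨h3, h4, h5⟩ := h1
  have h6 : ∀ y ∈ w, y.1 ≠ x.1 := by
    intro y hy hyx
    rcases eq_or_eq_iv hyx with rfl | rfl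
    · exact h3 (List.mem_cons_of_mem _ hy)
    · exact h4 hy
  refine ⟨⟨h5, fun y hy => ?_⟩, h6⟩
  have h7 := h2 y (List.mem_cons_of_mem _ (List.mem_cons_of_mem _ hy))
  rw [List.mem_cons, List.mem_cons] at h7
  rcases h7 with h7 | h7 | h7
  · exact absurd (congrArg Prod.fst h7) (h6 y hy)
  · exact absurd (congrArg Prod.fst h7) (h6 y hy)
  · exact h7

theorem Qw.split {v w : List (ℕ × Bool)} (h : Qw (v ++ w)) (hv : ∀ x ∈ v, iv x ∈ v) :
    Qw v ∧ Qw w ∧ ∀ x ∈ v, ∀ y ∈ w, x.1 ≠ y.1 := by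
  obtain ⟨h1, h2⟩ := h
  have h3 := List.nodup_append.1 h1
  have h4 : ∀ x ∈ v, ∀ y ∈ w, x.1 ≠ y.1 := by
    intro x hx y hy hxy
    rcases eq_or_eq_iv hxy with rfl | rfl
    · exact h3.2.2 _ hx _ hy rfl
    · have := hv _ hx
      rw [iv_iv] at this
      exact h3.2.2 _ this _ hy rfl
  refine ⟨⟨h3.1, hv⟩, ⟨h3.2.1, fun y hy => ?_⟩, h4⟩
  have h5 := h2 y (List.mem_append_right _ hy)
  rw [List.mem_append] at h5
  rcases h5 with h5 | h5
  · exact absurd (iv_fst y) (h4 _ h5 y hy)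
  · exact h5

end Words

/-- A ring over which complex solutions are to be lifted. -/
structure LP {R : Type} [CommRing R] (φ : R →+* ℂ) where
  A : Type
  inst : CommRing A
  ι : R →+* A
  ψ : A →+* ℂ
  L : Lifting φ ι ψ

attribute [instance] LP.inst

variable {R : Type} [CommRing R] {φ : R →+* ℂ}

/-- Morphisms. -/
structure Mo (A B : LP φ) where
  j : A.A →+* B.A
  h1 : ∀ x, B.ψ (j x) = A.ψ x
  h2 : ∀ x, j (A.ι x) = B.ι x

/-- Identity. -/
def Mo.id (A : LP φ) : Mo A A := ⟨RingHom.id _, fun _ => rfl, fun _ => rfl⟩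

/-- Composition. -/
def Mo.comp {A B C : LP φ} (g : Mo B C) (f : Mo A B) : Mo A C :=
  ⟨g.j.comp f.j, fun x => by rw [RingHom.comp_apply, g.h1, f.h1],
    fun x => by rw [RingHom.comp_apply, f.h2, g.h2]⟩

/-- Map of general linear groups. -/
def gm (d : ℕ) {S T : Type} [CommRing S] [CommRing T] (f : S →+* T) : (Mat d S)ˣ →* (Mat d T)ˣ :=
  Units.map (f.mapMatrix : Mat d S →+* Mat d T).toMonoidHom

theorem gm_coe (d : ℕ) {S T : Type} [CommRing S] [CommRing T] (f : S →+* T) (X : (Mat d S)ˣ) :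
    ((gm d f X : (Mat d T)ˣ) : Mat d T) = (X : Mat d S).map f := rfl

/-- Scalars. -/
def zz (d : ℕ) {S : Type} [CommRing S] (f : R →+* S) : Rˣ →* (Mat d S)ˣ :=
  Units.map ((Matrix.scalar (Fin d)).comp f : R →+* Mat d S).toMonoidHom

theorem zz_coe (d : ℕ) {S : Type} [CommRing S] (f : R →+* S) (μ : Rˣ) :
    ((zz d f μ : (Mat d S)ˣ) : Mat d S) = f μ • (1 : Mat d S) := by
  change Matrix.scalar (Fin d) (f μ) = _
  rw [Matrix.scalar_apply, ← Matrix.diagonal_one, ← Matrix.diagonal_smul]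
  congr 1
  funext i
  simp

theorem eq_zz (d : ℕ) {S : Type} [CommRing S] (f : R →+* S) (μ : Rˣ) (X : (Mat d S)ˣ) :
    X = zz d f μ ↔ (X : Mat d S) = f μ • (1 : Mat d S) := by
  rw [Units.ext_iff, zz_coe]

theorem zz_comm (d : ℕ) {S : Type} [CommRing S] (f : R →+* S) (μ : Rˣ) (X : (Mat d S)ˣ) :
    zz d f μ * X = X * zz d f μ := by
  refine Units.ext ?_
  rw [Units.val_mul, Units.val_mul, zz_coe, smul_mul_assoc, mul_smul_comm, one_mul, mul_one]

theorem gm_zz (d : ℕ) {S T : Type} [CommRing S] [CommRing T] (f : R →+* S) (g : S →+* T)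
    (h : R →+* T) (hh : ∀ x, g (f x) = h x) (μ : Rˣ) : gm d g (zz d f μ) = zz d h μ := by
  rw [eq_zz, gm_coe, zz_coe]
  ext i j
  rw [Matrix.map_apply, Matrix.smul_apply, Matrix.smul_apply, smul_eq_mul, smul_eq_mul, map_mul,
    hh, Matrix.one_apply, Matrix.one_apply]
  split_ifs <;> simp

theorem gm_comp (d : ℕ) {S T U : Type} [CommRing S] [CommRing T] [CommRing U] (f : S →+* T)
    (g : T →+* U) (h : S →+* U) (hh : ∀ x, g (f x) = h x) (X : (Mat d S)ˣ) :
    gm d g (gm d f X) = gm d h X := by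
  refine Units.ext ?_
  rw [gm_coe, gm_coe, gm_coe]
  ext i j
  simp [hh]

/-- Invertible matrices lift. -/
theorem gm_surj (d : ℕ) {A : Type} [CommRing A] {ι : R →+* A} {ψ : A →+* ℂ}
    (hL : Lifting φ ι ψ) : Function.Surjective (gm d ψ) := by
  intro Y
  have key : ∃ X : Mat d A, IsUnit X ∧ X.map ψ = (Y : Mat d ℂ) := by
    refine Matrix.diagonal_transvection_induction_of_det_ne_zero
      (fun M => ∃ X : Mat d A, IsUnit X ∧ X.map ψ = M) (Y : Mat d ℂ) ?_ ?_ ?_ ?_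
    · have := (Matrix.isUnit_iff_isUnit_det _).1 Y.isUnit
      exact this.ne_zero
    · intro D hD
      rw [Matrix.det_diagonal, Finset.prod_ne_zero_iff] at hD
      have h1 : ∀ i, ∃ a : Aˣ, ψ a = D i := fun i => by
        obtain ⟨a, ha⟩ := hL.unit (Units.mk0 (D i) (hD i (Finset.mem_univ i)))
        exact ⟨a, ha⟩
      choose a ha using h1
      refine ⟨Matrix.diagonal fun i => (a i : A), ?_, ?_⟩
      · rw [Matrix.isUnit_iff_isUnit_det, Matrix.det_diagonal]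
        exact ⟨∏ i, a i, by simp⟩
      · rw [Matrix.diagonal_map (map_zero ψ)]
        congr 1
        funext i
        exact ha i
    · intro t
      obtain ⟨c, hc⟩ := hL.surj t.c
      refine ⟨Matrix.transvection t.i t.j c, ?_, ?_⟩
      · rw [Matrix.isUnit_iff_isUnit_det, Matrix.det_transvection_of_ne _ _ t.hij]
        exact isUnit_one
      · ext i j
        simp only [Matrix.transvection, Matrix.map_apply, Matrix.add_apply, map_add,
          Matrix.TransvectionStruct.toMatrix, Matrix.one_apply, Matrix.single_apply]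
        split_ifs <;> simp [hc]
    · rintro M N - - ⟨X, hX, rfl⟩ ⟨X', hX', rfl⟩
      exact ⟨X * X', hX.mul hX', by rw [Matrix.map_mul]⟩
  obtain ⟨X, hX, hX'⟩ := key
  exact ⟨hX.unit, Units.ext hX'⟩

variable (φ) in
/-- One word, with commutators in front: solutions lift. -/
def OneW (d : ℕ) (w : List (ℕ × Bool)) : Prop :=
  ∀ (A : LP φ) (μ : Rˣ) (l₀ : List ((Mat d ℂ)ˣ × (Mat d ℂ)ˣ)) (Y₀ : ℕ → (Mat d ℂ)ˣ),
    cm l₀ * wev Y₀ w = zz d φ μ →
    ∃ (B : LP φ) (_ : Mo A B) (l : List ((Mat d B.A)ˣ × (Mat d B.A)ˣ)) (Y : ℕ → (Mat d B.A)ˣ),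
      l.map (Prod.map (gm d B.ψ) (gm d B.ψ)) = l₀ ∧ (∀ n, gm d B.ψ (Y n) = Y₀ n) ∧
      cm l * wev Y w = zz d B.ι μ

theorem map_cj {G H : Type*} [Group G] [Group H] (f : G →* H) (t : G) (l : List (G × G)) :
    (l.map (cj t)).map (Prod.map f f) = (l.map (Prod.map f f)).map (cj (f t)) := by
  rw [List.map_map, List.map_map]
  refine List.map_congr_left fun p _ => ?_
  simp [cj]

theorem cj_cj_inv {G : Type*} [Group G] (t : G) (l : List (G × G)) :
    (l.map (cj t)).map (cj t⁻¹) = l := by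
  rw [List.map_map]
  conv_rhs => rw [← List.map_id l]
  refine List.map_congr_left fun p _ => ?_
  simp only [Function.comp, cj, id]
  refine Prod.ext ?_ ?_ <;> group

theorem zz_conj (d : ℕ) {S : Type} [CommRing S] (f : R →+* S) (μ : Rˣ) (X : (Mat d S)ˣ) :
    X * zz d f μ * X⁻¹ = zz d f μ := by
  rw [← zz_comm, mul_inv_cancel_right]

/-- Substitution for a conjugated closed word. -/
theorem oneW_cancel {d : ℕ} {x : ℕ × Bool} {B C : List (ℕ × Bool)}
    (hB : ∀ y ∈ B, y.1 ≠ x.1) (hC : ∀ y ∈ C, y.1 ≠ x.1)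
    (hBC : ∀ y ∈ B, ∀ z ∈ C, y.1 ≠ z.1) (h : OneW φ d (B ++ C)) :
    OneW φ d (x :: B ++ iv x :: C) := by
  classical
  intro A μ l₀ Y₀ hY
  rw [wev_append, wev_cons, wev_cons, lv_iv] at hY
  set s := lv Y₀ x with hs
  let Y₁ : ℕ → (Mat d ℂ)ˣ := fun n => if ∃ y ∈ B, y.1 = n then s * Y₀ n * s⁻¹ else Y₀ n
  have h1 : wev Y₁ B = s * wev Y₀ B * s⁻¹ := by
    rw [← wev_conj]
    refine wev_congr fun y hy => ?_
    exact if_pos ⟨y, hy, rfl⟩
  have h2 : wev Y₁ C = wev Y₀ C := by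
    refine wev_congr fun z hz => if_neg ?_
    rintro ⟨y, hy, hyz⟩
    exact hBC y hy z hz hyz
  obtain ⟨D, m, l, Y, hl, hYY, hw⟩ := h A μ l₀ Y₁ (by
    rw [wev_append, h1, h2, ← hY]
    group)
  obtain ⟨s', hs'⟩ := gm_surj d D.L s
  let Z : ℕ → (Mat d D.A)ˣ := fun n => if ∃ y ∈ B, y.1 = n then s'⁻¹ * Y n * s'⁻¹⁻¹ else Y n
  have h3 : wev Z B = s'⁻¹ * wev Y B * s'⁻¹⁻¹ := by
    rw [← wev_conj]
    refine wev_congr fun y hy => ?_
    exact if_pos ⟨y, hy, rfl⟩
  have h4 : wev Z C = wev Y C := by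
    refine wev_congr fun z hz => if_neg ?_
    rintro ⟨y, hy, hyz⟩
    exact hBC y hy z hz hyz
  refine ⟨D, m, l, st Z x s', hl, fun n => ?_, ?_⟩
  · rw [map_st, hs']
    have h5 : (fun n => gm d D.ψ (Z n)) = Y₀ := by
      funext n
      by_cases hn : ∃ y ∈ B, y.1 = n
      · have h6 : Z n = s'⁻¹ * Y n * s'⁻¹⁻¹ := if_pos hn
        have h7 : Y₁ n = s * Y₀ n * s⁻¹ := if_pos hn
        rw [h6, map_mul, map_mul, map_inv, map_inv, hYY, h7, map_inv, hs']
        group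
      · have h6 : Z n = Y n := if_neg hn
        have h7 : Y₁ n = Y₀ n := if_neg hn
        rw [h6, hYY, h7]
    rw [h5, hs, st_self]
  · rw [wev_append, wev_cons, wev_cons, lv_iv, lv_st, wev_st _ _ _ hB, wev_st _ _ _ hC, h3, h4,
      ← hw, wev_append]
    group

/-- A handle. -/
theorem oneW_handle {d : ℕ} {x y : ℕ × Bool} {B C D E : List (ℕ × Bool)} (hxy : y.1 ≠ x.1)
    (hx : ∀ z ∈ B ++ E ++ (D ++ C), z.1 ≠ x.1) (hy : ∀ z ∈ B ++ E ++ (D ++ C), z.1 ≠ y.1)
    (h : OneW φ d (B ++ E ++ (D ++ C))) :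
    OneW φ d (x :: (B ++ y :: C) ++ iv x :: (D ++ iv y :: E)) := by
  intro A μ l₀ Y₀ hY
  simp only [wev_append, wev_cons, lv_iv] at hY
  set s := lv Y₀ x with hs
  set t := lv Y₀ y with ht
  set b₀ := wev Y₀ B with hb₀
  set c₀ := wev Y₀ C with hc₀
  set d₀ := wev Y₀ D with hd₀
  set e₀ := wev Y₀ E with he₀
  obtain ⟨K, m, l, Y, hl, hYY, hw⟩ := h A μ
    (l₀.map (cj (d₀ * c₀)⁻¹) ++ [((d₀ * c₀)⁻¹ * s, b₀ * t * c₀)]) Y₀ (by
      rw [cm_concat, cm_cj, wev_append, wev_append, wev_append, ← zz_conj d φ μ (d₀ * c₀)⁻¹, ← hY,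
        ← hb₀, ← hc₀, ← hd₀, ← he₀]
      simp only
      group)
  rw [List.map_eq_append_iff] at hl
  obtain ⟨l₁, l₂, rfl, hl₁, hl₂⟩ := hl
  rw [List.map_eq_singleton_iff] at hl₂
  obtain ⟨⟨x₁, y₁⟩, rfl, hp⟩ := hl₂
  rw [Prod.map_apply, Prod.mk.injEq] at hp
  obtain ⟨hx₁, hy₁⟩ := hp
  set b := wev Y B with hb
  set c := wev Y C with hc
  set dd := wev Y D with hd
  set e := wev Y E with he
  have h5 : (fun n => gm d K.ψ (Y n)) = Y₀ := funext hYY
  have hb' : gm d K.ψ b = b₀ := by rw [hb, map_wev, h5]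
  have hc' : gm d K.ψ c = c₀ := by rw [hc, map_wev, h5]
  have hd' : gm d K.ψ dd = d₀ := by rw [hd, map_wev, h5]
  have hB : ∀ w : List (ℕ × Bool), (∀ z ∈ w, z ∈ B ++ E ++ (D ++ C)) → ∀ s t : (Mat d K.A)ˣ,
      wev (st (st Y y t) x s) w = wev Y w := by
    intro w hw s t
    rw [wev_st _ _ _ fun z hz => hx z (hw z hz), wev_st _ _ _ fun z hz => hy z (hw z hz)]
  refine ⟨K, m, l₁.map (cj (dd * c)), st (st Y y (b⁻¹ * y₁ * c⁻¹)) x (dd * c * x₁), ?_,
    fun n => ?_, ?_⟩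
  · rw [map_cj, hl₁, map_mul, hd', hc']
    have := cj_cj_inv (d₀ * c₀)⁻¹ l₀
    rwa [inv_inv] at this
  · rw [map_st]
    have h6 : (fun n => gm d K.ψ (st Y y (b⁻¹ * y₁ * c⁻¹) n)) = Y₀ := by
      funext n
      rw [map_st, h5, map_mul, map_mul, map_inv, map_inv, hb', hc', hy₁]
      have h7 : b₀⁻¹ * (b₀ * t * c₀) * c₀⁻¹ = t := by group
      rw [h7, ht, st_self]
    rw [h6, map_mul, map_mul, hd', hc', hx₁, mul_inv_cancel_left, hs, st_self]
  · have h8 : lv (st (st Y y (b⁻¹ * y₁ * c⁻¹)) x (dd * c * x₁)) y = b⁻¹ * y₁ * c⁻¹ := by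
      have h9 := lv_st Y y (b⁻¹ * y₁ * c⁻¹)
      unfold lv at h9 ⊢
      rw [st_ne _ _ _ hxy]
      exact h9
    simp only [wev_append, wev_cons, lv_iv]
    rw [lv_st, h8, hB B (by simp +contextual), hB C (by simp +contextual),
      hB D (by simp +contextual), hB E (by simp +contextual), cm_cj, ← hb, ← hc, ← hd, ← he]
    rw [cm_concat, wev_append, wev_append, wev_append, ← hb, ← hc, ← hd, ← he] at hw
    rw [← zz_conj d K.ι μ (dd * c), ← hw]
    simp only
    group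

theorem oneW_nil (hS : SurfStmt) {E : Subgroup ℂˣ} {r d : ℕ} (hd : 0 < d) (hdr : d ≤ r)
    (hc : CoefOK φ E (r * r)) : OneW φ d [] := by
  intro A μ l₀ Y₀ hY
  rw [wev_nil, mul_one] at hY
  have h1 : ∀ {G : Type} [Group G] {g : ℕ} (a b : Fin g → G),
      swd a b = cm (List.ofFn fun i => (a i, b i)) := by
    intro G _ g a b
    unfold swd cm
    rw [List.map_ofFn]
    rfl
  have h2 : (List.ofFn fun i : Fin l₀.length => ((l₀.get i).1, (l₀.get i).2)) = l₀ := by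
    conv_rhs => rw [← List.ofFn_get l₀]
  obtain ⟨A', hA', ι', ψ', j, a', b', hL, h3, h4, h5, h6, h7⟩ := hS E hd hdr hc A.L μ
    (fun i : Fin l₀.length => (l₀.get i).1) (fun i => (l₀.get i).2) (by
      rw [← eq_zz, ← hY, h1, h2])
  let B : LP φ := ⟨A', hA', ι', ψ', hL⟩
  have h8 := fun n => gm_surj d B.L (Y₀ n)
  choose Y hYY using h8
  refine ⟨B, ⟨j, h3, h4⟩, List.ofFn fun i => (a' i, b' i), Y, ?_, hYY, ?_⟩
  · rw [List.map_ofFn]
    conv_rhs => rw [← h2]
    congr 1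
    funext i
    exact Prod.ext (Units.ext (h5 i)) (Units.ext (h6 i))
  · rw [wev_nil, mul_one, ← h1, eq_zz]
    exact h7

/-- Closed words. -/
theorem oneW_of_qw {d : ℕ} (h0 : OneW φ d []) : ∀ (n : ℕ) (w : List (ℕ × Bool)), w.length ≤ n →
    Qw w → OneW φ d w := by
  intro n
  induction n with
  | zero =>
    intro w hw _
    rw [List.length_eq_zero_iff.1 (Nat.le_zero.1 hw)]
    exact h0
  | succ n ih =>
    intro w hw hq
    rcases w with _ | ⟨x, w⟩
    · exact h0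
    have h1 : iv x ∈ w := by
      have := hq.2 x List.mem_cons_self
      rw [List.mem_cons] at this
      exact this.resolve_left (iv_ne x)
    obtain ⟨B, C, rfl⟩ := List.append_of_mem h1
    have hq1 : Qw (x :: iv x :: (B ++ C)) :=
      Qw.perm (List.Perm.cons _ List.perm_middle) hq
    obtain ⟨hq2, hx⟩ := hq1.tail
    by_cases hB : ∀ y ∈ B, iv y ∈ B
    · obtain ⟨-, -, h2⟩ := hq2.split hB
      have h3 := ih (B ++ C) (by simp at hw ⊢; omega) hq2
      exact oneW_cancel (fun y hy => hx y (List.mem_append_left _ hy))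
        (fun y hy => hx y (List.mem_append_right _ hy)) h2 h3
    · push Not at hB
      obtain ⟨y, hyB, hyB'⟩ := hB
      have h2 : iv y ∈ C := by
        have := hq2.2 y (List.mem_append_left _ hyB)
        rw [List.mem_append] at this
        exact this.resolve_left hyB'
      obtain ⟨B₁, B₂, rfl⟩ := List.append_of_mem hyB
      obtain ⟨C₁, C₂, rfl⟩ := List.append_of_mem h2
      have hp : (B₁ ++ y :: B₂ ++ (C₁ ++ iv y :: C₂)).Perm
          (y :: iv y :: (B₁ ++ C₂ ++ (C₁ ++ B₂))) := by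
        rw [← Multiset.coe_eq_coe]
        simp only [← Multiset.coe_add, ← Multiset.cons_coe, ← Multiset.singleton_add]
        abel
      obtain ⟨hq3, hy⟩ := (Qw.perm hp hq2).tail
      have hx' : ∀ z ∈ B₁ ++ C₂ ++ (C₁ ++ B₂), z.1 ≠ x.1 := fun z hz =>
        hx z (hp.mem_iff.2 (List.mem_cons_of_mem _ (List.mem_cons_of_mem _ hz)))
      have hyx : y.1 ≠ x.1 := hx y (hp.mem_iff.2 List.mem_cons_self)
      have h3 := ih _ (by simp at hw ⊢; omega) hq3
      have h4 := oneW_handle hyx hx' hy h3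
      simpa using h4

variable (φ) in
/-- Systems of words. -/
def SysW (d : ℕ) (ws : List (List (ℕ × Bool) × Rˣ)) : Prop :=
  ∀ (A : LP φ) (Y₀ : ℕ → (Mat d ℂ)ˣ), (∀ p ∈ ws, wev Y₀ p.1 = zz d φ p.2) →
    ∃ (B : LP φ) (_ : Mo A B) (Y : ℕ → (Mat d B.A)ˣ), (∀ n, gm d B.ψ (Y n) = Y₀ n) ∧
      ∀ p ∈ ws, wev Y p.1 = zz d B.ι p.2

theorem sysW_perm {d : ℕ} {ws ws' : List (List (ℕ × Bool) × Rˣ)} (h : ws.Perm ws')
    (hw : SysW φ d ws) : SysW φ d ws' := by
  intro A Y₀ hY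
  obtain ⟨B, m, Y, h1, h2⟩ := hw A Y₀ fun p hp => hY p (h.mem_iff.1 hp)
  exact ⟨B, m, Y, h1, fun p hp => h2 p (h.mem_iff.2 hp)⟩

theorem merge_alg₁ {G : Type*} [Group G] {v w c e x m n : G} (hm : ∀ g, m * g = g * m)
    (h1 : v * (x * w) = m) (h2 : c * (x⁻¹ * e) = n) : c * (w * (v * e)) = m * n := by
  have h3 : w * v = x⁻¹ * m := by
    have h4 : v * (x * w) * v = v * m := by rw [h1, hm]
    have h5 : x * (w * v) = m := by
      have h6 : v * (x * (w * v)) = v * m := by rw [← h4]; group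
      exact mul_left_cancel h6
    rw [← h5, inv_mul_cancel_left]
  calc c * (w * (v * e)) = c * (w * v) * e := by group
    _ = c * (x⁻¹ * (m * e)) := by rw [h3]; group
    _ = c * (x⁻¹ * e) * m := by rw [hm]; group
    _ = m * n := by rw [h2, hm]

theorem merge_alg₂ {G : Type*} [Group G] {v w c e m n : G} (hm : ∀ g, m * g = g * m)
    (h : c * (w * (v * e)) = m * n) : c * ((v⁻¹ * m * w⁻¹)⁻¹ * e) = n := by
  have h1 : m * (c * ((v⁻¹ * m * w⁻¹)⁻¹ * e)) = m * n := by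
    rw [← h, hm]
    have h2 : c * ((v⁻¹ * m * w⁻¹)⁻¹ * e) * m = c * (w * (m⁻¹ * (v * (e * m)))) := by group
    rw [h2, ← hm e]
    have h3 : c * (w * (m⁻¹ * (v * (m * e)))) = c * (w * (m⁻¹ * ((v * m) * e))) := by group
    rw [h3, ← hm v]
    group
  exact mul_left_cancel h1

/-- Elimination of a variable. -/
theorem sysW_merge {d : ℕ} {x : ℕ × Bool} {V W C D : List (ℕ × Bool)} {μ ν : Rˣ}
    {ws : List (List (ℕ × Bool) × Rˣ)} (hV : ∀ z ∈ C ++ (W ++ (V ++ D)), z.1 ≠ x.1)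
    (hws : ∀ p ∈ ws, ∀ z ∈ p.1, z.1 ≠ x.1)
    (h : SysW φ d ((C ++ (W ++ (V ++ D)), μ * ν) :: ws)) :
    SysW φ d ((V ++ x :: W, μ) :: (C ++ iv x :: D, ν) :: ws) := by
  intro A Y₀ hY
  have h1 := hY _ List.mem_cons_self
  have h2 := hY _ (List.mem_cons_of_mem _ List.mem_cons_self)
  simp only [wev_append, wev_cons, lv_iv] at h1 h2
  have h3 : lv Y₀ x = (wev Y₀ V)⁻¹ * zz d φ μ * (wev Y₀ W)⁻¹ := by
    rw [← h1]
    group
  obtain ⟨B, m, Y, h4, h5⟩ := h A Y₀ (by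
    intro p hp
    rw [List.mem_cons] at hp
    rcases hp with rfl | hp
    · simp only [wev_append]
      rw [map_mul]
      exact merge_alg₁ (zz_comm d φ μ) h1 h2
    · exact hY p (List.mem_cons_of_mem _ (List.mem_cons_of_mem _ hp)))
  have h6 := h5 _ List.mem_cons_self
  simp only [wev_append] at h6
  rw [map_mul] at h6
  have h7 : (fun n => gm d B.ψ (Y n)) = Y₀ := funext h4
  have hB : ∀ w : List (ℕ × Bool), (∀ z ∈ w, z ∈ C ++ (W ++ (V ++ D))) → ∀ s : (Mat d B.A)ˣ,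
      wev (st Y x s) w = wev Y w :=
    fun w hw s => wev_st _ _ _ fun z hz => hV z (hw z hz)
  refine ⟨B, m, st Y x ((wev Y V)⁻¹ * zz d B.ι μ * (wev Y W)⁻¹), fun n => ?_, fun p hp => ?_⟩
  · rw [map_st, h7, map_mul, map_mul, map_inv, map_inv, map_wev, map_wev, h7,
      gm_zz d B.ι B.ψ φ B.L.comp, ← h3, st_self]
  · rw [List.mem_cons, List.mem_cons] at hp
    rcases hp with rfl | rfl | hp
    · simp only [wev_append, wev_cons]
      rw [lv_st, hB V (by simp +contextual), hB W (by simp +contextual)]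
      group
    · simp only [wev_append, wev_cons, lv_iv]
      rw [lv_st, hB C (by simp +contextual), hB D (by simp +contextual)]
      exact merge_alg₂ (zz_comm d B.ι μ) h6
    · rw [wev_st _ _ _ (hws p hp)]
      exact h5 p (List.mem_cons_of_mem _ hp)

/-- A closed word can be treated separately. -/
theorem sysW_split {d : ℕ} {w : List (ℕ × Bool)} {μ : Rˣ} {ws : List (List (ℕ × Bool) × Rˣ)}
    (hw : OneW φ d w) (hws : ∀ p ∈ ws, ∀ z ∈ p.1, ∀ y ∈ w, y.1 ≠ z.1) (h : SysW φ d ws) :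
    SysW φ d ((w, μ) :: ws) := by
  classical
  intro A Y₀ hY
  have h1 := hY _ List.mem_cons_self
  simp only at h1
  obtain ⟨B, m, l, Y, hl, h2, h3⟩ := hw A μ [] Y₀ (by
    rw [← h1]
    simp [cm])
  rw [List.map_eq_nil_iff] at hl
  subst hl
  obtain ⟨C, m', Z, h4, h5⟩ := h B Y₀ fun p hp => hY p (List.mem_cons_of_mem _ hp)
  refine ⟨C, m'.comp m, fun n => if ∃ y ∈ w, y.1 = n then gm d m'.j (Y n) else Z n,
    fun n => ?_, fun p hp => ?_⟩
  · dsimp only
    split_ifs with hn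
    · rw [gm_comp d m'.j C.ψ B.ψ m'.h1, h2]
    · exact h4 n
  · rw [List.mem_cons] at hp
    rcases hp with rfl | hp
    · have h6 : wev (fun n => if ∃ y ∈ w, y.1 = n then gm d m'.j (Y n) else Z n) w =
          wev (fun n => gm d m'.j (Y n)) w :=
        wev_congr fun y hy => if_pos ⟨y, hy, rfl⟩
      simp only
      rw [h6, ← map_wev]
      have h7 : wev Y w = zz d B.ι μ := by
        rw [← h3]
        simp [cm]
      rw [h7, gm_zz d B.ι m'.j C.ι m'.h2]
    · rw [← h5 p hp]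
      refine wev_congr fun z hz => if_neg ?_
      rintro ⟨y, hy, hyz⟩
      exact hws p hp z hz y hy hyz

theorem sysW_of_qw {d : ℕ} (h0 : OneW φ d []) : ∀ (n : ℕ) (ws : List (List (ℕ × Bool) × Rˣ)),
    ws.length ≤ n → Qw (ws.map Prod.fst).flatten → SysW φ d ws := by
  intro n
  induction n with
  | zero =>
    intro ws hn _
    rw [List.length_eq_zero_iff.1 (Nat.le_zero.1 hn)]
    intro A Y₀ _
    have h8 := fun n => gm_surj d A.L (Y₀ n)
    choose Y hYY using h8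
    exact ⟨A, Mo.id A, Y, hYY, by simp⟩
  | succ n ih =>
    intro ws hn hq
    rcases ws with _ | ⟨⟨w, μ⟩, ws⟩
    · exact ih [] (by simp) hq
    rw [List.map_cons, List.flatten_cons] at hq
    by_cases hw : ∀ y ∈ w, iv y ∈ w
    · obtain ⟨h1, h2, h3⟩ := hq.split hw
      refine sysW_split (oneW_of_qw h0 _ w le_rfl h1) (fun p hp z hz y hy => h3 y hy z ?_)
        (ih ws (by simpa using hn) h2)
      exact List.mem_flatten.2 ⟨p.1, List.mem_map_of_mem hp, hz⟩
    · push Not at hw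
      obtain ⟨x, hx, hx'⟩ := hw
      have h1 := hq.2 x (List.mem_append_left _ hx)
      rw [List.mem_append] at h1
      obtain ⟨w', hw', hxw'⟩ := List.mem_flatten.1 (h1.resolve_left hx')
      obtain ⟨⟨w'', ν⟩, hp, rfl⟩ := List.mem_map.1 hw'
      obtain ⟨ws₁, ws₂, rfl⟩ := List.append_of_mem hp
      obtain ⟨V, W, rfl⟩ := List.append_of_mem hx
      obtain ⟨C, D, hCD⟩ := List.append_of_mem hxw'
      simp only at hCD
      subst hCD
      have hperm : ((V ++ x :: W, μ) :: (C ++ iv x :: D, ν) :: (ws₁ ++ ws₂)).Perm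
          ((V ++ x :: W, μ) :: (ws₁ ++ (C ++ iv x :: D, ν) :: ws₂)) :=
        List.Perm.cons _ List.perm_middle.symm
      refine sysW_perm hperm ?_
      have hpf : (V ++ x :: W ++ (List.map Prod.fst (ws₁ ++ (C ++ iv x :: D, ν) :: ws₂)).flatten).Perm
          (x :: iv x :: (C ++ (W ++ (V ++ D)) ++ (List.map Prod.fst (ws₁ ++ ws₂)).flatten)) := by
        rw [← Multiset.coe_eq_coe]
        simp only [List.map_append, List.map_cons, List.flatten_append, List.flatten_cons,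
          ← Multiset.coe_add, ← Multiset.cons_coe, ← Multiset.singleton_add]
        abel
      obtain ⟨h2, h3⟩ := (Qw.perm hpf hq).tail
      refine sysW_merge (fun z hz => h3 z (List.mem_append_left _ hz))
        (fun p hp z hz => h3 z (List.mem_append_right _ ?_)) (ih _ ?_ ?_)
      · exact List.mem_flatten.2 ⟨p.1, List.mem_map_of_mem hp, hz⟩
      · simp at hn ⊢
        omega
      · rw [List.map_cons, List.flatten_cons]
        exact h2

end QS

/-- T9.2. -/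
theorem quadOfSurf : QuadOfSurf := by
  intro hS R A _ _ φ ι ψ E r d hd hdr hc hL ws hq Y₀ hY
  obtain ⟨B, m, Y, h1, h2⟩ := QS.sysW_of_qw (QS.oneW_nil hS hd hdr hc) _ ws le_rfl
    ⟨hq.1, fun x hx => hq.2 x.1 x.2 hx⟩ ⟨A, inferInstance, ι, ψ, hL⟩ Y₀
    fun p hp => (QS.eq_zz d φ p.2 _).2 (hY p hp)
  refine ⟨B.A, B.inst, B.ι, B.ψ, m.j, Y, B.L, m.h1, m.h2, fun n => ?_, fun p hp => ?_⟩
  · rw [← QS.gm_coe, h1]
  · exact (QS.eq_zz d B.ι p.2 _).1 (h2 p hp)

end Vale.Agent.P002B
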