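import Vale.Agent.P002B.LeviWord
import Vale.Agent.P002B.QuadSurf

/-!
# P002, genus 0, arbitrary classes: T9 from T10
-/

namespace Vale.Agent.P002B

/-- T9 from T10. -/
theorem levi_of_surf (h : SurfStmt) : LeviStmt := leviOfQuad (quadOfSurf h)

end Vale.Agent.P002B
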