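import Vale.Agent.P002B.Stmts3
import Vale.Agent.P002B.BAlg

/-!
# P002, genus 0, arbitrary classes: T4.5, the chain over the classes (helper962)
-/

namespace Vale.Agent.P002B.LC

open Matrix Vale.Agent.P002R Vale.Agent.P002L

theorem pp_congr {S : Type*} [CommRing S] {r : ℕ} {c c' : ℕ → Mat r S} {n : ℕ}
    (h : ∀ i < n, c i = c' i) : PP c n = PP c' n := by
  induction n with
  | zero => rfl
  | succ n ih =>
    rw [PP, PP, ih fun i hi => h i (Nat.lt_succ_of_lt hi), h n (Nat.lt_succ_self n)]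

theorem map_id' {r : ℕ} (X : Mat r ℂ) : X.map (RingHom.id ℂ) = X := by
  ext i j
  rfl

/-- The statement proved by induction over the number of classes. -/
def ChainSt {R : Type} [CommRing R] (φ : R →+* ℂ) {r N : ℕ} (nm : Fin r → Fin N)
    (κ : ℕ → Fin N → ℕ) (l : ℕ → ℕ → Rˣ) (c : ℕ → Mat r ℂ) (ks : ℕ → List (Fin N → ℕ))
    (n : ℕ) : Prop :=
  ∃ (L : List (Sy R N)) (y₀ : ℕ → Mat r ℂ × Mat r ℂ) (n₀ : ℕ) (v₀ : Mat r ℂ)
    (p : ℕ → Bool → (Fin N → ℕ) → ℕ), Circ L ∧ (∀ j ∈ L.filterMap Sy.vr, j < n₀) ∧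
    Valid nm y₀ L ∧ BU nm (bk N) v₀ ∧ (∀ i < n, ∀ e k, p i e k ≤ L.length) ∧
    ∀ {A : Type} [CommRing A] (ι : R →+* A) (ψ : A →+* ℂ), (∀ x, ψ (ι x) = φ x) →
      Function.Surjective ψ → ∀ y : ℕ → Mat r A × Mat r A, Valid nm y L →
      (∀ a b n, Sy.Y a b n ∈ L → (y n).1.map ψ = (y₀ n).1 ∧ (y n).2.map ψ = (y₀ n).2) →
      ∃ c' u' M' : ℕ → Mat r A, (∀ i < n, BU nm (bk N) (u' i)) ∧
        (∀ i < n, Kup (κ i ∘ nm) (fun j => ι (l i j)) (M' i)) ∧
        (∀ i < n, c' i * u' i = u' i * M' i) ∧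
        (∀ i < n, (c' i).map ψ = c i) ∧
        (∀ i < n, ∀ e : Bool, ∀ k ∈ ks i,
          InCell nm k (cev nm ι y (L.take (p i e k))) (PP c' (i + sh e) * u' i)) ∧
        ∃ b v : Mat r A, BU nm (bk N) b ∧ BU nm (bk N) v ∧ v.map ψ = v₀ ∧
          PP c' n = b * cev nm ι y L * v

theorem chainSt_zero {R : Type} [CommRing R] (φ : R →+* ℂ) {r N : ℕ} (nm : Fin r → Fin N)
    (κ : ℕ → Fin N → ℕ) (l : ℕ → ℕ → Rˣ) (c : ℕ → Mat r ℂ) (ks : ℕ → List (Fin N → ℕ)) :
    ChainSt φ nm κ l c ks 0 := by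
  refine ⟨[], fun _ => (0, 0), 0, 1, fun _ _ _ => 0, ⟨by simp, fun a b n h => ?_⟩, by simp,
    fun a b n h => ?_, bu_one _, fun i hi => absurd hi (Nat.not_lt_zero i), ?_⟩
  · exact absurd h (List.not_mem_nil)
  · exact absurd h (List.not_mem_nil)
  · intro A _ ι ψ _ _ y _ _
    refine ⟨fun _ => 1, fun _ => 1, fun _ => 1, fun i hi => absurd hi (Nat.not_lt_zero i),
      fun i hi => absurd hi (Nat.not_lt_zero i), fun i hi => absurd hi (Nat.not_lt_zero i),
      fun i hi => absurd hi (Nat.not_lt_zero i), fun i hi => absurd hi (Nat.not_lt_zero i),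
      1, 1, bu_one _, bu_one _, Matrix.map_one _ (map_zero ψ) (map_one ψ), ?_⟩
    rw [cev_nil, PP, one_mul, one_mul]

theorem chainSt_succ (hC : ClassStmt) {R : Type} [CommRing R] (φ : R →+* ℂ) {r N : ℕ}
    (nm : Fin r → Fin N) (κ : ℕ → Fin N → ℕ) (l : ℕ → ℕ → Rˣ) (c u M : ℕ → Mat r ℂ)
    (ks : ℕ → List (Fin N → ℕ)) (n : ℕ) (hu : BU nm (bk N) (u n))
    (hM : Kup (κ n ∘ nm) (fun j => φ (l n j)) (M n)) (hc : c n * u n = u n * M n)
    (hk : KP (κ n) (bk N) (ks n))
    (hT : ∀ e : Bool, ∀ k ∈ ks n, ∀ j : ℕ, TP nm (PP c (n + sh e) * u n) fun a => k a < j)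
    (ih : ChainSt φ nm κ l c ks n) : ChainSt φ nm κ l c ks (n + 1) := by
  obtain ⟨L, y₀, n₀, v₀, p, hL, hn, hy, hv₀, hp, h⟩ := ih
  -- the complex level
  obtain ⟨c₁, u₁, M₁, -, -, -, hc₁, -, b₀, v₁, hb₀, -, hv₁, he₁⟩ :=
    h φ (RingHom.id ℂ) (fun _ => rfl) (fun x => ⟨x, rfl⟩) y₀ hy
      fun a b j _ => ⟨map_id' _, map_id' _⟩
  rw [map_id'] at hv₁
  subst hv₁
  have hPP : PP c n = b₀ * cev nm φ y₀ L * v₁ := by
    rw [← he₁]
    exact pp_congr fun i hi => by rw [← hc₁ i hi, map_id']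
  obtain ⟨L₁, y₁, n₁, v₂, q, hyy, hnn, hL₁, hn₁, hy₁, hv₂, H⟩ := hC φ nm (κ n) (l n) (bk N) (ks n)
    hk (fun a b hab _ => hab) L y₀ n₀ b₀ v₁ (u n) (M n) hL hn hy hb₀ hv₀ hu hu hM (by
      intro k₁ hk₁ j
      rw [← hPP]
      refine ⟨hT false k₁ hk₁ j, ?_⟩
      have h1 : PP c n * u n * M n = PP c (n + sh true) * u n := by
        change _ = PP c n * c n * u n
        rw [mul_assoc, mul_assoc, hc]
      rw [h1]
      exact hT true k₁ hk₁ j)
  refine ⟨L ++ L₁, y₁, n₁, v₂ * (u n)⁻¹,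
    fun i e k => if i = n then min (q e k) (L ++ L₁).length else p i e k, hL₁, hn₁, hy₁,
    hv₂.mul hu.inv, fun i hi e k => ?_, ?_⟩
  · by_cases h1 : i = n
    · simp only [if_pos h1]
      exact min_le_right _ _
    · simp only [if_neg h1]
      have h2 := hp i (by omega) e k
      rw [List.length_append]
      omega
  intro A _ ι ψ hι hψ y hyv hym
  have hLL : ∀ s ∈ L, s ∈ L ++ L₁ := fun s hs => List.mem_append_left _ hs
  obtain ⟨c', u', M', hu', hM', hcu', hcm', hs', b, v, hb, hv, hvm, he⟩ :=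
    h ι ψ hι hψ y (hyv.mono hLL) (fun a b j hj => by
      have h1 : j < n₀ := hn j (List.mem_filterMap.2 ⟨_, hj, rfl⟩)
      rw [← hyy j h1]
      exact hym a b j (hLL _ hj))
  obtain ⟨uu, MM, bb, vv, huu, -, hum, hMM, hMm, hbb, hvv, hvvm, hee, hsec⟩ :=
    H ι ψ hι hψ y hyv hym v hv hvm
  have hPn : PP (fun i => if i < n then c' i else uu * MM * uu⁻¹) n = PP c' n :=
    pp_congr fun i hi => if_pos hi
  have hPn1 : PP (fun i => if i < n then c' i else uu * MM * uu⁻¹) (n + 1) =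
      PP c' n * (uu * MM * uu⁻¹) := by
    rw [PP, hPn, if_neg (lt_irrefl n)]
  refine ⟨fun i => if i < n then c' i else uu * MM * uu⁻¹, fun i => if i < n then u' i else uu,
    fun i => if i < n then M' i else MM, fun i hi => ?_, fun i hi => ?_, fun i hi => ?_,
    fun i hi => ?_, fun i hi e k hk' => ?_, b * bb, vv * uu⁻¹, hb.mul hbb, hvv.mul huu.inv, ?_, ?_⟩
  · by_cases h1 : i < n
    · simp only [if_pos h1]
      exact hu' i h1
    · simp only [if_neg h1]
      exact huu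
  · by_cases h1 : i < n
    · simp only [if_pos h1]
      exact hM' i h1
    · simp only [if_neg h1]
      obtain rfl : i = n := by omega
      exact hMM
  · by_cases h1 : i < n
    · simp only [if_pos h1]
      exact hcu' i h1
    · simp only [if_neg h1]
      rw [mul_assoc, huu.inv_mul, mul_one]
  · by_cases h1 : i < n
    · simp only [if_pos h1]
      exact hcm' i h1
    · simp only [if_neg h1]
      obtain rfl : i = n := by omega
      rw [Matrix.map_mul, Matrix.map_mul, huu.map_inv, hum, hMm, ← hc, mul_assoc, hu.mul_inv,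
        mul_one]
  · by_cases h1 : i < n
    · have h2 : i ≠ n := ne_of_lt h1
      simp only [if_pos h1, if_neg h2]
      have h3 : PP (fun i => if i < n then c' i else uu * MM * uu⁻¹) (i + sh e) =
          PP c' (i + sh e) := by
        refine pp_congr fun j hj => if_pos ?_
        cases e <;> simp only [sh] at hj <;> omega
      rw [h3, List.take_append_of_le_length (hp i h1 e k)]
      exact hs' i h1 e k hk'
    · obtain rfl : i = n := by omega
      simp only [lt_irrefl, if_false, if_true]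
      have h4 : ∀ j : ℕ, (L ++ L₁).take (min j (L ++ L₁).length) = (L ++ L₁).take j := by
        intro j
        rcases le_total j (L ++ L₁).length with h5 | h5
        · rw [min_eq_left h5]
        · rw [min_eq_right h5, List.take_length, List.take_of_length_le h5]
      rw [h4]
      cases e with
      | false =>
        have h5 := ((hsec k hk').1).bu_mul hb
        change InCell nm k _ (PP (fun i_1 => if i_1 < i then c' i_1 else uu * MM * uu⁻¹) i * uu)
        rw [hPn, he]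
        simpa only [mul_assoc] using h5
      | true =>
        have h5 := ((hsec k hk').2).bu_mul hb
        change InCell nm k _ (PP (fun i_1 => if i_1 < i then c' i_1 else uu * MM * uu⁻¹) (i + 1) * uu)
        rw [hPn1, he]
        have h6 : b * cev nm ι y L * v * (uu * MM * uu⁻¹) * uu =
            b * (cev nm ι y L * v * uu * MM) := by
          have h7 : b * cev nm ι y L * v * (uu * MM * uu⁻¹) * uu =
            b * (cev nm ι y L * v * uu * MM) * (uu⁻¹ * uu) := by
            simp only [mul_assoc]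
          rw [h7, huu.inv_mul, mul_one]
        rw [h6]
        exact h5
  · rw [Matrix.map_mul, huu.map_inv, hum, hvvm]
  · rw [hPn1, he]
    have h7 : b * cev nm ι y L * v * (uu * MM * uu⁻¹) =
        b * (cev nm ι y L * v * uu * MM) * uu⁻¹ := by
      simp only [mul_assoc]
    rw [h7, hee]
    simp only [mul_assoc]

end Vale.Agent.P002B.LC

namespace Vale.Agent.P002B

open Matrix Vale.Agent.P002R Vale.Agent.P002L

/-- T4.5 -/
theorem chainAsm : ChainAsmStmt := by
  intro hC R _ φ r N nm m κ l c u M ks hu hM hc hk hT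
  have key : ∀ n ≤ m, LC.ChainSt φ nm κ l c ks n := by
    intro n
    induction n with
    | zero => exact fun _ => LC.chainSt_zero φ nm κ l c ks
    | succ n ih =>
      intro hn
      exact LC.chainSt_succ hC φ nm κ l c u M ks n (hu n hn) (hM n hn) (hc n hn) (hk n hn)
        (hT n hn) (ih (Nat.le_of_succ_le hn))
  obtain ⟨L, y₀, n₀, v₀, p, hL, -, hy, -, -, h⟩ := key m le_rfl
  refine ⟨L, y₀, p, hL, hy, ?_⟩
  intro A _ ι ψ hι hψ y hyv hym
  obtain ⟨c', u', M', h1, h2, h3, h4, h5, b, v, hb, hv, -, he⟩ := h ι ψ hι hψ y hyv hym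
  exact ⟨c', u', M', h1, h2, h3, h4, h5, b, v, hb, hv, he⟩

end Vale.Agent.P002B
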