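import Vale.Agent.P002B.LiftClass3
import Vale.Agent.P002B.LiftChain
import Vale.Agent.P002B.Dich2

/-!
# P002, genus 0, arbitrary classes: the lifting theorem (T4)
-/

namespace Vale.Agent.P002B

/-- T4. -/
theorem liftStmt : LiftStmt := chainAsm (classAsm passStmt stayStmt dichStmt)

end Vale.Agent.P002B
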