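import Vale.Agent.P002B.Stmts

/-!
# P002B, T1: paths of orders
-/

namespace Vale.Agent.P002B

namespace PathA

variable {N : ℕ}

/-- Two keys give the same order. -/
def Same (k k' : Fin N → ℕ) : Prop := ∀ a b, k a < k b ↔ k' a < k' b

lemma Same.refl (k : Fin N → ℕ) : Same k k := fun _ _ => Iff.rfl

lemma Same.symm {k k' : Fin N → ℕ} (h : Same k k') : Same k' k := fun a b => (h a b).symm

lemma Same.trans {k k' k'' : Fin N → ℕ} (h : Same k k') (h' : Same k' k'') : Same k k'' :=
  fun a b => (h a b).trans (h' a b)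

lemma adj_of_same {k0 k k' : Fin N → ℕ} {a b : Fin N} (h : Same k0 k) (ha : Adj k k' a b) :
    Adj k0 k' a b := by
  obtain ⟨h1, h2, h3, h4⟩ := ha
  refine ⟨(h a b).2 h1, h2, fun c d hc hd => (h c d).trans (h3 c d hc hd), fun c hc hd => ?_⟩
  exact (h c a).trans ((h4 c hc hd).trans (h c b).symm)

lemma chain (κ : Fin N → ℕ) (f : ℕ → Fin N → ℕ) (T : ℕ)
    (hlast : ∀ a b, f T a < f T b ↔ (κ a < κ b ∨ (κ a = κ b ∧ a < b)))
    (hstep : ∀ t < T, Same (f t) (f (t + 1)) ∨
      ∃ a b, a < b ∧ κ b < κ a ∧ Adj (f t) (f (t + 1)) a b) :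
    ∀ n t, t + n = T → ∀ k0, Same k0 (f t) → ∃ ks : List (Fin N → ℕ), KP κ k0 ks ∧
      (∀ k ∈ ks, ∃ t', Same k (f t')) ∧ ∀ t', t ≤ t' → t' ≤ T → ∃ k ∈ ks, Same k (f t') := by
  intro n
  induction n with
  | zero =>
    intro t ht k0 hk0
    have ht' : t = T := by omega
    subst ht'
    refine ⟨[k0], KP.last k0 (fun a b => (hk0 a b).trans (hlast a b)), ?_, ?_⟩
    · intro k hk
      rw [List.mem_singleton] at hk
      subst hk
      exact ⟨t, hk0⟩
    · intro t' h1 h2
      have : t' = t := by omega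
      subst this
      exact ⟨k0, List.mem_singleton.2 rfl, hk0⟩
  | succ n ih =>
    intro t ht k0 hk0
    rcases hstep t (by omega) with hs | ⟨a, b, hab, hκ, hadj⟩
    · obtain ⟨ks, h1, h2, h3⟩ := ih (t + 1) (by omega) k0 (hk0.trans hs)
      refine ⟨ks, h1, h2, fun t' ht1 ht2 => ?_⟩
      rcases Nat.eq_or_lt_of_le ht1 with he | hl
      · subst he
        obtain ⟨k, hk, hks⟩ := h3 (t + 1) le_rfl (by omega)
        exact ⟨k, hk, hks.trans hs.symm⟩
      · exact h3 t' hl ht2
    · obtain ⟨ks, h1, h2, h3⟩ := ih (t + 1) (by omega) (f (t + 1)) (Same.refl _)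
      refine ⟨k0 :: ks, KP.step k0 (f (t + 1)) ks a b hab hκ (adj_of_same hk0 hadj) h1, ?_, ?_⟩
      · intro k hk
        rcases List.mem_cons.1 hk with he | hk
        · subst he
          exact ⟨t, hk0⟩
        · exact h2 k hk
      · intro t' ht1 ht2
        rcases Nat.eq_or_lt_of_le ht1 with he | hl
        · subst he
          exact ⟨k0, List.mem_cons.2 (Or.inl rfl), hk0⟩
        · obtain ⟨k, hk, hks⟩ := h3 t' hl ht2
          exact ⟨k, List.mem_cons.2 (Or.inr hk), hks⟩

/-- Initial segments only depend on the order. -/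
lemma seg_of_same {k k1 : Fin N → ℕ} (h : Same k k1) (n : ℕ) :
    ∃ n' : ℕ, ∀ c, k c < n' ↔ k1 c < n := by
  classical
  by_cases hall : ∀ c, k1 c < n
  · refine ⟨Finset.univ.sup k + 1, fun c => ⟨fun _ => hall c, fun _ => ?_⟩⟩
    exact Nat.lt_succ_of_le (Finset.le_sup (f := k) (Finset.mem_univ c))
  · have hne : (Finset.univ.filter fun c : Fin N => ¬ k1 c < n).Nonempty := by
      by_contra hcon
      apply hall
      intro c
      by_contra hc
      exact hcon ⟨c, Finset.mem_filter.2 ⟨Finset.mem_univ c, hc⟩⟩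
    obtain ⟨d, hd, hmin⟩ := Finset.exists_min_image _ k1 hne
    have hd' : ¬ k1 d < n := (Finset.mem_filter.1 hd).2
    refine ⟨k d, fun c => (h c d).trans ⟨fun hc => ?_, fun hc => by omega⟩⟩
    by_contra hcn
    have := hmin c (Finset.mem_filter.2 ⟨Finset.mem_univ c, hcn⟩)
    omega

/-- The final key. -/
def w (κ : Fin N → ℕ) (c : Fin N) : ℕ := κ c * N + c

lemma w_lt (κ : Fin N → ℕ) (c : Fin N) (l s : ℕ) (hs : s ≤ N) :
    w κ c < l * N + s ↔ κ c < l ∨ (κ c = l ∧ (c : ℕ) < s) := by
  unfold w
  have hc := c.isLt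
  rcases Nat.lt_trichotomy (κ c) l with h | h | h
  · have h1 : (κ c + 1) * N ≤ l * N := Nat.mul_le_mul_right N h
    rw [Nat.add_mul, Nat.one_mul] at h1
    constructor
    · intro _
      exact Or.inl h
    · intro _
      omega
  · subst h
    constructor
    · intro h2
      exact Or.inr ⟨rfl, by omega⟩
    · intro h2
      omega
  · have h1 : (l + 1) * N ≤ κ c * N := Nat.mul_le_mul_right N h
    rw [Nat.add_mul, Nat.one_mul] at h1
    constructor
    · intro h2
      omega
    · intro h2
      omega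

lemma w_inj (κ : Fin N → ℕ) {c d : Fin N} (h : w κ c = w κ d) : c = d := by
  have h1 : ¬ w κ c < κ d * N + (d : ℕ) := by
    have : w κ d = κ d * N + (d : ℕ) := rfl
    omega
  have h2 : ¬ w κ d < κ c * N + (c : ℕ) := by
    have : w κ c = κ c * N + (c : ℕ) := rfl
    omega
  rw [w_lt κ c _ _ d.isLt.le] at h1
  rw [w_lt κ d _ _ c.isLt.le] at h2
  apply Fin.ext
  omega

/-- The keys of the path. -/
def key (κ : Fin N → ℕ) (K q j : ℕ) (c : Fin N) : ℕ :=
  if w κ c < q then w κ c else if w κ c = q then K + 2 * ((c : ℕ) - j) else K + 2 * c + 1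

lemma same_start (κ : Fin N → ℕ) (K : ℕ) : Same (bk N) (key κ K 0 0) := by
  intro a b
  change (a : ℕ) < (b : ℕ) ↔ _
  have h0 : (a : ℕ) = (b : ℕ) → w κ a = w κ b := fun h => by rw [Fin.ext h]
  unfold key
  split_ifs <;> omega

lemma same_next (κ : Fin N → ℕ) {K : ℕ} (hK : ∀ c, w κ c < K) (q : ℕ) :
    Same (key κ K q N) (key κ K (q + 1) 0) := by
  intro a b
  by_cases hab : a = b
  · subst hab
    exact ⟨fun h => absurd h (lt_irrefl _), fun h => absurd h (lt_irrefl _)⟩
  have h1 : (a : ℕ) ≠ (b : ℕ) := fun h => hab (Fin.ext h)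
  have h2 := hK a
  have h3 := hK b
  have h4 := a.isLt
  have h5 := b.isLt
  have h6 : w κ a ≠ w κ b := fun h => hab (w_inj κ h)
  unfold key
  split_ifs <;> omega

lemma step_j (κ : Fin N → ℕ) {K : ℕ} (hK : ∀ c, w κ c < K) (q j : ℕ) :
    Same (key κ K q j) (key κ K q (j + 1)) ∨
      ∃ a b, a < b ∧ κ b < κ a ∧ Adj (key κ K q j) (key κ K q (j + 1)) a b := by
  by_cases hb : ∃ b : Fin N, w κ b = q ∧ j < (b : ℕ)
  · obtain ⟨b, hbq, hbj⟩ := hb
    have hbN := b.isLt
    have haN : (b : ℕ) - j - 1 < N := by omega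
    obtain ⟨a, ha⟩ : ∃ a : Fin N, (a : ℕ) = (b : ℕ) - j - 1 := ⟨⟨_, haN⟩, rfl⟩
    have hne : ∀ c : Fin N, c ≠ b → w κ c ≠ q := fun c hc h => hc (w_inj κ (h.trans hbq.symm))
    have hab : a ≠ b := fun h => by
      rw [h] at ha
      omega
    by_cases haq : w κ a < q
    · left
      intro c d
      have h2 := hK c
      have h3 := hK d
      have hca : c = a ∨ (c : ℕ) ≠ (a : ℕ) := by
        by_cases h : c = a
        · exact Or.inl h
        · exact Or.inr fun h' => h (Fin.ext h')
      have hda : d = a ∨ (d : ℕ) ≠ (a : ℕ) := by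
        by_cases h : d = a
        · exact Or.inl h
        · exact Or.inr fun h' => h (Fin.ext h')
      have hcb : (c : ℕ) = (b : ℕ) ∨ w κ c ≠ q := by
        by_cases h : c = b
        · exact Or.inl (by rw [h])
        · exact Or.inr (hne c h)
      have hdb : (d : ℕ) = (b : ℕ) ∨ w κ d ≠ q := by
        by_cases h : d = b
        · exact Or.inl (by rw [h])
        · exact Or.inr (hne d h)
      have hca' : w κ c < q ∨ (c : ℕ) ≠ (a : ℕ) := by
        rcases hca with h | h
        · left
          rw [h]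
          exact haq
        · exact Or.inr h
      have hda' : w κ d < q ∨ (d : ℕ) ≠ (a : ℕ) := by
        rcases hda with h | h
        · left
          rw [h]
          exact haq
        · exact Or.inr h
      unfold key
      split_ifs <;> omega
    · right
      have haq' : q < w κ a := by
        have := hne a hab
        omega
      have hablt : a < b := by
        rw [Fin.lt_def]
        omega
      have hκ : κ b < κ a := by
        have h1 : ¬ w κ a < κ b * N + (b : ℕ) := by
          have : w κ b = κ b * N + (b : ℕ) := rfl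
          omega
        rw [w_lt κ a _ _ b.isLt.le] at h1
        have h2 : ¬ (κ a = κ b ∧ (a : ℕ) < (b : ℕ)) := fun h => h1 (Or.inr h)
        have h3 : ¬ κ a < κ b := fun h => h1 (Or.inl h)
        rw [Fin.lt_def] at hablt
        omega
      refine ⟨a, b, hablt, hκ, ?_, ?_, ?_, ?_⟩
      · unfold key
        split_ifs <;> omega
      · unfold key
        split_ifs <;> omega
      · intro c d hcd hdc
        by_cases hcd' : c = d
        · subst hcd'
          exact ⟨fun h => absurd h (lt_irrefl _), fun h => absurd h (lt_irrefl _)⟩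
        have h1 : (c : ℕ) ≠ (d : ℕ) := fun h => hcd' (Fin.ext h)
        have h2 := hK c
        have h3 := hK d
        by_cases hcb : c = b
        · subst hcb
          have h4 : w κ d ≠ q := hne d (Ne.symm hcd')
          have h5 : d ≠ a := fun h => hdc ⟨rfl, h⟩
          have h6 : (d : ℕ) ≠ (a : ℕ) := fun h => h5 (Fin.ext h)
          unfold key
          split_ifs <;> omega
        · have h4 : w κ c ≠ q := hne c hcb
          by_cases hdb : d = b
          · subst hdb
            have h5 : c ≠ a := fun h => hcd ⟨h, rfl⟩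
            have h6 : (c : ℕ) ≠ (a : ℕ) := fun h => h5 (Fin.ext h)
            unfold key
            split_ifs <;> omega
          · have h5 : w κ d ≠ q := hne d hdb
            unfold key
            split_ifs <;> omega
      · intro c hca hcb
        have h2 := hK c
        have h4 : w κ c ≠ q := hne c hcb
        have h6 : (c : ℕ) ≠ (a : ℕ) := fun h => hca (Fin.ext h)
        unfold key
        split_ifs <;> omega
  · left
    have : key κ K q j = key κ K q (j + 1) := by
      funext c
      unfold key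
      by_cases h1 : w κ c < q
      · rw [if_pos h1, if_pos h1]
      · rw [if_neg h1, if_neg h1]
        by_cases h2 : w κ c = q
        · rw [if_pos h2, if_pos h2]
          have h3 : ¬ j < (c : ℕ) := fun h => hb ⟨c, h2, h⟩
          have h4 : (c : ℕ) - j = (c : ℕ) - (j + 1) := by omega
          rw [h4]
        · rw [if_neg h2, if_neg h2]
    rw [this]
    exact Same.refl _

/-- Segments of the keys of the path. -/
lemma key_seg (κ : Fin N → ℕ) {K : ℕ} (hK : ∀ c, w κ c < K) (q j n : ℕ) :
    ∃ l s s' : ℕ, s' ≤ s ∧ ∀ c, key κ K q j c < n ↔ Seg κ l s s' c := by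
  by_cases hn : n ≤ K
  · refine ⟨min q n / N, min q n % N, 0, Nat.zero_le _, fun c => ?_⟩
    have hN : 0 < N := Fin.pos c
    have h1 := w_lt κ c (min q n / N) (min q n % N) (Nat.mod_lt _ hN).le
    rw [Nat.div_add_mod'] at h1
    have h2 := hK c
    have h3 : key κ K q j c < n ↔ w κ c < min q n := by
      unfold key
      split_ifs <;> omega
    rw [h3, h1]
    unfold Seg
    omega
  · by_cases hb : ∃ b : Fin N, w κ b = q ∧ n ≤ K + 2 * b + 1 ∧ 2 * ((b : ℕ) - j) < n - K
    · obtain ⟨b, hb1, hb2, hb3⟩ := hb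
      refine ⟨κ b, b + 1, (n - K) / 2, by omega, fun c => ?_⟩
      have hbN := b.isLt
      have h1 := w_lt κ c (κ b) (b + 1) hbN
      have hbw : w κ b = κ b * N + (b : ℕ) := rfl
      have h2 : key κ K q j c < n ↔ (w κ c < κ b * N + ((b : ℕ) + 1) ∨ (c : ℕ) < (n - K) / 2) := by
        have h3 := hK c
        by_cases hcb : c = b
        · subst hcb
          unfold key
          split_ifs <;> omega
        · have h4 : w κ c ≠ q := fun h => hcb (w_inj κ (h.trans hb1.symm))
          unfold key
          split_ifs <;> omega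
      rw [h2, h1]
      unfold Seg
      omega
    · refine ⟨q / N, max (q % N) ((n - K) / 2), (n - K) / 2, le_max_right _ _, fun c => ?_⟩
      have hN : 0 < N := Fin.pos c
      have h1 := w_lt κ c (q / N) (q % N) (Nat.mod_lt _ hN).le
      rw [Nat.div_add_mod'] at h1
      have h2 : key κ K q j c < n ↔ (w κ c < q ∨ (c : ℕ) < (n - K) / 2) := by
        have h3 := hK c
        have h4 : ¬ (w κ c = q ∧ n ≤ K + 2 * c + 1 ∧ 2 * ((c : ℕ) - j) < n - K) :=
          fun h => hb ⟨c, h⟩
        unfold key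
        split_ifs <;> omega
      rw [h2, h1]
      unfold Seg
      omega

end PathA

open PathA in
theorem pathStmt : PathStmt := by
  intro N κ
  obtain ⟨L, hL⟩ : ∃ L : ℕ, ∀ c, κ c < L :=
    ⟨Finset.univ.sup κ + 1, fun c => Nat.lt_succ_of_le (Finset.le_sup (Finset.mem_univ c))⟩
  have hK : ∀ c, w κ c < L * N := fun c => by
    have := (w_lt κ c L 0 (Nat.zero_le _)).2 (Or.inl (hL c))
    simpa using this
  have hdm : ∀ q j : ℕ, j < N + 1 →
      ((N + 1) * q + j) / (N + 1) = q ∧ ((N + 1) * q + j) % (N + 1) = j := by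
    intro q j hj
    refine ⟨?_, ?_⟩
    · rw [Nat.mul_add_div (Nat.succ_pos N), Nat.div_eq_of_lt hj, Nat.add_zero]
    · rw [Nat.mul_add_mod, Nat.mod_eq_of_lt hj]
  obtain ⟨ks, h1, h2, h3⟩ := chain κ (fun t => key κ (L * N) (t / (N + 1)) (t % (N + 1)))
    ((N + 1) * (L * N)) (by
      intro a b
      have h := hdm (L * N) 0 (Nat.succ_pos N)
      rw [Nat.add_zero] at h
      simp only [h.1, h.2]
      unfold key
      rw [if_pos (hK a), if_pos (hK b)]
      have := w_lt κ a (κ b) b b.isLt.le
      unfold w at this ⊢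
      rw [this, Fin.lt_def]) (by
      intro t _
      obtain ⟨q, j, hj, rfl⟩ : ∃ q j, j < N + 1 ∧ t = (N + 1) * q + j :=
        ⟨t / (N + 1), t % (N + 1), Nat.mod_lt _ (Nat.succ_pos N), (Nat.div_add_mod t (N + 1)).symm⟩
      have h := hdm q j hj
      simp only [h.1, h.2]
      rcases Nat.eq_or_lt_of_le (Nat.le_of_lt_succ hj) with he | hl
      · left
        subst he
        have e : (j + 1) * q + j + 1 = (j + 1) * (q + 1) + 0 := by ring
        have h' := hdm (q + 1) 0 (Nat.succ_pos j)
        rw [e]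
        simp only [h'.1, h'.2]
        exact same_next κ hK q
      · have h' := hdm q (j + 1) (Nat.succ_lt_succ hl)
        have e : (N + 1) * q + j + 1 = (N + 1) * q + (j + 1) := by ring
        rw [e]
        simp only [h'.1, h'.2]
        exact step_j κ hK q j) _ 0 (Nat.zero_add _) (bk N) (by
      simp only [Nat.zero_div, Nat.zero_mod]
      exact same_start κ _)
  refine ⟨ks, h1, ?_, ?_⟩
  · intro k hk n
    obtain ⟨t', ht'⟩ := h2 k hk
    obtain ⟨n', hn'⟩ := seg_of_same ht'.symm n
    obtain ⟨l, s, s', hs, hc⟩ := key_seg κ hK (t' / (N + 1)) (t' % (N + 1)) n'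
    exact ⟨l, s, s', hs, fun c => (hn' c).symm.trans (hc c)⟩
  · intro l s s' hs
    by_cases hl : L ≤ l
    · obtain ⟨k, hk, _⟩ := h3 0 le_rfl (Nat.zero_le _)
      refine ⟨k, hk, Finset.univ.sup k + 1, fun c => ⟨fun _ => ?_, fun _ => ?_⟩⟩
      · exact Or.inl (lt_of_lt_of_le (hL c) hl)
      · exact Nat.lt_succ_of_le (Finset.le_sup (f := k) (Finset.mem_univ c))
    · have hl' : (l + 1) * N ≤ L * N := Nat.mul_le_mul_right N (by omega)
      rw [Nat.add_mul, Nat.one_mul] at hl'
      have hq : l * N + min s N ≤ L * N := by omega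
      obtain ⟨k, hk, hks⟩ := h3 ((N + 1) * (l * N + min s N)) (Nat.zero_le _)
        (Nat.mul_le_mul_left _ hq)
      have h := hdm (l * N + min s N) 0 (Nat.succ_pos N)
      rw [Nat.add_zero] at h
      simp only [h.1, h.2] at hks
      obtain ⟨n', hn'⟩ := seg_of_same hks (L * N + 2 * min s' N)
      refine ⟨k, hk, n', fun c => (hn' c).trans ?_⟩
      have hcN := c.isLt
      have h5 := hK c
      have h6 := w_lt κ c l (min s N) (min_le_right _ _)
      have h7 : key κ (L * N) (l * N + min s N) 0 c < L * N + 2 * min s' N ↔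
          (w κ c < l * N + min s N ∨ (c : ℕ) < min s' N) := by
        unfold key
        split_ifs <;> omega
      rw [h7, h6]
      unfold Seg
      omega

end Vale.Agent.P002B
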