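import Vale.Agent.P002B.SegPos

/-!
# P002, genus 0, arbitrary classes: flags in trivial position
-/

namespace Vale.Agent.P002B

open Matrix Vale.Agent.P002R Vale.Agent.P002L

namespace PosB

open SegPos

variable {r N : ℕ} {nm : Fin r → Fin N}

theorem Fl_mono {t t' : ℕ} (h : t ≤ t') : Fl nm t ≤ Fl nm t' := fun _ hv i hi => hv i (h.trans hi)

theorem Fl_top : Fl nm N = ⊤ := by
  rw [eq_top_iff]
  intro v _ i hi
  exact absurd (nm i).isLt (not_lt.2 hi)

theorem Fl_zero : Fl nm 0 = ⊥ := by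
  rw [eq_bot_iff]
  intro v hv
  rw [Submodule.mem_bot]
  funext i
  exact hv i (Nat.zero_le _)

/-- The block `a` is met in everything. -/
def PP' (nm : Fin r → Fin N) (E : ℕ → Submodule ℂ (Fin r → ℂ)) (a : Fin N) (j : ℕ) : Prop :=
  Fl nm a ⊔ (Fl nm (a + 1) ⊓ E j) = Fl nm (a + 1)

theorem PP'_zero (hs : Function.Surjective nm) {E : ℕ → Submodule ℂ (Fin r → ℂ)} (h0 : E 0 = ⊥)
    (a : Fin N) : ¬ PP' nm E a 0 := by
  classical
  intro h
  unfold PP' at h
  rw [h0, inf_bot_eq, sup_bot_eq] at h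
  obtain ⟨i, hi⟩ := hs a
  have h1 : Pi.single i (1 : ℂ) ∈ Fl nm (a + 1) := by
    intro k hk
    rw [Pi.single_apply, if_neg]
    rintro rfl
    rw [hi] at hk
    omega
  rw [← h] at h1
  have h2 := h1 i (by rw [hi])
  rw [Pi.single_eq_same] at h2
  exact one_ne_zero h2

theorem PP'_mono {E : ℕ → Submodule ℂ (Fin r → ℂ)} (hE : Monotone E) (a : Fin N) {j j' : ℕ}
    (hj : j ≤ j') (h : PP' nm E a j) : PP' nm E a j' := by
  apply le_antisymm
  · exact sup_le (Fl_mono (Nat.le_succ _)) inf_le_left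
  · exact h.symm.le.trans (sup_le_sup_left (inf_le_inf_left _ (hE hj)) _)

theorem PP'_top {E : ℕ → Submodule ℂ (Fin r → ℂ)} {s : ℕ} (hs : E s = ⊤) (a : Fin N) :
    PP' nm E a s := by
  unfold PP'
  rw [hs, inf_top_eq]
  exact sup_eq_right.2 (Fl_mono (Nat.le_succ _))

theorem exists_key (hs : Function.Surjective nm) {E : ℕ → Submodule ℂ (Fin r → ℂ)} {s : ℕ}
    (h0 : E 0 = ⊥) (h1 : E s = ⊤) (hE : Monotone E) (a : Fin N) :
    ∃ k < s, ∀ j, PP' nm E a j ↔ k < j := by
  classical
  have hex : ∃ j, PP' nm E a j := ⟨s, PP'_top h1 a⟩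
  have hpos : 0 < Nat.find hex := by
    rw [Nat.find_pos]
    exact PP'_zero hs h0 a
  have hle : Nat.find hex ≤ s := Nat.find_min' hex (PP'_top h1 a)
  refine ⟨Nat.find hex - 1, by omega, fun j => ⟨fun h => ?_, fun h => ?_⟩⟩
  · have := Nat.find_min' hex h
    omega
  · exact PP'_mono hE a (by omega) (Nat.find_spec hex)

theorem exists_col {E : ℕ → Submodule ℂ (Fin r → ℂ)} {j : ℕ} (i : Fin r)
    (h : PP' nm E (nm i) j) : ∃ w ∈ E j, ∀ k, nm i ≤ nm k → w k = (1 : Mat r ℂ) k i := by
  classical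
  unfold PP' at h
  have h1 : Pi.single i (1 : ℂ) ∈ Fl nm (nm i + 1) := by
    intro k hk
    rw [Pi.single_apply, if_neg]
    rintro rfl
    omega
  rw [← h] at h1
  obtain ⟨x, hx, w, hw, hxw⟩ := Submodule.mem_sup.1 h1
  refine ⟨w, (Submodule.mem_inf.1 hw).2, fun k hk => ?_⟩
  have h2 := congrFun hxw k
  rw [Pi.add_apply, hx k hk, zero_add] at h2
  rw [h2, Pi.single_apply, Matrix.one_apply]

theorem le_map {E : ℕ → Submodule ℂ (Fin r → ℂ)} {κ : Fin N → ℕ}
    {u : Mat r ℂ} (hu : BU nm (bk N) u) (j : ℕ)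
    (hcol : (Co nm fun a => κ a < j).map (Matrix.mulVecLin u) ≤ E j)
    (hpos : ∀ t : Fin N, ¬ κ t < j → Fl nm t ⊔ (Fl nm (t + 1) ⊓ E j) = Fl nm t) (t : ℕ)
    (ht : t ≤ N) : Fl nm t ⊓ E j ≤ (Co nm fun a => κ a < j).map (Matrix.mulVecLin u) := by
  classical
  induction t with
  | zero =>
    rw [Fl_zero, bot_inf_eq]
    exact bot_le
  | succ t ih =>
    intro z hz
    obtain ⟨hz1, hz2⟩ := Submodule.mem_inf.1 hz
    have htN : t < N := ht
    by_cases hk : κ ⟨t, htN⟩ < j
    · set v : Fin r → ℂ := fun i => if (nm i : ℕ) = t then z i else 0 with hv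
      have hvC : v ∈ Co nm fun a => κ a < j := by
        intro i hi
        rw [hv]
        refine if_neg fun h => hi ?_
        have : nm i = ⟨t, htN⟩ := Fin.ext h
        rw [this]
        exact hk
      have huv : Matrix.mulVecLin u v ∈ (Co nm fun a => κ a < j).map (Matrix.mulVecLin u) :=
        ⟨v, hvC, rfl⟩
      have hd : z - Matrix.mulVecLin u v ∈ Fl nm t := by
        intro i hi
        have hvF : v ∈ Fl nm (t + 1) := by
          intro k hk'
          rw [hv]
          exact if_neg (by omega)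
        rw [Pi.sub_apply]
        rcases Nat.lt_or_ge t (nm i : ℕ) with h4 | h4
        · rw [hz1 i h4, BU_Fl_le hu (t + 1) ⟨v, hvF, rfl⟩ i h4, sub_zero]
        · have h5 : (nm i : ℕ) = t := le_antisymm h4 hi
          have h6 : Matrix.mulVecLin u v i = z i := by
            rw [Matrix.mulVecLin_apply]
            show ∑ k, u i k * v k = z i
            rw [Finset.sum_eq_single i]
            · rw [BU_diag hu, one_mul, hv]
              exact if_pos h5
            · intro k _ hki
              by_cases h7 : (nm k : ℕ) = t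
              · rw [hu i k (fun h8 => ?_), Matrix.one_apply_ne hki.symm, zero_mul]
                have h9 : (nm i : ℕ) < (nm k : ℕ) := h8
                omega
              · have : v k = 0 := if_neg h7
                rw [this, mul_zero]
            · intro h
              exact absurd (Finset.mem_univ _) h
          rw [h6, sub_self]
      have h3 := ih (by omega) (Submodule.mem_inf.2 ⟨hd, (E j).sub_mem hz2 (hcol huv)⟩)
      have h4 := Submodule.add_mem _ h3 huv
      rwa [sub_add_cancel] at h4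
    · have h1 := hpos ⟨t, htN⟩ hk
      have h2 : z ∈ Fl nm t := by
        have h3 : z ∈ Fl nm t ⊔ (Fl nm (t + 1) ⊓ E j) := Submodule.mem_sup_right hz
        exact (le_of_eq h1) h3
      exact ih (by omega) (Submodule.mem_inf.2 ⟨h2, hz2⟩)

end PosB

open SegPos PosB in
/-- T6c. -/
theorem posStmtB : PosStmt := by
  classical
  intro r N nm hm hs c ξ s E h0 h1 hE hc hpos
  choose κ hκs hκ using fun a => exists_key hs h0 h1 hE a
  choose w hw1 hw2 using fun i : Fin r =>
    exists_col (E := E) (j := κ (nm i) + 1) i ((hκ (nm i) _).2 (Nat.lt_succ_self _))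
  let u : Mat r ℂ := Matrix.of fun k i => w i k
  have huv : ∀ v : Fin r → ℂ, Matrix.mulVecLin u v = ∑ i, v i • w i := by
    intro v
    funext k
    rw [Matrix.mulVecLin_apply, Finset.sum_apply]
    show ∑ i, w i k * v i = _
    exact Finset.sum_congr rfl fun i _ => by rw [Pi.smul_apply, smul_eq_mul, mul_comm]
  have hu : BU nm (bk N) u := by
    intro k i h
    exact hw2 i k (not_lt.1 fun hh => h (Fin.lt_def.1 hh))
  have hcol : ∀ j, (Co nm fun a => κ a < j).map (Matrix.mulVecLin u) ≤ E j := by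
    rintro j _ ⟨v, hv, rfl⟩
    rw [huv]
    refine Submodule.sum_mem _ fun i _ => ?_
    by_cases hi : κ (nm i) < j
    · exact (E j).smul_mem _ (hE hi (hw1 i))
    · rw [hv i hi, zero_smul]
      exact (E j).zero_mem
  have hEu : ∀ j, E j = (Co nm fun a => κ a < j).map (Matrix.mulVecLin u) := by
    intro j
    apply le_antisymm
    · have := le_map hu j (hcol j) (fun t ht => ?_) N le_rfl
      · rwa [Fl_top, top_inf_eq] at this
      · rcases hpos j t t.isLt with h | h
        · exact h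
        · exact absurd ((hκ t j).1 h) ht
    · exact hcol j
  have hdet : IsUnit u.det := by
    rw [BU_det hm hu]
    exact isUnit_one
  have hmul : u * (u⁻¹ * c * u) = c * u := by
    rw [← Matrix.mul_assoc, ← Matrix.mul_assoc, Matrix.mul_nonsing_inv u hdet, Matrix.one_mul]
  refine ⟨κ, u, u⁻¹ * c * u, hu, ?_, hmul.symm, hκs, hEu⟩
  have key : ∀ i : Fin r, (fun k => (u⁻¹ * c * u) k i - ξ (κ (nm i)) * (1 : Mat r ℂ) k i) ∈
      Co nm fun a => κ a < κ (nm i) := by
    intro i
    have h2 := hc (κ (nm i)) (w i) (hw1 i)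
    rw [hEu (κ (nm i))] at h2
    obtain ⟨v, hv, hvw⟩ := h2
    have h3 : v = fun k => (u⁻¹ * c * u) k i - ξ (κ (nm i)) * (1 : Mat r ℂ) k i := by
      apply BU_inj hm hu
      rw [hvw]
      have h4 : w i = u *ᵥ (Pi.single i 1) := by
        rw [Matrix.mulVec_single_one]
        rfl
      have h5 : (fun k => (u⁻¹ * c * u) k i - ξ (κ (nm i)) * (1 : Mat r ℂ) k i) =
          (u⁻¹ * c * u) *ᵥ (Pi.single i 1) - ξ (κ (nm i)) • Pi.single i (1 : ℂ) := by
        rw [Matrix.mulVec_single_one]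
        funext k
        rw [Pi.sub_apply, Pi.smul_apply, Pi.single_apply, Matrix.one_apply]
        rfl
      rw [h5, map_sub, map_smul, Matrix.mulVecLin_apply, Matrix.mulVecLin_apply,
        Matrix.mulVec_mulVec, hmul, h4, Matrix.mulVec_mulVec]
    rw [← h3]
    exact hv
  refine ⟨fun i => ?_, fun i j hij h => ?_⟩
  · have h2 : (u⁻¹ * c * u) i i - ξ (κ (nm i)) * (1 : Mat r ℂ) i i = 0 :=
      key i i (lt_irrefl _)
    rw [Matrix.one_apply_eq, mul_one, sub_eq_zero] at h2
    exact h2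
  · have h2 : (u⁻¹ * c * u) i j - ξ (κ (nm j)) * (1 : Mat r ℂ) i j = 0 := key j i h
    rw [Matrix.one_apply_ne hij, mul_zero, sub_zero] at h2
    exact h2

end Vale.Agent.P002B
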