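import Vale.Agent.P002.BaseDensity

/-!
# q-commuting pairs, part 1: Zariski closures, rational families, conjugation
-/

namespace Vale.Agent.P002B.QB

open Matrix MvPolynomial

/-- Zariski dense sets. -/
def ZD {τ : Type*} (D : Set (τ → ℂ)) : Prop :=
  ∀ F : MvPolynomial τ ℂ, (∀ t ∈ D, eval t F = 0) → F = 0

theorem zd_ne {τ : Type*} {g : MvPolynomial τ ℂ} (hg : g ≠ 0) :
    ZD {t : τ → ℂ | eval t g ≠ 0} := by
  intro F hF
  have h : F * g = 0 := by
    apply MvPolynomial.funext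
    intro t
    rw [map_mul, map_zero]
    by_cases h0 : eval t g = 0
    · rw [h0, mul_zero]
    · rw [hF t h0, zero_mul]
  exact (mul_eq_zero.mp h).resolve_right hg

theorem zd_box {τ : Type*} (s : τ → Set ℂ) (hs : ∀ i, (s i).Infinite) :
    ZD {t : τ → ℂ | ∀ i, t i ∈ s i} := by
  intro F hF
  refine MvPolynomial.funext_set s hs fun x hx => ?_
  rw [hF x fun i => hx i (Set.mem_univ i), map_zero]

theorem clear_den {σ τ : Type*} (N : σ → MvPolynomial τ ℂ) (h : MvPolynomial τ ℂ)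
    (f : MvPolynomial σ ℂ) :
    ∃ n₀ : ℕ, ∀ n ≥ n₀, ∃ F : MvPolynomial τ ℂ, ∀ t, eval t h ≠ 0 →
      eval t F = (eval t h) ^ n * eval (fun s => eval t (N s) / eval t h) f := by
  induction f using MvPolynomial.induction_on with
  | C a => exact ⟨0, fun n _ => ⟨C a * h ^ n, fun t _ => by simp [mul_comm]⟩⟩
  | add f g hf hg =>
    obtain ⟨n1, h1⟩ := hf
    obtain ⟨n2, h2⟩ := hg
    refine ⟨max n1 n2, fun n hn => ?_⟩
    obtain ⟨F1, hF1⟩ := h1 n (le_trans (le_max_left _ _) hn)
    obtain ⟨F2, hF2⟩ := h2 n (le_trans (le_max_right _ _) hn)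
    exact ⟨F1 + F2, fun t ht => by rw [map_add, map_add, hF1 t ht, hF2 t ht, mul_add]⟩
  | mul_X f s hf =>
    obtain ⟨n1, h1⟩ := hf
    refine ⟨n1 + 1, fun n hn => ?_⟩
    obtain ⟨k, rfl⟩ : ∃ k, n = k + 1 := ⟨n - 1, by omega⟩
    obtain ⟨F1, hF1⟩ := h1 k (by omega)
    refine ⟨F1 * N s, fun t ht => ?_⟩
    rw [map_mul, map_mul, hF1 t ht, eval_X, pow_succ]
    field_simp

theorem ratfam {σ τ : Type*} {D : Set (τ → ℂ)} (hD : ZD D) (N : σ → MvPolynomial τ ℂ)
    (h : MvPolynomial τ ℂ) (f : MvPolynomial σ ℂ)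
    (hf : ∀ t ∈ D, eval t h ≠ 0 → eval (fun s => eval t (N s) / eval t h) f = 0) :
    ∀ t, eval t h ≠ 0 → eval (fun s => eval t (N s) / eval t h) f = 0 := by
  intro t ht
  obtain ⟨n, hn⟩ := clear_den N h f
  obtain ⟨F, hF⟩ := hn n le_rfl
  have h1 : F * h = 0 := by
    apply hD
    intro s hs
    rw [map_mul]
    by_cases h0 : eval s h = 0
    · rw [h0, mul_zero]
    · rw [hF s h0, hf s hs h0, mul_zero, zero_mul]
  have h2 : F = 0 := by
    rcases mul_eq_zero.mp h1 with h3 | h3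
    · exact h3
    · rw [h3, map_zero] at ht
      exact absurd rfl ht
  have h3 := hF t ht
  rw [h2, map_zero] at h3
  rcases mul_eq_zero.mp h3.symm with h4 | h4
  · exact absurd h4 (pow_ne_zero _ ht)
  · exact h4

/-- Coordinates of a pair of matrices. -/
def pt {S : Type*} {d : ℕ} (A B : Matrix (Fin d) (Fin d) S) :
    (Fin 1 × Bool) × Fin d × Fin d → S :=
  fun x => (if x.1.2 then B else A) x.2.1 x.2.2

/-- Solutions. -/
def Sol {R : Type*} [CommRing R] (μ : R) {d : ℕ} (a b : Matrix (Fin d) (Fin d) R) : Prop :=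
  IsUnit a ∧ IsUnit b ∧ a * b = μ • (b * a)

/-- The Zariski closure of the integral solutions. -/
def GD {R : Type*} [CommRing R] (φ : R →+* ℂ) (μ : R) {d : ℕ}
    (A B : Matrix (Fin d) (Fin d) ℂ) : Prop :=
  ∀ f : MvPolynomial ((Fin 1 × Bool) × Fin d × Fin d) ℂ,
    (∀ a b : Matrix (Fin d) (Fin d) R, Sol μ a b → eval (pt (a.map φ) (b.map φ)) f = 0) →
      eval (pt A B) f = 0

variable {R : Type*} [CommRing R] {φ : R →+* ℂ} {μ μ' : R} {d d' : ℕ}

theorem GD.of_sol {a b : Matrix (Fin d) (Fin d) R} (h : Sol μ a b) :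
    GD φ μ (a.map φ) (b.map φ) := fun _ hf => hf a b h

theorem eval_bind {σ τ : Type*} (G : σ → MvPolynomial τ ℂ) (f : MvPolynomial σ ℂ) (y : τ → ℂ) :
    eval y (bind₁ G f) = eval (fun s => eval y (G s)) f := by
  induction f using MvPolynomial.induction_on with
  | C a => simp
  | add f g hf hg => rw [map_add, map_add, map_add, hf, hg]
  | mul_X f s hf => rw [map_mul, map_mul, map_mul, hf, bind₁_X_right, eval_X]

theorem pt_map {S T : Type*} (A B : Matrix (Fin d) (Fin d) S) (θ : S → T) :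
    pt (A.map θ) (B.map θ) = fun s => θ (pt A B s) := by
  funext s
  rcases s with ⟨⟨i, e⟩, j, k⟩
  cases e <;> rfl

theorem GD.subst {A B : Matrix (Fin d) (Fin d) ℂ} (h : GD φ μ A B)
    (GA GB : Matrix (Fin d') (Fin d') (MvPolynomial ((Fin 1 × Bool) × Fin d × Fin d) ℂ))
    (hG : ∀ a b : Matrix (Fin d) (Fin d) R, Sol μ a b →
      ∃ a' b' : Matrix (Fin d') (Fin d') R, Sol μ' a' b' ∧
        GA.map (eval (pt (a.map φ) (b.map φ))) = a'.map φ ∧
        GB.map (eval (pt (a.map φ) (b.map φ))) = b'.map φ) :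
    GD φ μ' (GA.map (eval (pt A B))) (GB.map (eval (pt A B))) := by
  intro f hf
  have h1 := h (bind₁ (pt GA GB) f) (by
    intro a b hab
    obtain ⟨a', b', hab', h2, h3⟩ := hG a b hab
    rw [eval_bind]
    have h4 := hf a' b' hab'
    rw [← h2, ← h3, pt_map] at h4
    exact h4)
  rw [eval_bind] at h1
  rw [pt_map]
  exact h1

theorem GD.ratfam {τ : Type*} {D : Set (τ → ℂ)} (hD : ZD D)
    (NA NB : Matrix (Fin d) (Fin d) (MvPolynomial τ ℂ)) (h : MvPolynomial τ ℂ)
    (hG : ∀ t ∈ D, eval t h ≠ 0 →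
      GD φ μ ((eval t h)⁻¹ • NA.map (eval t)) ((eval t h)⁻¹ • NB.map (eval t)))
    (t : τ → ℂ) (ht : eval t h ≠ 0) :
    GD φ μ ((eval t h)⁻¹ • NA.map (eval t)) ((eval t h)⁻¹ • NB.map (eval t)) := by
  intro f hf
  have key : ∀ s : τ → ℂ,
      pt ((eval s h)⁻¹ • NA.map (eval s)) ((eval s h)⁻¹ • NB.map (eval s)) =
        fun x => eval s (pt NA NB x) / eval s h := by
    intro s
    funext x
    rcases x with ⟨⟨i, e⟩, j, k⟩
    cases e <;> simp [pt, div_eq_inv_mul]
  have h1 := QB.ratfam hD (pt NA NB) h f (by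
    intro s hs hs'
    rw [← key]
    exact hG s hs hs' f hf) t ht
  rw [key]
  exact h1

theorem GD.polyfam {τ : Type*} {D : Set (τ → ℂ)} (hD : ZD D)
    (NA NB : Matrix (Fin d) (Fin d) (MvPolynomial τ ℂ))
    (hG : ∀ t ∈ D, GD φ μ (NA.map (eval t)) (NB.map (eval t))) (t : τ → ℂ) :
    GD φ μ (NA.map (eval t)) (NB.map (eval t)) := by
  have h1 := GD.ratfam (φ := φ) (μ := μ) hD NA NB 1 (by
    intro s hs _
    have := hG s hs
    simpa using this) t (by simp)
  simpa using h1

/-! ### Conjugation -/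

/-- The generic matrices. -/
noncomputable def gen (d : ℕ) (e : Bool) :
    Matrix (Fin d) (Fin d) (MvPolynomial ((Fin 1 × Bool) × Fin d × Fin d) ℂ) :=
  Matrix.of fun i j => X ((0, e), i, j)

theorem gen_false (A B : Matrix (Fin d) (Fin d) ℂ) : (gen d false).map (eval (pt A B)) = A := by
  ext i j
  simp [gen, pt]

theorem gen_true (A B : Matrix (Fin d) (Fin d) ℂ) : (gen d true).map (eval (pt A B)) = B := by
  ext i j
  simp [gen, pt]

theorem map_C {τ : Type*} {m n : Type*} (A : Matrix m n ℂ) (t : τ → ℂ) :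
    (A.map (C : ℂ → MvPolynomial τ ℂ)).map (eval t) = A := by
  ext i j
  simp

theorem Sol.conj {a b x y : Matrix (Fin d) (Fin d) R} (h : Sol μ a b) (hxy : x * y = 1)
    (hyx : y * x = 1) : Sol μ (x * a * y) (x * b * y) := by
  have hx : IsUnit x := ⟨⟨x, y, hxy, hyx⟩, rfl⟩
  have hy : IsUnit y := ⟨⟨y, x, hyx, hxy⟩, rfl⟩
  refine ⟨(hx.mul h.1).mul hy, (hx.mul h.2.1).mul hy, ?_⟩
  have h1 : x * a * y * (x * b * y) = x * (a * b) * y := by
    calc x * a * y * (x * b * y) = x * a * (y * x) * b * y := by noncomm_ring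
      _ = x * (a * b) * y := by rw [hyx]; noncomm_ring
  have h2 : x * b * y * (x * a * y) = x * (b * a) * y := by
    calc x * b * y * (x * a * y) = x * b * (y * x) * a * y := by noncomm_ring
      _ = x * (b * a) * y := by rw [hyx]; noncomm_ring
  rw [h1, h2, h.2.2, Matrix.mul_smul, Matrix.smul_mul]

theorem GD.conj_int {A B : Matrix (Fin d) (Fin d) ℂ} (h : GD φ μ A B)
    (x y : Matrix (Fin d) (Fin d) ℤ) (hxy : x * y = 1) (hyx : y * x = 1) :
    GD φ μ (x.map (Int.castRingHom ℂ) * A * y.map (Int.castRingHom ℂ))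
      (x.map (Int.castRingHom ℂ) * B * y.map (Int.castRingHom ℂ)) := by
  set xc : Matrix (Fin d) (Fin d) ℂ := x.map (Int.castRingHom ℂ) with hxc
  set yc : Matrix (Fin d) (Fin d) ℂ := y.map (Int.castRingHom ℂ) with hyc
  have h0 : (x.map (Int.castRingHom R)).map φ = xc := by
    ext i j
    simp [hxc]
  have h0' : (y.map (Int.castRingHom R)).map φ = yc := by
    ext i j
    simp [hyc]
  have h1 := h.subst (μ' := μ) (xc.map C * gen d false * yc.map C) (xc.map C * gen d true * yc.map C)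
    (by
      intro a b hab
      refine ⟨x.map (Int.castRingHom R) * a * y.map (Int.castRingHom R),
        x.map (Int.castRingHom R) * b * y.map (Int.castRingHom R), hab.conj ?_ ?_, ?_, ?_⟩
      · rw [← Matrix.map_mul, hxy, Matrix.map_one _ (map_zero _) (map_one _)]
      · rw [← Matrix.map_mul, hyx, Matrix.map_one _ (map_zero _) (map_one _)]
      · rw [Matrix.map_mul, Matrix.map_mul, map_C, map_C, gen_false, Matrix.map_mul,
          Matrix.map_mul, h0, h0']
      · rw [Matrix.map_mul, Matrix.map_mul, map_C, map_C, gen_true, Matrix.map_mul,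
          Matrix.map_mul, h0, h0'])
  rw [Matrix.map_mul, Matrix.map_mul, map_C, map_C, gen_false, Matrix.map_mul, Matrix.map_mul,
    map_C, map_C, gen_true] at h1
  exact h1

theorem GD.conj {A B : Matrix (Fin d) (Fin d) ℂ} (h : GD φ μ A B)
    (P Q : Matrix (Fin d) (Fin d) ℂ) (hPQ : P * Q = 1) : GD φ μ (P * A * Q) (P * B * Q) := by
  obtain ⟨D, hD⟩ : ∃ D : Set (Fin d × Fin d → ℂ), D = {t | ∃ (c : ℂˣ)
    (X : SpecialLinearGroup (Fin d) ℤ), t = fun p => (c : ℂ) * ((X.1 p.1 p.2 : ℤ) : ℂ)} :=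
    ⟨_, rfl⟩
  have hZ : ZD D := by
    intro F hF
    refine Vale.Agent.P002.scaledSL_dense F fun c X => ?_
    apply hF
    rw [hD]
    exact ⟨c, X, rfl⟩
  have hX : ∀ t : Fin d × Fin d → ℂ, (mvPolynomialX (Fin d) (Fin d) ℂ).map (eval t) =
      Matrix.of fun i j => t (i, j) := by
    intro t
    ext i j
    simp [mvPolynomialX]
  have hdet : ∀ t : Fin d × Fin d → ℂ, eval t (mvPolynomialX (Fin d) (Fin d) ℂ).det =
      (Matrix.of fun i j => t (i, j)).det := by
    intro t
    rw [RingHom.map_det, RingHom.mapMatrix_apply, hX]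
  have hadj : ∀ t : Fin d × Fin d → ℂ,
      (mvPolynomialX (Fin d) (Fin d) ℂ).adjugate.map (eval t) =
      (Matrix.of fun i j => t (i, j)).adjugate := by
    intro t
    have := RingHom.map_adjugate (eval t) (mvPolynomialX (Fin d) (Fin d) ℂ)
    rw [RingHom.mapMatrix_apply, RingHom.mapMatrix_apply, hX] at this
    exact this
  have key := GD.ratfam (φ := φ) (μ := μ) hZ
    (mvPolynomialX (Fin d) (Fin d) ℂ * A.map C * (mvPolynomialX (Fin d) (Fin d) ℂ).adjugate)
    (mvPolynomialX (Fin d) (Fin d) ℂ * B.map C * (mvPolynomialX (Fin d) (Fin d) ℂ).adjugate)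
    (mvPolynomialX (Fin d) (Fin d) ℂ).det (by
      intro t ht _
      rw [hD] at ht
      obtain ⟨c, X, rfl⟩ := ht
      rw [Matrix.map_mul, Matrix.map_mul, Matrix.map_mul, Matrix.map_mul, hX, hadj, map_C, map_C,
        hdet]
      have hX1 : X.1 * (X⁻¹).1 = 1 := by
        have := congrArg Subtype.val (mul_inv_cancel X)
        exact this
      have hX2 : (X⁻¹).1 * X.1 = 1 := by
        have := congrArg Subtype.val (inv_mul_cancel X)
        exact this
      have h1 := h.conj_int X.1 (X⁻¹).1 hX1 hX2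
      obtain ⟨M, hM⟩ : ∃ M : Matrix (Fin d) (Fin d) ℂ, M = X.1.map (Int.castRingHom ℂ) :=
        ⟨_, rfl⟩
      obtain ⟨M', hM'⟩ : ∃ M' : Matrix (Fin d) (Fin d) ℂ,
        M' = (X⁻¹).1.map (Int.castRingHom ℂ) := ⟨_, rfl⟩
      have hMM : M * M' = 1 := by
        rw [hM, hM', ← Matrix.map_mul, hX1, Matrix.map_one _ (map_zero _) (map_one _)]
      have hMM' : M' * M = 1 := by
        rw [hM, hM', ← Matrix.map_mul, hX2, Matrix.map_one _ (map_zero _) (map_one _)]
      have h2 : (Matrix.of fun i j => (c : ℂ) * ((X.1 i j : ℤ) : ℂ)) = (c : ℂ) • M := by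
        rw [hM]
        ext i j
        simp
      simp only
      rw [h2]
      rw [← hM, ← hM'] at h1
      have hc : (c : ℂ) ≠ 0 := c.ne_zero
      have hdM : ((c : ℂ) • M).det ≠ 0 := by
        rw [Matrix.det_smul]
        refine mul_ne_zero (pow_ne_zero _ hc) fun h0 => ?_
        have := congrArg Matrix.det hMM
        rw [Matrix.det_mul, h0, zero_mul, Matrix.det_one] at this
        exact zero_ne_one this
      have hadj' : (((c : ℂ) • M).det)⁻¹ • ((c : ℂ) • M).adjugate = (c : ℂ)⁻¹ • M' := by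
        have e1 : ((c : ℂ) • M) * ((((c : ℂ) • M).det)⁻¹ • ((c : ℂ) • M).adjugate) = 1 := by
          rw [Matrix.mul_smul, Matrix.mul_adjugate, smul_smul, inv_mul_cancel₀ hdM, one_smul]
        have e2 : ((c : ℂ)⁻¹ • M') * ((c : ℂ) • M) = 1 := by
          rw [Matrix.smul_mul, Matrix.mul_smul, smul_smul, inv_mul_cancel₀ hc, hMM', one_smul]
        exact (left_inv_eq_right_inv e2 e1).symm
      have e3 : ∀ Z : Matrix (Fin d) (Fin d) ℂ, (((c : ℂ) • M).det)⁻¹ •
          (((c : ℂ) • M) * Z * ((c : ℂ) • M).adjugate) = M * Z * M' := by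
        intro Z
        rw [← Matrix.mul_smul, hadj', Matrix.smul_mul, Matrix.smul_mul, Matrix.mul_smul,
          smul_smul, mul_inv_cancel₀ hc, one_smul]
      rw [e3, e3]
      exact h1)
    (fun p => P p.1 p.2) (by
      rw [hdet]
      intro h0
      have h1 : (Matrix.of fun i j => P i j) = P := rfl
      simp only at h0
      rw [h1] at h0
      have := congrArg Matrix.det hPQ
      rw [Matrix.det_mul, h0, zero_mul, Matrix.det_one] at this
      exact zero_ne_one this)
  rw [Matrix.map_mul, Matrix.map_mul, Matrix.map_mul, Matrix.map_mul, hX, hadj, map_C, map_C,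
    hdet] at key
  have h1 : (Matrix.of fun i j => P i j) = P := rfl
  simp only at key
  rw [h1] at key
  have hdP : P.det ≠ 0 := by
    intro h0
    have := congrArg Matrix.det hPQ
    rw [Matrix.det_mul, h0, zero_mul, Matrix.det_one] at this
    exact zero_ne_one this
  have hQ : (P.det)⁻¹ • P.adjugate = Q := by
    have e1 : P * ((P.det)⁻¹ • P.adjugate) = 1 := by
      rw [Matrix.mul_smul, Matrix.mul_adjugate, smul_smul, inv_mul_cancel₀ hdP, one_smul]
    have e2 : Q * P = 1 := mul_eq_one_comm.mp hPQ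
    exact (left_inv_eq_right_inv e2 e1).symm
  rw [← Matrix.mul_smul, ← Matrix.mul_smul, hQ] at key
  exact key

end Vale.Agent.P002B.QB
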