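import Vale.Agent.P002B.QCommB0
import Vale.Agent.P002B.QCommB1

/-!
# q-commuting pairs, part 2: commuting pairs
-/

namespace Vale.Agent.P002B.QB

open Matrix MvPolynomial Vale.Agent.P002

variable {R : Type*} [CommRing R] {φ : R →+* ℂ} {d : ℕ}

theorem GD.diag (u : Rˣ) (hu : ∀ k : ℕ, 0 < k → (φ u) ^ k ≠ 1) (α β : Fin d → ℂ) :
    GD φ 1 (diagonal α) (diagonal β) := by
  have hu0 : φ u ≠ 0 := (u.isUnit.map φ).ne_zero
  have hinf : (Set.range fun k : ℕ => (φ u) ^ k).Infinite := by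
    apply Set.infinite_range_of_injective
    have key : ∀ k l : ℕ, k < l → (φ u) ^ k ≠ (φ u) ^ l := by
      intro k l hkl h
      apply hu (l - k) (by omega)
      have h1 : (φ u) ^ l = (φ u) ^ k * (φ u) ^ (l - k) := by
        rw [← pow_add]
        congr 1
        omega
      rw [h1] at h
      have h2 : (φ u) ^ k * 1 = (φ u) ^ k * (φ u) ^ (l - k) := by rw [mul_one]; exact h
      exact (mul_left_cancel₀ (pow_ne_zero _ hu0) h2).symm
    intro k l hkl
    rcases lt_trichotomy k l with h | h | h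
    · exact absurd hkl (key k l h)
    · exact h
    · exact absurd hkl.symm (key l k h)
  have hZ := zd_box (fun _ : Bool × Fin d => Set.range fun k : ℕ => (φ u) ^ k) (fun _ => hinf)
  have h1 := GD.polyfam (φ := φ) (μ := 1) hZ (diagonal fun i => X (false, i))
    (diagonal fun i => X (true, i)) (by
      intro t ht
      choose k hk using ht
      simp only at hk
      have e : ∀ e : Bool, (diagonal fun i : Fin d => (X (e, i) : MvPolynomial (Bool × Fin d) ℂ)).map
          (eval t) = (diagonal fun i => ((u ^ k (e, i) : Rˣ) : R)).map φ := by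
        intro e
        rw [Matrix.diagonal_map (map_zero _), Matrix.diagonal_map (map_zero _)]
        congr 1
        funext i
        rw [eval_X, Units.val_pow_eq_pow_val, map_pow, ← hk]
      rw [e, e]
      apply GD.of_sol
      have hun : ∀ w : Fin d → Rˣ, IsUnit (diagonal fun i => ((w i : Rˣ) : R)) := by
        intro w
        refine ⟨⟨diagonal fun i => ((w i : Rˣ) : R), diagonal fun i => (((w i)⁻¹ : Rˣ) : R),
          ?_, ?_⟩, rfl⟩
        · rw [diagonal_mul_diagonal]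
          simp
        · rw [diagonal_mul_diagonal]
          simp
      refine ⟨hun _, hun _, ?_⟩
      rw [one_smul, diagonal_mul_diagonal, diagonal_mul_diagonal]
      congr 1
      funext i
      rw [mul_comm])
    (fun p => if p.1 then β p.2 else α p.2)
  rw [Matrix.diagonal_map (map_zero _), Matrix.diagonal_map (map_zero _)] at h1
  simpa using h1

theorem aeval_conj (P D Q : Matrix (Fin d) (Fin d) ℂ) (hPQ : P * Q = 1) (p : Polynomial ℂ) :
    Polynomial.aeval (P * D * Q) p = P * Polynomial.aeval D p * Q := by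
  have hQP : Q * P = 1 := mul_eq_one_comm.mp hPQ
  have hk : ∀ k : ℕ, (P * D * Q) ^ k = P * D ^ k * Q := by
    intro k
    induction k with
    | zero => simp [hPQ]
    | succ k ih =>
      rw [pow_succ, ih, pow_succ]
      calc P * D ^ k * Q * (P * D * Q) = P * D ^ k * (Q * P) * D * Q := by noncomm_ring
        _ = P * (D ^ k * D) * Q := by rw [hQP]; noncomm_ring
  rw [Polynomial.aeval_eq_sum_range, Polynomial.aeval_eq_sum_range, Finset.mul_sum,
    Finset.sum_mul]
  refine Finset.sum_congr rfl fun k _ => ?_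
  rw [hk, Matrix.mul_smul, Matrix.smul_mul]

theorem aeval_diagonal (ω : Fin d → ℂ) (p : Polynomial ℂ) :
    Polynomial.aeval (diagonal ω) p = diagonal fun i => p.eval (ω i) := by
  rw [Polynomial.aeval_eq_sum_range]
  ext i j
  rw [Matrix.sum_apply]
  by_cases hij : i = j
  · subst hij
    rw [diagonal_apply_eq, Polynomial.eval_eq_sum_range]
    refine Finset.sum_congr rfl fun k _ => ?_
    rw [diagonal_pow, Matrix.smul_apply, diagonal_apply_eq, Pi.pow_apply, smul_eq_mul]
  · rw [diagonal_apply_ne _ hij]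
    refine Finset.sum_eq_zero fun k _ => ?_
    rw [diagonal_pow, Matrix.smul_apply, diagonal_apply_ne _ hij, smul_zero]

theorem exists_diag_of_injective (A : Matrix (Fin d) (Fin d) ℂ) (ω : Fin d → ℂ)
    (hω : Function.Injective ω) (hA : A.charpoly = ∏ i, (Polynomial.X - Polynomial.C (ω i))) :
    ∃ P Q : Matrix (Fin d) (Fin d) ℂ, P * Q = 1 ∧ A = P * diagonal ω * Q := by
  have hev : ∀ i, ∃ v : Fin d → ℂ, v ≠ 0 ∧ A *ᵥ v = ω i • v := by
    intro i
    have hdet : (Matrix.scalar (Fin d) (ω i) - A).det = 0 := by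
      rw [← Matrix.eval_charpoly, hA, Polynomial.eval_prod]
      apply Finset.prod_eq_zero (Finset.mem_univ i)
      simp
    obtain ⟨v, hv, hv2⟩ := Matrix.exists_mulVec_eq_zero_iff.mpr hdet
    refine ⟨v, hv, ?_⟩
    rw [Matrix.sub_mulVec, sub_eq_zero] at hv2
    rw [← hv2]
    simp
  choose v hv hXv using hev
  have hlin : LinearIndependent ℂ v := by
    apply Module.End.eigenvectors_linearIndependent' (Matrix.toLin' A) ω hω v
    intro i
    refine ⟨?_, hv i⟩
    rw [Module.End.mem_eigenspace_iff, Matrix.toLin'_apply, hXv]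
  obtain ⟨P, hP⟩ : ∃ P : Matrix (Fin d) (Fin d) ℂ, P = Matrix.of (fun i j => v j i) := ⟨_, rfl⟩
  have hPu : IsUnit P := by
    rw [← Matrix.linearIndependent_cols_iff_isUnit, hP]
    exact hlin
  obtain ⟨u, hu⟩ := hPu
  have hXP : A * P = P * diagonal ω := by
    ext i j
    have := congrFun (hXv j) i
    rw [Matrix.mul_diagonal]
    simp only [hP, Matrix.of_apply]
    rw [Matrix.mul_apply]
    simp only [Matrix.mulVec, dotProduct, Pi.smul_apply, smul_eq_mul] at this
    rw [mul_comm, ← this]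
    rfl
  refine ⟨P, ((u⁻¹ : (Matrix (Fin d) (Fin d) ℂ)ˣ) : Matrix (Fin d) (Fin d) ℂ), ?_, ?_⟩
  · rw [← hu, Units.mul_inv]
  · rw [← hXP, ← hu, mul_assoc, Units.mul_inv, mul_one]

theorem map_aeval_mat {τ : Type*} (M : Matrix (Fin d) (Fin d) (MvPolynomial τ ℂ)) (t : τ → ℂ)
    (p : Polynomial ℂ) :
    (Polynomial.aeval M p).map (eval t) = Polynomial.aeval (M.map (eval t)) p := by
  have h1 := Polynomial.aeval_algHom_apply
    ((MvPolynomial.aeval t : MvPolynomial τ ℂ →ₐ[ℂ] ℂ).mapMatrix (m := Fin d)) M p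
  have h2 : ∀ M : Matrix (Fin d) (Fin d) (MvPolynomial τ ℂ),
      (MvPolynomial.aeval t : MvPolynomial τ ℂ →ₐ[ℂ] ℂ).mapMatrix M = M.map (eval t) := by
    intro M
    rfl
  rw [h2, h2] at h1
  exact h1.symm

/-- Pairs `(A, p(A))`. -/
theorem GD.of_poly (u : Rˣ) (hu : ∀ k : ℕ, 0 < k → (φ u) ^ k ≠ 1)
    (A : Matrix (Fin d) (Fin d) ℂ) (p : Polynomial ℂ) :
    GD φ 1 A (Polynomial.aeval A p) := by
  -- distinct eigenvalues
  have hdist : ∀ (A : Matrix (Fin d) (Fin d) ℂ) (ω : Fin d → ℂ), Function.Injective ω →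
      A.charpoly = ∏ i, (Polynomial.X - Polynomial.C (ω i)) →
      GD φ 1 A (Polynomial.aeval A p) := by
    intro A ω hω hA
    obtain ⟨P, Q, hPQ, rfl⟩ := exists_diag_of_injective A ω hω hA
    rw [aeval_conj _ _ _ hPQ, aeval_diagonal]
    exact (GD.diag u hu _ _).conj P Q hPQ
  obtain ⟨δ, ν, -, hν, -, hJ⟩ := exists_jordan A
  obtain ⟨P, hP⟩ := hJ 1 one_ne_zero
  obtain ⟨T, hT⟩ : ∃ T : Matrix (Fin d) (Fin d) ℂ,
    T = diagonal δ + (1 : ℂ) • ν.map (Int.cast : ℤ → ℂ) := ⟨_, rfl⟩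
  obtain ⟨P', hP'⟩ : ∃ P' : Matrix (Fin d) (Fin d) ℂ, P' = (P : Matrix (Fin d) (Fin d) ℂ) :=
    ⟨_, rfl⟩
  obtain ⟨Q', hQ'⟩ : ∃ Q' : Matrix (Fin d) (Fin d) ℂ,
    Q' = ((P⁻¹ : (Matrix (Fin d) (Fin d) ℂ)ˣ) : Matrix (Fin d) (Fin d) ℂ) := ⟨_, rfl⟩
  have hPQ : P' * Q' = 1 := by rw [hP', hQ', Units.mul_inv]
  rw [← hT, ← hP', ← hQ'] at hP
  obtain ⟨D₀, hD₀⟩ : ∃ D₀ : Matrix (Fin d) (Fin d) ℂ, D₀ = diagonal fun i : Fin d => ((i : ℕ) : ℂ) :=
    ⟨_, rfl⟩
  -- the family
  obtain ⟨NA, hNA⟩ : ∃ NA : Matrix (Fin d) (Fin d) (MvPolynomial Unit ℂ),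
    NA = P'.map C * (T.map C + (X () : MvPolynomial Unit ℂ) • D₀.map C) * Q'.map C := ⟨_, rfl⟩
  have hNAt : ∀ t : Unit → ℂ, NA.map (eval t) = P' * (T + t () • D₀) * Q' := by
    intro t
    rw [hNA, Matrix.map_mul, Matrix.map_mul, map_C, map_C, Matrix.map_add _ (map_add _), map_C]
    congr 3
    ext i j
    simp
  obtain ⟨g, hg⟩ : ∃ g : MvPolynomial Unit ℂ, g = ∏ i : Fin d, ∏ j : Fin d,
    (if i = j then 1 else (C (δ i - δ j) + X () * C (((i : ℕ) : ℂ) - ((j : ℕ) : ℂ)))) := ⟨_, rfl⟩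
  have hg0 : g ≠ 0 := by
    rw [hg, Finset.prod_ne_zero_iff]
    intro i _
    rw [Finset.prod_ne_zero_iff]
    intro j _
    by_cases hij : i = j
    · rw [if_pos hij]
      exact one_ne_zero
    · rw [if_neg hij]
      intro h0
      have h1 := congrArg (eval fun _ : Unit => (0 : ℂ)) h0
      have h2 := congrArg (eval fun _ : Unit => (1 : ℂ)) h0
      simp only [map_add, map_mul, eval_C, eval_X, map_zero, zero_mul, add_zero, one_mul] at h1 h2
      rw [h1, zero_add, sub_eq_zero] at h2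
      exact hij (Fin.ext (Nat.cast_injective h2))
  have hg1 : ∀ t : Unit → ℂ, eval t g ≠ 0 →
      Function.Injective fun i : Fin d => δ i + t () * ((i : ℕ) : ℂ) := by
    intro t ht i j hij
    by_contra hne
    apply ht
    rw [hg, map_prod]
    apply Finset.prod_eq_zero (Finset.mem_univ i)
    rw [map_prod]
    apply Finset.prod_eq_zero (Finset.mem_univ j)
    rw [if_neg hne]
    simp only [map_add, map_mul, eval_C, eval_X]
    simp only at hij
    linear_combination hij
  have key := GD.polyfam (φ := φ) (μ := 1) (zd_ne hg0) NA (Polynomial.aeval NA p) (by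
    intro t ht
    rw [map_aeval_mat, hNAt]
    refine hdist _ (fun i : Fin d => δ i + t () * ((i : ℕ) : ℂ)) (hg1 t ht) ?_
    have h1 : (P' * (T + t () • D₀) * Q').charpoly = (T + t () • D₀).charpoly := by
      rw [Matrix.mul_assoc, Matrix.charpoly_mul_comm, Matrix.mul_assoc,
        mul_eq_one_comm.mp hPQ, Matrix.mul_one]
    rw [h1]
    have h2 : T + t () • D₀ = diagonal (fun i : Fin d => δ i + t () * ((i : ℕ) : ℂ)) +
        (1 : ℂ) • ν.map (Int.cast : ℤ → ℂ) := by
      rw [hT, hD₀]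
      ext i j
      by_cases hij : i = j
      · subst hij
        simp
        ring
      · simp [diagonal_apply_ne _ hij]
    rw [h2]
    exact charpoly_diag_add _ ν hν 1) (fun _ => 0)
  rw [map_aeval_mat, hNAt] at key
  rw [zero_smul, add_zero, ← hP] at key
  exact key

theorem kry_map {S T : Type*} [CommRing S] [CommRing T] (θ : S →+* T) (A : Mat d S)
    (v : Fin d → S) : (kry A v).map θ = kry (A.map θ) (fun i => θ (v i)) := by
  ext i j
  have h1 : (kry A v).map θ i j = θ (((A ^ (j : ℕ)) *ᵥ v) i) := rfl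
  have h2 : kry (A.map θ) (fun i => θ (v i)) i j =
    (((A.map θ) ^ (j : ℕ)) *ᵥ (fun i => θ (v i))) i := rfl
  rw [h1, h2, RingHom.map_mulVec, ← RingHom.mapMatrix_apply, ← RingHom.mapMatrix_apply, map_pow]
  rfl

/-- The commutant of a cyclic matrix. -/
theorem exists_poly_of_comm (A B : Mat d ℂ) (v : Fin d → ℂ) (hK : IsUnit (kry A v))
    (h : A * B = B * A) : ∃ p : Polynomial ℂ, B = Polynomial.aeval A p := by
  obtain ⟨K, hKv⟩ := hK
  obtain ⟨c, hc⟩ : ∃ c : Fin d → ℂ, c = ((K⁻¹ : (Mat d ℂ)ˣ) : Mat d ℂ) *ᵥ (B *ᵥ v) := ⟨_, rfl⟩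
  have h1 : (kry A v) *ᵥ c = B *ᵥ v := by
    rw [← hKv, hc, mulVec_mulVec, Units.mul_inv, one_mulVec]
  obtain ⟨p, hp⟩ : ∃ p : Polynomial ℂ,
    p = ∑ j : Fin d, Polynomial.C (c j) * Polynomial.X ^ (j : ℕ) := ⟨_, rfl⟩
  have h2 : Polynomial.aeval A p *ᵥ v = B *ᵥ v := by
    rw [← h1, hp, map_sum, Matrix.sum_mulVec]
    ext i
    rw [Matrix.mulVec, dotProduct, Finset.sum_apply]
    refine Finset.sum_congr rfl fun j _ => ?_
    rw [map_mul, map_pow, Polynomial.aeval_X, Polynomial.aeval_C, Algebra.algebraMap_eq_smul_one,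
      Matrix.smul_mul, Matrix.one_mul, smul_mulVec, Pi.smul_apply, smul_eq_mul, mul_comm]
    rfl
  refine ⟨p, ?_⟩
  have h3 := mul_kry B A v A h.symm
  have h4 := mul_kry (Polynomial.aeval A p) A v A (by
    have := congrArg (Polynomial.aeval A) (mul_comm p Polynomial.X)
    rwa [map_mul, map_mul, Polynomial.aeval_X] at this)
  rw [h2, ← h3, ← hKv] at h4
  exact (K.isUnit.mul_right_cancel h4).symm

/-- Commuting pairs are in the closure of the integral commuting pairs. -/
theorem GD.commuting (u : Rˣ) (hu : ∀ k : ℕ, 0 < k → (φ u) ^ k ≠ 1)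
    (A B : Mat d ℂ) (hAB : A * B = B * A) : GD φ 1 A B := by
  obtain ⟨N, v, hN, hv⟩ := exists_cyclic B
  obtain ⟨NA, hNA⟩ : ∃ NA : Mat d (MvPolynomial Bool ℂ),
    NA = (X false : MvPolynomial Bool ℂ) • A.map C + (X true : MvPolynomial Bool ℂ) • N.map C :=
    ⟨_, rfl⟩
  have hNAt : ∀ t : Bool → ℂ, NA.map (eval t) = t false • A + t true • N := by
    intro t
    rw [hNA]
    ext i j
    simp
  obtain ⟨g, hg⟩ : ∃ g : MvPolynomial Bool ℂ, g = (kry NA fun i => C (v i)).det := ⟨_, rfl⟩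
  have hgt : ∀ t : Bool → ℂ, eval t g = (kry (t false • A + t true • N) v).det := by
    intro t
    rw [hg, RingHom.map_det, RingHom.mapMatrix_apply, kry_map, hNAt]
    simp
  have hg0 : g ≠ 0 := by
    intro h0
    have h1 := hgt fun e => if e then 1 else 0
    rw [h0, map_zero] at h1
    simp only [if_true, one_smul] at h1
    have h2 : (kry N v).det ≠ 0 := ((Matrix.isUnit_iff_isUnit_det _).mp hv).ne_zero
    apply h2
    rw [h1]
    simp
  have key := GD.polyfam (φ := φ) (μ := 1) (zd_ne hg0) NA (B.map C) (by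
    intro t ht
    rw [hNAt, map_C]
    have ht' : eval t g ≠ 0 := ht
    rw [hgt] at ht'
    obtain ⟨p, hp⟩ := exists_poly_of_comm (t false • A + t true • N) B v
      ((Matrix.isUnit_iff_isUnit_det _).mpr (isUnit_iff_ne_zero.mpr ht')) (by
        rw [Matrix.add_mul, Matrix.mul_add, Matrix.smul_mul, Matrix.smul_mul, Matrix.mul_smul,
          Matrix.mul_smul, hAB, hN])
    rw [hp]
    exact GD.of_poly u hu _ p) (fun e => if e then 0 else 1)
  rw [hNAt, map_C] at key
  simpa using key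

end Vale.Agent.P002B.QB
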