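import Vale.Agent.P002B.QCommB3

/-!
# q-commuting pairs, part 4: the structure of q-commuting pairs
-/

namespace Vale.Agent.P002B.QB

open Matrix Vale.Agent.P002
open scoped Kronecker

/-- Kronecker products, reindexed. -/
def K {S : Type*} [CommRing S] {n m d : ℕ} (ε : Fin n × Fin m ≃ Fin d)
    (M : Matrix (Fin n) (Fin n) S) (a : Matrix (Fin m) (Fin m) S) : Matrix (Fin d) (Fin d) S :=
  (M ⊗ₖ a).submatrix ε.symm ε.symm

/-- The cyclic shift. -/
def shiftM (n : ℕ) (S : Type*) [CommRing S] : Matrix (Fin (n + 1)) (Fin (n + 1)) S :=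
  Matrix.of fun i j => if i = j + 1 then 1 else 0

section proj

variable {V : Type*} [AddCommGroup V] [Module ℂ V] (a : Module.End ℂ V) (q : ℂ) (n : ℕ)

/-- The projection to the eigenspace of `q ^ k`. -/
noncomputable def prj (k : ℕ) : Module.End ℂ V :=
  ((n + 1 : ℕ) : ℂ)⁻¹ • ∑ i ∈ Finset.range (n + 1), (q⁻¹ ^ (k * i)) • a ^ i

variable {a q n}

theorem prj_apply (k : ℕ) (v : V) : prj a q n k v =
    ((n + 1 : ℕ) : ℂ)⁻¹ • ∑ i ∈ Finset.range (n + 1), (q⁻¹ ^ (k * i)) • (a ^ i) v := by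
  rw [prj, LinearMap.smul_apply, LinearMap.sum_apply]
  rfl

theorem prj_eigen (hq : IsPrimitiveRoot q (n + 1)) {j k : ℕ} (hj : j < n + 1) (hk : k < n + 1)
    {v : V} (hv : a v = q ^ j • v) : prj a q n k v = if j = k then v else 0 := by
  have hq0 : q ≠ 0 := hq.ne_zero (Nat.succ_ne_zero n)
  have hpow : ∀ i : ℕ, (a ^ i) v = (q ^ j) ^ i • v := by
    intro i
    induction i with
    | zero => simp
    | succ i ih => rw [pow_succ', Module.End.mul_apply, ih, map_smul, hv, smul_smul, pow_succ]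
  have h1 : prj a q n k v =
      (((n + 1 : ℕ) : ℂ)⁻¹ * ∑ i ∈ Finset.range (n + 1), (q⁻¹ ^ k * q ^ j) ^ i) • v := by
    rw [prj_apply, mul_smul, Finset.sum_smul]
    congr 1
    refine Finset.sum_congr rfl fun i _ => ?_
    rw [hpow, smul_smul, pow_mul, mul_pow]
  rw [h1]
  by_cases hjk : j = k
  · rw [if_pos hjk, hjk]
    have h2 : q⁻¹ ^ k * q ^ k = 1 := by
      rw [← mul_pow, inv_mul_cancel₀ hq0, one_pow]
    rw [h2]
    simp only [one_pow, Finset.sum_const, Finset.card_range, nsmul_eq_mul, mul_one]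
    rw [inv_mul_cancel₀ (Nat.cast_ne_zero.mpr (Nat.succ_ne_zero n)), one_smul]
  · rw [if_neg hjk, gsum, mul_zero, zero_smul]
    · rw [mul_pow, ← pow_mul, ← pow_mul, mul_comm k, mul_comm j, pow_mul, pow_mul, inv_pow,
        hq.pow_eq_one, inv_one, one_pow, one_pow, one_mul]
    · intro h2
      apply hjk
      apply hq.pow_inj hj hk
      have h3 : q ^ k * (q⁻¹ ^ k * q ^ j) = q ^ k := by rw [h2, mul_one]
      rw [← mul_assoc, ← mul_pow, mul_inv_cancel₀ hq0, one_pow, one_mul] at h3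
      exact h3

theorem prj_sum (hq : IsPrimitiveRoot q (n + 1)) (v : V) :
    ∑ k ∈ Finset.range (n + 1), prj a q n k v = v := by
  have hq0 : q ≠ 0 := hq.ne_zero (Nat.succ_ne_zero n)
  simp only [prj_apply]
  rw [← Finset.smul_sum, Finset.sum_comm, Finset.sum_eq_single 0]
  · simp only [mul_zero, pow_zero, one_smul, Module.End.one_apply, Finset.sum_const,
      Finset.card_range]
    rw [← Nat.cast_smul_eq_nsmul ℂ, smul_smul,
      inv_mul_cancel₀ (Nat.cast_ne_zero.mpr (Nat.succ_ne_zero n)), one_smul]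
  · intro i hi hi0
    rw [← Finset.sum_smul]
    have h1 : ∑ k ∈ Finset.range (n + 1), q⁻¹ ^ (k * i) =
        ∑ k ∈ Finset.range (n + 1), (q⁻¹ ^ i) ^ k := by
      refine Finset.sum_congr rfl fun k _ => ?_
      rw [mul_comm, pow_mul]
    rw [h1, gsum, zero_smul]
    · rw [← pow_mul, mul_comm, pow_mul, inv_pow, hq.pow_eq_one, inv_one, one_pow]
    · intro h2
      apply hi0
      apply hq.pow_inj (Finset.mem_range.mp hi) (Nat.succ_pos n)
      rw [pow_zero]
      rw [inv_pow, inv_eq_one] at h2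
      exact h2
  · intro h
    exact absurd (Finset.mem_range.mpr (Nat.succ_pos n)) h

theorem prj_mem (hq : IsPrimitiveRoot q (n + 1)) (ha : a ^ (n + 1) = 1) (k : ℕ) (v : V) :
    a (prj a q n k v) = q ^ k • prj a q n k v := by
  have hq0 : q ≠ 0 := hq.ne_zero (Nat.succ_ne_zero n)
  rw [prj_apply, map_smul, map_sum, smul_comm]
  congr 1
  have h1 : ∑ i ∈ Finset.range (n + 1), a ((q⁻¹ ^ (k * i)) • (a ^ i) v) =
      q ^ k • ∑ i ∈ Finset.range (n + 1), (q⁻¹ ^ (k * (i + 1))) • (a ^ (i + 1)) v := by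
    rw [Finset.smul_sum]
    refine Finset.sum_congr rfl fun i _ => ?_
    rw [map_smul, ← Module.End.mul_apply, ← pow_succ', smul_smul]
    congr 1
    rw [mul_add, mul_one, pow_add, mul_left_comm, ← mul_pow, mul_inv_cancel₀ hq0, one_pow,
      mul_one]
  rw [h1]
  congr 1
  have h2 := Finset.sum_range_succ' (fun i => (q⁻¹ ^ (k * i)) • (a ^ i) v) (n + 1)
  have h3 := Finset.sum_range_succ (fun i => (q⁻¹ ^ (k * i)) • (a ^ i) v) (n + 1)
  rw [h3] at h2
  have h4 : (q⁻¹ ^ (k * (n + 1))) • (a ^ (n + 1)) v = (q⁻¹ ^ (k * 0)) • (a ^ 0) v := by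
    rw [ha, mul_comm, pow_mul, inv_pow, hq.pow_eq_one]
    simp
  rw [h4] at h2
  exact (add_right_cancel h2).symm

end proj

theorem structure_aux {d n : ℕ} (A' B' C E : Mat d ℂ) {q : ℂ} (hq : IsPrimitiveRoot q (n + 1))
    (hA : A' ^ (n + 1) = 1) (hB : B' ^ (n + 1) = 1) (hAB : A' * B' = q • (B' * A'))
    (hCA : C * A' = A' * C) (hCB : C * B' = B' * C) (hEA : E * A' = A' * E)
    (hEB : E * B' = B' * E) (hCE : C * E = E * C) :
    ∃ (m : ℕ) (ε : Fin (n + 1) × Fin m ≃ Fin d) (C₀ E₀ : Mat m ℂ) (P Q : Mat d ℂ),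
      P * Q = 1 ∧ C₀ * E₀ = E₀ * C₀ ∧
      A' * C = P * K ε (diagonal fun i : Fin (n + 1) => q ^ (i : ℕ)) C₀ * Q ∧
      B' * E = P * K ε (shiftM n ℂ) E₀ * Q := by
  classical
  have hq0 : q ≠ 0 := hq.ne_zero (Nat.succ_ne_zero n)
  obtain ⟨a, ha⟩ : ∃ a : Module.End ℂ (Fin d → ℂ), a = Matrix.toLinAlgEquiv' A' := ⟨_, rfl⟩
  obtain ⟨b, hb⟩ : ∃ b : Module.End ℂ (Fin d → ℂ), b = Matrix.toLinAlgEquiv' B' := ⟨_, rfl⟩
  obtain ⟨c, hc⟩ : ∃ c : Module.End ℂ (Fin d → ℂ), c = Matrix.toLinAlgEquiv' C := ⟨_, rfl⟩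
  obtain ⟨e, he⟩ : ∃ e : Module.End ℂ (Fin d → ℂ), e = Matrix.toLinAlgEquiv' E := ⟨_, rfl⟩
  have haA : ∀ v, a v = A' *ᵥ v := fun v => by rw [ha]; rfl
  have hbB : ∀ v, b v = B' *ᵥ v := fun v => by rw [hb]; rfl
  have hcC : ∀ v, c v = C *ᵥ v := fun v => by rw [hc]; rfl
  have heE : ∀ v, e v = E *ᵥ v := fun v => by rw [he]; rfl
  have han : a ^ (n + 1) = 1 := by rw [ha, ← map_pow, hA, map_one]
  have hbn : b ^ (n + 1) = 1 := by rw [hb, ← map_pow, hB, map_one]
  have hab : a * b = q • (b * a) := by rw [ha, hb, ← map_mul, hAB, map_smul, map_mul]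
  have hca : c * a = a * c := by rw [hc, ha, ← map_mul, hCA, map_mul]
  have hcb : Commute c b := by
    change c * b = b * c
    rw [hc, hb, ← map_mul, hCB, map_mul]
  have hea : e * a = a * e := by rw [he, ha, ← map_mul, hEA, map_mul]
  have heb : Commute e b := by
    change e * b = b * e
    rw [he, hb, ← map_mul, hEB, map_mul]
  have hce : c * e = e * c := by rw [hc, he, ← map_mul, hCE, map_mul]
  have habk : ∀ k : ℕ, a * b ^ k = q ^ k • (b ^ k * a) := by
    intro k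
    induction k with
    | zero => simp
    | succ k ih =>
      rw [pow_succ, ← mul_assoc, ih, smul_mul_assoc, mul_assoc, hab, mul_smul_comm, smul_smul,
        ← mul_assoc, ← pow_succ, ← pow_succ]
  obtain ⟨V₀, hV₀⟩ : ∃ V₀ : Submodule ℂ (Fin d → ℂ), V₀ = LinearMap.ker (a - 1) := ⟨_, rfl⟩
  have hmem : ∀ v, v ∈ V₀ ↔ a v = v := by
    intro v
    rw [hV₀, LinearMap.mem_ker, LinearMap.sub_apply, Module.End.one_apply, sub_eq_zero]
  let e₀ : Module.Basis (Fin (Module.finrank ℂ V₀)) ℂ V₀ := Module.finBasis ℂ V₀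
  -- the isomorphism
  let f : (Fin (n + 1) → V₀) →ₗ[ℂ] (Fin d → ℂ) :=
    { toFun := fun w => ∑ j : Fin (n + 1), (b ^ (j : ℕ)) (w j : Fin d → ℂ)
      map_add' := fun w w' => by
        rw [← Finset.sum_add_distrib]
        refine Finset.sum_congr rfl fun j _ => ?_
        rw [Pi.add_apply, Submodule.coe_add, map_add]
      map_smul' := fun z w => by
        rw [RingHom.id_apply, Finset.smul_sum]
        refine Finset.sum_congr rfl fun j _ => ?_
        rw [Pi.smul_apply, Submodule.coe_smul, map_smul] }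
  have hf : ∀ w, f w = ∑ j : Fin (n + 1), (b ^ (j : ℕ)) (w j : Fin d → ℂ) := fun _ => rfl
  have heig : ∀ (j : ℕ) (w : V₀), a ((b ^ j) (w : Fin d → ℂ)) = q ^ j • (b ^ j) (w : Fin d → ℂ) := by
    intro j w
    rw [← Module.End.mul_apply, habk, LinearMap.smul_apply, Module.End.mul_apply,
      (hmem _).mp w.2]
  have hfi : Function.Injective f := by
    rw [← LinearMap.ker_eq_bot, LinearMap.ker_eq_bot']
    intro w hw
    funext k
    have h1 : prj a q n (k : ℕ) (f w) = (b ^ (k : ℕ)) (w k : Fin d → ℂ) := by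
      rw [hf, map_sum, Finset.sum_eq_single k]
      · rw [prj_eigen hq k.2 k.2 (heig _ _), if_pos rfl]
      · intro j _ hj
        rw [prj_eigen hq j.2 k.2 (heig _ _), if_neg fun h => hj (Fin.ext h)]
      · intro h
        exact absurd (Finset.mem_univ _) h
    rw [hw, map_zero] at h1
    have h2 : (b ^ (n + 1 - (k : ℕ))) ((b ^ (k : ℕ)) (w k : Fin d → ℂ)) = 0 := by
      rw [← h1, map_zero]
    rw [← Module.End.mul_apply, ← pow_add, Nat.sub_add_cancel (le_of_lt k.2), hbn,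
      Module.End.one_apply] at h2
    exact Subtype.ext h2
  have hfs : Function.Surjective f := by
    intro v
    refine ⟨fun k => ⟨(b ^ (n + 1 - (k : ℕ))) (prj a q n (k : ℕ) v), ?_⟩, ?_⟩
    · rw [hmem, ← Module.End.mul_apply, habk, LinearMap.smul_apply, Module.End.mul_apply,
        prj_mem hq han, map_smul, smul_smul, ← pow_add, Nat.sub_add_cancel (le_of_lt k.2),
        hq.pow_eq_one, one_smul]
    · rw [hf]
      have h1 : ∀ k : Fin (n + 1), (b ^ (k : ℕ)) ((b ^ (n + 1 - (k : ℕ))) (prj a q n (k : ℕ) v)) =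
          prj a q n (k : ℕ) v := by
        intro k
        rw [← Module.End.mul_apply, ← pow_add, Nat.add_sub_cancel' (le_of_lt k.2), hbn,
          Module.End.one_apply]
      simp only [h1]
      have h2 := prj_sum (a := a) hq v
      rw [Finset.sum_range] at h2
      exact h2
  let bb : Module.Basis (Fin (n + 1) × Fin (Module.finrank ℂ V₀)) ℂ (Fin d → ℂ) :=
    ((Pi.basis fun _ : Fin (n + 1) => e₀).map (LinearEquiv.ofBijective f ⟨hfi, hfs⟩)).reindex
      (Equiv.sigmaEquivProd _ _)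
  have hbb : ∀ s, bb s = (b ^ (s.1 : ℕ)) (e₀ s.2 : Fin d → ℂ) := by
    rintro ⟨i, k⟩
    have h1 : bb (i, k) = f (Pi.single i (e₀ k)) := by
      simp only [bb]
      rw [Module.Basis.reindex_apply, Module.Basis.map_apply, Pi.basis_apply]
      rfl
    rw [h1, hf, Finset.sum_eq_single i]
    · rw [Pi.single_eq_same]
    · intro j _ hj
      rw [Pi.single_eq_of_ne hj, Submodule.coe_zero, map_zero]
    · intro h
      exact absurd (Finset.mem_univ _) h
  have hcard : Fintype.card (Fin (n + 1) × Fin (Module.finrank ℂ V₀)) = d := by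
    rw [← Module.finrank_eq_card_basis bb, Module.finrank_fin_fun]
  let ε : Fin (n + 1) × Fin (Module.finrank ℂ V₀) ≃ Fin d := Fintype.equivFinOfCardEq hcard
  obtain ⟨P, hP⟩ : ∃ P : Mat d ℂ, P = Matrix.of fun x j => bb (ε.symm j) x := ⟨_, rfl⟩
  have hPu : IsUnit P := by
    rw [← Matrix.linearIndependent_cols_iff_isUnit, hP]
    exact bb.linearIndependent.comp ε.symm ε.symm.injective
  have colrel : ∀ (X : Mat d ℂ) (M : Matrix (Fin (n + 1)) (Fin (n + 1)) ℂ)
      (X₀ : Mat (Module.finrank ℂ V₀) ℂ),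
      (∀ s, X *ᵥ (bb s) = ∑ s', (M ⊗ₖ X₀) s' s • bb s') → X * P = P * K ε M X₀ := by
    intro X M X₀ h
    ext x j
    have h1 := congrFun (h (ε.symm j)) x
    have h2 : (X * P) x j = (X *ᵥ (bb (ε.symm j))) x := by
      rw [Matrix.mul_apply, Matrix.mulVec, dotProduct, hP]
      rfl
    rw [h2, h1, Finset.sum_apply, Matrix.mul_apply, ← Equiv.sum_comp ε]
    refine Finset.sum_congr rfl fun s' _ => ?_
    rw [Pi.smul_apply, smul_eq_mul, K, Matrix.submatrix_apply, Equiv.symm_apply_apply, hP,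
      Matrix.of_apply, Equiv.symm_apply_apply, mul_comm]
  have hc0 : ∀ x ∈ V₀, c x ∈ V₀ := by
    intro x hx
    rw [hmem] at hx ⊢
    rw [← Module.End.mul_apply, ← hca, Module.End.mul_apply, hx]
  have he0 : ∀ x ∈ V₀, e x ∈ V₀ := by
    intro x hx
    rw [hmem] at hx ⊢
    rw [← Module.End.mul_apply, ← hea, Module.End.mul_apply, hx]
  have hres : ∀ (y : Module.End ℂ (Fin d → ℂ)) (hy : ∀ x ∈ V₀, y x ∈ V₀)
      (k : Fin (Module.finrank ℂ V₀)), y (e₀ k : Fin d → ℂ) =
        ∑ l, (LinearMap.toMatrixAlgEquiv e₀ (y.restrict hy)) l k • (e₀ l : Fin d → ℂ) := by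
    intro y hy k
    have h1 := e₀.sum_repr ((y.restrict hy) (e₀ k))
    have h2 := congrArg (Submodule.subtype V₀) h1
    rw [map_sum] at h2
    simp only [map_smul, Submodule.subtype_apply] at h2
    have h3 : (((y.restrict hy) (e₀ k) : V₀) : Fin d → ℂ) = y (e₀ k : Fin d → ℂ) := rfl
    rw [← h3, ← h2]
    refine Finset.sum_congr rfl fun l _ => ?_
    rw [LinearMap.toMatrixAlgEquiv_apply]
  refine ⟨Module.finrank ℂ V₀, ε, LinearMap.toMatrixAlgEquiv e₀ (c.restrict hc0),
    LinearMap.toMatrixAlgEquiv e₀ (e.restrict he0), P, P⁻¹, ?_, ?_, ?_, ?_⟩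
  · exact Matrix.mul_nonsing_inv P ((Matrix.isUnit_iff_isUnit_det _).mp hPu)
  · rw [← map_mul, ← map_mul]
    congr 1
    apply LinearMap.ext
    intro x
    apply Subtype.ext
    have h1 := LinearMap.congr_fun hce (x : Fin d → ℂ)
    exact h1
  · have h1 : (A' * C) * P = P * K ε (diagonal fun i : Fin (n + 1) => q ^ (i : ℕ))
        (LinearMap.toMatrixAlgEquiv e₀ (c.restrict hc0)) := by
      apply colrel
      rintro ⟨i, k⟩
      have h2 : (A' * C) *ᵥ (bb (i, k)) = q ^ (i : ℕ) • (b ^ (i : ℕ)) (c (e₀ k : Fin d → ℂ)) := by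
        rw [← mulVec_mulVec, ← hcC, ← haA, hbb]
        have h3 : c ((b ^ (i : ℕ)) (e₀ k : Fin d → ℂ)) = (b ^ (i : ℕ)) (c (e₀ k : Fin d → ℂ)) :=
          LinearMap.congr_fun (hcb.pow_right (i : ℕ)).eq _
        simp only
        rw [h3]
        exact heig i ⟨c (e₀ k : Fin d → ℂ), hc0 _ (e₀ k).2⟩
      rw [h2, hres c hc0, Fintype.sum_prod_type, Finset.sum_eq_single i]
      · rw [map_sum, Finset.smul_sum]
        refine Finset.sum_congr rfl fun l _ => ?_
        rw [map_smul, smul_smul, Matrix.kroneckerMap_apply, diagonal_apply_eq, hbb]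
      · intro j _ hj
        refine Finset.sum_eq_zero fun l _ => ?_
        rw [Matrix.kroneckerMap_apply, diagonal_apply_ne _ hj, zero_mul, zero_smul]
      · intro h
        exact absurd (Finset.mem_univ _) h
    rw [← h1, Matrix.mul_assoc (A' * C),
      Matrix.mul_nonsing_inv P ((Matrix.isUnit_iff_isUnit_det _).mp hPu), Matrix.mul_one]
  · have h1 : (B' * E) * P = P * K ε (shiftM n ℂ)
        (LinearMap.toMatrixAlgEquiv e₀ (e.restrict he0)) := by
      apply colrel
      rintro ⟨i, k⟩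
      have h2 : (B' * E) *ᵥ (bb (i, k)) =
          (b ^ ((i + 1 : Fin (n + 1)) : ℕ)) (e (e₀ k : Fin d → ℂ)) := by
        rw [← mulVec_mulVec, ← heE, ← hbB, hbb]
        have h3 : e ((b ^ (i : ℕ)) (e₀ k : Fin d → ℂ)) = (b ^ (i : ℕ)) (e (e₀ k : Fin d → ℂ)) :=
          LinearMap.congr_fun (heb.pow_right (i : ℕ)).eq _
        simp only
        rw [h3, ← Module.End.mul_apply, ← pow_succ']
        have h4 : b ^ ((i : ℕ) + 1) = b ^ ((i + 1 : Fin (n + 1)) : ℕ) := by
          rw [pow_eq_pow_mod _ hbn, Fin.val_add, Fin.val_one']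
          congr 1
          rw [Nat.add_mod_mod]
        rw [h4]
      rw [h2, hres e he0, Fintype.sum_prod_type, Finset.sum_eq_single (i + 1)]
      · rw [map_sum]
        refine Finset.sum_congr rfl fun l _ => ?_
        rw [map_smul, Matrix.kroneckerMap_apply, shiftM, Matrix.of_apply, if_pos rfl, one_mul, hbb]
      · intro j _ hj
        refine Finset.sum_eq_zero fun l _ => ?_
        rw [Matrix.kroneckerMap_apply, shiftM, Matrix.of_apply, if_neg hj, zero_mul, zero_smul]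
      · intro h
        exact absurd (Finset.mem_univ _) h
    rw [← h1, Matrix.mul_assoc (B' * E),
      Matrix.mul_nonsing_inv P ((Matrix.isUnit_iff_isUnit_det _).mp hPu), Matrix.mul_one]

end Vale.Agent.P002B.QB
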