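import Vale.Agent.P002B.Stmts
import Vale.Agent.P002B.QCommB2
import Vale.Agent.P002B.QCommB4

/-!
# q-commuting pairs, part 5: the density theorem in genus one
-/

namespace Vale.Agent.P002B.QB

open Matrix Vale.Agent.P002R Vale.Agent.P002L
open scoped Kronecker

section kron

variable {S T : Type*} [CommRing S] [CommRing T] {n m d : ℕ} (ε : Fin n × Fin m ≃ Fin d)

theorem K_mul (M M' : Matrix (Fin n) (Fin n) S) (a a' : Matrix (Fin m) (Fin m) S) :
    K ε M a * K ε M' a' = K ε (M * M') (a * a') := by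
  rw [K, K, K, Matrix.submatrix_mul_equiv, Matrix.mul_kronecker_mul]

theorem K_one : K ε (1 : Matrix (Fin n) (Fin n) S) (1 : Matrix (Fin m) (Fin m) S) = 1 := by
  rw [K, Matrix.one_kronecker_one, Matrix.submatrix_one_equiv]

theorem K_smul (c : S) (M : Matrix (Fin n) (Fin n) S) (a : Matrix (Fin m) (Fin m) S) :
    K ε (c • M) a = c • K ε M a := by
  ext i j
  simp [K, mul_assoc]

theorem K_map (θ : S →+* T) (M : Matrix (Fin n) (Fin n) S) (a : Matrix (Fin m) (Fin m) S) :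
    (K ε M a).map θ = K ε (M.map θ) (a.map θ) := by
  ext i j
  simp [K]

theorem K_unit {M : Matrix (Fin n) (Fin n) S} {a : Matrix (Fin m) (Fin m) S} (hM : IsUnit M)
    (ha : IsUnit a) : IsUnit (K ε M a) := by
  obtain ⟨M, rfl⟩ := hM
  obtain ⟨a, rfl⟩ := ha
  refine ⟨⟨K ε M a, K ε ((M⁻¹ : (Matrix (Fin n) (Fin n) S)ˣ) : Matrix (Fin n) (Fin n) S)
    ((a⁻¹ : (Matrix (Fin m) (Fin m) S)ˣ) : Matrix (Fin m) (Fin m) S), ?_, ?_⟩, rfl⟩
  · rw [K_mul, Units.mul_inv, Units.mul_inv, K_one]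
  · rw [K_mul, Units.inv_mul, Units.inv_mul, K_one]

theorem shiftM_map (n : ℕ) (θ : S →+* T) : (shiftM n S).map θ = shiftM n T := by
  ext i j
  simp only [shiftM, Matrix.map_apply, Matrix.of_apply]
  split
  · exact map_one θ
  · exact map_zero θ

theorem shiftM_unit (n : ℕ) : IsUnit (shiftM n S) := by
  have h : shiftM n S * (Matrix.of fun i j : Fin (n + 1) => if j = i + 1 then (1 : S) else 0) =
      1 := by
    ext i k
    rw [Matrix.mul_apply, Finset.sum_eq_single (i - 1)]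
    · simp only [shiftM, Matrix.of_apply, sub_add_cancel, if_true, one_mul, Matrix.one_apply]
      by_cases hik : i = k
      · rw [if_pos hik, if_pos hik.symm]
      · rw [if_neg hik, if_neg (Ne.symm hik)]
    · intro j _ hj
      have h1 : ¬ i = j + 1 := fun h => hj (eq_sub_of_add_eq h.symm)
      simp only [shiftM, Matrix.of_apply, if_neg h1, zero_mul]
    · intro h
      exact absurd (Finset.mem_univ _) h
  exact ⟨⟨_, _, h, mul_eq_one_comm.mp h⟩, rfl⟩

theorem clock_unit {n : ℕ} {μ : S} (hμ : μ ^ (n + 1) = 1) :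
    IsUnit (diagonal fun i : Fin (n + 1) => μ ^ (i : ℕ)) := by
  have h : (diagonal fun i : Fin (n + 1) => μ ^ (i : ℕ)) *
      (diagonal fun i : Fin (n + 1) => (μ ^ n) ^ (i : ℕ)) = 1 := by
    rw [diagonal_mul_diagonal]
    have h1 : ∀ i : Fin (n + 1), μ ^ (i : ℕ) * (μ ^ n) ^ (i : ℕ) = 1 := by
      intro i
      rw [← mul_pow, ← pow_succ', hμ, one_pow]
    simp [h1]
  exact ⟨⟨_, _, h, mul_eq_one_comm.mp h⟩, rfl⟩

theorem clock_shift {n : ℕ} {μ : S} (hμ : μ ^ (n + 1) = 1) :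
    (diagonal fun i : Fin (n + 1) => μ ^ (i : ℕ)) * shiftM n S =
      μ • (shiftM n S * diagonal fun i : Fin (n + 1) => μ ^ (i : ℕ)) := by
  ext i j
  rw [diagonal_mul, Matrix.smul_apply, mul_diagonal, smul_eq_mul, shiftM, Matrix.of_apply]
  by_cases hij : i = j + 1
  · rw [if_pos hij, mul_one, one_mul, ← pow_succ', hij, Fin.val_add, Fin.val_one',
      Nat.add_mod_mod, ← pow_eq_pow_mod _ hμ]
  · rw [if_neg hij, mul_zero, zero_mul, mul_zero]

theorem Sol.kron {n m d : ℕ} (ε : Fin (n + 1) × Fin m ≃ Fin d) {μ : S} (hμ : μ ^ (n + 1) = 1)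
    {a b : Matrix (Fin m) (Fin m) S} (h : Sol (1 : S) a b) :
    Sol μ (K ε (diagonal fun i : Fin (n + 1) => μ ^ (i : ℕ)) a) (K ε (shiftM n S) b) := by
  refine ⟨K_unit ε (clock_unit hμ) h.1, K_unit ε (shiftM_unit n) h.2.1, ?_⟩
  have h1 := h.2.2
  rw [one_smul] at h1
  rw [K_mul, K_mul, clock_shift hμ, K_smul, h1]

end kron

variable {R : Type*} [CommRing R] {φ : R →+* ℂ} {μ : R} {d : ℕ}

theorem GD.kron {n m : ℕ} (ε : Fin (n + 1) × Fin m ≃ Fin d) (hμ : μ ^ (n + 1) = 1)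
    {C₀ E₀ : Matrix (Fin m) (Fin m) ℂ} (h : GD φ (1 : R) C₀ E₀) :
    GD φ μ (K ε (diagonal fun i : Fin (n + 1) => (φ μ) ^ (i : ℕ)) C₀)
      (K ε (shiftM n ℂ) E₀) := by
  have hd : ∀ (τ : Type) (t : τ → ℂ), ((diagonal fun i : Fin (n + 1) =>
      (MvPolynomial.C ((φ μ) ^ (i : ℕ)) : MvPolynomial τ ℂ))).map (MvPolynomial.eval t) =
        diagonal fun i : Fin (n + 1) => (φ μ) ^ (i : ℕ) := by
    intro τ t
    rw [Matrix.diagonal_map (map_zero _)]
    simp
  have h1 := h.subst (μ' := μ)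
    (K ε (diagonal fun i : Fin (n + 1) => MvPolynomial.C ((φ μ) ^ (i : ℕ))) (gen m false))
    (K ε (shiftM n _) (gen m true)) (by
      intro a b hab
      refine ⟨_, _, hab.kron ε hμ, ?_, ?_⟩
      · rw [K_map, K_map, hd, gen_false, Matrix.diagonal_map (map_zero _)]
        simp
      · rw [K_map, K_map, shiftM_map, shiftM_map, gen_true])
  rw [K_map, K_map, hd, gen_false, shiftM_map, gen_true] at h1
  exact h1

theorem comm_aeval {X Y : Mat d ℂ} (h : X * Y = Y * X) (p : Polynomial ℂ) :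
    Polynomial.aeval X p * Y = Y * Polynomial.aeval X p := by
  rw [Polynomial.aeval_eq_sum_range, Finset.sum_mul, Finset.mul_sum]
  refine Finset.sum_congr rfl fun k _ => ?_
  have h1 : Commute X Y := h
  rw [Matrix.smul_mul, Matrix.mul_smul, (h1.pow_left k).eq]

/-- All q-commuting pairs are in the closure of the integral ones. -/
theorem GD.all (hφ : Function.Injective φ) (u : Rˣ) (hu : ∀ k : ℕ, 0 < k → (φ u) ^ k ≠ 1)
    (hd : 0 < d) (A B : Mat d ℂ) (hA : IsUnit A) (hB : IsUnit B)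
    (hAB : A * B = φ μ • (B * A)) : GD φ μ A B := by
  obtain ⟨q, hq⟩ : ∃ q, q = φ μ := ⟨_, rfl⟩
  rw [← hq] at hAB
  have hqd : q ^ d = 1 := by
    have h1 := congrArg Matrix.det hAB
    rw [Matrix.det_smul, Fintype.card_fin, Matrix.det_mul, Matrix.det_mul, mul_comm B.det] at h1
    have h2 : A.det * B.det ≠ 0 :=
      mul_ne_zero ((Matrix.isUnit_iff_isUnit_det _).mp hA).ne_zero
        ((Matrix.isUnit_iff_isUnit_det _).mp hB).ne_zero
    have h3 : 1 * (A.det * B.det) = q ^ d * (A.det * B.det) := by rw [one_mul]; exact h1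
    exact (mul_right_cancel₀ h2 h3).symm
  have hord : 0 < orderOf q := orderOf_pos_iff.mpr (isOfFinOrder_iff_pow_eq_one.mpr ⟨d, hd, hqd⟩)
  obtain ⟨n, hn⟩ : ∃ n, orderOf q = n + 1 := ⟨orderOf q - 1, by omega⟩
  have hprim : IsPrimitiveRoot q (n + 1) := by
    rw [← hn]
    exact IsPrimitiveRoot.orderOf q
  have hqn : q ^ (n + 1) = 1 := hprim.pow_eq_one
  have hμ : μ ^ (n + 1) = 1 := by
    apply hφ
    rw [map_pow, ← hq, hqn, map_one]
  have hApow : ∀ k : ℕ, A ^ k * B = q ^ k • (B * A ^ k) := by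
    intro k
    induction k with
    | zero => simp
    | succ k ih =>
      rw [pow_succ', mul_assoc, ih, Matrix.mul_smul, ← mul_assoc, hAB, Matrix.smul_mul, smul_smul,
        mul_assoc, ← pow_succ', ← pow_succ]
  have hBpow : ∀ k : ℕ, A * B ^ k = q ^ k • (B ^ k * A) := by
    intro k
    induction k with
    | zero => simp
    | succ k ih =>
      rw [pow_succ, ← mul_assoc, ih, Matrix.smul_mul, mul_assoc, hAB, Matrix.mul_smul, smul_smul,
        ← mul_assoc, ← pow_succ, ← pow_succ]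
  have hXB : A ^ (n + 1) * B = B * A ^ (n + 1) := by rw [hApow, hqn, one_smul]
  have hYA : B ^ (n + 1) * A = A * B ^ (n + 1) := by rw [hBpow, hqn, one_smul]
  obtain ⟨p, hp⟩ := exists_root (A ^ (n + 1)) (hA.pow _) (Nat.succ_pos n)
  obtain ⟨p', hp'⟩ := exists_root (B ^ (n + 1)) (hB.pow _) (Nat.succ_pos n)
  obtain ⟨C, hC⟩ : ∃ C, C = Polynomial.aeval (A ^ (n + 1)) p := ⟨_, rfl⟩
  obtain ⟨E, hE⟩ : ∃ E, E = Polynomial.aeval (B ^ (n + 1)) p' := ⟨_, rfl⟩
  rw [← hC] at hp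
  rw [← hE] at hp'
  have hCu : IsUnit C := (isUnit_pow_iff (Nat.succ_ne_zero n)).mp (hp ▸ hA.pow _)
  have hEu : IsUnit E := (isUnit_pow_iff (Nat.succ_ne_zero n)).mp (hp' ▸ hB.pow _)
  have hCA : Commute C A := by
    rw [hC]
    exact comm_aeval (by rw [← pow_succ, ← pow_succ']) p
  have hCB : Commute C B := by
    rw [hC]
    exact comm_aeval hXB p
  have hEA : Commute E A := by
    rw [hE]
    exact comm_aeval hYA p'
  have hEB : Commute E B := by
    rw [hE]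
    exact comm_aeval (by rw [← pow_succ, ← pow_succ']) p'
  have hCE : Commute C E := by
    rw [hE]
    exact (comm_aeval ((hCB.pow_right (n + 1)).symm.eq) p').symm
  obtain ⟨uC, hUC⟩ := hCu
  obtain ⟨uE, hUE⟩ := hEu
  obtain ⟨Ci, hCi⟩ : ∃ Ci : Mat d ℂ, Ci = ((uC⁻¹ : (Mat d ℂ)ˣ) : Mat d ℂ) := ⟨_, rfl⟩
  obtain ⟨Ei, hEi⟩ : ∃ Ei : Mat d ℂ, Ei = ((uE⁻¹ : (Mat d ℂ)ˣ) : Mat d ℂ) := ⟨_, rfl⟩
  have hCC : C * Ci = 1 := by rw [← hUC, hCi, Units.mul_inv]
  have hCC' : Ci * C = 1 := by rw [← hUC, hCi, Units.inv_mul]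
  have hEE : E * Ei = 1 := by rw [← hUE, hEi, Units.mul_inv]
  have hEE' : Ei * E = 1 := by rw [← hUE, hEi, Units.inv_mul]
  have hinvC : ∀ Z : Mat d ℂ, Commute C Z → Commute Ci Z := by
    intro Z hZ
    rw [hCi]
    rw [← hUC] at hZ
    exact hZ.units_inv_left
  have hinvE : ∀ Z : Mat d ℂ, Commute E Z → Commute Ei Z := by
    intro Z hZ
    rw [hEi]
    rw [← hUE] at hZ
    exact hZ.units_inv_left
  have hA'C : (A * Ci) * C = A := by rw [mul_assoc, hCC', mul_one]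
  have hB'E : (B * Ei) * E = B := by rw [mul_assoc, hEE', mul_one]
  have hCCi : Commute C Ci := by
    change C * Ci = Ci * C
    rw [hCC, hCC']
  have hEEi : Commute E Ei := by
    change E * Ei = Ei * E
    rw [hEE, hEE']
  have hCEi : Commute C Ei := (hinvE C hCE.symm).symm
  have hECi : Commute E Ci := (hinvC E hCE).symm
  have hCiEi : Commute Ci Ei := hinvC Ei hCEi
  obtain ⟨m, ε, C₀, E₀, P, Q, hPQ, hcomm, h1, h2⟩ := structure_aux (A * Ci) (B * Ei) C E hprim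
    (by
      rw [(hinvC A hCA).symm.mul_pow, ← hp, ← hCCi.mul_pow, hCC, one_pow])
    (by
      rw [(hinvE B hEB).symm.mul_pow, ← hp', ← hEEi.mul_pow, hEE, one_pow])
    (by
      have e1 : A * Ci * (B * Ei) = A * B * (Ci * Ei) := by
        rw [mul_assoc, ← mul_assoc Ci, (hinvC B hCB).eq, mul_assoc, mul_assoc]
      have e2 : B * Ei * (A * Ci) = B * A * (Ci * Ei) := by
        rw [mul_assoc, ← mul_assoc Ei, (hinvE A hEA).eq, hCiEi.eq, mul_assoc, mul_assoc]
      rw [e1, e2, hAB, Matrix.smul_mul])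
    ((hCA.mul_right hCCi).eq) ((hCB.mul_right hCEi).eq) ((hEA.mul_right hECi).eq)
    ((hEB.mul_right hEEi).eq) hCE.eq
  rw [hA'C] at h1
  rw [hB'E] at h2
  rw [h1, h2, hq]
  exact (GD.kron ε hμ (GD.commuting u hu C₀ E₀ hcomm)).conj P Q hPQ

/-- T11. The density theorem in genus one. -/
theorem surfCl_one : SurfCl 1 := by
  intro R _ φ E r d hd hdr hc μ a b hab f hf
  have hswd : ∀ {G : Type} [Group G] (a b : Fin 1 → G),
      swd a b = a 0 * b 0 * (a 0)⁻¹ * (b 0)⁻¹ := by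
    intro G _ a b
    simp [swd]
  obtain ⟨u, hu⟩ := hc.unit
  have hu' : ∀ k : ℕ, 0 < k → (φ u) ^ k ≠ 1 := by
    intro k hk h
    apply hu k hk
    have h1 : Units.map (φ : R →* ℂ) u ^ k = 1 := by
      ext
      rw [Units.val_pow_eq_pow_val]
      exact h
    rw [h1]
    exact E.one_mem
  rw [hswd] at hab
  have h1 : (a 0 : Mat d ℂ) * (b 0 : Mat d ℂ) = φ μ • ((b 0 : Mat d ℂ) * (a 0 : Mat d ℂ)) := by
    have h2 := congrArg (fun M : Mat d ℂ => M * ((b 0 : Mat d ℂ) * (a 0 : Mat d ℂ))) hab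
    simp only [Matrix.smul_mul, Matrix.one_mul] at h2
    rw [← h2, ← Units.val_mul, ← Units.val_mul, ← Units.val_mul]
    congr 1
    group
  have h2 := GD.all (φ := φ) (μ := (μ : R)) hc.inj u hu' hd (a 0 : Mat d ℂ) (b 0 : Mat d ℂ)
    (a 0).isUnit (b 0).isUnit h1 f (by
      intro a' b' hab'
      obtain ⟨⟨ua, rfl⟩, ⟨ub, rfl⟩, h3⟩ := hab'
      have h4 := hf (fun _ => ua) (fun _ => ub) (by
        rw [hswd, Units.val_mul, Units.val_mul, Units.val_mul, h3, Matrix.smul_mul,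
          Matrix.smul_mul, mul_assoc (ub : Mat d R), ← Units.val_mul ua, mul_inv_cancel,
          Units.val_one, mul_one, ← Units.val_mul, mul_inv_cancel, Units.val_one])
      rw [← h4]
      congr 2
      funext x
      rcases x with ⟨⟨i, e⟩, j, k⟩
      cases e <;> rfl)
  rw [← h2]
  congr 2
  funext x
  rcases x with ⟨⟨i, e⟩, j, k⟩
  have hi : i = 0 := Subsingleton.elim _ _
  subst hi
  cases e <;> rfl

end Vale.Agent.P002B.QB

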