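import Vale.Agent.P002B.Stmts2

/-!
# P002, genus 0, arbitrary classes: standard initial segments and trivial position
-/

namespace Vale.Agent.P002B

open Matrix Vale.Agent.P002R Vale.Agent.P002L

namespace SegPos

section

variable {r N : ℕ} {nm : Fin r → Fin N}

theorem mem_Fl {t : ℕ} {v : Fin r → ℂ} : v ∈ Fl nm t ↔ ∀ i, t ≤ (nm i : ℕ) → v i = 0 := Iff.rfl

theorem mem_Co {T : Fin N → Prop} {v : Fin r → ℂ} : v ∈ Co nm T ↔ ∀ i, ¬ T (nm i) → v i = 0 :=
  Iff.rfl

theorem Fl_eq_Co (t : ℕ) : Fl nm t = Co nm fun a => (a : ℕ) < t := by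
  ext v
  rw [mem_Fl, mem_Co]
  exact forall_congr' fun i => by rw [not_lt]

theorem Co_and (S T : Fin N → Prop) : Co nm S ⊓ Co nm T = Co nm fun a => S a ∧ T a := by
  ext v
  rw [Submodule.mem_inf, mem_Co, mem_Co, mem_Co]
  constructor
  · rintro ⟨h1, h2⟩ i hi
    by_cases hS : S (nm i)
    · exact h2 i fun hT => hi ⟨hS, hT⟩
    · exact h1 i hS
  · intro h
    exact ⟨fun i hi => h i fun hh => hi hh.1, fun i hi => h i fun hh => hi hh.2⟩

theorem Co_or (S T : Fin N → Prop) : Co nm S ⊔ Co nm T = Co nm fun a => S a ∨ T a := by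
  classical
  apply le_antisymm
  · exact sup_le (fun v hv i hi => hv i fun hh => hi (Or.inl hh))
      fun v hv i hi => hv i fun hh => hi (Or.inr hh)
  · intro v hv
    rw [Submodule.mem_sup]
    refine ⟨fun i => if S (nm i) then v i else 0, fun i hi => if_neg hi,
      fun i => if S (nm i) then 0 else v i, fun i hi => ?_, ?_⟩
    · show (if S (nm i) then (0 : ℂ) else v i) = 0
      by_cases hS : S (nm i)
      · exact if_pos hS
      · rw [if_neg hS]
        exact hv i fun hh => hh.elim hS hi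
    · funext i
      show (if S (nm i) then v i else 0) + (if S (nm i) then (0 : ℂ) else v i) = v i
      by_cases hS : S (nm i)
      · rw [if_pos hS, if_pos hS, add_zero]
      · rw [if_neg hS, if_neg hS, zero_add]

theorem BU_diag {u : Mat r ℂ} (hu : BU nm (bk N) u) (i : Fin r) : u i i = 1 := by
  rw [hu i i (lt_irrefl _), Matrix.one_apply_eq]

theorem BU_det (hm : Monotone nm) {u : Mat r ℂ} (hu : BU nm (bk N) u) : u.det = 1 := by
  rw [Matrix.det_of_isUpperTriangular]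
  · exact Finset.prod_eq_one fun i _ => BU_diag hu i
  · intro i j hij
    have hji : j < i := hij
    rw [hu i j (fun h => absurd (hm hji.le) (not_le.2 h)), Matrix.one_apply_ne hji.ne']

theorem BU_inj (hm : Monotone nm) {u : Mat r ℂ} (hu : BU nm (bk N) u) :
    Function.Injective (Matrix.mulVecLin u) := by
  have hun : IsUnit u := by
    rw [Matrix.isUnit_iff_isUnit_det, BU_det hm hu]
    exact isUnit_one
  have := Matrix.mulVec_injective_iff_isUnit.2 hun
  exact this

theorem BU_Fl_le {u : Mat r ℂ} (hu : BU nm (bk N) u) (t : ℕ) :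
    (Fl nm t).map (Matrix.mulVecLin u) ≤ Fl nm t := by
  rintro _ ⟨v, hv, rfl⟩ i hi
  rw [Matrix.mulVecLin_apply]
  show ∑ j, u i j * v j = 0
  refine Finset.sum_eq_zero fun j _ => ?_
  by_cases hj : t ≤ (nm j : ℕ)
  · rw [hv j hj, mul_zero]
  · have h1 : ¬ bk N (nm i) < bk N (nm j) := by
      show ¬ ((nm i : ℕ) < (nm j : ℕ))
      omega
    have h2 : i ≠ j := by
      rintro rfl
      exact hj hi
    rw [hu i j h1, Matrix.one_apply_ne h2, zero_mul]

theorem BU_Fl (hm : Monotone nm) {u : Mat r ℂ} (hu : BU nm (bk N) u) (t : ℕ) :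
    (Fl nm t).map (Matrix.mulVecLin u) = Fl nm t := by
  refine Submodule.eq_of_le_of_finrank_eq (BU_Fl_le hu t) ?_
  exact (Submodule.equivMapOfInjective _ (BU_inj hm hu) _).finrank_eq.symm

end

theorem seg_map {r N : ℕ} {nm : Fin r → Fin N} (hm : Monotone nm) (κ : Fin N → ℕ) (u X : Mat r ℂ)
    (E : ℕ → Submodule ℂ (Fin r → ℂ)) (hu : BU nm (bk N) u)
    (hE : ∀ j, E j = (Co nm fun a => κ a < j).map (Matrix.mulVecLin u)) (l t t' : ℕ) :
    (Co nm (Seg κ l t t')).map (Matrix.mulVecLin (X * u)) =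
      (E l ⊔ (E (l + 1) ⊓ Fl nm t) ⊔ Fl nm t').map (Matrix.mulVecLin X) := by
  rw [Matrix.mulVecLin_mul, Submodule.map_comp]
  congr 1
  rw [← BU_Fl hm hu t, ← BU_Fl hm hu t', hE l, hE (l + 1),
    ← Submodule.map_inf _ (BU_inj hm hu), ← Submodule.map_sup, ← Submodule.map_sup,
    Fl_eq_Co t, Fl_eq_Co t', Co_and, Co_or, Co_or]
  congr 2
  funext a
  apply propext
  show (κ a < l ∨ (κ a = l ∧ (a : ℕ) < t) ∨ (a : ℕ) < t') ↔ _
  constructor
  · rintro (h | ⟨h1, h2⟩ | h)
    · exact Or.inl (Or.inl h)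
    · exact Or.inl (Or.inr ⟨by omega, h2⟩)
    · exact Or.inr h
  · rintro ((h | ⟨h1, h2⟩) | h)
    · exact Or.inl h
    · rcases Nat.lt_or_ge (κ a) l with h3 | h3
      · exact Or.inl h3
      · exact Or.inr (Or.inl ⟨by omega, h2⟩)
    · exact Or.inr (Or.inr h)

theorem ip_iff {r N : ℕ} (nm : Fin r → Fin N) (X : Mat r ℂ) (T : Fin N → Prop) (c : Fin N) :
    IP nm X T c ↔
      Fl nm (c + 1) ≤ Fl nm c ⊔ (Fl nm (c + 1) ⊓ (Co nm T).map (Matrix.mulVecLin X)) := by
  classical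
  constructor
  · intro h z hz
    obtain ⟨v, h1, h2, h3⟩ := h z
    rw [Submodule.mem_sup]
    have hX : X *ᵥ v ∈ Fl nm (c + 1) := fun i hi => h2 i (Fin.lt_def.2 hi)
    refine ⟨z - X *ᵥ v, ?_, X *ᵥ v, Submodule.mem_inf.2 ⟨hX, v, h1, rfl⟩, sub_add_cancel _ _⟩
    intro i hi
    rw [Pi.sub_apply]
    rcases Nat.lt_or_ge (c : ℕ) (nm i : ℕ) with h4 | h4
    · rw [hz i h4, hX i h4, sub_zero]
    · rw [h3 i (Fin.ext (le_antisymm h4 hi)), sub_self]
  · intro h w
    have hz : (fun i => if nm i = c then w i else 0) ∈ Fl nm (c + 1) := by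
      intro i hi
      refine if_neg fun h4 => ?_
      rw [h4] at hi
      omega
    obtain ⟨a, ha, b, hb, hab⟩ := Submodule.mem_sup.1 (h hz)
    obtain ⟨hb1, v, hv, hvb⟩ := Submodule.mem_inf.1 hb
    rw [Matrix.mulVecLin_apply] at hvb
    refine ⟨v, hv, fun i hi => ?_, fun i hi => ?_⟩
    · rw [hvb]
      exact hb1 i (Fin.lt_def.1 hi)
    · have h5 := congrFun hab i
      rw [Pi.add_apply, if_pos hi, ha i (by rw [hi]), zero_add] at h5
      rw [hvb, h5]

end SegPos

open SegPos in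
/-- T6d. -/
theorem segPosStmt : SegPosStmt := by
  intro r N nm hm _
  refine ⟨fun κ u X E hu hE l t t' _ => seg_map hm κ u X E hu hE l t t', ?_, ip_iff nm⟩
  intro X T h c
  rcases h c with h | h
  · left
    intro v hv h2 i hi
    have h1 : X *ᵥ v ∈ Fl nm c := by
      rw [← h]
      exact Submodule.mem_sup_right (Submodule.mem_inf.2
        ⟨fun i hi => h2 i (Fin.lt_def.2 hi), v, hv, rfl⟩)
    exact h1 i (by rw [hi])
  · right
    rw [ip_iff]
    exact h.symm.le

end Vale.Agent.P002B
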