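import Vale.Agent.P002B.Star1B2

/-!
# P002B, T13a (B): the surface relation as a system of polynomial equations
-/

set_option linter.all false

namespace Vale.Agent.P002B.SB

open Matrix Module Vale.Agent.P002

variable {g d : ℕ}

section poly

variable {S S' : Type*} [CommRing S] [CommRing S']

/-- The matrices of a point. -/
def mt (Y : Ix g d → S) (i : Fin g) (e : Bool) : Mat d S := Matrix.of fun p q => Y ((i, e), (p, q))

theorem mt_map (φ : S →+* S') (Y : Ix g d → S) (i : Fin g) (e : Bool) :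
    mt (fun x => φ (Y x)) i e = (mt Y i e).map φ := by
  ext p q; rfl

/-- The word without denominators. -/
noncomputable def Wd (Y : Ix g d → S) : Mat d S :=
  (List.ofFn fun i => mt Y i false * mt Y i true * (mt Y i false).adjugate *
    (mt Y i true).adjugate).prod

/-- The denominator. -/
noncomputable def Dt (Y : Ix g d → S) : S := ∏ i, (mt Y i false).det * (mt Y i true).det

theorem Wd_map (φ : S →+* S') (Y : Ix g d → S) : Wd (fun x => φ (Y x)) = (Wd Y).map φ := by
  unfold Wd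
  have h := map_list_prod (φ.mapMatrix (m := Fin d)) (List.ofFn fun i => mt Y i false * mt Y i true *
    (mt Y i false).adjugate * (mt Y i true).adjugate)
  rw [RingHom.mapMatrix_apply] at h
  rw [h, List.map_ofFn]
  congr 2
  funext i
  simp only [Function.comp_apply, map_mul, RingHom.mapMatrix_apply, mt_map]
  rw [← RingHom.mapMatrix_apply, ← RingHom.mapMatrix_apply, ← RingHom.mapMatrix_apply,
    ← RingHom.mapMatrix_apply, RingHom.map_adjugate, RingHom.map_adjugate]

theorem Dt_map (φ : S →+* S') (Y : Ix g d → S) : Dt (fun x => φ (Y x)) = φ (Dt Y) := by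
  unfold Dt
  rw [map_prod]
  refine Finset.prod_congr rfl fun i _ => ?_
  rw [map_mul, mt_map, mt_map, RingHom.map_det, RingHom.map_det]
  rfl

end poly

theorem ofFn_units : ∀ (n : ℕ) (F : Fin n → (Mat d ℂ)ˣ) (c : Fin n → ℂ) (M : Fin n → Mat d ℂ),
    (∀ i, M i = c i • (F i : Mat d ℂ)) →
    (List.ofFn M).prod = (∏ i, c i) • (((List.ofFn F).prod : (Mat d ℂ)ˣ) : Mat d ℂ) := by
  intro n
  induction n with
  | zero => intro F c M h; simp
  | succ n ih =>
    intro F c M h
    rw [List.ofFn_succ, List.prod_cons, List.ofFn_succ, List.prod_cons, Fin.prod_univ_succ,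
      Units.val_mul, h 0, ih (fun i => F i.succ) (fun i => c i.succ) (fun i => M i.succ)
        fun i => h i.succ, Matrix.smul_mul, Matrix.mul_smul, smul_smul]

theorem adj_unit (A : (Mat d ℂ)ˣ) :
    (A : Mat d ℂ).adjugate = (A : Mat d ℂ).det • ((A⁻¹ : (Mat d ℂ)ˣ) : Mat d ℂ) := by
  have h1 := Matrix.adjugate_mul (A : Mat d ℂ)
  calc (A : Mat d ℂ).adjugate = (A : Mat d ℂ).adjugate * ((A : Mat d ℂ) *
        ((A⁻¹ : (Mat d ℂ)ˣ) : Mat d ℂ)) := by
        rw [← Units.val_mul, mul_inv_cancel, Units.val_one, Matrix.mul_one]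
    _ = _ := by rw [← Matrix.mul_assoc, h1, Matrix.smul_mul, Matrix.one_mul]

theorem Wd_units (a b : Fin g → (Mat d ℂ)ˣ) (Y : Ix g d → ℂ)
    (ha : ∀ i, mt Y i false = (a i : Mat d ℂ)) (hb : ∀ i, mt Y i true = (b i : Mat d ℂ)) :
    Wd Y = Dt Y • ((swd' a b : (Mat d ℂ)ˣ) : Mat d ℂ) := by
  unfold Wd Dt swd'
  refine ofFn_units g _ _ _ fun i => ?_
  rw [ha, hb, adj_unit, adj_unit]
  simp only [Matrix.mul_smul, Matrix.smul_mul, smul_smul, Units.val_mul]
  rw [mul_comm (a i : Mat d ℂ).det]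

theorem det_swd (a b : Fin g → (Mat d ℂ)ˣ) : ((swd' a b : (Mat d ℂ)ˣ) : Mat d ℂ).det = 1 := by
  have h : (Units.map (Matrix.detMonoidHom : Mat d ℂ →* ℂ)) (swd' a b) = 1 := by
    unfold swd'
    rw [map_list_prod]
    refine List.prod_eq_one fun x hx => ?_
    rw [List.mem_map] at hx
    obtain ⟨y, hy, rfl⟩ := hx
    rw [List.mem_ofFn] at hy
    obtain ⟨i, rfl⟩ := hy
    rw [map_mul, map_mul, map_mul, map_inv, map_inv]
    rw [mul_comm (Units.map _ (a i)), mul_assoc (Units.map _ (b i)), mul_inv_cancel, mul_one,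
      mul_inv_cancel]
  have h2 := congrArg Units.val h
  exact h2

/-- All entries but one. -/
theorem scalar_of_entries (hd : 0 < d) {W : Mat d ℂ} (hdet : W.det = 1) {z : ℂ} (hz : z ^ d = 1)
    (h : ∀ p : Fin d × Fin d, p ≠ (⟨0, hd⟩, ⟨0, hd⟩) → W p.1 p.2 = z * (1 : Mat d ℂ) p.1 p.2) :
    W = z • (1 : Mat d ℂ) := by
  have hz0 : z ≠ 0 := by
    intro h0
    rw [h0, zero_pow hd.ne'] at hz
    exact zero_ne_one hz
  have hoff : ∀ p q, p ≠ q → W p q = 0 := by
    intro p q hpq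
    have := h (p, q) (fun h0 => hpq ((congrArg Prod.fst h0).trans (congrArg Prod.snd h0).symm))
    rw [this]
    simp [hpq]
  have hdiag : W = Matrix.diagonal fun p => W p p := by
    ext p q
    by_cases hpq : p = q
    · rw [hpq, Matrix.diagonal_apply_eq]
    · rw [Matrix.diagonal_apply_ne _ hpq, hoff p q hpq]
  have hz1 : ∀ p : Fin d, p ≠ ⟨0, hd⟩ → W p p = z := by
    intro p hp
    have := h (p, p) (fun h0 => hp (congrArg Prod.fst h0))
    rw [this]
    simp
  have h0 : W ⟨0, hd⟩ ⟨0, hd⟩ = z := by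
    rw [hdiag, Matrix.det_diagonal, ← Finset.mul_prod_erase _ _ (Finset.mem_univ ⟨0, hd⟩),
      Finset.prod_congr rfl fun p hp => hz1 p (Finset.ne_of_mem_erase hp), Finset.prod_const,
      Finset.card_erase_of_mem (Finset.mem_univ _), Finset.card_univ, Fintype.card_fin] at hdet
    have h2 : z ^ d = z * z ^ (d - 1) := by
      rw [← pow_succ']
      congr 1
      omega
    rw [← hz, h2] at hdet
    exact mul_right_cancel₀ (pow_ne_zero _ hz0) hdet
  ext p q
  rw [Matrix.smul_apply, smul_eq_mul]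
  by_cases hpq : p = q
  · subst hpq
    rw [Matrix.one_apply_eq, mul_one]
    by_cases hp : p = ⟨0, hd⟩
    · rw [hp]; exact h0
    · exact hz1 p hp
  · rw [hoff p q hpq, Matrix.one_apply_ne hpq, mul_zero]

/-- The equations. -/
noncomputable def Eqn (K₀ : Subfield ℂ) (z : K₀) (p : Fin d × Fin d) :
    MvPolynomial (Ix g d) K₀ :=
  Wd (MvPolynomial.X : Ix g d → MvPolynomial (Ix g d) K₀) p.1 p.2 -
    MvPolynomial.C z * Dt (MvPolynomial.X : Ix g d → MvPolynomial (Ix g d) K₀) *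
      (1 : Mat d (MvPolynomial (Ix g d) K₀)) p.1 p.2

theorem Eqn_eval (K₀ : Subfield ℂ) (z : K₀) (p : Fin d × Fin d) (Y : Ix g d → ℂ) :
    MvPolynomial.aeval Y (Eqn (g := g) K₀ z p) =
      Wd Y p.1 p.2 - z * Dt Y * (1 : Mat d ℂ) p.1 p.2 := by
  unfold Eqn
  have h1 := Wd_map (MvPolynomial.aeval Y : MvPolynomial (Ix g d) K₀ →ₐ[K₀] ℂ).toRingHom
    (MvPolynomial.X : Ix g d → MvPolynomial (Ix g d) K₀)
  have h2 := Dt_map (MvPolynomial.aeval Y : MvPolynomial (Ix g d) K₀ →ₐ[K₀] ℂ).toRingHom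
    (MvPolynomial.X : Ix g d → MvPolynomial (Ix g d) K₀)
  have h3 : (fun x => (MvPolynomial.aeval Y : MvPolynomial (Ix g d) K₀ →ₐ[K₀] ℂ).toRingHom
      ((MvPolynomial.X : Ix g d → MvPolynomial (Ix g d) K₀) x)) = Y := by
    funext x
    exact MvPolynomial.aeval_X Y x
  rw [h3] at h1 h2
  have h4 : MvPolynomial.aeval Y (Wd (MvPolynomial.X : Ix g d → MvPolynomial (Ix g d) K₀) p.1 p.2)
      = Wd Y p.1 p.2 := by rw [h1]; rfl
  have h5 : MvPolynomial.aeval Y (Dt (MvPolynomial.X : Ix g d → MvPolynomial (Ix g d) K₀))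
      = Dt Y := by rw [h2]; rfl
  rw [map_sub, map_mul, map_mul, h4, h5, MvPolynomial.aeval_C]
  congr 2
  rw [Matrix.one_apply, Matrix.one_apply]
  split_ifs
  · rw [map_one]
  · rw [map_zero]

theorem det_eval (K₀ : Subfield ℂ) (i : Fin g) (e : Bool) (Y : Ix g d → ℂ) :
    MvPolynomial.aeval Y (mt (MvPolynomial.X : Ix g d → MvPolynomial (Ix g d) K₀) i e).det =
      (mt Y i e).det := by
  have h := RingHom.map_det (MvPolynomial.aeval Y : MvPolynomial (Ix g d) K₀ →ₐ[K₀] ℂ).toRingHom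
    (mt (MvPolynomial.X : Ix g d → MvPolynomial (Ix g d) K₀) i e)
  have h3 : (MvPolynomial.aeval Y : MvPolynomial (Ix g d) K₀ →ₐ[K₀] ℂ).toRingHom.mapMatrix
      (mt (MvPolynomial.X : Ix g d → MvPolynomial (Ix g d) K₀) i e) = mt Y i e := by
    ext p q
    exact MvPolynomial.aeval_X Y _
  rw [h3] at h
  exact h

end Vale.Agent.P002B.SB
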