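import Vale.Agent.P002B.Stmts2
import Vale.Agent.P002B.Star1B3

/-!
# P002B, T13a (B): Star1Stmt from GenStmt
-/

set_option linter.all false

namespace Vale.Agent.P002B.SB

open Matrix Module Vale.Agent.P002

variable {g d : ℕ}

theorem card_Ix (g d : ℕ) : Fintype.card (Ix g d) = 2 * g * (d * d) := by
  simp only [Fintype.card_prod, Fintype.card_fin, Fintype.card_bool]
  ring

theorem card_ne (p₀ : Fin d × Fin d) : Fintype.card {p : Fin d × Fin d // p ≠ p₀} + 1 = d * d := by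
  classical
  have h : 0 < d * d := by
    have := Fintype.card_pos_iff.2 ⟨p₀⟩
    simpa using this
  rw [Fintype.card_subtype_compl, Fintype.card_subtype_eq]
  simp only [Fintype.card_prod, Fintype.card_fin]
  omega

theorem star1 (h : GenStmt) : Star1Stmt := by
  classical
  intro g d hd z a b hz f hf
  -- the point
  set x₀ : Ix (g + 2) d → ℂ := crd (fun i => (a i : Mat d ℂ)) (fun i => (b i : Mat d ℂ)) with hx₀
  have hev : ∀ (a' b' : Fin (g + 2) → (Mat d ℂ)ˣ), evH f a' b' = MvPolynomial.eval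
      (crd (fun i => (a' i : Mat d ℂ)) (fun i => (b' i : Mat d ℂ))) f := by
    intro a' b'
    unfold evH
    congr 2
    funext x
    unfold crd pr
    cases x.1.2 <;> rfl
  have hma : ∀ i, mt x₀ i false = (a i : Mat d ℂ) := fun i => by ext p q; rfl
  have hmb : ∀ i, mt x₀ i true = (b i : Mat d ℂ) := fun i => by ext p q; rfl
  -- the field
  obtain ⟨K₀, hK₀, hs⟩ := exists_countable_subfield' (insert z (f.coeffs : Set ℂ))
    ((Finset.countable_toSet _).insert z)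
  have hzK : z ∈ K₀ := hs (Set.mem_insert _ _)
  obtain ⟨f₀, hf₀⟩ : ∃ f₀ : MvPolynomial (Ix (g + 2) d) K₀, MvPolynomial.map K₀.subtype f₀ = f := by
    refine MvPolynomial.mem_range_map_iff_coeffs_subset.2 ?_
    intro c hc
    exact ⟨⟨c, hs (Set.mem_insert_of_mem _ hc)⟩, rfl⟩
  have hfe : ∀ Y : Ix (g + 2) d → ℂ, MvPolynomial.aeval Y f₀ = MvPolynomial.eval Y f := by
    intro Y
    rw [← hf₀, MvPolynomial.eval_map, MvPolynomial.aeval_def]
    rfl
  have hzz : ((swd' a b : (Mat d ℂ)ˣ) : Mat d ℂ) = z • (1 : Mat d ℂ) := hz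
  have hzd : z ^ d = 1 := by
    have h1 := det_swd a b
    rw [hzz, Matrix.det_smul, Matrix.det_one, mul_one, Fintype.card_fin] at h1
    exact h1
  -- the equations hold at the point
  have hF : ∀ p : Fin d × Fin d,
      MvPolynomial.aeval x₀ (Eqn (g := g + 2) K₀ ⟨z, hzK⟩ p) = 0 := by
    intro p
    rw [Eqn_eval, Wd_units a b x₀ hma hmb, hzz, Matrix.smul_apply, Matrix.smul_apply, smul_eq_mul,
      smul_eq_mul]
    ring
  obtain ⟨Y, T, c, hY1, hY2, hY3, hY4⟩ := h K₀ hK₀ (τ := Fin d × Fin d)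
    (fun p : {p : Fin d × Fin d // p ≠ (⟨0, hd⟩, ⟨0, hd⟩)} => Eqn (g := g + 2) K₀ ⟨z, hzK⟩ p.1) x₀
    (fun p => hF p.1)
  -- the generic matrices
  have hdet : ∀ i e, (mt Y i e).det ≠ 0 := by
    intro i e h0
    rw [← det_eval K₀ i e Y] at h0
    have h1 := hY1 _ h0
    rw [det_eval] at h1
    cases e
    · rw [hma] at h1
      exact ((Matrix.isUnit_iff_isUnit_det _).1 (a i).isUnit).ne_zero h1
    · rw [hmb] at h1
      exact ((Matrix.isUnit_iff_isUnit_det _).1 (b i).isUnit).ne_zero h1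
  have hun : ∀ i e, IsUnit (mt Y i e) := fun i e =>
    (Matrix.isUnit_iff_isUnit_det _).2 (isUnit_iff_ne_zero.2 (hdet i e))
  obtain ⟨a', ha'⟩ : ∃ a' : Fin (g + 2) → (Mat d ℂ)ˣ, ∀ i, mt Y i false = (a' i : Mat d ℂ) :=
    ⟨fun i => (hun i false).unit, fun i => rfl⟩
  obtain ⟨b', hb'⟩ : ∃ b' : Fin (g + 2) → (Mat d ℂ)ˣ, ∀ i, mt Y i true = (b' i : Mat d ℂ) :=
    ⟨fun i => (hun i true).unit, fun i => rfl⟩
  have hcrd : crd (fun i => (a' i : Mat d ℂ)) (fun i => (b' i : Mat d ℂ)) = Y := by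
    funext x
    obtain ⟨⟨i, e⟩, p, q⟩ := x
    show pr (a' i : Mat d ℂ) (b' i : Mat d ℂ) e p q = _
    rw [← ha', ← hb']
    cases e <;> rfl
  have hDt : Dt Y ≠ 0 := Finset.prod_ne_zero_iff.2 fun i _ => mul_ne_zero (hdet i false) (hdet i true)
  have hsw : ((swd' a' b' : (Mat d ℂ)ˣ) : Mat d ℂ) = z • (1 : Mat d ℂ) := by
    refine scalar_of_entries hd (det_swd a' b') hzd fun p hp => ?_
    have h1 := hY2 ⟨p, hp⟩
    rw [Eqn_eval, Wd_units a' b' Y ha' hb', Matrix.smul_apply, smul_eq_mul, sub_eq_zero] at h1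
    have h2 : Dt Y * ((swd' a' b' : (Mat d ℂ)ˣ) : Mat d ℂ) p.1 p.2 =
        Dt Y * (z * (1 : Mat d ℂ) p.1 p.2) := by
      rw [h1]
      show z * Dt Y * (1 : Mat d ℂ) p.1 p.2 = _
      ring
    exact mul_left_cancel₀ hDt h2
  have hcount := count_surface hd a' b' z hsw c T (fun H hH γ => by
    obtain ⟨δ, hδ1, hδ2, hδ3⟩ := hY4 H hH γ
    exact ⟨δ, hδ1 z hzK, fun x => by rw [hcrd]; exact hδ2 x, hδ3⟩) (by
      rw [card_Ix] at hY3
      have := card_ne (d := d) (⟨0, hd⟩, ⟨0, hd⟩)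
      omega)
  have hfin : evH f a' b' = 0 := hf a' b' hsw fun i X hXa hXb =>
    hcount i X fun k => by
      cases k
      · exact hXa
      · exact hXb
  rw [hev, hcrd, ← hfe] at hfin
  have h1 := hY1 _ hfin
  rw [hfe] at h1
  rw [hev]
  exact h1

end Vale.Agent.P002B.SB
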