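import Vale.Agent.P002.OpenW
import Vale.Agent.P002.BaseDensity

/-!
# P002B, T13b (hedge): from scalar commutants to irreducible representations, core
-/

namespace Vale.Agent.P002B.S2B

open Matrix Vale.Agent.P002

/-- The complement of a hypersurface is dense. -/
theorem exists_near_eval_ne {σ : Type*} [Finite σ] (h : MvPolynomial σ ℂ) (hh : h ≠ 0)
    (x : σ → ℂ) (U : Set (σ → ℂ)) (hU : U ∈ nhds x) : ∃ y ∈ U, MvPolynomial.eval y h ≠ 0 := by
  obtain ⟨p, hp⟩ : ∃ p : σ → ℂ, MvPolynomial.eval p h ≠ 0 := by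
    by_contra hcon
    push Not at hcon
    exact hh (MvPolynomial.funext fun q => by rw [hcon q, map_zero])
  let P : Polynomial ℂ := MvPolynomial.aeval
    (fun i => Polynomial.C (x i) + Polynomial.X * Polynomial.C (p i - x i)) h
  have hP : ∀ t : ℂ, P.eval t = MvPolynomial.eval (x + t • (p - x)) h := by
    intro t
    have h1 := congrArg (fun F => F h) (MvPolynomial.comp_aeval
      (fun i => Polynomial.C (x i) + Polynomial.X * Polynomial.C (p i - x i))
      (Polynomial.aeval t : Polynomial ℂ →ₐ[ℂ] ℂ))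
    simp only [AlgHom.coe_comp, Function.comp_apply] at h1
    have h2 : P.eval t = (Polynomial.aeval t : Polynomial ℂ →ₐ[ℂ] ℂ) P := by
      rw [Polynomial.coe_aeval_eq_eval]
    rw [h2]
    refine h1.trans ?_
    rw [MvPolynomial.aeval_eq_eval]
    congr 2
    funext i
    simp
  have hP0 : P ≠ 0 := by
    intro h0
    have h1 := hP 1
    rw [h0, Polynomial.eval_zero] at h1
    simp only [one_smul, add_sub_cancel] at h1
    exact hp h1.symm
  have hfin : {t : ℂ | P.eval t = 0}.Finite := by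
    refine (P.roots.toFinset.finite_toSet).subset ?_
    intro t ht
    simp only [Finset.mem_coe, Multiset.mem_toFinset, Polynomial.mem_roots hP0,
      Polynomial.IsRoot]
    exact ht
  have hcont : Continuous fun t : ℂ => x + t • (p - x) := by
    fun_prop
  have hV : (fun t : ℂ => x + t • (p - x)) ⁻¹' U ∈ nhds (0 : ℂ) := by
    apply hcont.continuousAt.preimage_mem_nhds
    simpa using hU
  have hdense := hfin.countable.dense_compl ℂ
  obtain ⟨t, ht1, ht2⟩ := hdense.inter_nhds_nonempty hV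
  refine ⟨_, ht2, ?_⟩
  rw [← hP]
  exact ht1

/-- Generating pairs are dense. -/
theorem generating_dense {d : ℕ} (A B : Mat d ℂ) (U : Set (Mat d ℂ × Mat d ℂ))
    (hU : U ∈ nhds (A, B)) : ∃ p ∈ U, Algebra.adjoin ℂ ({p.1, p.2} : Set (Mat d ℂ)) = ⊤ := by
  obtain ⟨h, hh, hgen⟩ := exists_generating_poly (r := d) (g := 2) le_rfl
  let toP : (Fin 2 × Fin d × Fin d → ℂ) → Mat d ℂ × Mat d ℂ := fun y =>
    (Matrix.of fun i j => y (0, i, j), Matrix.of fun i j => y (1, i, j))
  have hcont : Continuous toP := by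
    refine Continuous.prodMk ?_ ?_
    · exact continuous_pi fun i => continuous_pi fun j => continuous_apply (0, i, j)
    · exact continuous_pi fun i => continuous_pi fun j => continuous_apply (1, i, j)
  let x : Fin 2 × Fin d × Fin d → ℂ := fun p => if p.1 = 0 then A p.2.1 p.2.2 else B p.2.1 p.2.2
  have hx : toP x = (A, B) := by
    refine Prod.ext ?_ ?_
    · ext i j; simp [toP, x]
    · ext i j; simp [toP, x]
  have hpre : toP ⁻¹' U ∈ nhds x := by
    apply hcont.continuousAt.preimage_mem_nhds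
    rw [hx]
    exact hU
  obtain ⟨y, hyU, hy⟩ := exists_near_eval_ne h hh x _ hpre
  refine ⟨toP y, hyU, ?_⟩
  have h1 := hgen (fun k => Matrix.of fun i j => y (k, i, j)) (by simpa using hy)
  rw [← h1]
  congr 1
  ext M
  simp only [Set.mem_insert_iff, Set.mem_singleton_iff, Set.mem_range, toP]
  constructor
  · rintro (rfl | rfl)
    · exact ⟨0, rfl⟩
    · exact ⟨1, rfl⟩
  · rintro ⟨k, rfl⟩
    fin_cases k
    · exact Or.inl rfl
    · exact Or.inr rfl

theorem continuousAt_matrix_inv {d : ℕ} {A : Mat d ℂ} (hA : IsUnit A) :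
    ContinuousAt (fun X : Mat d ℂ => X⁻¹) A := by
  have h1 : (fun X : Mat d ℂ => X⁻¹) = fun X : Mat d ℂ => (det X)⁻¹ • adjugate X := by
    funext X
    rw [Matrix.inv_def, Ring.inverse_eq_inv']
  rw [h1]
  have h2 : det A ≠ 0 := isUnit_iff_ne_zero.1 ((Matrix.isUnit_iff_isUnit_det A).1 hA)
  exact ((continuous_id.matrix_det).continuousAt.inv₀ h2).smul
    (continuous_id.matrix_adjugate).continuousAt

theorem units_mem_nhds {κ : Type*} [Finite κ] {d : ℕ} {Y : κ → Mat d ℂ}
    (hY : ∀ k, IsUnit (Y k)) : {Y : κ → Mat d ℂ | ∀ k, IsUnit (Y k)} ∈ nhds Y := by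
  have : {Y : κ → Mat d ℂ | ∀ k, IsUnit (Y k)} = ⋂ k, {Y : κ → Mat d ℂ | (Y k).det ≠ 0} := by
    ext Y
    simp only [Set.mem_ofPred_eq, Set.mem_iInter]
    exact forall_congr' fun k => by rw [Matrix.isUnit_iff_isUnit_det, isUnit_iff_ne_zero]
  rw [this]
  refine (isOpen_iInter_of_finite fun k => ?_).mem_nhds ?_
  · exact isOpen_ne.preimage (Continuous.matrix_det (continuous_apply k))
  · simp only [Set.mem_iInter, Set.mem_ofPred_eq]
    intro k
    rw [← isUnit_iff_ne_zero, ← Matrix.isUnit_iff_isUnit_det]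
    exact hY k

theorem star2_core {g d : ℕ} (z : ℂ) (X : Fin (g + 2) × Bool → Mat d ℂ)
    (hX : ∀ k, IsUnit (X k)) (hrel : relT X = z • (1 : Mat d ℂ))
    (hc : ∀ N : Mat d ℂ, Commute N (X (1, false)) → Commute N (X (1, true)) →
      ∃ c : ℂ, N = c • (1 : Mat d ℂ))
    (O : Set (Fin (g + 2) × Bool → Mat d ℂ)) (hO : O ∈ nhds X) :
    ∃ X' ∈ O, (∀ k, IsUnit (X' k)) ∧ relT X' = z • (1 : Mat d ℂ) ∧
      Algebra.adjoin ℂ (Set.range X') = ⊤ := by
  classical
  let glue : (Mat d ℂ × Mat d ℂ) × (Fin (g + 1) × Bool → Mat d ℂ) →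
      (Fin (g + 2) × Bool → Mat d ℂ) :=
    fun p k => Fin.cases (if k.2 then p.1.2 else p.1.1) (fun i => p.2 (i, k.2)) k.1
  have g0 : ∀ p, glue p (0, false) = p.1.1 := fun p => rfl
  have g1 : ∀ p, glue p (0, true) = p.1.2 := fun p => rfl
  have gs : ∀ p i b, glue p (Fin.succ i, b) = p.2 (i, b) := fun p i b => rfl
  have hcont : Continuous glue := by
    refine continuous_pi fun k => ?_
    obtain ⟨i, b⟩ := k
    induction i using Fin.cases with
    | zero =>
      cases b with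
      | false => simp only [g0]; exact continuous_fst.fst
      | true => simp only [g1]; exact continuous_fst.snd
    | succ i =>
      simp only [gs]
      exact (continuous_apply (i, b)).comp continuous_snd
  obtain ⟨P0, hP0⟩ : ∃ P0 : Mat d ℂ × Mat d ℂ, P0 = (X (0, false), X (0, true)) := ⟨_, rfl⟩
  obtain ⟨X1, hX1⟩ : ∃ X1 : Fin (g + 1) × Bool → Mat d ℂ, X1 = fun k => X (k.1.succ, k.2) :=
    ⟨_, rfl⟩
  have hglue : glue (P0, X1) = X := by
    funext k
    obtain ⟨i, b⟩ := k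
    induction i using Fin.cases with
    | zero =>
      cases b with
      | false => rw [g0, hP0]
      | true => rw [g1, hP0]
    | succ i => rw [gs, hX1]
  have hpre : glue ⁻¹' O ∈ nhds (P0, X1) := by
    apply hcont.continuousAt.preimage_mem_nhds
    rw [hglue]
    exact hO
  obtain ⟨U0, hU0, U1, hU1, hsub⟩ := mem_nhds_prod_iff.1 hpre
  have hX1u : ∀ k, IsUnit (X1 k) := fun k => by rw [hX1]; exact hX _
  obtain ⟨V, hV, hVopen⟩ := open_relT X1 hX1u (fun N hN => hc N
      (by have := hN (0, false); rw [hX1] at this; exact this)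
      (by have := hN (0, true); rw [hX1] at this; exact this))
    (U1 ∩ {Y | ∀ k, IsUnit (Y k)}) (Filter.inter_mem hU1 (units_mem_nhds hX1u))
  have hA0 : IsUnit P0.1 := by rw [hP0]; exact hX _
  have hB0 : IsUnit P0.2 := by rw [hP0]; exact hX _
  let M : Mat d ℂ × Mat d ℂ → Mat d ℂ := fun p => (cm p.1 p.2)⁻¹ * (z • (1 : Mat d ℂ))
  have hinv : ∀ {A B : Mat d ℂ}, IsUnit A → IsUnit B → (cm A B)⁻¹ * cm A B = 1 :=
    fun hA hB => Matrix.nonsing_inv_mul _ ((Matrix.isUnit_iff_isUnit_det _).1 (isUnit_cm hA hB))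
  have hM0 : M P0 = relT X1 := by
    have h1 := relT_succ X
    rw [hrel] at h1
    have h2 : cm P0.1 P0.2 * relT X1 = z • (1 : Mat d ℂ) := by
      rw [h1, hP0, hX1]
    show (cm P0.1 P0.2)⁻¹ * (z • (1 : Mat d ℂ)) = relT X1
    rw [← h2, ← Matrix.mul_assoc, hinv hA0 hB0, Matrix.one_mul]
  have hcm : ContinuousAt (fun p : Mat d ℂ × Mat d ℂ => cm p.1 p.2) P0 := by
    unfold cm
    have hf : ContinuousAt (fun p : Mat d ℂ × Mat d ℂ => p.1) P0 := continuous_fst.continuousAt
    have hs : ContinuousAt (fun p : Mat d ℂ × Mat d ℂ => p.2) P0 := continuous_snd.continuousAt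
    have hfi : ContinuousAt (fun p : Mat d ℂ × Mat d ℂ => (p.1)⁻¹) P0 :=
      ContinuousAt.comp (f := fun p : Mat d ℂ × Mat d ℂ => p.1) (continuousAt_matrix_inv hA0) hf
    have hsi : ContinuousAt (fun p : Mat d ℂ × Mat d ℂ => (p.2)⁻¹) P0 :=
      ContinuousAt.comp (f := fun p : Mat d ℂ × Mat d ℂ => p.2) (continuousAt_matrix_inv hB0) hs
    exact ((hf.mul hs).mul hfi).mul hsi
  have hMc : ContinuousAt M P0 := by
    have h1 : ContinuousAt (fun p : Mat d ℂ × Mat d ℂ => (cm p.1 p.2)⁻¹) P0 :=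
      ContinuousAt.comp (f := fun p : Mat d ℂ × Mat d ℂ => cm p.1 p.2)
        (continuousAt_matrix_inv (isUnit_cm hA0 hB0)) hcm
    exact h1.mul continuousAt_const
  have hMV : M ⁻¹' V ∈ nhds P0 := by
    apply hMc.preimage_mem_nhds
    rw [hM0]
    exact hV
  have hun : {p : Mat d ℂ × Mat d ℂ | IsUnit p.1 ∧ IsUnit p.2} ∈ nhds P0 := by
    have : {p : Mat d ℂ × Mat d ℂ | IsUnit p.1 ∧ IsUnit p.2} =
        {p : Mat d ℂ × Mat d ℂ | p.1.det ≠ 0} ∩ {p : Mat d ℂ × Mat d ℂ | p.2.det ≠ 0} := by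
      ext p
      simp only [Set.mem_ofPred_eq, Set.mem_inter_iff, Matrix.isUnit_iff_isUnit_det,
        isUnit_iff_ne_zero]
    rw [this]
    refine (IsOpen.inter ?_ ?_).mem_nhds ⟨?_, ?_⟩
    · exact isOpen_ne.preimage (Continuous.matrix_det continuous_fst)
    · exact isOpen_ne.preimage (Continuous.matrix_det continuous_snd)
    · exact isUnit_iff_ne_zero.1 ((Matrix.isUnit_iff_isUnit_det _).1 hA0)
    · exact isUnit_iff_ne_zero.1 ((Matrix.isUnit_iff_isUnit_det _).1 hB0)
  obtain ⟨p, ⟨⟨hpU, hpV⟩, hpA, hpB⟩, hgen⟩ := generating_dense P0.1 P0.2 ((U0 ∩ M ⁻¹' V) ∩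
    {p : Mat d ℂ × Mat d ℂ | IsUnit p.1 ∧ IsUnit p.2})
    (Filter.inter_mem (Filter.inter_mem hU0 hMV) hun)
  have hzd : z ^ d = 1 := by
    have h1 := det_relT hX
    rw [hrel, det_smul, det_one, mul_one, Fintype.card_fin] at h1
    exact h1
  have hdet : (M p).det = 1 := by
    show ((cm p.1 p.2)⁻¹ * (z • (1 : Mat d ℂ))).det = 1
    rw [det_mul, det_smul, det_one, mul_one, Fintype.card_fin, hzd, mul_one, det_nonsing_inv,
      det_cm hpA hpB, Ring.inverse_one]
  obtain ⟨X1', ⟨hX1'U, hX1'u⟩, hrel'⟩ := hVopen (M p) hpV hdet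
  refine ⟨glue (p, X1'), hsub ⟨hpU, hX1'U⟩, ?_, ?_, ?_⟩
  · rintro ⟨i, b⟩
    induction i using Fin.cases with
    | zero =>
      cases b with
      | false => rw [g0]; exact hpA
      | true => rw [g1]; exact hpB
    | succ i => rw [gs]; exact hX1'u _
  · rw [relT_succ]
    simp only [g0, g1, gs]
    have h1 : (fun k : Fin (g + 1) × Bool => X1' (k.1, k.2)) = X1' := rfl
    rw [h1, hrel']
    show cm p.1 p.2 * ((cm p.1 p.2)⁻¹ * (z • (1 : Mat d ℂ))) = _
    rw [← Matrix.mul_assoc, Matrix.mul_nonsing_inv _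
      ((Matrix.isUnit_iff_isUnit_det _).1 (isUnit_cm hpA hpB)), Matrix.one_mul]
  · rw [eq_top_iff, ← hgen]
    apply Algebra.adjoin_mono
    rintro N (rfl | hN)
    · exact ⟨(0, false), g0 _⟩
    · rw [Set.mem_singleton_iff] at hN
      rw [hN]
      exact ⟨(0, true), g1 _⟩

end Vale.Agent.P002B.S2B
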