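import Vale.Agent.P002B.Stmts2
import Vale.Agent.P002B.Star2Core

/-!
# P002B, T13b: every solution of the surface relation of genus at least two is in the closure of
the irreducible ones
-/

namespace Vale.Agent.P002B.S2B

open Matrix Vale.Agent.P002R

theorem coe_swd {g d : ℕ} (a b : Fin g → (Mat d ℂ)ˣ) :
    ((swd a b : (Mat d ℂ)ˣ) : Mat d ℂ) =
      Vale.Agent.P002.relT fun k : Fin g × Bool => ((if k.2 then b k.1 else a k.1 : (Mat d ℂ)ˣ) : Mat d ℂ) := by
  unfold swd Vale.Agent.P002.relT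
  have h1 := map_list_prod (Units.coeHom (Mat d ℂ))
    (List.ofFn fun i => a i * b i * (a i)⁻¹ * (b i)⁻¹)
  rw [Units.coeHom_apply] at h1
  rw [h1, List.map_ofFn]
  congr 2
  funext i
  simp [Matrix.coe_units_inv]

/-- T13b. -/
theorem star2Stmt (h1 : Star1Stmt) : Star2Stmt := by
  intro g d hd z a b hz f hf
  refine h1 hd z a b hz f fun a' b' hz' hc' => ?_
  by_contra hne
  obtain ⟨X, hX⟩ : ∃ X : Fin (g + 2) × Bool → Mat d ℂ, X = fun k =>
    ((if k.2 then b' k.1 else a' k.1 : (Mat d ℂ)ˣ) : Mat d ℂ) := ⟨_, rfl⟩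
  have hXu : ∀ k, IsUnit (X k) := fun k => by rw [hX]; exact Units.isUnit _
  have hrel : Vale.Agent.P002.relT X = z • (1 : Mat d ℂ) := by rw [← hz', coe_swd, hX]
  have hcont : Continuous fun Y : Fin (g + 2) × Bool → Mat d ℂ =>
      MvPolynomial.eval (fun x : (Fin (g + 2) × Bool) × Fin d × Fin d => Y x.1 x.2.1 x.2.2) f := by
    refine (MvPolynomial.continuous_eval f).comp (continuous_pi fun x => ?_)
    exact (continuous_apply x.2.2).comp ((continuous_apply x.2.1).comp (continuous_apply x.1))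
  have hO : {Y : Fin (g + 2) × Bool → Mat d ℂ | MvPolynomial.eval
      (fun x : (Fin (g + 2) × Bool) × Fin d × Fin d => Y x.1 x.2.1 x.2.2) f ≠ 0} ∈ nhds X := by
    refine (isOpen_ne.preimage hcont).mem_nhds ?_
    rw [hX]
    exact hne
  obtain ⟨X', hX'O, hX'u, hX'rel, hX'top⟩ := star2_core z X hXu hrel
    (fun N hN1 hN2 => hc' 1 N (by rw [hX] at hN1; exact hN1) (by rw [hX] at hN2; exact hN2)) _ hO
  apply hX'O
  have hkey : (fun k : Fin (g + 2) × Bool => ((if k.2 then (hX'u (k.1, true)).unit else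
      (hX'u (k.1, false)).unit : (Mat d ℂ)ˣ) : Mat d ℂ)) = X' := by
    funext k
    obtain ⟨i, b⟩ := k
    cases b <;> rfl
  have h2 := hf (fun i => (hX'u (i, false)).unit) (fun i => (hX'u (i, true)).unit)
    (by rw [coe_swd, hkey, hX'rel]) (by rw [hkey, hX'top])
  unfold evH at h2
  rw [← h2]
  congr 2
  funext x
  exact (congrFun (congrFun (congrFun hkey x.1) x.2.1) x.2.2).symm

end Vale.Agent.P002B.S2B
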