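import Vale.Agent.P002B.Stmts

/-!
# P002, genus 0, arbitrary classes: T10, the lifting of solutions of the surface relation
-/

namespace Vale.Agent.P002B

open Matrix Vale.Agent.P002R Vale.Agent.P002L

namespace Surf

/-- Clearing of denominators. -/
theorem clear {α β : Type*} [Fintype β] [DecidableEq β] (P : β → MvPolynomial α ℂ)
    (f : MvPolynomial (α ⊕ β) ℂ) :
    ∃ (N : ℕ) (F : MvPolynomial α ℂ), ∀ (x : α → ℂ) (t : β → ℂ),
      (∀ k, MvPolynomial.eval x (P k) * t k = 1) →
      MvPolynomial.eval x F = (∏ k, MvPolynomial.eval x (P k)) ^ N *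
        MvPolynomial.eval (Sum.elim x t) f := by
  induction f using MvPolynomial.induction_on with
  | C c => exact ⟨0, MvPolynomial.C c, fun x t _ => by simp⟩
  | add p q hp hq =>
    obtain ⟨N, F, hF⟩ := hp
    obtain ⟨M, G, hG⟩ := hq
    refine ⟨N + M, (∏ k, P k) ^ M * F + (∏ k, P k) ^ N * G, fun x t h => ?_⟩
    simp only [map_add, map_mul, map_pow, map_prod, hF x t h, hG x t h]
    ring
  | mul_X p n hp =>
    obtain ⟨N, F, hF⟩ := hp
    rcases n with n | k
    · refine ⟨N, F * MvPolynomial.X n, fun x t h => ?_⟩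
      simp only [map_mul, hF x t h, MvPolynomial.eval_X, Sum.elim_inl]
      ring
    · refine ⟨N + 1, F * ∏ k' ∈ Finset.univ.erase k, P k', fun x t h => ?_⟩
      simp only [map_mul, map_prod, hF x t h, MvPolynomial.eval_X, Sum.elim_inr]
      have h1 := Finset.mul_prod_erase Finset.univ (fun k' => MvPolynomial.eval x (P k'))
        (Finset.mem_univ k)
      rw [pow_succ]
      calc (∏ k', MvPolynomial.eval x (P k')) ^ N * MvPolynomial.eval (Sum.elim x t) p *
            ∏ k' ∈ Finset.univ.erase k, MvPolynomial.eval x (P k')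
          = (∏ k', MvPolynomial.eval x (P k')) ^ N * MvPolynomial.eval (Sum.elim x t) p *
            (∏ k' ∈ Finset.univ.erase k, MvPolynomial.eval x (P k')) *
            (MvPolynomial.eval x (P k) * t k) := by rw [h k, mul_one]
        _ = (∏ k', MvPolynomial.eval x (P k')) ^ N * (MvPolynomial.eval x (P k) *
            ∏ k' ∈ Finset.univ.erase k, MvPolynomial.eval x (P k')) *
            (MvPolynomial.eval (Sum.elim x t) p * t k) := by ring
        _ = _ := by rw [h1]

/-- The variables: the entries of the matrices and the inverses of the determinants. -/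
abbrev Idx (g d : ℕ) : Type := ((Fin g × Bool) × Fin d × Fin d) ⊕ (Fin g × Bool)

/-- The generic matrices. -/
noncomputable def gm (R : Type) [CommRing R] (g d : ℕ) (k : Fin g × Bool) :
    Mat d (MvPolynomial (Idx g d) R) :=
  Matrix.of fun p q => MvPolynomial.X (Sum.inl (k, p, q))

/-- The inverses of the generic matrices. -/
noncomputable def gv (R : Type) [CommRing R] (g d : ℕ) (k : Fin g × Bool) :
    Mat d (MvPolynomial (Idx g d) R) :=
  (MvPolynomial.X (Sum.inr k) : MvPolynomial (Idx g d) R) • (gm R g d k).adjugate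

/-- The generic surface word. -/
noncomputable def gw (R : Type) [CommRing R] (g d : ℕ) : Mat d (MvPolynomial (Idx g d) R) :=
  (List.ofFn fun i : Fin g => gm R g d (i, false) * gm R g d (i, true) * gv R g d (i, false) *
    gv R g d (i, true)).prod

theorem gv_map {R S : Type} [CommRing R] [CommRing S] {g d : ℕ}
    (h : MvPolynomial (Idx g d) R →+* S) (k : Fin g × Bool) (c : (Mat d S)ˣ)
    (hc : h.mapMatrix (gm R g d k) = c)
    (ht : (c : Mat d S).det * h (MvPolynomial.X (Sum.inr k)) = 1) :
    h.mapMatrix (gv R g d k) = ((c⁻¹ : (Mat d S)ˣ) : Mat d S) := by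
  symm
  apply Units.inv_eq_of_mul_eq_one_right
  have h1 : h.mapMatrix (gv R g d k) = h (MvPolynomial.X (Sum.inr k)) • (c : Mat d S).adjugate := by
    rw [← hc, ← RingHom.map_adjugate]
    ext p q
    simp [gv]
  rw [h1, mul_smul_comm, Matrix.mul_adjugate, smul_smul, mul_comm (h _), ht, one_smul]

theorem gw_map {R S : Type} [CommRing R] [CommRing S] {g d : ℕ}
    (h : MvPolynomial (Idx g d) R →+* S) (c : Fin g × Bool → (Mat d S)ˣ)
    (hc : ∀ k, h.mapMatrix (gm R g d k) = c k)
    (ht : ∀ k, (c k : Mat d S).det * h (MvPolynomial.X (Sum.inr k)) = 1) :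
    h.mapMatrix (gw R g d) =
      ((swd (fun i => c (i, false)) (fun i => c (i, true)) : (Mat d S)ˣ) : Mat d S) := by
  have h1 := fun k => gv_map h k (c k) (hc k) (ht k)
  unfold gw swd
  rw [map_list_prod, List.map_ofFn, ← Units.coeHom_apply, map_list_prod, List.map_ofFn]
  congr 2
  funext i
  simp only [Function.comp_apply, map_mul, hc, h1, Units.coeHom_apply]

/-- The point given by a tuple of invertible matrices. -/
noncomputable def pt {S : Type} [CommRing S] {g d : ℕ} (c : Fin g × Bool → (Mat d S)ˣ) :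
    Idx g d → S :=
  Sum.elim (fun x => (c x.1 : Mat d S) x.2.1 x.2.2)
    fun k => (((c k)⁻¹ : (Mat d S)ˣ) : Mat d S).det

theorem det_mul_inv {S : Type} [CommRing S] {d : ℕ} (c : (Mat d S)ˣ) :
    (c : Mat d S).det * ((c⁻¹ : (Mat d S)ˣ) : Mat d S).det = 1 := by
  rw [← Matrix.det_mul, Units.mul_inv, Matrix.det_one]

/-- The choice of a matrix out of a pair of tuples. -/
def pk {G : Type} {g : ℕ} (a b : Fin g → G) (k : Fin g × Bool) : G :=
  if k.2 then b k.1 else a k.1

end Surf

open Surf in
theorem surfStmt (h : ∀ g, SurfCl g) (he : ExtStmt) : SurfStmt := by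
  intro R A _ _ φ ι ψ E r d g hd hdr hco hL μ a b hab
  have hy : ∀ f : MvPolynomial (Idx g d) ℂ,
      (∀ x ∈ {x : Idx g d → R | ∃ a' b' : Fin g → (Mat d R)ˣ,
        ((swd a' b' : (Mat d R)ˣ) : Mat d R) = (μ : R) • (1 : Mat d R) ∧ x = pt (pk a' b')},
        MvPolynomial.eval (fun i => φ (x i)) f = 0) →
      MvPolynomial.eval (pt (pk a b)) f = 0 := by
    intro f hf
    obtain ⟨N, F, hF⟩ := clear (fun k : Fin g × Bool => (Matrix.of fun p q =>
      (MvPolynomial.X (k, p, q) : MvPolynomial ((Fin g × Bool) × Fin d × Fin d) ℂ)).det) f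
    have hdet : ∀ (x : (Fin g × Bool) × Fin d × Fin d → ℂ) (k : Fin g × Bool),
        MvPolynomial.eval x (Matrix.of fun p q =>
          (MvPolynomial.X (k, p, q) : MvPolynomial ((Fin g × Bool) × Fin d × Fin d) ℂ)).det =
        (Matrix.of fun p q => x (k, p, q)).det := by
      intro x k
      rw [RingHom.map_det]
      congr 1
      ext p q
      simp
    have h0 := h g E hd hdr hco μ a b hab F ?_
    · have h1 : ∀ k : Fin g × Bool, (Matrix.of fun p q => ((if k.2 then b k.1 else a k.1 :
          (Mat d ℂ)ˣ) : Mat d ℂ) p q).det * ((((pk a b k)⁻¹ : (Mat d ℂ)ˣ) : Mat d ℂ).det) = 1 :=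
        fun k => det_mul_inv (pk a b k)
      rw [hF _ (fun k => (((pk a b k)⁻¹ : (Mat d ℂ)ˣ) : Mat d ℂ).det)
        (fun k => by rw [hdet]; exact h1 k)] at h0
      rcases mul_eq_zero.1 h0 with h2 | h2
      · exfalso
        have h4 : ∏ k : Fin g × Bool, MvPolynomial.eval
            (fun x => ((if x.1.2 then b x.1.1 else a x.1.1 : (Mat d ℂ)ˣ) : Mat d ℂ) x.2.1 x.2.2)
            (Matrix.of fun p q => (MvPolynomial.X (k, p, q) :
              MvPolynomial ((Fin g × Bool) × Fin d × Fin d) ℂ)).det = 0 :=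
          eq_zero_of_pow_eq_zero h2
        obtain ⟨k, _, hk⟩ := Finset.prod_eq_zero_iff.1 h4
        rw [hdet] at hk
        have h5 := h1 k
        simp only at hk
        rw [hk, zero_mul] at h5
        exact zero_ne_one h5
      · exact h2
    · intro a' b' hab'
      rw [hF _ (fun k => φ (((pk a' b' k)⁻¹ : (Mat d R)ˣ) : Mat d R).det) ?_]
      · have h1 := hf (pt (pk a' b')) ⟨a', b', hab', rfl⟩
        have h2 : (fun i => φ (pt (pk a' b') i)) = Sum.elim
            (fun x : (Fin g × Bool) × Fin d × Fin d =>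
              φ (((if x.1.2 then b' x.1.1 else a' x.1.1 : (Mat d R)ˣ) : Mat d R) x.2.1 x.2.2))
            (fun k => φ (((pk a' b' k)⁻¹ : (Mat d R)ˣ) : Mat d R).det) := by
          funext i
          rcases i with i | i <;> rfl
        rw [h2] at h1
        rw [h1, mul_zero]
      · intro k
        rw [hdet]
        have h1 := det_mul_inv (pk a' b' k)
        rw [← map_one φ, ← h1, map_mul]
        congr 1
        rw [RingHom.map_det]
        rfl
  obtain ⟨A', _, ι', ψ', j, Y, hL', hj, hji, hY, hp⟩ := he hL _ _ hy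
  let H : MvPolynomial (Idx g d) R →+* A' := MvPolynomial.eval₂Hom ι' Y
  have hX : ∀ k, (H.mapMatrix (gm R g d k)).det * H (MvPolynomial.X (Sum.inr k)) = 1 := by
    intro k
    have h1 := hp ((gm R g d k).det * MvPolynomial.X (Sum.inr k) - 1) ?_
    · have h2 : H ((gm R g d k).det * MvPolynomial.X (Sum.inr k) - 1) = 0 := h1
      rw [map_sub, map_mul, map_one, RingHom.map_det, sub_eq_zero] at h2
      exact h2
    · rintro x ⟨a', b', hab', rfl⟩
      rw [map_sub, map_mul, map_one, RingHom.map_det, MvPolynomial.eval_X, sub_eq_zero]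
      have h2 : (MvPolynomial.eval (pt (pk a' b'))).mapMatrix (gm R g d k) =
          ((pk a' b' k : (Mat d R)ˣ) : Mat d R) := by
        ext p q
        simp [gm, pt]
      rw [h2]
      exact det_mul_inv (pk a' b' k)
  let c : Fin g × Bool → (Mat d A')ˣ := fun k =>
    ⟨H.mapMatrix (gm R g d k), H (MvPolynomial.X (Sum.inr k)) • (H.mapMatrix (gm R g d k)).adjugate,
      by rw [mul_smul_comm, Matrix.mul_adjugate, smul_smul, mul_comm (H _), hX, one_smul],
      by rw [smul_mul_assoc, Matrix.adjugate_mul, smul_smul, mul_comm (H _), hX, one_smul]⟩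
  have hcY : ∀ k p q, (c k : Mat d A') p q = Y (Sum.inl (k, p, q)) := by
    intro k p q
    simp [c, H, gm]
  refine ⟨A', inferInstance, ι', ψ', j, fun i => c (i, false), fun i => c (i, true), hL', hj, hji,
    ?_, ?_, ?_⟩
  · intro i
    ext p q
    rw [Matrix.map_apply, hcY, hY]
    rfl
  · intro i
    ext p q
    rw [Matrix.map_apply, hcY, hY]
    rfl
  · rw [← gw_map H c (fun k => rfl) hX]
    ext p q
    have h1 := hp (gw R g d p q - MvPolynomial.C ((μ : R) * (1 : Mat d R) p q)) ?_
    · have h2 : H (gw R g d p q - MvPolynomial.C ((μ : R) * (1 : Mat d R) p q)) = 0 := h1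
      rw [map_sub, sub_eq_zero] at h2
      rw [RingHom.mapMatrix_apply, Matrix.map_apply, h2]
      simp only [H, MvPolynomial.coe_eval₂Hom, MvPolynomial.eval₂_C, map_mul, Matrix.smul_apply,
        smul_eq_mul]
      congr 1
      by_cases hpq : p = q
      · subst hpq; simp
      · simp [Matrix.one_apply_ne hpq]
    · rintro x ⟨a', b', hab', rfl⟩
      have h2 := gw_map (MvPolynomial.eval (pt (pk a' b'))) (pk a' b') (fun k => by
        ext p q
        simp [gm, pt]) (fun k => by
          rw [MvPolynomial.eval_X]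
          exact det_mul_inv (pk a' b' k))
      have h3 : swd (fun i => pk a' b' (i, false)) (fun i => pk a' b' (i, true)) = swd a' b' := rfl
      rw [h3, hab'] at h2
      have h4 := congrFun (congrFun h2 p) q
      rw [RingHom.mapMatrix_apply, Matrix.map_apply] at h4
      rw [map_sub, h4, MvPolynomial.eval_C, Matrix.smul_apply, smul_eq_mul, sub_self]

end Vale.Agent.P002B
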