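import Vale.Agent.P002B.Stmts2
import Vale.Agent.P002R.RSurfE
import Vale.Agent.P002R.RProd

/-!
# P002, T14: the surface relation of genus at least two over the coefficient ring
-/

namespace Vale.Agent.P002B

open Matrix Vale.Agent.P002R

section T14

variable {d : ℕ}

theorem swd_hom {G H : Type*} [Group G] [Group H] {g : ℕ} (θ : G →* H) (a b : Fin g → G) :
    θ (swd a b) = swd (fun i => θ (a i)) fun i => θ (b i) := by
  rw [swd, swd, map_list_prod, List.map_ofFn]
  congr 2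
  funext i
  simp only [Function.comp_apply, map_mul, map_inv]

theorem comm_central {G : Type*} [Group G] (a b α β : G) (hα : ∀ x, α * x = x * α)
    (hβ : ∀ x, β * x = x * β) :
    (α * a) * (β * b) * (α * a)⁻¹ * (β * b)⁻¹ = a * b * a⁻¹ * b⁻¹ := by
  have h1 : α * a * (β * b) = (α * β) * (a * b) := by
    rw [mul_assoc α a, ← mul_assoc a β b, ← hβ a, mul_assoc β a b, ← mul_assoc]
  have h2 : (α * a) * (β * b) * (α * a)⁻¹ * (β * b)⁻¹ =
      ((α * a) * (β * b)) * ((β * b) * (α * a))⁻¹ := by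
    rw [_root_.mul_inv_rev (β * b) (α * a), ← mul_assoc (α * a * (β * b))]
  have h3 : β * b * (α * a) = (α * β) * (b * a) := by
    rw [mul_assoc β b, ← mul_assoc b α a, ← hα b, mul_assoc α b a, ← mul_assoc, ← hα β]
  have h4 : ∀ x, α * β * x = x * (α * β) := by
    intro x
    rw [mul_assoc, hβ, ← mul_assoc, hα, mul_assoc]
  rw [h2, h1, h3, h4 (a * b), h4 (b * a)]
  group

theorem swd_central {G : Type*} [Group G] {g : ℕ} (a b α β : Fin g → G)
    (hα : ∀ i x, α i * x = x * α i) (hβ : ∀ i x, β i * x = x * β i) :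
    swd (fun i => α i * a i) (fun i => β i * b i) = swd a b := by
  rw [swd, swd]
  congr 2
  funext i
  exact comm_central _ _ _ _ (hα i) (hβ i)

/-- Scaling by powers of an element of infinite order is enough. -/
theorem scale_dense {K : Type} (t : ℂ) (ht : Function.Injective fun k : ℕ => t ^ k)
    (X : K → Mat d ℂ) (f : MvPolynomial (K × Fin d × Fin d) ℂ)
    (hf : ∀ e : K → ℕ, MvPolynomial.eval (fun p => t ^ e p.1 * X p.1 p.2.1 p.2.2) f = 0)
    (c : K → ℂ) : MvPolynomial.eval (fun p => c p.1 * X p.1 p.2.1 p.2.2) f = 0 := by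
  obtain ⟨G, hG⟩ : ∃ G : MvPolynomial K ℂ, ∀ c : K → ℂ, MvPolynomial.eval c G =
      MvPolynomial.eval (fun p => c p.1 * X p.1 p.2.1 p.2.2) f := by
    refine ⟨MvPolynomial.bind₁ (fun p : K × Fin d × Fin d =>
      (MvPolynomial.X p.1 * MvPolynomial.C (X p.1 p.2.1 p.2.2) : MvPolynomial K ℂ)) f,
      fun c => ?_⟩
    rw [MvPolynomial.eval, MvPolynomial.eval₂Hom_bind₁]
    congr 2
    funext p
    simp
  rw [← hG]
  have h0 : G = 0 := by
    refine MvPolynomial.funext_set (fun _ => Set.range fun e : ℕ => t ^ e)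
      (fun _ => Set.infinite_range_of_injective ht) fun x hx => ?_
    have h1 : ∀ k, ∃ e : ℕ, t ^ e = x k := fun k => hx k (Set.mem_univ k)
    choose e he using h1
    rw [hG, map_zero]
    have h2 := hf e
    simp only [he] at h2
    exact h2
  rw [h0, map_zero]

/-- A scalar unit over any ring. -/
def scR {R : Type*} [CommRing R] : Rˣ →* (Mat d R)ˣ := Units.map (algebraMap R (Mat d R)).toMonoidHom

theorem scR_comm {R : Type*} [CommRing R] (c : Rˣ) (x : (Mat d R)ˣ) : scR c * x = x * scR c := by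
  ext1
  simp only [Units.val_mul]
  exact Algebra.commutes (c : R) (x : Mat d R)

theorem scR_mul_coe {R : Type*} [CommRing R] (c : Rˣ) (U : (Mat d R)ˣ) :
    ((scR c * U : (Mat d R)ˣ) : Mat d R) = (c : R) • (U : Mat d R) := by
  simp only [Units.val_mul, scR, Units.coe_map, RingHom.toMonoidHom_eq_coe,
    MonoidHom.coe_coe]
  rw [← Algebra.smul_def]

theorem inj_pow_of_unit {R : Type*} [CommRing R] {φ : R →+* ℂ} (E : Subgroup ℂˣ) (u : Rˣ)
    (hu : ∀ k : ℕ, 0 < k → Units.map (φ : R →* ℂ) u ^ k ∉ E) :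
    Function.Injective fun k : ℕ => (φ (u : R)) ^ k := by
  have key : ∀ m n : ℕ, m < n → (φ (u : R)) ^ m ≠ (φ (u : R)) ^ n := by
    intro m n hmn h
    refine hu (n - m) (by omega) ?_
    have h1 : Units.map (φ : R →* ℂ) u ^ (n - m) = 1 := by
      have h2 : Units.map (φ : R →* ℂ) u ^ m * Units.map (φ : R →* ℂ) u ^ (n - m) =
          Units.map (φ : R →* ℂ) u ^ m := by
        rw [← pow_add, Nat.add_sub_cancel' hmn.le]
        ext1
        rw [Units.val_pow_eq_pow_val, Units.val_pow_eq_pow_val]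
        exact h.symm
      exact mul_eq_left.1 h2
    rw [h1]
    exact E.one_mem
  intro m n h
  rcases lt_trichotomy m n with h1 | h1 | h1
  · exact absurd h (key m n h1)
  · exact h1
  · exact absurd h.symm (key n m h1)


/-- The `d`-th roots of the elements of `E`. -/
def rootSub (E : Subgroup ℂˣ) (d : ℕ) : Subgroup ℂˣ := E.comap (powMonoidHom d)

theorem rootSub_ok {R : Type*} [CommRing R] {φ : R →+* ℂ} {E : Subgroup ℂˣ} {r d : ℕ} (hd : 0 < d)
    (hdr : d ≤ r) (hc : CoefOK φ E (r * r)) : CoefOK φ (rootSub E d) d where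
  inj := hc.inj
  neg := E.pow_mem hc.neg d
  root := fun k hk hkd z hz => by
    refine hc.root (k * d) (Nat.mul_pos hk hd) (Nat.mul_le_mul (hkd.trans hdr) hdr) z ?_
    rw [pow_mul]
    exact hz
  unit := by
    obtain ⟨u, hu⟩ := hc.unit
    refine ⟨u, fun k hk h => hu (k * d) (Nat.mul_pos hk hd) ?_⟩
    rw [pow_mul]
    exact h

theorem scalarU_val (z : ℂˣ) : ((scalarU z : (Mat d ℂ)ˣ) : Mat d ℂ) = (z : ℂ) • (1 : Mat d ℂ) := by
  rw [← mul_one (scalarU z), scalarU_mul_coe, Units.val_one]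

theorem eigIn_scalarU (E : Subgroup ℂˣ) (z : ℂˣ) (hz : z ∈ E) :
    EigIn E ((scalarU z : (Mat d ℂ)ˣ) : Mat d ℂ) := by
  intro w hw
  obtain ⟨v, hv, hv'⟩ := exists_mulVec_of_isRoot hw
  refine ⟨z, hz, ?_⟩
  rw [scalarU_val, Matrix.smul_mulVec, Matrix.one_mulVec, ← sub_eq_zero, ← sub_smul] at hv'
  rcases smul_eq_zero.1 hv' with h | h
  · exact sub_eq_zero.1 h
  · exact absurd h hv

theorem det_swd {g : ℕ} (a b : Fin g → (Mat d ℂ)ˣ) :
    ((swd a b : (Mat d ℂ)ˣ) : Mat d ℂ).det = 1 := by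
  have h1 := swd_hom (Units.map (Matrix.detMonoidHom : Mat d ℂ →* ℂ)) a b
  have h2 : swd (fun i => Units.map (Matrix.detMonoidHom : Mat d ℂ →* ℂ) (a i))
      (fun i => Units.map (Matrix.detMonoidHom : Mat d ℂ →* ℂ) (b i)) = 1 := by
    rw [swd]
    refine List.prod_eq_one fun c hc => ?_
    rw [List.mem_ofFn] at hc
    obtain ⟨i, rfl⟩ := hc
    rw [mul_inv_cancel_comm, mul_inv_cancel]
  rw [h2] at h1
  exact congrArg Units.val h1

theorem pow_eq_one_of_swd {g : ℕ} {a b : Fin g → (Mat d ℂ)ˣ} {z : ℂˣ}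
    (h : ((swd a b : (Mat d ℂ)ˣ) : Mat d ℂ) = (z : ℂ) • (1 : Mat d ℂ)) : z ^ d = 1 := by
  have h1 := det_swd a b
  rw [h, det_smul, det_one, mul_one, Fintype.card_fin] at h1
  ext1
  rw [Units.val_pow_eq_pow_val, h1, Units.val_one]

/-- The representation attached to a tuple of handles and a boundary value. -/
noncomputable def repX {g : ℕ} (c : (Mat d ℂ)ˣ) (a b : Fin g → (Mat d ℂ)ˣ) : FU g 1 →* (Mat d ℂ)ˣ :=
  FreeGroup.lift (Sum.elim (fun k => if k.2 then b k.1 else a k.1) fun _ => c)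

theorem repX_inl {g : ℕ} (c : (Mat d ℂ)ˣ) (a b : Fin g → (Mat d ℂ)ˣ) (k : Fin g × Bool) :
    repX c a b (FreeGroup.of (Sum.inl k)) = if k.2 then b k.1 else a k.1 := by
  rw [repX, FreeGroup.lift_apply_of, Sum.elim_inl]

theorem repX_inr {g : ℕ} (c : (Mat d ℂ)ˣ) (a b : Fin g → (Mat d ℂ)ˣ) (j : Fin 1) :
    repX c a b (FreeGroup.of (Sum.inr j)) = c := by
  rw [repX, FreeGroup.lift_apply_of, Sum.elim_inr]

theorem map_relatorU_one {g : ℕ} (x : FU g 1 →* (Mat d ℂ)ˣ) :
    x (relatorU g 1) = x (FreeGroup.of (Sum.inr 0)) *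
      swd (fun i => x (FreeGroup.of (Sum.inl (i, false))))
        fun i => x (FreeGroup.of (Sum.inl (i, true))) := by
  have h1 : (List.ofFn fun j : Fin 1 => (FreeGroup.of (Sum.inr j) : FU g 1)).prod =
      FreeGroup.of (Sum.inr 0) := by simp
  rw [relatorU, map_mul, h1]
  congr 1
  exact swd_hom x _ _

/-- A matrix over the ring from an element of the special linear group. -/
def slR {R : Type*} [CommRing R] : SpecialLinearGroup (Fin d) R →* (Mat d R)ˣ :=
  SpecialLinearGroup.toGL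

theorem slR_coe {R : Type*} [CommRing R] (s : SpecialLinearGroup (Fin d) R) :
    ((slR s : (Mat d R)ˣ) : Mat d R) = (s : Mat d R) := rfl

theorem map_slR {R : Type*} [CommRing R] (φ : R →+* ℂ) (s : SpecialLinearGroup (Fin d) R) :
    Units.map (RingHom.mapMatrix (m := Fin d) φ).toMonoidHom (slR s) = slU φ s := by
  ext1
  rw [slU_coe, Units.coe_map]
  rfl

/-- The polynomial vanishes at the members of the dense set. -/
theorem vanish_DG {g : ℕ} {R : Type} [CommRing R] {φ : R →+* ℂ} {E : Subgroup ℂˣ} {N : ℕ}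
    (hc : CoefOK φ E N) (μ : Rˣ) (z : ℂˣ) (hz : (z : ℂ) = φ μ)
    (f : MvPolynomial ((Fin g × Bool) × Fin d × Fin d) ℂ)
    (hf : ∀ a' b' : Fin g → (Mat d R)ˣ,
      ((swd a' b' : (Mat d R)ˣ) : Mat d R) = (μ : R) • (1 : Mat d R) →
      MvPolynomial.eval (fun x => φ (((if x.1.2 then b' x.1.1 else a' x.1.1 : (Mat d R)ˣ) :
        Mat d R) x.2.1 x.2.2)) f = 0)
    (y : (Fin g × Bool) → (Mat d ℂ)ˣ) (hy : ∀ k, y k ∈ GR d φ)
    (hrel : swd (fun i => y (i, false)) (fun i => y (i, true)) = scalarU z) :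
    MvPolynomial.eval (fun p => (y p.1 : Mat d ℂ) p.2.1 p.2.2) f = 0 := by
  choose c s hcs using hy
  obtain ⟨u, hu⟩ := hc.unit
  have h1 : swd (fun i => slU φ (s (i, false))) (fun i => slU φ (s (i, true))) =
      (scalarU z : (Mat d ℂ)ˣ) := by
    rw [← hrel, ← swd_central (fun i => slU φ (s (i, false))) (fun i => slU φ (s (i, true)))
      (fun i => scalarU (c (i, false))) (fun i => scalarU (c (i, true)))
      (fun i x => scalarU_comm _ x) (fun i x => scalarU_comm _ x)]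
    simp only [← hcs]
  have h2 : ((swd (fun i => slR (s (i, false))) (fun i => slR (s (i, true))) : (Mat d R)ˣ) :
      Mat d R) = (μ : R) • (1 : Mat d R) := by
    have h3 := swd_hom (Units.map (RingHom.mapMatrix (m := Fin d) φ).toMonoidHom)
      (fun i => slR (s (i, false))) (fun i => slR (s (i, true)))
    simp only [map_slR] at h3
    rw [h1] at h3
    have h4 := congrArg Units.val h3
    rw [scalarU_val, Units.coe_map, hz] at h4
    refine Matrix.map_injective hc.inj ?_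
    refine Eq.trans h4 ?_
    ext i j
    by_cases hij : i = j
    · subst hij; simp
    · simp [Matrix.one_apply_ne hij]
  have h5 := scale_dense (φ (u : R)) (inj_pow_of_unit E u hu)
    (fun k => ((s k : Mat d R)).map φ) f (fun e => ?_) fun k => (c k : ℂ)
  · rw [← h5]
    congr 2
    funext p
    rw [hcs, scalarU_mul_coe, slU_coe, Matrix.smul_apply, smul_eq_mul]
  · have h6 := hf (fun i => scR (u ^ e (i, false)) * slR (s (i, false)))
      (fun i => scR (u ^ e (i, true)) * slR (s (i, true))) (by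
        rw [swd_central _ _ _ _ (fun i x => scR_comm _ x) (fun i x => scR_comm _ x), h2])
    rw [← h6]
    congr 2
    funext p
    obtain ⟨⟨i, t⟩, k, l⟩ := p
    have h7 : (if t = true then scR (u ^ e (i, true)) * slR (s (i, true))
        else scR (u ^ e (i, false)) * slR (s (i, false)) : (Mat d R)ˣ) =
        scR (u ^ e (i, t)) * slR (s (i, t)) := by
      cases t
      · rw [if_neg Bool.false_ne_true]
      · rw [if_pos rfl]
    change φ (u : R) ^ e (i, t) * φ ((s (i, t) : Mat d R) k l) =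
      φ (((if t = true then scR (u ^ e (i, true)) * slR (s (i, true))
        else scR (u ^ e (i, false)) * slR (s (i, false)) : (Mat d R)ˣ) : Mat d R) k l)
    rw [h7, scR_mul_coe, slR_coe, Matrix.smul_apply, smul_eq_mul, map_mul,
      Units.val_pow_eq_pow_val, map_pow]

theorem adjoin_top_mono {A B : Set (Mat d ℂ)} (h : A ⊆ B) (hA : Algebra.adjoin ℂ A = ⊤) :
    Algebra.adjoin ℂ B = ⊤ := by
  rw [eq_top_iff, ← hA]
  exact Algebra.adjoin_mono h

theorem irr_case {g : ℕ} {R : Type} [CommRing R] {φ : R →+* ℂ} (E : Subgroup ℂˣ) {r : ℕ}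
    (hd : 0 < d) (hdr : d ≤ r) (hc : CoefOK φ E (r * r)) (μ : Rˣ) (z : ℂˣ) (hz : (z : ℂ) = φ μ)
    (f : MvPolynomial ((Fin (g + 2) × Bool) × Fin d × Fin d) ℂ)
    (hf : ∀ a' b' : Fin (g + 2) → (Mat d R)ˣ,
      ((swd a' b' : (Mat d R)ˣ) : Mat d R) = (μ : R) • (1 : Mat d R) →
      MvPolynomial.eval (fun x => φ (((if x.1.2 then b' x.1.1 else a' x.1.1 : (Mat d R)ˣ) :
        Mat d R) x.2.1 x.2.2)) f = 0)
    (a b : Fin (g + 2) → (Mat d ℂ)ˣ)
    (hab : ((swd a b : (Mat d ℂ)ˣ) : Mat d ℂ) = (z : ℂ) • (1 : Mat d ℂ))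
    (hadj : Algebra.adjoin ℂ (Set.range fun x : Fin (g + 2) × Bool =>
        ((if x.2 then b x.1 else a x.1 : (Mat d ℂ)ˣ) : Mat d ℂ)) = ⊤) :
    evH f a b = 0 := by
  have hzd := pow_eq_one_of_swd hab
  have hab' : swd a b = scalarU z := by
    ext1
    rw [hab, scalarU_val]
  have hz' : z⁻¹ ∈ rootSub E d := by
    refine (rootSub E d).inv_mem ?_
    change z ^ d ∈ E
    rw [hzd]
    exact E.one_mem
  obtain ⟨x, hx⟩ : ∃ x : FU (g + 2) 1 →* (Mat d ℂ)ˣ, x = repX (scalarU z⁻¹) a b := ⟨_, rfl⟩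
  have hinl : ∀ k, x (FreeGroup.of (Sum.inl k)) = if k.2 then b k.1 else a k.1 := fun k => by
    rw [hx, repX_inl]
  have hinr : ∀ j, x (FreeGroup.of (Sum.inr j)) = scalarU z⁻¹ := fun j => by
    rw [hx, repX_inr]
  have htop : Algebra.adjoin ℂ (Set.range fun w => (x w : Mat d ℂ)) = ⊤ := by
    refine adjoin_top_mono ?_ hadj
    rintro _ ⟨k, rfl⟩
    exact ⟨FreeGroup.of (Sum.inl k), by simp only [hinl]⟩
  have hxY : x ∈ YG ({relatorU (g + 2) 1} : Set (FreeGroup ((Fin (g + 2) × Bool) ⊕ Fin 1)))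
      (fun _ => (scalarU z⁻¹ : (Mat d ℂ)ˣ)) := by
    refine ⟨?_, fun j => ?_, ss_of_adjoin x htop⟩
    · rintro w hw
      rw [Set.mem_singleton_iff.1 hw, map_relatorU_one, hinr]
      simp only [hinl, if_true, Bool.false_eq_true, if_false]
      rw [hab', ← map_mul, inv_mul_cancel, map_one]
    · rw [hinr]
  have hkey := surface_irrDense φ (rootSub E d) (rootSub_ok hd hdr hc)
    (Or.inl (by omega) : 2 ≤ g + 2 ∨ 1 = 0) d le_rfl hd (fun _ => (scalarU z⁻¹ : (Mat d ℂ)ˣ))
    (fun _ => eigIn_scalarU _ _ hz') x hxY (scalar_of_adjoin x htop)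
    (MvPolynomial.rename (Prod.map Sum.inl id) f)
  rw [evH]
  have hev : ∀ y : FU (g + 2) 1 →* (Mat d ℂ)ˣ,
      evalG y (MvPolynomial.rename (Prod.map Sum.inl id) f) =
        MvPolynomial.eval (fun p => (y (FreeGroup.of (Sum.inl p.1)) : Mat d ℂ) p.2.1 p.2.2) f := by
    intro y
    rw [evalG_eqn, MvPolynomial.aeval_rename, ← MvPolynomial.coe_aeval_eq_eval]
    rfl
  rw [hev] at hkey
  simp only [hinl] at hkey
  refine hkey fun y hy => ?_
  rw [hev]
  refine vanish_DG hc μ z hz f hf (fun k => y (FreeGroup.of (Sum.inl k))) (fun k => hy.1.2 _) ?_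
  have hy0 : y (FreeGroup.of (Sum.inr 0)) = scalarU z⁻¹ := by
    obtain ⟨P, hP⟩ := isConj_iff.1 (hy.1.1.2.1 0)
    rw [← hP, ← scalarU_comm, mul_assoc, mul_inv_cancel, mul_one]
  have hyr := hy.1.1.1 _ rfl
  rw [map_relatorU_one, hy0] at hyr
  rw [map_inv] at hyr
  exact (inv_mul_eq_one.1 hyr).symm

/-- T14. Surface relations of genus at least two. -/
theorem surfCl_two_add (g : ℕ) (h : Star2Stmt) : SurfCl (g + 2) := by
  intro R _ φ E r d hd hdr hc μ a b hab f hf
  obtain ⟨z, hz⟩ : ∃ z : ℂˣ, (z : ℂ) = φ μ := ⟨Units.map (φ : R →* ℂ) μ, rfl⟩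
  exact h hd (z : ℂ) a b (by rw [hab, hz]) f fun a' b' hab' hadj =>
    irr_case E hd hdr hc μ z hz f hf a' b' hab' hadj

end T14

end Vale.Agent.P002B
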