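import Vale.Agent.P002B.Stmts

/-!
# P002B, T7: the class of a matrix is an open condition among the matrices of the given type
-/

namespace Vale.Agent.P002B

open Matrix Vale.Agent.P002R Vale.Agent.P002L

/-- T7. -/
theorem typeStmt : TypeStmt := by
  intro r c ξ s κ hl hκ hfin
  have hminor := fun j => exists_minor (Qp (c : Mat r ℂ) ξ j)
  choose X Y hXY using hminor
  obtain ⟨P, hP⟩ : ∃ P : ℕ → MvPolynomial (Fin r × Fin r) ℂ, ∀ (j : ℕ) (d : Mat r ℂ),
      MvPolynomial.eval (fun p => d p.1 p.2) (P j) = (X j * Qp d ξ j * Y j).det := by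
    refine ⟨fun j => ((X j).map (MvPolynomial.C : ℂ → MvPolynomial (Fin r × Fin r) ℂ) *
      Qp (Matrix.of fun a b => (MvPolynomial.X (a, b) : MvPolynomial (Fin r × Fin r) ℂ))
      (fun i => MvPolynomial.C (ξ i)) j *
      (Y j).map (MvPolynomial.C : ℂ → MvPolynomial (Fin r × Fin r) ℂ)).det, fun j d => ?_⟩
    rw [RingHom.map_det]
    congr 1
    change (_ * _ * _ : Matrix _ _ _).map _ = _
    rw [Matrix.map_mul, Matrix.map_mul, Qp_map]
    have h1 : ∀ {a b : ℕ} (N : Matrix (Fin a) (Fin b) ℂ),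
        (N.map (MvPolynomial.C : ℂ → MvPolynomial (Fin r × Fin r) ℂ)).map
          (MvPolynomial.eval fun p => d p.1 p.2) = N := by
      intro a b N
      ext i k
      exact MvPolynomial.eval_C _
    rw [h1, h1]
    congr 2
    have h2 : (Matrix.of fun a b => (MvPolynomial.X (a, b) : MvPolynomial (Fin r × Fin r) ℂ)).map
        (MvPolynomial.eval fun p => d p.1 p.2) = d := by
      ext i k
      exact MvPolynomial.eval_X _
    rw [h2]
    congr 1
    funext i
    exact MvPolynomial.eval_C _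
  refine ⟨∏ j ∈ Finset.range (s + 1), P j, ?_, ?_⟩
  · rw [map_prod, Finset.prod_ne_zero_iff]
    intro j _
    rw [hP, hXY, Matrix.det_one]
    exact one_ne_zero
  · intro c' u' M' hu' hM' hcu' hne
    rw [map_prod, Finset.prod_ne_zero_iff] at hne
    have hrank : ∀ j ≤ s, (Qp (c : Mat r ℂ) ξ j).rank = (Qp (c' : Mat r ℂ) ξ j).rank := by
      intro j hj
      have h1 := hne j (Finset.mem_range.2 (by omega))
      rw [hP] at h1
      have h2 := rank_of_minor _ _ _ h1
      have h3 := card_le_ker hu' hM' hcu' j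
      rw [← hfin j hj] at h3
      have h4 := rank_add_ker (Qp (c : Mat r ℂ) ξ j)
      have h5 := rank_add_ker (Qp (c' : Mat r ℂ) ξ j)
      omega
    exact conj_of_rank c c' ξ s hl (Qp_eq_zero hu' hM' hcu' s hκ) hrank

end Vale.Agent.P002B
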