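import Vale.Agent.P002B.AsmA
import Vale.Agent.P002B.PathA
import Vale.Agent.P002B.LiftAll
import Vale.Agent.P002B.AbsorbB
import Vale.Agent.P002B.FlagAsmA
import Vale.Agent.P002B.ChainT
import Vale.Agent.P002B.PosB
import Vale.Agent.P002B.SegPos
import Vale.Agent.P002B.Type
import Vale.Agent.P002B.Levi
import Vale.Agent.P002B.Ext
import Vale.Agent.P002B.Surf
import Vale.Agent.P002B.SurfClT
import Vale.Agent.P002B.Star2B
import Vale.Agent.P002B.Star1B
import Vale.Agent.P002B.GenStmtB
import Vale.Agent.P002B.QCommB5
import Vale.Agent.P002B.BasisH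

/-!
# P002, genus 0, arbitrary classes: the theorem from its parts
-/

namespace Vale.Agent.P002B

open Matrix Vale.Agent.P002R Vale.Agent.P002L

/-- The surface relation without handles. -/
theorem surfCl_zero : SurfCl 0 := by
  intro R _ φ E r d hd hdr hc μ a b hab f hf
  have h1 : ∀ {G : Type} [Group G] (x y : Fin 0 → G), swd x y = 1 := by
    intro G _ x y
    simp [swd]
  have hμ : (μ : R) = 1 := by
    apply hc.inj
    rw [map_one]
    rw [h1] at hab
    have h2 := congrFun (congrFun hab ⟨0, hd⟩) ⟨0, hd⟩
    rw [Units.val_one, Matrix.smul_apply, Matrix.one_apply_eq, smul_eq_mul, mul_one] at h2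
    exact h2.symm
  have h3 := hf (fun i => i.elim0) (fun i => i.elim0) (by rw [h1, hμ, one_smul, Units.val_one])
  rw [← h3]
  congr 2
  funext x
  exact x.1.1.elim0

/-- All surface relations. -/
theorem surfCl_all : ∀ g, SurfCl g
  | 0 => surfCl_zero
  | 1 => QB.surfCl_one
  | g + 2 => surfCl_two_add g (S2B.star2Stmt (SB.star1 GB.genStmt))

/-- The main theorem in genus zero. -/
theorem g0All_of (hB : BasisStmt) : G0All :=
  AsmA.assembly pathStmt liftStmt AB.absorbStmt (flagAsm chainStmt hB posStmtB segPosStmt)
    typeStmt (levi_of_surf (surfStmt surfCl_all extStmt))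

/-- The main theorem in genus zero. -/
theorem g0All : G0All := g0All_of basisStmtH

end Vale.Agent.P002B
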