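import Vale.Agent.P002.GenDer
import Vale.Agent.P292.K.Ext

/-!
# P002B, T12, part (ii): generic points in `ℂ` and derivations with prescribed values
-/

namespace Vale.Agent.P002B.GB

/-- Algebraically independent numbers over a countable field. -/
theorem exists_algIndep_countable (K : Type) [Field K] [Countable K] [Algebra K ℂ] (ι : Type)
    [Finite ι] : ∃ c : ι → ℂ, AlgebraicIndependent K c := by
  let θ : K →+* ℂ := algebraMap K ℂ
  have hcount : Countable θ.fieldRange := by
    have : Function.Surjective θ.rangeRestrictField := θ.rangeRestrictField_bijective.2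
    exact this.countable
  obtain ⟨c, -, hc⟩ := Vale.Agent.P002.exists_dense_algIndep θ.fieldRange hcount (ι := ι)
    (fun _ => Set.univ) (fun _ => isOpen_univ) (fun _ => Set.univ_nonempty)
  refine ⟨c, ?_⟩
  rw [algebraicIndependent_iff] at hc ⊢
  intro p hp
  have h1 : MvPolynomial.map θ.rangeRestrictField p = 0 := by
    apply hc
    rw [MvPolynomial.aeval_def, MvPolynomial.eval₂_map]
    exact hp
  exact MvPolynomial.map_injective _ θ.rangeRestrictField.injective (h1.trans (map_zero _).symm)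

/-- A domain of finite type over a countable field with a map to `ℂ` embeds in `ℂ`. -/
theorem exists_embedding (K₀ : Type) [Field K₀] [Countable K₀] [Algebra K₀ ℂ] {B : Type}
    [CommRing B] [IsDomain B] [Algebra K₀ B] [Algebra.FiniteType K₀ B] :
    ∃ f : B →ₐ[K₀] ℂ, Function.Injective f := by
  classical
  obtain ⟨ι, x, hx⟩ := exists_isTranscendenceBasis' K₀ B
  have hfin : Finite ι := by
    rw [← Cardinal.lt_aleph0_iff_finite, hx.cardinalMk_eq_trdeg]
    exact trdeg_lt_aleph0_of_finiteType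
  obtain ⟨c, hc⟩ := exists_algIndep_countable K₀ ι
  -- `B` is algebraic over the polynomial ring
  let Rx := Algebra.adjoin K₀ (Set.range x)
  have halg : Algebra.IsAlgebraic Rx B := hx.isAlgebraic
  let e : MvPolynomial ι K₀ ≃ₐ[K₀] Rx := hx.1.aevalEquiv
  let j : Rx →ₐ[K₀] ℂ := (MvPolynomial.aeval c).comp (e.symm : Rx →ₐ[K₀] MvPolynomial ι K₀)
  have hc' : Function.Injective (MvPolynomial.aeval c : MvPolynomial ι K₀ →ₐ[K₀] ℂ) := hc
  have hj : Function.Injective j := hc'.comp e.symm.injective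
  let L := FractionRing B
  have hfb : FaithfulSMul Rx B := inferInstance
  have htL : Module.IsTorsionFree Rx L := Module.IsTorsionFree.trans_faithfulSMul Rx B L
  have halgL : Algebra.IsAlgebraic Rx L := (IsFractionRing.isAlgebraic_iff' Rx B L).1 halg
  let _ : Algebra Rx ℂ := j.toRingHom.toAlgebra
  have htower : IsScalarTower K₀ Rx ℂ := IsScalarTower.of_algebraMap_eq fun z => (j.commutes z).symm
  have h1 : FaithfulSMul Rx ℂ := (faithfulSMul_iff_algebraMap_injective Rx ℂ).2 hj
  have h2 : Module.IsTorsionFree Rx ℂ := Module.IsTorsionFree.trans_faithfulSMul Rx ℂ ℂ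
  let F : L →ₐ[Rx] ℂ := IsAlgClosed.lift
  refine ⟨(F.restrictScalars K₀).comp (IsScalarTower.toAlgHom K₀ B L), ?_⟩
  exact F.toRingHom.injective.comp (IsFractionRing.injective B L)

open MvPolynomial in
/-- Values in the dual numbers. -/
theorem dual_eval {K : Type*} [CommRing K] [Algebra K ℂ] {σ : Type} [Fintype σ] (Y H : σ → ℂ)
    (j : K →+* TrivSqZeroExt ℂ ℂ) (hj : ∀ z, j z = TrivSqZeroExt.inl (algebraMap K ℂ z))
    (G : MvPolynomial σ K) :
    eval₂ j (fun i => (TrivSqZeroExt.inl (Y i) + TrivSqZeroExt.inr (H i) : TrivSqZeroExt ℂ ℂ)) G =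
      TrivSqZeroExt.inl (aeval Y G) + TrivSqZeroExt.inr (∑ i, aeval Y (pderiv i G) * H i) := by
  classical
  induction G using MvPolynomial.induction_on with
  | C z =>
    rw [eval₂_C, hj, aeval_C]
    simp
  | add p q hp hq =>
    rw [eval₂_add, hp, hq]
    simp only [map_add, add_mul, Finset.sum_add_distrib, TrivSqZeroExt.inl_add,
      TrivSqZeroExt.inr_add]
    abel
  | mul_X p n hp =>
    rw [eval₂_mul, eval₂_X, hp]
    have h1 : ∀ i, aeval Y (pderiv i (p * X n)) * H i =
        aeval Y (pderiv i p) * H i * Y n + if i = n then aeval Y p * H n else 0 := by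
      intro i
      rw [Derivation.leibniz, pderiv_X]
      by_cases hi : i = n
      · subst hi
        simp
        ring
      · rw [if_neg hi, Pi.single_eq_of_ne (fun h => hi h.symm)]
        simp
        ring
    simp only [h1, Finset.sum_add_distrib, Finset.sum_ite_eq', Finset.mem_univ, if_true]
    refine TrivSqZeroExt.ext ?_ ?_
    · simp
    · rw [TrivSqZeroExt.snd_mul]
      simp only [TrivSqZeroExt.fst_add, TrivSqZeroExt.snd_add, TrivSqZeroExt.fst_inl,
        TrivSqZeroExt.fst_inr, TrivSqZeroExt.snd_inl, TrivSqZeroExt.snd_inr, zero_add, add_zero,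
        map_mul, aeval_X, smul_eq_mul, MulOpposite.smul_eq_mul_unop, MulOpposite.unop_op]
      rw [← Finset.sum_mul]
      ring

open MvPolynomial in
theorem exists_generic_point_aux (K₀ : Type) [Field K₀] [Countable K₀] [Algebra K₀ ℂ]
    {σ τ : Type} [Fintype σ]
    [Fintype τ] {R : Type} [CommRing R] [IsDomain R] [Algebra K₀ R] [Algebra.FiniteType K₀ R]
    (q : MvPolynomial σ K₀ →ₐ[K₀] R) (hq : Function.Surjective q) :
    ∃ (Y : σ → ℂ) (c : τ → ℂ), (∀ G : MvPolynomial σ K₀, aeval Y G = 0 ↔ q G = 0) ∧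
      ∀ H : σ → ℂ, (∀ G : MvPolynomial σ K₀, q G = 0 → ∑ i, aeval Y (pderiv i G) * H i = 0) →
        ∀ γ : τ → ℂ, ∃ δ : Derivation ℤ ℂ ℂ, (∀ z : K₀, δ (algebraMap K₀ ℂ z) = 0) ∧
          (∀ i, δ (Y i) = H i) ∧ ∀ p, δ (c p) = γ p := by
  classical
  have hft : Algebra.FiniteType K₀ (MvPolynomial τ R) :=
    Algebra.FiniteType.trans (S := R) inferInstance inferInstance
  obtain ⟨f, hf⟩ := exists_embedding K₀ (B := MvPolynomial τ R)
  let Y : σ → ℂ := fun i => f (C (q (X i)))
  let c : τ → ℂ := fun p => f (X p)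
  have hY : ∀ G : MvPolynomial σ K₀, aeval Y G = f (C (q G)) := by
    intro G
    have : aeval Y = (f.comp (IsScalarTower.toAlgHom K₀ R (MvPolynomial τ R))).comp q := by
      apply MvPolynomial.algHom_ext
      intro i
      rw [aeval_X]
      rfl
    exact DFunLike.congr_fun this G
  refine ⟨Y, c, fun G => ?_, fun H hH γ => ?_⟩
  · rw [hY]
    constructor
    · intro h
      have h1 := hf (h.trans (map_zero f).symm)
      exact C_injective τ R (h1.trans (map_zero C).symm)
    · intro h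
      rw [h, map_zero, map_zero]
  · let j : K₀ →+* TrivSqZeroExt ℂ ℂ := (TrivSqZeroExt.inlHom ℂ ℂ).comp (algebraMap K₀ ℂ)
    have hj : ∀ z, j z = TrivSqZeroExt.inl (algebraMap K₀ ℂ z) := fun z => rfl
    let θ : MvPolynomial σ K₀ →+* TrivSqZeroExt ℂ ℂ := eval₂Hom j fun i =>
      (TrivSqZeroExt.inl (Y i) + TrivSqZeroExt.inr (H i) : TrivSqZeroExt ℂ ℂ)
    have hθ : ∀ G, θ G =
        TrivSqZeroExt.inl (aeval Y G) + TrivSqZeroExt.inr (∑ i, aeval Y (pderiv i G) * H i) :=
      fun G => dual_eval Y H j hj G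
    have hθ0 : ∀ G, q G = 0 → θ G = 0 := by
      intro G hG
      rw [hθ, hH G hG, hY, hG, map_zero, map_zero]
      simp
    obtain ⟨ψR, hψR⟩ : ∃ ψR : R →+* TrivSqZeroExt ℂ ℂ, ∀ G, ψR (q G) = θ G := by
      have hq' : Function.Surjective q.toRingHom := hq
      refine ⟨(q.toRingHom.liftOfSurjective hq') ⟨θ, fun G hG => hθ0 G hG⟩, fun G => ?_⟩
      exact RingHom.liftOfRightInverse_comp_apply _ _ _ _ G
    let ψ : MvPolynomial τ R →+* TrivSqZeroExt ℂ ℂ := eval₂Hom ψR fun p =>
      (TrivSqZeroExt.inl (c p) + TrivSqZeroExt.inr (γ p) : TrivSqZeroExt ℂ ℂ)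
    have hψC : ∀ r, ψ (C r) = ψR r := fun r => eval₂_C _ _ _
    have hψX : ∀ p, ψ (X p) = TrivSqZeroExt.inl (c p) + TrivSqZeroExt.inr (γ p) :=
      fun p => eval₂_X _ _ _
    have hfst : ∀ b, (ψ b).fst = f b := by
      have h1 : ((TrivSqZeroExt.fstHom ℂ ℂ ℂ).toRingHom.comp ψ) = f.toRingHom := by
        refine MvPolynomial.ringHom_ext (fun r => ?_) fun p => ?_
        · obtain ⟨G, rfl⟩ := hq r
          show (ψ (C _)).fst = f (C _)
          rw [hψC, hψR, hθ, ← hY]
          simp
        · show (ψ (X p)).fst = f (X p)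
          rw [hψX]
          simp [c]
      intro b
      exact RingHom.congr_fun h1 b
    let _ : Algebra (MvPolynomial τ R) ℂ := f.toRingHom.toAlgebra
    have htow : IsScalarTower K₀ (MvPolynomial τ R) ℂ :=
      IsScalarTower.of_algebraMap_eq fun z => (f.commutes z).symm
    have hψK : ∀ z : K₀, ψ (algebraMap K₀ (MvPolynomial τ R) z) = j z := by
      intro z
      have h1 : algebraMap K₀ (MvPolynomial τ R) z = C (q (C z)) := by
        have h2 : q (C z) = algebraMap K₀ R z := q.commutes z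
        rw [h2]
        rfl
      rw [h1, hψC, hψR, hθ, hj, aeval_C]
      simp
    let d : Derivation K₀ (MvPolynomial τ R) ℂ := Derivation.mk'
      { toFun := fun b => (ψ b).snd
        map_add' := fun a b => by rw [map_add, TrivSqZeroExt.snd_add]
        map_smul' := fun z b => by
          rw [Algebra.smul_def, map_mul, hψK, hj, TrivSqZeroExt.snd_mul]
          simp [Algebra.smul_def] }
      (fun a b => by
        show (ψ (a * b)).snd = f a * (ψ b).snd + f b * (ψ a).snd
        rw [map_mul, TrivSqZeroExt.snd_mul, hfst, hfst]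
        simp only [smul_eq_mul, MulOpposite.smul_eq_mul_unop, MulOpposite.unop_op]
        ring)
    obtain ⟨D, hD⟩ := Vale.Agent.P292.exists_derivation_extend (k := K₀)
      (A := MvPolynomial τ R) (E := ℂ) hf d
    have hD' : ∀ b, D (f b) = (ψ b).snd := hD
    refine ⟨D.restrictScalars ℤ, fun z => ?_, fun i => ?_, fun p => ?_⟩
    · exact D.map_algebraMap z
    · show D (Y i) = H i
      have h1 := hD' (C (q (X i)))
      rw [hψC, hψR, hθ] at h1
      refine h1.trans ?_
      simp [pderiv_X, Pi.single_apply]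
    · show D (c p) = γ p
      have h1 := hD' (X p)
      rw [hψX] at h1
      refine h1.trans ?_
      simp

open MvPolynomial in
/-- T12 (ii). -/
theorem exists_generic_point (K₀ : Type) [Field K₀] [Countable K₀] [Algebra K₀ ℂ] {σ τ : Type}
    [Fintype σ] [Fintype τ] (P : Ideal (MvPolynomial σ K₀)) [hP : P.IsPrime] :
    ∃ (Y : σ → ℂ) (c : τ → ℂ), (∀ G : MvPolynomial σ K₀, aeval Y G = 0 ↔ G ∈ P) ∧
      ∀ H : σ → ℂ, (∀ G ∈ P, ∑ i, aeval Y (pderiv i G) * H i = 0) → ∀ γ : τ → ℂ,
        ∃ δ : Derivation ℤ ℂ ℂ, (∀ z : K₀, δ (algebraMap K₀ ℂ z) = 0) ∧ (∀ i, δ (Y i) = H i) ∧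
          ∀ p, δ (c p) = γ p := by
  obtain ⟨Y, c, h1, h2⟩ := exists_generic_point_aux K₀ (τ := τ)
    (Ideal.Quotient.mkₐ K₀ P) (Ideal.Quotient.mkₐ_surjective K₀ P)
  have h3 : ∀ G, Ideal.Quotient.mkₐ K₀ P G = 0 ↔ G ∈ P := fun G =>
    Ideal.Quotient.eq_zero_iff_mem
  exact ⟨Y, c, fun G => (h1 G).trans (h3 G), fun H hH =>
    h2 H fun G hG => hH G ((h3 G).mp hG)⟩

end Vale.Agent.P002B.GB
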