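import Vale.Agent.P002.GenDer
import Mathlib.RingTheory.RegularLocalRing.Polynomial
import Mathlib.RingTheory.Ideal.KrullsHeightTheorem

/-!
# P002B, T12, part (i): the rank of the gradients of a minimal prime
-/

namespace Vale.Agent.P002B.GR

open MvPolynomial IsLocalRing

section grad

variable {K₀ : Type} [Field K₀] [Algebra K₀ ℂ] {σ : Type}

/-- The gradient of a polynomial at a point. -/
noncomputable def grad (Y : σ → ℂ) (G : MvPolynomial σ K₀) : σ → ℂ := fun i => aeval Y (pderiv i G)

theorem grad_add (Y : σ → ℂ) (G G' : MvPolynomial σ K₀) : grad Y (G + G') = grad Y G + grad Y G' := by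
  funext i
  simp [grad]

theorem grad_mul (Y : σ → ℂ) (G G' : MvPolynomial σ K₀) :
    grad Y (G * G') = aeval Y G • grad Y G' + aeval Y G' • grad Y G := by
  funext i
  simp [grad, Derivation.leibniz]

theorem grad_zero (Y : σ → ℂ) : grad Y (0 : MvPolynomial σ K₀) = 0 := by
  funext i
  simp [grad]

theorem grad_span {Y : σ → ℂ} {s : Set (MvPolynomial σ K₀)} (hs : ∀ G ∈ s, aeval Y G = 0)
    {x : MvPolynomial σ K₀} (hx : x ∈ Ideal.span s) :
    aeval Y x = 0 ∧ grad Y x ∈ Submodule.span ℂ (grad Y '' s) := by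
  refine Submodule.span_induction (p := fun x _ => aeval Y x = 0 ∧
    grad Y x ∈ Submodule.span ℂ (grad Y '' s)) ?_ ?_ ?_ ?_ hx
  · intro G hG
    exact ⟨hs G hG, Submodule.subset_span ⟨G, hG, rfl⟩⟩
  · refine ⟨map_zero _, ?_⟩
    rw [grad_zero]
    exact Submodule.zero_mem _
  · intro G G' _ _ h h'
    refine ⟨by rw [map_add, h.1, h'.1, add_zero], ?_⟩
    rw [grad_add]
    exact Submodule.add_mem _ h.2 h'.2
  · intro a G _ h
    refine ⟨by rw [smul_eq_mul, map_mul, h.1, mul_zero], ?_⟩
    rw [smul_eq_mul, grad_mul, h.1, zero_smul, add_zero]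
    exact Submodule.smul_mem _ _ h.2

end grad

/-- **T12 (i)** -/
theorem gen_rank (K₀ : Type) [Field K₀] [CharZero K₀] [Algebra K₀ ℂ] {σ ι : Type} [Fintype σ]
    [Fintype ι] (F : ι → MvPolynomial σ K₀) (P : Ideal (MvPolynomial σ K₀))
    (hP : P ∈ (Ideal.span (Set.range F)).minimalPrimes) (Y : σ → ℂ)
    (hY : ∀ G, aeval Y G = 0 ↔ G ∈ P) (T : Submodule ℂ (σ → ℂ))
    (hT : ∀ H, H ∈ T ↔ ∀ G ∈ P, ∑ i, aeval Y (pderiv i G) * H i = 0) :
    Fintype.card σ ≤ Module.finrank ℂ T + Fintype.card ι := by
  classical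
  have hPp : P.IsPrime := hP.1.1
  have hreg : IsRegularLocalRing (Localization.AtPrime P) :=
    IsRegularRing.isRegularLocalRing_localization P
  have h1 : ((maximalIdeal (Localization.AtPrime P)).spanFinrank : WithBot ℕ∞) =
      ringKrullDim (Localization.AtPrime P) := IsRegularLocalRing.spanFinrank_maximalIdeal
  have h2 : ringKrullDim (Localization.AtPrime P) = P.height :=
    IsLocalization.AtPrime.ringKrullDim_eq_height P (Localization.AtPrime P)
  have h3 : P.height ≤ Fintype.card ι := by
    have h4 : P.height ≤ (Finset.univ.image F).card := by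
      refine Ideal.height_le_card_of_mem_minimalPrimes_span_finset ?_
      rwa [Finset.coe_image, Finset.coe_univ, Set.image_univ]
    refine h4.trans ?_
    exact_mod_cast Finset.card_image_le
  have h4 : (maximalIdeal (Localization.AtPrime P)).spanFinrank ≤ Fintype.card ι := by
    rw [h2] at h1
    have h5 : (((maximalIdeal (Localization.AtPrime P)).spanFinrank : ℕ∞) : WithBot ℕ∞) =
        ((P.height : ℕ∞) : WithBot ℕ∞) := h1
    have h6 := WithBot.coe_injective h5
    rw [← h6] at h3
    exact_mod_cast h3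
  -- generators
  have hfg : (maximalIdeal (Localization.AtPrime P)).FG := IsNoetherian.noetherian _
  obtain ⟨gs, hgs1, hgs2, hgs3⟩ : ∃ gs : Set (Localization.AtPrime P), gs.Finite ∧
      gs.ncard = (maximalIdeal (Localization.AtPrime P)).spanFinrank ∧
      Ideal.span gs = maximalIdeal (Localization.AtPrime P) :=
    ⟨_, Submodule.FG.finite_generators hfg, Submodule.FG.generators_ncard hfg,
      Submodule.span_generators _⟩
  have hnum : ∀ t : Localization.AtPrime P, ∃ (g : MvPolynomial σ K₀) (s : P.primeCompl),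
      t * algebraMap _ _ (s : MvPolynomial σ K₀) = algebraMap _ _ g := by
    intro t
    obtain ⟨⟨g, s⟩, h⟩ := IsLocalization.surj P.primeCompl t
    exact ⟨g, s, h⟩
  choose num den hnd using hnum
  have hmap : Ideal.map (algebraMap (MvPolynomial σ K₀) (Localization.AtPrime P))
      (Ideal.span (num '' gs)) = maximalIdeal (Localization.AtPrime P) := by
    rw [← hgs3, Ideal.map_span]
    apply le_antisymm
    · rw [Ideal.span_le]
      rintro _ ⟨_, ⟨t, ht, rfl⟩, rfl⟩
      rw [← hnd t]
      exact Ideal.mul_mem_right _ _ (Ideal.subset_span ht)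
    · rw [Ideal.span_le]
      intro t ht
      have hu : IsUnit (algebraMap (MvPolynomial σ K₀) (Localization.AtPrime P) (den t)) :=
        IsLocalization.map_units _ (den t)
      obtain ⟨v, hv⟩ := hu
      have h5 : t = algebraMap _ _ (num t) * ((v⁻¹ : (Localization.AtPrime P)ˣ) :
          Localization.AtPrime P) := by
        rw [← hnd t, ← hv, mul_assoc, Units.mul_inv, mul_one]
      rw [h5]
      exact Ideal.mul_mem_right _ _ (Ideal.subset_span ⟨_, ⟨t, ht, rfl⟩, rfl⟩)
  -- the generators lie in `P`
  have hnumP : ∀ G ∈ num '' gs, aeval Y G = 0 := by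
    rintro _ ⟨t, ht, rfl⟩
    rw [hY]
    have h5 : algebraMap _ _ (num t) ∈ maximalIdeal (Localization.AtPrime P) := by
      rw [← hnd t]
      refine Ideal.mul_mem_right _ _ ?_
      rw [← hgs3]
      exact Ideal.subset_span ht
    exact (IsLocalization.AtPrime.to_map_mem_maximal_iff (Localization.AtPrime P) P (num t)).1 h5
  -- gradients of the elements of `P`
  have hgrad : ∀ G ∈ P, grad Y G ∈ Submodule.span ℂ (grad Y '' (num '' gs)) := by
    intro G hG
    have h5 : algebraMap _ _ G ∈ Ideal.map (algebraMap (MvPolynomial σ K₀)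
        (Localization.AtPrime P)) (Ideal.span (num '' gs)) := by
      rw [hmap]
      exact (IsLocalization.AtPrime.to_map_mem_maximal_iff (Localization.AtPrime P) P G).2 hG
    rw [IsLocalization.algebraMap_mem_map_algebraMap_iff P.primeCompl] at h5
    obtain ⟨s, hs, hsG⟩ := h5
    have h6 := (grad_span hnumP hsG).2
    have h7 : aeval Y G = 0 := (hY G).2 hG
    have h8 : aeval Y s ≠ 0 := fun h0 => hs ((hY s).1 h0)
    rw [grad_mul, h7, zero_smul, add_zero] at h6
    have h9 := Submodule.smul_mem _ (aeval Y s)⁻¹ h6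
    rwa [smul_smul, inv_mul_cancel₀ h8, one_smul] at h9
  -- the linear map
  let L : (σ → ℂ) →ₗ[ℂ] (hgs1.toFinset → ℂ) :=
    { toFun := fun H t => ∑ i, grad Y (num t.1) i * H i
      map_add' := fun H H' => by
        funext t
        simp [mul_add, Finset.sum_add_distrib]
      map_smul' := fun a H => by
        funext t
        simp only [Pi.smul_apply, smul_eq_mul, RingHom.id_apply, Finset.mul_sum]
        exact Finset.sum_congr rfl fun i _ => by ring }
  have hker : LinearMap.ker L ≤ T := by
    intro H hH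
    rw [hT]
    intro G hG
    have h5 : ∀ w ∈ Submodule.span ℂ (grad Y '' (num '' gs)), ∑ i, w i * H i = 0 := by
      intro w hw
      refine Submodule.span_induction (p := fun w _ => ∑ i, w i * H i = 0) ?_ ?_ ?_ ?_ hw
      · rintro _ ⟨_, ⟨t, ht, rfl⟩, rfl⟩
        exact congrFun (show L H = 0 from hH) ⟨t, hgs1.mem_toFinset.2 ht⟩
      · simp
      · intro x y _ _ hx hy
        simp only [Pi.add_apply, add_mul, Finset.sum_add_distrib, hx, hy, add_zero]
      · intro a x _ hx
        simp only [Pi.smul_apply, smul_eq_mul, mul_assoc, ← Finset.mul_sum, hx, mul_zero]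
    exact h5 _ (hgrad G hG)
  have h5 := LinearMap.finrank_range_add_finrank_ker L
  have h6 : Module.finrank ℂ (LinearMap.range L) ≤ gs.ncard := by
    refine (Submodule.finrank_le _).trans ?_
    rw [Module.finrank_fintype_fun_eq_card, Fintype.card_coe, Set.ncard_eq_toFinset_card gs hgs1]
  have h7 := Submodule.finrank_mono hker
  rw [Module.finrank_fintype_fun_eq_card] at h5
  omega

end Vale.Agent.P002B.GR
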