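import Vale.Agent.P002B.GenB
import Vale.Agent.P002B.GenRank

/-!
# P002B, T12: assembly of GenStmt
-/

namespace Vale.Agent.P002B.GB

open MvPolynomial

/-- The space of tangent vectors. -/
noncomputable def tanT {K₀ : Type} [Field K₀] [Algebra K₀ ℂ] {σ : Type} [Fintype σ]
    (P : Ideal (MvPolynomial σ K₀)) (Y : σ → ℂ) : Submodule ℂ (σ → ℂ) where
  carrier := {H | ∀ G ∈ P, ∑ i, aeval Y (pderiv i G) * H i = 0}
  add_mem' := fun {a b} ha hb G hG => by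
    simp only [Pi.add_apply, mul_add, Finset.sum_add_distrib]
    rw [ha G hG, hb G hG, add_zero]
  zero_mem' := fun G _ => by simp
  smul_mem' := fun c a ha G hG => by
    have h := ha G hG
    have h1 : ∑ i, aeval Y (pderiv i G) * (c • a) i = c * ∑ i, aeval Y (pderiv i G) * a i := by
      rw [Finset.mul_sum]
      exact Finset.sum_congr rfl fun i _ => by rw [Pi.smul_apply, smul_eq_mul]; ring
    rw [h1, h, mul_zero]

theorem gen_type (K₀ : Type) [Field K₀] [Countable K₀] [CharZero K₀] [Algebra K₀ ℂ]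
    {σ ι τ : Type} [Fintype σ] [Fintype ι] [Fintype τ]
    (F : ι → MvPolynomial σ K₀) (x : σ → ℂ) (hx : ∀ i, MvPolynomial.aeval x (F i) = 0) :
    ∃ (Y : σ → ℂ) (T : Submodule ℂ (σ → ℂ)) (c : τ → ℂ),
      (∀ G : MvPolynomial σ K₀, MvPolynomial.aeval Y G = 0 → MvPolynomial.aeval x G = 0) ∧
      (∀ i, MvPolynomial.aeval Y (F i) = 0) ∧
      Fintype.card σ ≤ Module.finrank ℂ T + Fintype.card ι ∧
      ∀ H ∈ T, ∀ γ : τ → ℂ, ∃ δ : Derivation ℤ ℂ ℂ, (∀ z : K₀, δ (algebraMap K₀ ℂ z) = 0) ∧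
        (∀ i, δ (Y i) = H i) ∧ ∀ p, δ (c p) = γ p := by
  have hker : (RingHom.ker (MvPolynomial.aeval x : MvPolynomial σ K₀ →ₐ[K₀] ℂ)).IsPrime :=
    RingHom.ker_isPrime _
  have hle : Ideal.span (Set.range F) ≤
      RingHom.ker (MvPolynomial.aeval x : MvPolynomial σ K₀ →ₐ[K₀] ℂ) := by
    rw [Ideal.span_le]
    rintro _ ⟨i, rfl⟩
    exact hx i
  obtain ⟨P, hP, hPle⟩ := Ideal.exists_minimalPrimes_le hle
  have hPp : P.IsPrime := hP.1.1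
  obtain ⟨Y, c, hY, hδ⟩ := exists_generic_point K₀ (τ := τ) P
  refine ⟨Y, tanT P Y, c, fun G hG => hPle ((hY G).mp hG), fun i => ?_,
    GR.gen_rank K₀ F P hP Y hY (tanT P Y) (fun H => Iff.rfl), fun H hH γ => hδ H hH γ⟩
  exact (hY _).mpr (hP.1.2 (Ideal.subset_span ⟨i, rfl⟩))

theorem gen_subfield :
  ∀ (K₀ : Subfield ℂ), Countable K₀ → ∀ {σ ι τ : Type} [Fintype σ] [Fintype ι] [Fintype τ]
    (F : ι → MvPolynomial σ K₀) (x : σ → ℂ), (∀ i, MvPolynomial.aeval x (F i) = 0) →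
    ∃ (Y : σ → ℂ) (T : Submodule ℂ (σ → ℂ)) (c : τ → ℂ),
      (∀ G : MvPolynomial σ K₀, MvPolynomial.aeval Y G = 0 → MvPolynomial.aeval x G = 0) ∧
      (∀ i, MvPolynomial.aeval Y (F i) = 0) ∧
      Fintype.card σ ≤ Module.finrank ℂ T + Fintype.card ι ∧
      ∀ H ∈ T, ∀ γ : τ → ℂ, ∃ δ : Derivation ℤ ℂ ℂ, (∀ z ∈ K₀, δ z = 0) ∧
        (∀ i, δ (Y i) = H i) ∧ ∀ p, δ (c p) = γ p := by
  intro K₀ hK₀ σ ι τ _ _ _ F x hx
  obtain ⟨Y, T, c, h1, h2, h3, h4⟩ := gen_type K₀ (τ := τ) F x hx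
  refine ⟨Y, T, c, h1, h2, h3, fun H hH γ => ?_⟩
  obtain ⟨δ, e1, e2, e3⟩ := h4 H hH γ
  exact ⟨δ, fun z hz => e1 ⟨z, hz⟩, e2, e3⟩

end Vale.Agent.P002B.GB
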