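import Vale.Agent.P002B.WordAll

/-!
# P002, genus 0, arbitrary classes: the Levi equation as a quadratic system of words (T9.1)
-/

namespace Vale.Agent.P002B

open Matrix Vale.Agent.P002R Vale.Agent.P002L

namespace LW

variable {r N : ℕ}

/-- Size of a block. -/
def dm (nm : Fin r → Fin N) (c : Fin N) : ℕ := Fintype.card {i // nm i = c}

/-- Enumeration of a block. -/
noncomputable def eqv {nm : Fin r → Fin N} {c : Fin N} {d : ℕ} (h : dm nm c = d) :
    {i // nm i = c} ≃ Fin d := Fintype.equivFinOfCardEq h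

/-- Frames of the blocks of size `d`. -/
noncomputable def JJ (S : Type*) [CommRing S] (nm : Fin r → Fin N) (d : ℕ) (c : Fin N) :
    Matrix (Fin r) (Fin d) S :=
  if h : dm nm c = d then
    Matrix.of fun i s => if i = ((eqv h).symm s).1 then 1 else 0
  else 0

section frames

variable {S : Type*} [CommRing S] {nm : Fin r → Fin N} {d : ℕ} {c : Fin N}

theorem JJ_apply (h : dm nm c = d) (i : Fin r) (s : Fin d) : JJ S nm d c i s =
    if i = ((eqv h).symm s).1 then 1 else 0 := by
  rw [JJ, dif_pos h]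
  rfl

theorem JJ_zero (i : Fin r) (s : Fin d) (h : nm i ≠ c) : JJ S nm d c i s = 0 := by
  by_cases hd : dm nm c = d
  · rw [JJ_apply hd, if_neg]
    rintro rfl
    exact h ((eqv hd).symm s).2
  · rw [JJ, dif_neg hd]
    rfl

theorem JJ_tmul (h : dm nm c = d) : (JJ S nm d c)ᵀ * JJ S nm d c = 1 := by
  ext s t
  rw [mul_apply]
  simp only [transpose_apply, JJ_apply h, ite_mul, one_mul, zero_mul]
  rw [Finset.sum_ite_eq' Finset.univ _ _, if_pos (Finset.mem_univ _), one_apply]
  congr 1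
  simp only [eq_iff_iff]
  rw [← Subtype.ext_iff, (eqv h).symm.injective.eq_iff]

theorem JJ_mult (h : dm nm c = d) : JJ S nm d c * (JJ S nm d c)ᵀ = ee nm c := by
  ext i j
  rw [mul_apply, ee, diagonal_apply]
  by_cases hi : nm i = c
  · rw [Finset.sum_eq_single (eqv h ⟨i, hi⟩)]
    · simp only [transpose_apply, JJ_apply h, Equiv.symm_apply_apply, if_true, hi, one_mul]
      by_cases hij : i = j
      · simp [hij]
      · rw [if_neg hij, if_neg (Ne.symm hij)]
    · intro s _ hs
      rw [JJ_apply h, if_neg, zero_mul]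
      intro h'
      apply hs
      rw [← (eqv h).apply_symm_apply s]
      congr 1
      exact Subtype.ext h'.symm
    · intro h'
      exact absurd (Finset.mem_univ _) h'
  · rw [if_neg hi]
    have : ∀ s, JJ S nm d c i s = 0 := fun s => JJ_zero i s hi
    simp [this]

theorem JJ_ne {c' : Fin N} (h : c ≠ c') : (JJ S nm d c)ᵀ * JJ S nm d c' = 0 := by
  ext s t
  rw [mul_apply, Matrix.zero_apply]
  apply Finset.sum_eq_zero
  intro i _
  rw [transpose_apply]
  by_cases hi : nm i = c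
  · rw [JJ_zero (c := c') i t (by rw [hi]; exact h), mul_zero]
  · rw [JJ_zero (c := c) i s hi, zero_mul]

theorem ee_JJ : (ee nm c : Mat r S) * JJ S nm d c = JJ S nm d c := by
  ext i s
  rw [ee, diagonal_mul]
  by_cases hi : nm i = c
  · rw [if_pos hi, one_mul]
  · rw [if_neg hi, zero_mul, JJ_zero i s hi]

theorem ee_JJ_ne {c' : Fin N} (h : c' ≠ c) : (ee nm c' : Mat r S) * JJ S nm d c = 0 := by
  ext i s
  rw [ee, diagonal_mul, Matrix.zero_apply]
  by_cases hi : nm i = c'
  · rw [if_pos hi, one_mul, JJ_zero i s (by rw [hi]; exact h)]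
  · rw [if_neg hi, zero_mul]

theorem BB_JJ {a b : Fin N} {y : Mat r S} (hy : BB nm a b y) (h : c ≠ b) :
    y * JJ S nm d c = 0 := by
  ext i s
  rw [mul_apply, Matrix.zero_apply]
  apply Finset.sum_eq_zero
  intro j _
  by_cases hj : nm j = c
  · rw [hy i j (fun h' => h (hj.symm.trans h'.2)), zero_mul]
  · rw [JJ_zero j s hj, mul_zero]

theorem BB_ee {a b : Fin N} {y : Mat r S} (hy : BB nm a b y) : y * ee nm b = y := by
  ext i j
  rw [ee, mul_diagonal]
  by_cases hj : nm j = b
  · rw [if_pos hj, mul_one]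
  · rw [if_neg hj, mul_zero, hy i j fun h => hj h.2]

theorem ee_BB {a b : Fin N} {y : Mat r S} (hy : BB nm a b y) : ee nm a * y = y := by
  ext i j
  rw [ee, diagonal_mul]
  by_cases hj : nm i = a
  · rw [if_pos hj, one_mul]
  · rw [if_neg hj, zero_mul, hy i j fun h => hj h.1]

theorem BB_mk {a b : Fin N} (X : Mat d S) :
    BB nm a b (JJ S nm d a * X * (JJ S nm d b)ᵀ) := by
  intro i j hij
  rw [mul_apply]
  apply Finset.sum_eq_zero
  intro t _
  by_cases hi : nm i = a
  · have hj : nm j ≠ b := fun h => hij ⟨hi, h⟩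
    rw [transpose_apply, JJ_zero j t hj, mul_zero]
  · rw [mul_apply, Finset.sum_eq_zero, zero_mul]
    intro s _
    rw [JJ_zero i s hi, zero_mul]

theorem JJ_map {S' : Type*} [CommRing S'] (f : S →+* S') :
    (JJ S nm d c).map f = JJ S' nm d c := by
  ext i s
  rw [map_apply]
  by_cases hd : dm nm c = d
  · rw [JJ_apply hd, JJ_apply hd]
    split <;> simp
  · rw [JJ, dif_neg hd, JJ, dif_neg hd]
    simp

end frames

/-- One step of the state of the words. -/
def lstep {R : Type} [CommRing R] (s : (Fin N → List (ℕ × Bool)) × (Fin N → Rˣ)) :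
    Sy R N → (Fin N → List (ℕ × Bool)) × (Fin N → Rˣ)
  | Sy.D d => (s.1, fun c => s.2 c * d c)
  | Sy.Y a b n => (fun c => if c = b then s.1 a ++ [(n, true)] else
      if c = a then s.1 b ++ [(n, false)] else s.1 c,
      fun c => if c = b then s.2 a else if c = a then -s.2 b else s.2 c)

/-- State of the words. -/
def lst {R : Type} [CommRing R] (L : List (Sy R N)) :
    (Fin N → List (ℕ × Bool)) × (Fin N → Rˣ) :=
  L.foldl lstep (fun _ => [], fun _ => 1)

section state

variable {R : Type} [CommRing R]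

theorem lst_snoc (L : List (Sy R N)) (s : Sy R N) : lst (L ++ [s]) = lstep (lst L) s := by
  rw [lst, List.foldl_append]
  rfl

theorem lst_D (L : List (Sy R N)) (d : Fin N → Rˣ) :
    lst (L ++ [Sy.D d]) = ((lst L).1, fun c => (lst L).2 c * d c) := lst_snoc L _

theorem lst_Y (L : List (Sy R N)) (a b : Fin N) (n : ℕ) :
    lst (L ++ [Sy.Y a b n]) = (fun c => if c = b then (lst L).1 a ++ [(n, true)] else
      if c = a then (lst L).1 b ++ [(n, false)] else (lst L).1 c,
      fun c => if c = b then (lst L).2 a else if c = a then -(lst L).2 b else (lst L).2 c) :=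
  lst_snoc L _

theorem cev_snoc {S : Type} [CommRing S] (nm : Fin r → Fin N) (ι : R →+* S)
    (y : ℕ → Mat r S × Mat r S) (L : List (Sy R N)) (s : Sy R N) :
    cev nm ι y (L ++ [s]) = cev nm ι y L * s.ev nm ι y := by
  rw [cev, List.map_append, List.prod_append]
  simp [cev]

theorem cpm_snoc (L : List (Sy R N)) (s : Sy R N) : cpm (L ++ [s]) = cpm L * s.pm := by
  rw [cpm, List.map_append, List.prod_append]
  simp [cpm]

theorem wev_snoc {G : Type*} [Group G] (Y : ℕ → G) (w : List (ℕ × Bool)) (x : ℕ × Bool) :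
    wev Y (w ++ [x]) = wev Y w * if x.2 then Y x.1 else (Y x.1)⁻¹ := by
  rw [wev, List.map_append, List.prod_append]
  simp [wev]

/-- Evaluation of circuits by words. -/
theorem cev_word {S : Type} [CommRing S] (nm : Fin r → Fin N) (ι : R →+* S)
    (y : ℕ → Mat r S × Mat r S) (Y : (d : ℕ) → ℕ → (Mat d S)ˣ) (L : List (Sy R N)) :
    (∀ a b n, Sy.Y a b n ∈ L → a ≠ b ∧ dm nm a = dm nm b ∧ BB nm a b (y n).1 ∧
      BB nm b a (y n).2 ∧
      (y n).1 * JJ S nm (dm nm a) b = JJ S nm (dm nm a) a * (Y (dm nm a) n : Mat (dm nm a) S) ∧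
      (y n).2 * JJ S nm (dm nm a) a =
        JJ S nm (dm nm a) b * (((Y (dm nm a) n)⁻¹ : (Mat (dm nm a) S)ˣ) :
          Mat (dm nm a) S)) →
    ∀ c d, dm nm c = d → dm nm (cpm L c) = d ∧ cev nm ι y L * JJ S nm d c =
      ι ((lst L).2 c : R) • (JJ S nm d (cpm L c) *
        ((wev (Y d) ((lst L).1 c) : (Mat d S)ˣ) : Mat d S)) := by
  induction L using List.reverseRecOn with
  | nil =>
    intro _ c d hc
    simp [cev, cpm, lst, wev, hc]
  | append_singleton L s ih =>
    intro H c d hc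
    have ih := ih fun a b n h => H a b n (List.mem_append_left _ h)
    rw [cev_snoc, cpm_snoc]
    cases s with
    | D δ =>
      obtain ⟨h1, h2⟩ := ih c d hc
      simp only [Sy.pm, mul_one, Sy.ev, lst_D]
      refine ⟨h1, ?_⟩
      have h3 : (diagonal fun i => ι (δ (nm i) : R)) * JJ S nm d c =
          ι (δ c : R) • JJ S nm d c := by
        ext i t
        rw [diagonal_mul, Matrix.smul_apply, smul_eq_mul]
        by_cases hi : nm i = c
        · rw [hi]
        · rw [JJ_zero i t hi, mul_zero, mul_zero]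
      rw [Matrix.mul_assoc, h3, Matrix.mul_smul, h2, smul_smul, Units.val_mul, map_mul,
        mul_comm (ι ((lst L).2 c : R))]
    | Y a b n =>
      obtain ⟨hab, hdm, hy1, hy2, hY1, hY2⟩ := H a b n (by simp)
      simp only [Sy.pm, Sy.ev, lst_Y]
      rw [Matrix.mul_assoc]
      simp only [Matrix.add_mul, Matrix.sub_mul, Matrix.one_mul]
      by_cases hcb : c = b
      · subst hcb
        have hda : dm nm a = d := hdm.trans hc
        subst hda
        obtain ⟨h1, h2⟩ := ih a _ rfl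
        rw [ee_JJ_ne hab, ee_JJ, BB_JJ hy2 (Ne.symm hab), hY1]
        have h3 : (cpm L * Equiv.swap a c) c = cpm L a := by
          rw [Equiv.Perm.mul_apply, Equiv.swap_apply_right]
        rw [h3, if_pos rfl, if_pos rfl, wev_snoc]
        refine ⟨h1, ?_⟩
        simp only [if_true, Units.val_mul, sub_zero, sub_self, zero_add]
        rw [← Matrix.mul_assoc, h2, Matrix.smul_mul, Matrix.mul_assoc]
      · by_cases hca : c = a
        · subst hca
          subst hc
          obtain ⟨h1, h2⟩ := ih b _ hdm.symm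
          rw [ee_JJ_ne (Ne.symm hab), ee_JJ, BB_JJ hy1 hab, hY2]
          have h3 : (cpm L * Equiv.swap c b) c = cpm L b := by
            rw [Equiv.Perm.mul_apply, Equiv.swap_apply_left]
          rw [h3, if_neg hcb, if_pos rfl, if_neg hcb, if_pos rfl, wev_snoc]
          refine ⟨h1, ?_⟩
          simp only [Bool.false_eq_true, if_false, Units.val_mul, sub_self, zero_add,
            zero_sub, Matrix.mul_neg, Units.val_neg, map_neg, neg_smul]
          rw [← Matrix.mul_assoc, h2, Matrix.smul_mul, Matrix.mul_assoc]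
        · obtain ⟨h1, h2⟩ := ih c d hc
          rw [ee_JJ_ne (Ne.symm hca), ee_JJ_ne (Ne.symm hcb), BB_JJ hy1 hcb, BB_JJ hy2 hca]
          have h3 : (cpm L * Equiv.swap a b) c = cpm L c := by
            rw [Equiv.Perm.mul_apply, Equiv.swap_apply_of_ne_of_ne hca hcb]
          rw [h3, if_neg hcb, if_neg hca, if_neg hcb, if_neg hca]
          refine ⟨h1, ?_⟩
          simp only [sub_zero, add_zero]
          exact h2

/-- The variables of a circuit. -/
theorem mem_vars (L : List (Sy R N)) (n : ℕ) :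
    n ∈ L.filterMap Sy.vr ↔ ∃ a b, Sy.Y a b n ∈ L := by
  rw [List.mem_filterMap]
  constructor
  · rintro ⟨s, hs, h⟩
    cases s with
    | D d => simp [Sy.vr] at h
    | Y a b m =>
      simp only [Sy.vr, Option.some.injEq] at h
      subst h
      exact ⟨a, b, hs⟩
  · rintro ⟨a, b, h⟩
    exact ⟨_, h, rfl⟩

theorem circ_left {L : List (Sy R N)} {s : Sy R N} (h : Circ (L ++ [s])) : Circ L := by
  refine ⟨?_, fun a b n hn => h.2 a b n (List.mem_append_left _ hn)⟩
  have := h.1
  rw [List.filterMap_append] at this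
  exact this.of_append_left

theorem circ_new {L : List (Sy R N)} {a b : Fin N} {n : ℕ} (h : Circ (L ++ [Sy.Y a b n])) :
    n ∉ L.filterMap Sy.vr := by
  have := h.1
  rw [List.filterMap_append] at this
  have h2 := List.disjoint_of_nodup_append this
  intro hn
  exact h2 hn (List.mem_filterMap.2 ⟨_, List.mem_singleton_self _, rfl⟩)

theorem circ_unique {L : List (Sy R N)} (h : (L.filterMap Sy.vr).Nodup) {a b a' b' : Fin N}
    {n : ℕ} (h1 : Sy.Y a b n ∈ L) (h2 : Sy.Y a' b' n ∈ L) : a = a' ∧ b = b' := by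
  induction L with
  | nil => simp at h1
  | cons s L ih =>
    have hL : (L.filterMap Sy.vr).Nodup :=
      h.sublist (List.Sublist.filterMap Sy.vr (List.sublist_cons_self s L))
    rcases List.mem_cons.1 h1 with e1 | h1
    · rcases List.mem_cons.1 h2 with e2 | h2
      · rw [← e1] at e2
        simp only [Sy.Y.injEq] at e2
        exact ⟨e2.1.symm, e2.2.1.symm⟩
      · exfalso
        rw [← e1] at h
        have h' : (n :: L.filterMap Sy.vr).Nodup := h
        exact (List.nodup_cons.1 h').1 ((mem_vars L n).2 ⟨_, _, h2⟩)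
    · rcases List.mem_cons.1 h2 with e2 | h2
      · exfalso
        rw [← e2] at h
        have h' : (n :: L.filterMap Sy.vr).Nodup := h
        exact (List.nodup_cons.1 h').1 ((mem_vars L n).2 ⟨_, _, h1⟩)
      · exact ih hL h1 h2

/-- Combinatorics of the words. -/
theorem words_inv (nm : Fin r → Fin N) (L : List (Sy R N)) : Circ L →
    (∀ a b n, Sy.Y a b n ∈ L → dm nm a = dm nm b) →
    (∀ c, ((lst L).1 c).Nodup) ∧ (∀ c c' x, x ∈ (lst L).1 c → x ∈ (lst L).1 c' → c = c') ∧
    (∀ c n β, (n, β) ∈ (lst L).1 c → ∃ a b, Sy.Y a b n ∈ L ∧ dm nm c = dm nm a) ∧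
    ∀ a b n β, Sy.Y a b n ∈ L → ∃ c, dm nm c = dm nm a ∧ (n, β) ∈ (lst L).1 c := by
  induction L using List.reverseRecOn with
  | nil =>
    intro _ _
    simp [lst]
  | append_singleton L s ih =>
    intro hC hD
    obtain ⟨i1, i2, i3, i4⟩ := ih (circ_left hC) fun a b n h => hD a b n (List.mem_append_left _ h)
    cases s with
    | D δ =>
      simp only [lst_D]
      refine ⟨i1, i2, fun c n β h => ?_, fun a b n β h => ?_⟩
      · obtain ⟨a, b, h1, h2⟩ := i3 c n β h
        exact ⟨a, b, List.mem_append_left _ h1, h2⟩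
      · exact i4 a b n β (by simpa using h)
    | Y a b n =>
      have hab : a ≠ b := hC.2 a b n (by simp)
      have hdm : dm nm a = dm nm b := hD a b n (by simp)
      have hn : ∀ c β, (n, β) ∉ (lst L).1 c := by
        intro c β h
        obtain ⟨a', b', h1, _⟩ := i3 c n β h
        exact circ_new hC ((mem_vars L n).2 ⟨a', b', h1⟩)
      -- membership in the new words
      have hmem : ∀ c x, x ∈ (lst (L ++ [Sy.Y a b n])).1 c ↔
          (x ∈ (lst L).1 (Equiv.swap a b c) ∨ (c = b ∧ x = (n, true)) ∨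
            (c = a ∧ x = (n, false))) := by
        intro c x
        rw [lst_Y]
        simp only
        by_cases hcb : c = b
        · subst hcb
          simp [hab.symm]
        · by_cases hca : c = a
          · subst hca
            simp [hcb]
          · simp [hcb, hca, Equiv.swap_apply_of_ne_of_ne hca hcb]
      have hsw : ∀ c, dm nm (Equiv.swap a b c) = dm nm c := by
        intro c
        by_cases hcb : c = b
        · subst hcb
          rw [Equiv.swap_apply_right, hdm]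
        · by_cases hca : c = a
          · subst hca
            rw [Equiv.swap_apply_left, hdm]
          · rw [Equiv.swap_apply_of_ne_of_ne hca hcb]
      refine ⟨?_, ?_, ?_, ?_⟩
      · intro c
        rw [lst_Y]
        simp only
        split_ifs with h1 h2
        · rw [List.nodup_append]
          refine ⟨i1 a, by simp, ?_⟩
          rintro x hx y hy rfl
          rw [List.mem_singleton] at hy
          subst hy
          exact hn _ _ hx
        · rw [List.nodup_append]
          refine ⟨i1 b, by simp, ?_⟩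
          rintro x hx y hy rfl
          rw [List.mem_singleton] at hy
          subst hy
          exact hn _ _ hx
        · exact i1 c
      · intro c c' x hx hx'
        rw [hmem] at hx hx'
        rcases hx with hx | ⟨hx, rfl⟩ | ⟨hx, rfl⟩
        · rcases hx' with hx' | ⟨hx', rfl⟩ | ⟨hx', rfl⟩
          · exact (Equiv.swap a b).injective (i2 _ _ _ hx hx')
          · exact absurd hx (hn _ _)
          · exact absurd hx (hn _ _)
        · rcases hx' with hx' | ⟨hx', h⟩ | ⟨hx', h⟩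
          · exact absurd hx' (hn _ _)
          · rw [hx, hx']
          · simp at h
        · rcases hx' with hx' | ⟨hx', h⟩ | ⟨hx', h⟩
          · exact absurd hx' (hn _ _)
          · simp at h
          · rw [hx, hx']
      · intro c m β h
        rw [hmem] at h
        rcases h with h | ⟨h, e⟩ | ⟨h, e⟩
        · obtain ⟨a', b', h1, h2⟩ := i3 _ m β h
          exact ⟨a', b', List.mem_append_left _ h1, (hsw c).symm.trans h2⟩
        · rw [Prod.mk.injEq] at e
          exact ⟨a, b, by rw [e.1]; simp, by rw [h, hdm]⟩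
        · rw [Prod.mk.injEq] at e
          exact ⟨a, b, by rw [e.1]; simp, by rw [h]⟩
      · intro a' b' m β h
        rcases List.mem_append.1 h with h | h
        · obtain ⟨c, h1, h2⟩ := i4 a' b' m β h
          refine ⟨Equiv.swap a b c, (hsw c).trans h1, ?_⟩
          rw [hmem]
          left
          rwa [Equiv.swap_apply_self]
        · rw [List.mem_singleton] at h
          simp only [Sy.Y.injEq] at h
          obtain ⟨rfl, rfl, rfl⟩ := h
          cases β with
          | true => exact ⟨b', hdm.symm, (hmem _ _).2 (Or.inr (Or.inl ⟨rfl, rfl⟩))⟩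
          | false => exact ⟨a', rfl, (hmem _ _).2 (Or.inr (Or.inr ⟨rfl, rfl⟩))⟩

/-- The words of a valid circuit form a quadratic system. -/
theorem words_quad (nm : Fin r → Fin N) (L : List (Sy R N)) (hC : Circ L)
    (hD : ∀ a b n, Sy.Y a b n ∈ L → dm nm a = dm nm b) (d : ℕ) :
    Quad (((List.finRange N).filter fun c => dm nm c = d).map (lst L).1) := by
  obtain ⟨i1, i2, i3, i4⟩ := words_inv nm L hC hD
  constructor
  · rw [List.nodup_flatten]
    constructor
    · intro l hl
      obtain ⟨c, -, rfl⟩ := List.mem_map.1 hl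
      exact i1 c
    · rw [List.pairwise_map]
      apply List.Pairwise.filter
      refine List.Pairwise.imp ?_ (List.nodup_finRange N)
      intro c c' hcc x hx hx'
      exact hcc (i2 c c' x hx hx')
  · intro n β h
    obtain ⟨l, hl, hx⟩ := List.mem_flatten.1 h
    obtain ⟨c, hc, rfl⟩ := List.mem_map.1 hl
    have hc' := (List.mem_filter.1 hc).2
    rw [decide_eq_true_eq] at hc'
    obtain ⟨a, b, h1, h2⟩ := i3 c n β hx
    obtain ⟨c₁, h3, h4⟩ := i4 a b n (!β) h1
    refine List.mem_flatten.2 ⟨_, List.mem_map.2 ⟨c₁, List.mem_filter.2 ⟨List.mem_finRange _, ?_⟩,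
      rfl⟩, h4⟩
    rw [decide_eq_true_eq, h3, ← h2, hc']

end state

/-- Inverse blocks have equal size. -/
theorem dm_eq {nm : Fin r → Fin N} {a b : Fin N} {y z : Mat r ℂ} (h1 : y * z = ee nm a)
    (h2 : z * y = ee nm b) : dm nm a = dm nm b := by
  have h3 : trace (ee nm a : Mat r ℂ) = trace (ee nm b : Mat r ℂ) := by
    rw [← h1, ← h2, trace_mul_comm]
  have h4 : ∀ c : Fin N, trace (ee nm c : Mat r ℂ) = (dm nm c : ℂ) := by
    intro c
    rw [ee, trace_diagonal, dm, Fintype.card_subtype, Finset.sum_boole]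
  rw [h4, h4] at h3
  exact_mod_cast h3

variable {R : Type} [CommRing R]

/-- The complex solution of the words. -/
theorem exists_Y₀ (nm : Fin r → Fin N) (L : List (Sy R N)) (hC : Circ L)
    (y₀ : ℕ → Mat r ℂ × Mat r ℂ) (hV : Valid nm y₀ L) :
    ∃ Y₀ : (d : ℕ) → ℕ → (Mat d ℂ)ˣ, ∀ a b n, Sy.Y a b n ∈ L →
      (Y₀ (dm nm a) n : Mat (dm nm a) ℂ) =
        (JJ ℂ nm (dm nm a) a)ᵀ * (y₀ n).1 * JJ ℂ nm (dm nm a) b ∧
      (((Y₀ (dm nm a) n)⁻¹ : (Mat (dm nm a) ℂ)ˣ) : Mat (dm nm a) ℂ) =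
        (JJ ℂ nm (dm nm a) b)ᵀ * (y₀ n).2 * JJ ℂ nm (dm nm a) a := by
  have key : ∀ (d n : ℕ), ∃ U : (Mat d ℂ)ˣ, ∀ a b, Sy.Y a b n ∈ L → dm nm a = d →
      (U : Mat d ℂ) = (JJ ℂ nm d a)ᵀ * (y₀ n).1 * JJ ℂ nm d b ∧
      ((U⁻¹ : (Mat d ℂ)ˣ) : Mat d ℂ) = (JJ ℂ nm d b)ᵀ * (y₀ n).2 * JJ ℂ nm d a := by
    intro d n
    by_cases h : ∃ a b, Sy.Y a b n ∈ L ∧ dm nm a = d
    · obtain ⟨a, b, hL, hd⟩ := h
      obtain ⟨v1, v2, v3, v4⟩ := hV a b n hL
      have hb : dm nm b = d := (dm_eq v3 v4).symm.trans hd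
      have e1 : (JJ ℂ nm d a)ᵀ * (y₀ n).1 * JJ ℂ nm d b *
          ((JJ ℂ nm d b)ᵀ * (y₀ n).2 * JJ ℂ nm d a) = 1 := by
        calc _ = (JJ ℂ nm d a)ᵀ * ((y₀ n).1 * (JJ ℂ nm d b * (JJ ℂ nm d b)ᵀ) * (y₀ n).2) *
              JJ ℂ nm d a := by simp only [Matrix.mul_assoc]
          _ = 1 := by
            rw [JJ_mult hb, BB_ee v1, v3, Matrix.mul_assoc, ee_JJ, JJ_tmul hd]
      have e2 : (JJ ℂ nm d b)ᵀ * (y₀ n).2 * JJ ℂ nm d a *
          ((JJ ℂ nm d a)ᵀ * (y₀ n).1 * JJ ℂ nm d b) = 1 := by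
        calc _ = (JJ ℂ nm d b)ᵀ * ((y₀ n).2 * (JJ ℂ nm d a * (JJ ℂ nm d a)ᵀ) * (y₀ n).1) *
              JJ ℂ nm d b := by simp only [Matrix.mul_assoc]
          _ = 1 := by
            rw [JJ_mult hd, BB_ee v2, v4, Matrix.mul_assoc, ee_JJ, JJ_tmul hb]
      refine ⟨⟨_, _, e1, e2⟩, ?_⟩
      intro a' b' hL' _
      obtain ⟨rfl, rfl⟩ := circ_unique hC.1 hL hL'
      exact ⟨rfl, rfl⟩
    · refine ⟨1, fun a b h1 h2 => absurd ⟨a, b, h1, h2⟩ h⟩
  choose Y₀ hY₀ using key
  exact ⟨Y₀, fun a b n h => hY₀ _ n a b h rfl⟩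

/-- The assignment of the circuit from the solution of the words. -/
theorem exists_y {S : Type} [CommRing S] (nm : Fin r → Fin N) (L : List (Sy R N)) (hC : Circ L)
    (Y : (d : ℕ) → ℕ → (Mat d S)ˣ) :
    ∃ y : ℕ → Mat r S × Mat r S, ∀ a b n, Sy.Y a b n ∈ L →
      (y n).1 = JJ S nm (dm nm a) a * (Y (dm nm a) n : Mat (dm nm a) S) *
        (JJ S nm (dm nm a) b)ᵀ ∧
      (y n).2 = JJ S nm (dm nm a) b * (((Y (dm nm a) n)⁻¹ : (Mat (dm nm a) S)ˣ) :
        Mat (dm nm a) S) * (JJ S nm (dm nm a) a)ᵀ := by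
  have key : ∀ n : ℕ, ∃ p : Mat r S × Mat r S, ∀ a b, Sy.Y a b n ∈ L →
      p.1 = JJ S nm (dm nm a) a * (Y (dm nm a) n : Mat (dm nm a) S) *
        (JJ S nm (dm nm a) b)ᵀ ∧
      p.2 = JJ S nm (dm nm a) b * (((Y (dm nm a) n)⁻¹ : (Mat (dm nm a) S)ˣ) :
        Mat (dm nm a) S) * (JJ S nm (dm nm a) a)ᵀ := by
    intro n
    by_cases h : ∃ a b, Sy.Y a b n ∈ L
    · obtain ⟨a, b, hL⟩ := h
      refine ⟨(JJ S nm (dm nm a) a * (Y (dm nm a) n : Mat (dm nm a) S) *
        (JJ S nm (dm nm a) b)ᵀ, JJ S nm (dm nm a) b *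
        (((Y (dm nm a) n)⁻¹ : (Mat (dm nm a) S)ˣ) : Mat (dm nm a) S) *
        (JJ S nm (dm nm a) a)ᵀ), ?_⟩
      intro a' b' hL'
      obtain ⟨rfl, rfl⟩ := circ_unique hC.1 hL hL'
      exact ⟨rfl, rfl⟩
    · exact ⟨(0, 0), fun a b h1 => absurd ⟨a, b, h1⟩ h⟩
  choose y hy using key
  exact ⟨y, fun a b n h => hy n a b h⟩

theorem levi_aux (hW : WordStmt) : LeviStmt := by
  intro R A _ _ φ ι ψ E r N hE hL nm hnm L y₀ lam hC hV hcev
  obtain ⟨Y₀, hY₀⟩ := exists_Y₀ nm L hC y₀ hV
  have hpos : ∀ c : Fin N, 0 < dm nm c := by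
    intro c
    obtain ⟨i, hi⟩ := hnm c
    exact Fintype.card_pos_iff.2 ⟨⟨i, hi⟩⟩
  have hler : ∀ c : Fin N, dm nm c ≤ r := by
    intro c
    have := Fintype.card_subtype_le fun i : Fin r => nm i = c
    rwa [Fintype.card_fin] at this
  have hdm : ∀ a b n, Sy.Y a b n ∈ L → dm nm a = dm nm b := fun a b n h =>
    dm_eq (hV a b n h).2.2.1 (hV a b n h).2.2.2
  -- evaluation over the complex numbers
  have hev := cev_word nm φ y₀ Y₀ L (fun a b n h => by
    obtain ⟨v1, v2, v3, v4⟩ := hV a b n h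
    obtain ⟨e1, e2⟩ := hY₀ a b n h
    refine ⟨hC.2 a b n h, hdm a b n h, v1, v2, ?_, ?_⟩
    · rw [e1, ← Matrix.mul_assoc, ← Matrix.mul_assoc, JJ_mult rfl, ee_BB v1]
    · rw [e2, ← Matrix.mul_assoc, ← Matrix.mul_assoc, JJ_mult (hdm a b n h).symm, ee_BB v2])
  have hlam : ∀ c : Fin N, φ (lam c : R) ≠ 0 := fun c => ((lam c).isUnit.map φ).ne_zero
  have hdiag : ∀ {S : Type} [CommRing S] (f : R →+* S) (c : Fin N),
      (diagonal fun i => f (lam (nm i) : R)) * JJ S nm (dm nm c) c =
        f (lam c : R) • JJ S nm (dm nm c) c := by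
    intro S _ f c
    ext i t
    rw [diagonal_mul, Matrix.smul_apply, smul_eq_mul]
    by_cases hi : nm i = c
    · rw [hi]
    · rw [JJ_zero i t hi, mul_zero, mul_zero]
  have hpi : ∀ c : Fin N, cpm L c = c := by
    intro c
    by_contra hne
    obtain ⟨-, h2⟩ := hev c _ rfl
    rw [hcev, hdiag φ c] at h2
    have h3 := congrArg (fun X => (JJ ℂ nm (dm nm c) c)ᵀ * X) h2
    simp only [Matrix.mul_smul] at h3
    rw [← Matrix.mul_assoc, JJ_tmul rfl, JJ_ne (Ne.symm hne), Matrix.zero_mul, smul_zero] at h3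
    have h4 := congrFun (congrFun h3 ⟨0, hpos c⟩) ⟨0, hpos c⟩
    rw [Matrix.smul_apply, one_apply_eq, smul_eq_mul, mul_one, Matrix.zero_apply] at h4
    exact hlam c h4
  have hword : ∀ c : Fin N, ((wev (Y₀ (dm nm c)) ((lst L).1 c) : (Mat (dm nm c) ℂ)ˣ) :
      Mat (dm nm c) ℂ) = φ ((((lst L).2 c)⁻¹ * lam c : Rˣ) : R) • (1 : Mat (dm nm c) ℂ) := by
    intro c
    obtain ⟨-, h2⟩ := hev c _ rfl
    rw [hcev, hdiag φ c, hpi c] at h2
    have h3 := congrArg (fun X => (JJ ℂ nm (dm nm c) c)ᵀ * X) h2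
    simp only [Matrix.mul_smul] at h3
    rw [← Matrix.mul_assoc, JJ_tmul rfl, Matrix.one_mul] at h3
    rw [Units.val_mul, map_mul, mul_smul, h3, smul_smul, ← map_mul, Units.inv_mul, map_one,
      one_smul]
  let ws : ℕ → List (List (ℕ × Bool) × Rˣ) := fun d =>
    ((List.finRange N).filter fun c => dm nm c = d).map
      fun c => ((lst L).1 c, ((lst L).2 c)⁻¹ * lam c)
  have hmem : ∀ d p, p ∈ ws d ↔ ∃ c, dm nm c = d ∧ p = ((lst L).1 c, ((lst L).2 c)⁻¹ * lam c) := by
    intro d p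
    simp only [ws, List.mem_map, List.mem_filter, List.mem_finRange, true_and,
      decide_eq_true_eq]
    constructor
    · rintro ⟨c, h1, h2⟩
      exact ⟨c, h1, h2.symm⟩
    · rintro ⟨c, h1, h2⟩
      exact ⟨c, h1, h2.symm⟩
  obtain ⟨A', _, ι', ψ', j, Y, hL', -, -, hY⟩ := hW E hE hL ws Y₀ (by
    intro d _ _
    constructor
    · have : (ws d).map Prod.fst =
          ((List.finRange N).filter fun c => dm nm c = d).map (lst L).1 := by
        simp only [ws, List.map_map]
        rfl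
      rw [this]
      exact words_quad nm L hC hdm d
    · intro p hp
      obtain ⟨c, rfl, rfl⟩ := (hmem d p).1 hp
      exact hword c)
  obtain ⟨y, hy⟩ := exists_y nm L hC Y
  have hval : Valid nm y L := by
    intro a b n h
    obtain ⟨e1, e2⟩ := hy a b n h
    rw [e1, e2]
    refine ⟨BB_mk _, BB_mk _, ?_, ?_⟩
    · calc _ = JJ A' nm (dm nm a) a * ((Y (dm nm a) n : Mat (dm nm a) A') *
            ((JJ A' nm (dm nm a) b)ᵀ * JJ A' nm (dm nm a) b) *
            (((Y (dm nm a) n)⁻¹ : (Mat (dm nm a) A')ˣ) : Mat (dm nm a) A')) *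
            (JJ A' nm (dm nm a) a)ᵀ := by simp only [Matrix.mul_assoc]
        _ = _ := by
          rw [JJ_tmul (hdm a b n h).symm, Matrix.mul_one, Units.mul_inv, Matrix.mul_one,
            JJ_mult rfl]
    · calc _ = JJ A' nm (dm nm a) b * ((((Y (dm nm a) n)⁻¹ : (Mat (dm nm a) A')ˣ) :
            Mat (dm nm a) A') * ((JJ A' nm (dm nm a) a)ᵀ * JJ A' nm (dm nm a) a) *
            (Y (dm nm a) n : Mat (dm nm a) A')) *
            (JJ A' nm (dm nm a) b)ᵀ := by simp only [Matrix.mul_assoc]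
        _ = _ := by
          rw [JJ_tmul rfl, Matrix.mul_one, Units.inv_mul, Matrix.mul_one,
            JJ_mult (hdm a b n h).symm]
  have hev' := cev_word nm ι' y Y L (fun a b n h => by
    obtain ⟨v1, v2, v3, v4⟩ := hval a b n h
    obtain ⟨e1, e2⟩ := hy a b n h
    refine ⟨hC.2 a b n h, hdm a b n h, v1, v2, ?_, ?_⟩
    · rw [e1, Matrix.mul_assoc, JJ_tmul (hdm a b n h).symm, Matrix.mul_one]
    · rw [e2, Matrix.mul_assoc, JJ_tmul rfl, Matrix.mul_one])
  have hfin : ∀ c : Fin N, cev nm ι' y L * (ee nm c : Mat r A') =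
      ι' (lam c : R) • (ee nm c : Mat r A') := by
    intro c
    obtain ⟨-, h2⟩ := hev' c _ rfl
    rw [hpi c] at h2
    have h3 := (hY _ (hpos c) (hler c)).2 _ ((hmem _ _).2 ⟨c, rfl, rfl⟩)
    simp only at h3
    rw [h3, Matrix.mul_smul, Matrix.mul_one, smul_smul, ← map_mul, ← Units.val_mul,
      mul_inv_cancel_left] at h2
    rw [← JJ_mult (S := A') (nm := nm) (c := c) rfl, ← Matrix.mul_assoc, h2, Matrix.smul_mul]
  refine ⟨A', inferInstance, ι', ψ', y, hL', hval, ?_, ?_⟩
  · intro a b n h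
    obtain ⟨e1, e2⟩ := hy a b n h
    obtain ⟨v1, v2, v3, v4⟩ := hV a b n h
    have hn := (hY _ (hpos a) (hler a)).1 n
    have hn' : (((Y (dm nm a) n)⁻¹ : (Mat (dm nm a) A')ˣ) : Mat (dm nm a) A').map ψ' =
        (((Y₀ (dm nm a) n)⁻¹ : (Mat (dm nm a) ℂ)ˣ) : Mat (dm nm a) ℂ) := by
      have h5 : Units.map ((ψ'.mapMatrix : Mat (dm nm a) A' →+* Mat (dm nm a) ℂ) :
          Mat (dm nm a) A' →* Mat (dm nm a) ℂ) (Y (dm nm a) n) = Y₀ (dm nm a) n := by
        apply Units.ext
        exact hn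
      rw [← h5, ← map_inv]
      rfl
    rw [e1, e2]
    constructor
    · rw [Matrix.map_mul, Matrix.map_mul, transpose_map, JJ_map, JJ_map, hn,
        (hY₀ a b n h).1]
      calc _ = JJ ℂ nm (dm nm a) a * (JJ ℂ nm (dm nm a) a)ᵀ * (y₀ n).1 *
            (JJ ℂ nm (dm nm a) b * (JJ ℂ nm (dm nm a) b)ᵀ) := by simp only [Matrix.mul_assoc]
        _ = _ := by rw [JJ_mult rfl, JJ_mult (hdm a b n h).symm, ee_BB v1, BB_ee v1]
    · rw [Matrix.map_mul, Matrix.map_mul, transpose_map, JJ_map, JJ_map, hn',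
        (hY₀ a b n h).2]
      calc _ = JJ ℂ nm (dm nm a) b * (JJ ℂ nm (dm nm a) b)ᵀ * (y₀ n).2 *
            (JJ ℂ nm (dm nm a) a * (JJ ℂ nm (dm nm a) a)ᵀ) := by simp only [Matrix.mul_assoc]
        _ = _ := by rw [JJ_mult rfl, JJ_mult (hdm a b n h).symm, ee_BB v2, BB_ee v2]
  · ext i k
    have h6 := congrFun (congrFun (hfin (nm k)) i) k
    rw [ee, mul_diagonal, if_pos rfl, mul_one, Matrix.smul_apply, diagonal_apply, smul_eq_mul] at h6
    rw [h6, diagonal_apply]
    by_cases hik : i = k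
    · subst hik
      simp
    · simp [hik]

end LW

/-- T9.1. -/
theorem levi_of_word : WordStmt → LeviStmt := LW.levi_aux

/-- T9.1. -/
theorem leviOfQuad : LeviOfQuad := fun h => levi_of_word (word_of_quad h)

end Vale.Agent.P002B
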