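import Vale.Agent.P002B.Stmts3
import Vale.Agent.P002B.BAlg

/-!
# P002, genus 0, arbitrary classes: T4.4, one class
-/

namespace Vale.Agent.P002B

open Matrix Vale.Agent.P002R Vale.Agent.P002L

namespace LC

variable {r N : ℕ} {nm : Fin r → Fin N}

theorem adj_ne {k k' : Fin N → ℕ} {a b : Fin N} (h : Adj k k' a b) : a ≠ b := by
  rintro rfl
  exact lt_irrefl _ h.1

/-- A block unipotent matrix whose block `(a, b)` is zero. -/
theorem bu_adj {S : Type*} [CommRing S] {k k' : Fin N → ℕ} {a b : Fin N} (h : Adj k k' a b)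
    {u : Mat r S} (hu : BU nm k u) (h0 : ∀ i j, nm i = a → nm j = b → u i j = 0) :
    BU nm k' u := by
  intro i j hij
  by_cases h1 : nm i = a ∧ nm j = b
  · rw [h0 i j h1.1 h1.2, one_apply_ne]
    rintro rfl
    exact adj_ne h (h1.1.symm.trans h1.2)
  · by_cases h2 : nm i = b ∧ nm j = a
    · exact absurd (by rw [h2.1, h2.2]; exact h.2.1) hij
    · exact hu i j fun h3 => hij ((h.2.2.1 _ _ h1 h2).1 h3)

/-- Back from `k'` to `k`. -/
theorem bu_back {S : Type*} [CommRing S] {k k' : Fin N → ℕ} {a b : Fin N} (h : Adj k k' a b)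
    (hab : a < b) {u : Mat r S} (hu : BU nm k' u) (hu' : BU nm (bk N) u) : BU nm k u := by
  intro i j hij
  by_cases h1 : nm i = a ∧ nm j = b
  · exact absurd (by rw [h1.1, h1.2]; exact h.1) hij
  · by_cases h2 : nm i = b ∧ nm j = a
    · refine hu' i j ?_
      rw [h2.1, h2.2]
      exact not_lt.2 hab.le
    · exact hu i j fun h3 => hij ((h.2.2.1 _ _ h1 h2).2 h3)

theorem adj_symm {k k' : Fin N → ℕ} {a b : Fin N} (h : Adj k k' a b) : Adj k' k b a := by
  refine ⟨h.2.1, h.1, fun c d h1 h2 => (h.2.2.1 c d h2 h1).symm, fun c hcb hca => ?_⟩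
  have hn := adj_ne h
  have e1 := h.2.2.1 c a (fun h' => hn h'.2) (fun h' => hcb h'.1)
  have e2 := h.2.2.1 c b (fun h' => hca h'.1) (fun h' => hn h'.2.symm)
  rw [← e1, ← e2]
  exact (h.2.2.2 c hca hcb).symm

theorem mem_vr {R : Type} [CommRing R] {L : List (Sy R N)} {n : ℕ} :
    n ∈ L.filterMap Sy.vr ↔ ∃ a b, Sy.Y a b n ∈ L := by
  rw [List.mem_filterMap]
  constructor
  · rintro ⟨s, hs, h⟩
    cases s with
    | D d => simp [Sy.vr] at h
    | Y a b m =>
      simp only [Sy.vr, Option.some.injEq] at h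
      subst h
      exact ⟨a, b, hs⟩
  · rintro ⟨a, b, h⟩
    exact ⟨_, h, rfl⟩

/-- The letter step. -/
theorem letterU (hPass : PassStmt) (hStay : StayStmt) (hDich : DichStmt) {R : Type} [CommRing R]
    (φ : R →+* ℂ) (nm : Fin r → Fin N) {k k' : Fin N → ℕ} {a b : Fin N} (hA : Adj k k' a b)
    (L : List (Sy R N)) (y₀ : ℕ → Mat r ℂ × Mat r ℂ) (n₀ : ℕ) (b₀ v₀ ζ₀ u₁ : Mat r ℂ)
    (hC : Circ L) (hn : ∀ n ∈ L.filterMap Sy.vr, n < n₀) (hV : Valid nm y₀ L)
    (hb₀ : BU nm (bk N) b₀) (hv₀ : BU nm k v₀) (hζ₀ : BB nm a b ζ₀) (hu₁ : BU nm k' u₁)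
    (hT : TP nm (b₀ * cev nm φ y₀ L * v₀ * (1 + ζ₀) * u₁) fun c => k' c < k' b + 1) :
    ∃ (F : List (Sy R N)) (y₁ : ℕ → Mat r ℂ × Mat r ℂ) (n₁ : ℕ) (v₁ : Mat r ℂ),
      (∀ n < n₀, y₁ n = y₀ n) ∧ n₀ ≤ n₁ ∧ Circ (L ++ F) ∧
      (∀ n ∈ (L ++ F).filterMap Sy.vr, n < n₁) ∧ Valid nm y₁ (L ++ F) ∧ BU nm k' v₁ ∧
      ∀ {A : Type} [CommRing A] (ι : R →+* A) (ψ : A →+* ℂ), (∀ x, ψ (ι x) = φ x) →
        Function.Surjective ψ → ∀ y : ℕ → Mat r A × Mat r A, Valid nm y (L ++ F) →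
        (∀ a b n, Sy.Y a b n ∈ L ++ F → (y n).1.map ψ = (y₁ n).1 ∧ (y n).2.map ψ = (y₁ n).2) →
        ∀ v : Mat r A, BU nm k v → v.map ψ = v₀ →
        ∃ ζ b' v' : Mat r A, BB nm a b ζ ∧ ζ.map ψ = ζ₀ ∧ BU nm (bk N) b' ∧ BU nm k' v' ∧
          v'.map ψ = v₁ ∧ cev nm ι y L * v * (1 + ζ) = b' * cev nm ι y (L ++ F) * v' := by
  have hab := adj_ne hA
  by_cases h : cpm L a < cpm L b ∨ yy nm a b v₀ ζ₀ = 0
  · obtain ⟨v₁, hv₁, H⟩ := hPass nm k k' a b hA (cpm L) v₀ ζ₀ hv₀ hζ₀ h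
    refine ⟨[], y₀, n₀, v₁, fun _ _ => rfl, le_rfl, ?_, ?_, ?_, hv₁, ?_⟩
    · rw [List.append_nil]; exact hC
    · rw [List.append_nil]; exact hn
    · rw [List.append_nil]; exact hV
    · intro A _ ι ψ hψ hs y hy hy₁ v hv hv'
      rw [List.append_nil] at hy ⊢
      exact H ψ hs v hv hv' _ (cev_bm ι hy) (cev_isUnit ι hy hC.2)
  · have h1 : cpm L b < cpm L a := by
      refine lt_of_le_of_ne (not_lt.1 fun h' => h (Or.inl h')) fun h' => hab ?_
      exact ((cpm L).injective h').symm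
    have h2 : yy nm a b v₀ ζ₀ ≠ 0 := fun h' => h (Or.inr h')
    obtain ⟨z₀, hz₀⟩ := (hDich nm k k' a b hA (cpm L) b₀ (cev nm φ y₀ L) v₀ ζ₀ u₁ hb₀
      (cev_bm φ hV) (cev_isUnit φ hV hC.2) hv₀ hζ₀ hu₁ h1 hT).resolve_left h2
    obtain ⟨v₁, hv₁, H⟩ := hStay nm k k' a b hA (cpm L) v₀ ζ₀ z₀ hv₀ hζ₀ h1 hz₀
    have hmem : ∀ {c d : Fin N} {n : ℕ}, Sy.Y c d n ∈ L ++ [Sy.Y a b n₀] →
        (Sy.Y c d n ∈ L ∧ n < n₀) ∨ (c = a ∧ d = b ∧ n = n₀) := by
      intro c d n h
      rcases List.mem_append.1 h with h | h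
      · exact Or.inl ⟨h, hn n (mem_vr.2 ⟨c, d, h⟩)⟩
      · rw [List.mem_singleton] at h
        injection h with h1 h2 h3
        exact Or.inr ⟨h1, h2, h3⟩
    refine ⟨[Sy.Y a b n₀], Function.update y₀ n₀ (yy nm a b v₀ ζ₀, z₀), n₀ + 1, v₁,
      fun n hn => Function.update_of_ne hn.ne _ _, Nat.le_succ _, ⟨?_, ?_⟩, ?_, ?_, hv₁, ?_⟩
    · rw [List.filterMap_append, List.nodup_append]
      refine ⟨hC.1, by simp [Sy.vr], ?_⟩
      intro n hn' m hm
      simp only [List.filterMap_cons, Sy.vr, List.filterMap_nil, List.mem_singleton] at hm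
      subst hm
      exact (hn n hn').ne
    · intro c d n h
      rcases hmem h with h | ⟨rfl, rfl, rfl⟩
      · exact hC.2 c d n h.1
      · exact hab
    · intro n h
      obtain ⟨c, d, h⟩ := mem_vr.1 h
      rcases hmem h with h | ⟨rfl, rfl, rfl⟩
      · exact h.2.trans (Nat.lt_succ_self _)
      · exact Nat.lt_succ_self _
    · intro c d n h
      rcases hmem h with h | ⟨rfl, rfl, rfl⟩
      · rw [Function.update_of_ne h.2.ne]
        exact hV c d n h.1
      · rw [Function.update_self]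
        exact hz₀
    · intro A _ ι ψ hψ hs y hy hy₁ v hv hv'
      have hl : Sy.Y a b n₀ ∈ L ++ [Sy.Y a b n₀] :=
        List.mem_append_right _ (List.mem_singleton.2 rfl)
      have hyL : Valid nm y L := hy.mono fun s hs => List.mem_append_left _ hs
      have h3 := hy₁ a b n₀ hl
      rw [Function.update_self] at h3
      obtain ⟨ζ, b', v', e1, e2, e3, e4, e5, e6⟩ := H ψ (y n₀).1 (y n₀).2 (hy a b n₀ hl) h3.1 h3.2
        v hv hv' (cev nm ι y L) (cev_bm ι hyL) (cev_isUnit ι hyL hC.2)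
      refine ⟨ζ, b', v', e1, e2, e3, e4, e5, ?_⟩
      rw [e6, cev_append, cev_singleton]
      rfl


theorem kp_mem {κ k : Fin N → ℕ} {ks : List (Fin N → ℕ)} (h : KP κ k ks) : k ∈ ks := by
  cases h with
  | last _ _ => exact List.mem_singleton.2 rfl
  | step _ k' ks a b _ _ _ _ => exact List.mem_cons_self

/-- Exchanged pairs stay exchanged. -/
theorem kp_stay {κ k : Fin N → ℕ} {ks : List (Fin N → ℕ)} (h : KP κ k ks) {a b : Fin N}
    (hab : a < b) (hk : k b < k a) : ∀ k₁ ∈ ks, k₁ b < k₁ a := by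
  induction h with
  | last k h =>
    intro k₁ hk₁
    rw [List.mem_singleton] at hk₁
    rw [hk₁]
    exact hk
  | step k k' ks a' b' hab' hκ hA hk' ih =>
    intro k₁ hk₁
    rcases List.mem_cons.1 hk₁ with rfl | hk₁
    · exact hk
    · refine ih ?_ k₁ hk₁
      refine (hA.2.2.1 b a ?_ ?_).1 hk
      · rintro ⟨rfl, rfl⟩
        exact absurd hab' hab.not_gt
      · rintro ⟨rfl, rfl⟩
        exact absurd hA.1 hk.not_gt

theorem exists_lift_bu2 {A : Type} [CommRing A] (ψ : A →+* ℂ) (hs : Function.Surjective ψ)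
    (k k' : Fin N → ℕ) {u₀ : Mat r ℂ} (h : BU nm k u₀) (h' : BU nm k' u₀) :
    ∃ u : Mat r A, BU nm k u ∧ BU nm k' u ∧ u.map ψ = u₀ := by
  classical
  choose s hs using hs
  refine ⟨Matrix.of fun i j => if k (nm i) < k (nm j) ∧ k' (nm i) < k' (nm j) then s (u₀ i j)
    else (1 : Mat r A) i j, fun i j hij => ?_, fun i j hij => ?_, ?_⟩
  · rw [of_apply, if_neg fun h => hij h.1]
  · rw [of_apply, if_neg fun h => hij h.2]
  · ext i j
    rw [map_apply, of_apply]
    split_ifs with h1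
    · exact hs _
    · have h2 : ψ ((1 : Mat r A) i j) = (1 : Mat r ℂ) i j := by
        rw [one_apply, one_apply]
        split_ifs
        · exact map_one ψ
        · exact map_zero ψ
      rw [h2]
      by_cases h3 : k (nm i) < k (nm j)
      · exact (h' i j fun h4 => h1 ⟨h3, h4⟩).symm
      · exact (h i j h3).symm

theorem exists_lift_kup2 {R A : Type} [CommRing R] [CommRing A] {φ : R →+* ℂ} {ι : R →+* A}
    {ψ : A →+* ℂ} (hψ : ∀ x, ψ (ι x) = φ x) (hs : Function.Surjective ψ) {κ : Fin r → ℕ}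
    {l : ℕ → Rˣ} {M₀ : Mat r ℂ} (hM₀ : Kup κ (fun j => φ (l j)) M₀) :
    ∃ M : Mat r A, Kup κ (fun j => ι (l j)) M ∧ M.map ψ = M₀ := by
  choose s hs using hs
  refine ⟨Matrix.of fun i j => if i = j then ι (l (κ i)) else if κ i < κ j then s (M₀ i j) else 0,
    ⟨fun i => ?_, fun i j h h' => ?_⟩, ?_⟩
  · rw [of_apply, if_pos rfl]
  · rw [of_apply, if_neg h, if_neg h']
  · ext i j
    rw [map_apply, of_apply]
    split_ifs with h1 h2
    · rw [hψ, ← h1, hM₀.1]
    · exact hs _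
    · rw [map_zero, hM₀.2 i j h1 h2]

/-- A letter in a block `(b, a)` with `κ b < κ a` on the right. -/
theorem kup_letter {S : Type*} [CommRing S] {κ : Fin N → ℕ} {l : ℕ → S} {M ζ : Mat r S}
    {a b : Fin N} (hM : Kup (κ ∘ nm) l M) (hζ : BB nm b a ζ) (h : κ b < κ a) :
    Kup (κ ∘ nm) l (M * (1 + ζ)) := by
  have key : ∀ i j, ¬ κ (nm i) < κ (nm j) → (M * ζ) i j = 0 := by
    intro i j hij
    rw [mul_apply]
    refine Finset.sum_eq_zero fun x _ => ?_
    by_cases h1 : nm x = b ∧ nm j = a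
    · rw [hM.2 i x, zero_mul]
      · rintro rfl
        rw [h1.1, h1.2] at hij
        exact hij h
      · intro h2
        refine hij ?_
        rw [h1.2]
        refine lt_trans ?_ h
        rw [← h1.1]
        exact h2
    · rw [hζ x j h1, mul_zero]
  refine ⟨fun i => ?_, fun i j hij h' => ?_⟩
  · rw [mul_add, mul_one, Matrix.add_apply, key i i (lt_irrefl _), add_zero]
    exact hM.1 i
  · rw [mul_add, mul_one, Matrix.add_apply, key i j h', add_zero]
    exact hM.2 i j hij h'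

/-- The diagonal of the class. -/
theorem kup_last {S : Type*} [CommRing S] {κ k : Fin N → ℕ} {l : ℕ → Sˣ} {X M : Mat r S}
    (h : ∀ a b, k a < k b ↔ (κ a < κ b ∨ (κ a = κ b ∧ a < b))) (hX : BU nm k X)
    (hM : Kup (κ ∘ nm) (fun j => (l j : S)) M) :
    BU nm k (diagonal (fun i => (((l (κ (nm i)))⁻¹ : Sˣ) : S)) * (X * M)) := by
  intro i j hij
  rw [diagonal_mul, mul_apply]
  have h0 : ∀ x, x ≠ i → X i x * M x j = 0 := by
    intro x hx
    by_cases h1 : k (nm i) < k (nm x)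
    · rw [hM.2 x j, mul_zero]
      · rintro rfl
        exact hij h1
      · intro h2
        refine hij (h1.trans ?_)
        exact (h _ _).2 (Or.inl h2)
    · rw [hX i x h1, one_apply_ne (Ne.symm hx), zero_mul]
  rw [Finset.sum_eq_single i (fun x _ hx => h0 x hx) (fun h' => absurd (Finset.mem_univ _) h'),
    hX i i (lt_irrefl _), one_apply_eq, one_mul]
  by_cases h3 : i = j
  · subst h3
    rw [hM.1, one_apply_eq]
    exact Units.inv_mul _
  · rw [hM.2 i j h3, mul_zero, one_apply_ne h3]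
    intro h4
    exact hij ((h _ _).2 (Or.inl h4))

theorem take_min_append {α : Type*} (X G : List α) (p : ℕ) :
    (X ++ G).take (min p X.length) = X.take p := by
  rw [List.take_append_of_le_length (min_le_right _ _)]
  rcases le_total p X.length with h | h
  · rw [min_eq_left h]
  · rw [min_eq_right h, List.take_length, List.take_of_length_le h]

theorem mapid (X : Mat r ℂ) : X.map (RingHom.id ℂ) = X := by
  ext i j
  rfl

theorem kup_map_unit {R A : Type} [CommRing R] [CommRing A] {φ : R →+* ℂ} {ι : R →+* A}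
    {ψ : A →+* ℂ} (hψ : ∀ x, ψ (ι x) = φ x) (x : Rˣ) :
    ψ (((Units.map (ι : R →* A) x)⁻¹ : Aˣ) : A) =
      (((Units.map (φ : R →* ℂ) x)⁻¹ : ℂˣ) : ℂ) := by
  rw [← map_inv, ← map_inv]
  exact hψ _

end LC

open LC in
/-- T4.4'. -/
theorem classAsmStmt : ClassAsmStmt := by
  intro hPass hStay hDich R _ φ r N nm κ l k ks hKP
  induction hKP with
  | last k hk =>
    intro hmono L₀ y₀ n₀ b₀ v₀ u₀ M₀ hC hn hV hb₀ hv₀ hub hu hM hT
    have hmem : ∀ {a b : Fin N} {n : ℕ}, Sy.Y a b n ∈ L₀ ++ [Sy.D fun a => l (κ a)] →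
        Sy.Y a b n ∈ L₀ := by
      intro a b n h
      rcases List.mem_append.1 h with h | h
      · exact h
      · rw [List.mem_singleton] at h
        cases h
    have hvr : (L₀ ++ [Sy.D fun a => l (κ a)]).filterMap Sy.vr = L₀.filterMap Sy.vr := by
      simp [List.filterMap_append, Sy.vr]
    refine ⟨[Sy.D fun a => l (κ a)], y₀, n₀, diagonal (fun i =>
      (((Units.map (φ : R →* ℂ) (l (κ (nm i))))⁻¹ : ℂˣ) : ℂ)) * (v₀ * u₀ * M₀),
      fun e _ => if e then L₀.length + 1 else L₀.length, fun _ _ => rfl, le_rfl, ⟨?_, ?_⟩, ?_, ?_,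
      kup_last (l := fun j => Units.map (φ : R →* ℂ) (l j)) hk (hv₀.mul hu) hM, ?_⟩
    · rw [hvr]
      exact hC.1
    · intro a b n h
      exact hC.2 a b n (hmem h)
    · rw [hvr]
      exact hn
    · intro a b n h
      exact hV a b n (hmem h)
    · intro A _ ι ψ hψ hs y hy hy' v hv hv'
      obtain ⟨u, hub', hu', huψ⟩ := exists_lift_bu2 ψ hs (bk N) k hub hu
      obtain ⟨M, hM', hMψ⟩ := exists_lift_kup2 hψ hs hM
      have hv₁ : BU nm k (diagonal (fun i =>
          (((Units.map (ι : R →* A) (l (κ (nm i))))⁻¹ : Aˣ) : A)) * (v * u * M)) :=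
        kup_last (l := fun j => Units.map (ι : R →* A) (l j)) hk (hv.mul hu') hM'
      have hid : cev nm ι y L₀ * v * u * M = 1 * cev nm ι y (L₀ ++ [Sy.D fun a => l (κ a)]) *
          (diagonal (fun i => (((Units.map (ι : R →* A) (l (κ (nm i))))⁻¹ : Aˣ) : A)) *
            (v * u * M)) := by
        have h2 : diagonal (fun i => ι (l (κ (nm i)))) *
            diagonal (fun i => (((Units.map (ι : R →* A) (l (κ (nm i))))⁻¹ : Aˣ) : A)) = 1 := by
          rw [diagonal_mul_diagonal, ← diagonal_one]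
          congr 1
          funext i
          exact (Units.map (ι : R →* A) (l (κ (nm i)))).mul_inv
        have h3 : cev nm ι y (L₀ ++ [Sy.D fun a => l (κ a)]) =
            cev nm ι y L₀ * diagonal (fun i => ι (l (κ (nm i)))) := by
          rw [cev_append, cev_singleton]
          rfl
        rw [h3, one_mul, mul_assoc (cev nm ι y L₀) (diagonal _), ← mul_assoc (diagonal _) (diagonal _),
          h2, one_mul]
        simp only [mul_assoc]
      refine ⟨u, M, 1, _, hub', hu', huψ, hM', hMψ, bu_one _, hv₁, ?_, hid, ?_⟩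
      · rw [Matrix.map_mul, Matrix.map_mul, Matrix.map_mul, hv', huψ, hMψ]
        congr 1
        rw [diagonal_map (map_zero ψ)]
        congr 1
        funext i
        exact kup_map_unit hψ _
      · intro k₁ hk₁
        rw [List.mem_singleton] at hk₁
        subst hk₁
        beta_reduce
        constructor
        · rw [if_neg (by decide : ¬ (false = true)), List.take_left' rfl]
          exact ⟨1, v * u, bu_one _, hv.mul hu', by rw [one_mul, mul_assoc]⟩
        · rw [if_pos rfl, List.take_of_length_le (by simp)]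
          exact ⟨1, _, bu_one _, hv₁, hid⟩
  | step k k' ks a b hab hκ hA hk' ih =>
    intro hmono L₀ y₀ n₀ b₀ v₀ u₀ M₀ hC hn hV hb₀ hv₀ hub hu hM hT
    classical
    have hne := adj_ne hA
    have hζB : BB nm a b (ee nm a * u₀ * ee nm b) := bb_ee _ _ _
    obtain ⟨ζ₀, hζ₀⟩ : ∃ ζ₀ : Mat r ℂ, ζ₀ = ee nm a * u₀ * ee nm b := ⟨_, rfl⟩
    rw [← hζ₀] at hζB
    obtain ⟨u₁, hu₁def⟩ : ∃ u₁ : Mat r ℂ, u₁ = (1 - ζ₀) * u₀ := ⟨_, rfl⟩
    have hu₁b : BU nm (bk N) u₁ := by
      rw [hu₁def]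
      exact (bu_one_sub (show bk N a < bk N b from hab) hζB).mul hub
    have hu₁ : BU nm k' u₁ := by
      refine bu_adj hA ?_ fun i j hi hj => ?_
      · rw [hu₁def]
        exact (bu_one_sub hA.1 hζB).mul hu
      · have h1 : (ζ₀ * u₀) i j = u₀ i j := by
          rw [mul_apply, Finset.sum_eq_single j]
          · rw [hu j j (lt_irrefl _), one_apply_eq, mul_one, hζ₀, mul_ee_apply, ee_mul_apply,
              if_pos hj, if_pos hi]
          · intro x _ hx
            by_cases h2 : nm x = b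
            · rw [hu x j (by rw [h2, hj]; exact lt_irrefl _), one_apply_ne hx, mul_zero]
            · rw [hζB i x fun h' => h2 h'.2, zero_mul]
          · intro h'
            exact absurd (Finset.mem_univ _) h'
        rw [hu₁def, sub_mul, one_mul, Matrix.sub_apply, h1, sub_self]
    have e0 : (1 + ζ₀) * u₁ = u₀ := by
      rw [hu₁def, ← mul_assoc, hζB.one_add_mul_neg hne, one_mul]
    have hk'mem : k' ∈ ks := kp_mem hk'
    obtain ⟨F, y₁, n₁, v₁, hy₁, hn₁, hC₁, hvr₁, hV₁, hv₁, H₁⟩ := letterU hPass hStay hDich φ nm hA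
      L₀ y₀ n₀ b₀ v₀ ζ₀ u₁ hC hn hV hb₀ hv₀ hζB hu₁ (by
        rw [mul_assoc _ (1 + ζ₀), e0]
        exact (hT k' (List.mem_cons_of_mem _ hk'mem) (k' b + 1)).1)
    obtain ⟨ζc, b₁, v₁c, c1, c2, c3, c4, c5, c6⟩ := H₁ φ (RingHom.id ℂ) (fun _ => rfl)
      Function.surjective_id y₁ hV₁ (fun _ _ n _ => ⟨mapid _, mapid _⟩) v₀ hv₀ (mapid _)
    rw [mapid] at c2 c5
    subst c2 c5
    have f1 : cev nm φ y₁ L₀ = cev nm φ y₀ L₀ := cev_congr φ fun a b n h =>
      hy₁ n (hn n (mem_vr.2 ⟨a, b, h⟩))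
    rw [f1] at c6
    have E1 : b₀ * b₁ * cev nm φ y₁ (L₀ ++ F) * v₁c * u₁ =
        b₀ * cev nm φ y₀ L₀ * v₀ * u₀ := by
      calc b₀ * b₁ * cev nm φ y₁ (L₀ ++ F) * v₁c * u₁
          = b₀ * (b₁ * cev nm φ y₁ (L₀ ++ F) * v₁c) * u₁ := by simp only [mul_assoc]
        _ = b₀ * (cev nm φ y₀ L₀ * v₀ * (1 + ζc)) * u₁ := by rw [← c6]
        _ = b₀ * cev nm φ y₀ L₀ * v₀ * ((1 + ζc) * u₁) := by simp only [mul_assoc]
        _ = _ := by rw [e0]
    have hmono' : ∀ c d : Fin N, c < d → κ c ≤ κ d → k' c < k' d := by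
      intro c d hcd hκcd
      refine (hA.2.2.1 c d ?_ ?_).1 (hmono c d hcd hκcd)
      · rintro ⟨rfl, rfl⟩
        exact absurd hκ (not_lt.2 hκcd)
      · rintro ⟨rfl, rfl⟩
        exact absurd hcd hab.not_gt
    obtain ⟨L₁, y₂, n₂, v₂, p, hy₂, hn₂, hC₂, hvr₂, hV₂, hv₂, H₂⟩ := ih hmono' (L₀ ++ F) y₁ n₁
      (b₀ * b₁) v₁c u₁ M₀ hC₁ hvr₁ hV₁ (hb₀.mul c3) hv₁ hu₁b hu₁ hM (by
        intro k₁ hk₁ n
        rw [E1]
        exact hT k₁ (List.mem_cons_of_mem _ hk₁) n)
    obtain ⟨u₁c, M₀c, b₂, v₂c, d1, d2, d3, d4, d5, d6, d7, d8, d9, -⟩ := H₂ φ (RingHom.id ℂ)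
      (fun _ => rfl) Function.surjective_id y₂ hV₂ (fun _ _ n _ => ⟨mapid _, mapid _⟩) v₁c hv₁
      (mapid _)
    rw [mapid] at d3 d5 d8
    subst d3 d5 d8
    have f2 : cev nm φ y₂ (L₀ ++ F) = cev nm φ y₁ (L₀ ++ F) := cev_congr φ fun a b n h =>
      hy₂ n (hvr₁ n (mem_vr.2 ⟨a, b, h⟩))
    rw [f2] at d9
    have E2 : b₀ * b₁ * b₂ * cev nm φ y₂ (L₀ ++ F ++ L₁) * v₂c * (1 + 0) * 1 =
        b₀ * cev nm φ y₀ L₀ * v₀ * u₀ * M₀c := by
      rw [← E1, add_zero, mul_one, mul_one]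
      calc b₀ * b₁ * b₂ * cev nm φ y₂ (L₀ ++ F ++ L₁) * v₂c
          = b₀ * b₁ * (b₂ * cev nm φ y₂ (L₀ ++ F ++ L₁) * v₂c) := by simp only [mul_assoc]
        _ = b₀ * b₁ * (cev nm φ y₁ (L₀ ++ F) * v₁c * u₁c * M₀c) := by rw [← d9]
        _ = _ := by simp only [mul_assoc]
    obtain ⟨G, y₃, n₃, v₃, hy₃, hn₃, hC₃, hvr₃, hV₃, hv₃, H₃⟩ := letterU hPass hStay hDich φ nm
      (adj_symm hA) (L₀ ++ F ++ L₁) y₂ n₂ (b₀ * b₁ * b₂) v₂c 0 1 hC₂ hvr₂ hV₂
      ((hb₀.mul c3).mul d6) hv₂ (BB.zero _ _) (bu_one _) (by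
        rw [E2]
        exact (hT k List.mem_cons_self (k a + 1)).2)
    have hass : L₀ ++ (F ++ L₁ ++ G) = L₀ ++ F ++ L₁ ++ G := by
      simp only [List.append_assoc]
    refine ⟨F ++ L₁ ++ G, y₃, n₃, v₃, fun e k₁ => if k₁ ∈ ks then
      min (p e k₁) (L₀ ++ F ++ L₁).length else if e then (L₀ ++ F ++ L₁ ++ G).length
      else L₀.length, ?_, hn₁.trans (hn₂.trans hn₃), ?_, ?_, ?_, hv₃, ?_⟩
    · intro n h
      rw [hy₃ n (h.trans_le (hn₁.trans hn₂)), hy₂ n (h.trans_le hn₁), hy₁ n h]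
    · rw [hass]
      exact hC₃
    · rw [hass]
      exact hvr₃
    · rw [hass]
      exact hV₃
    · intro A _ ι ψ hψ hs y hy hy' v hv hv'
      rw [hass] at hy hy' ⊢
      have yV2 : Valid nm y (L₀ ++ F ++ L₁) := hy.mono fun s hs => List.mem_append_left _ hs
      have yV1 : Valid nm y (L₀ ++ F) := yV2.mono fun s hs => List.mem_append_left _ hs
      obtain ⟨ζ, b₁', v', g1, g2, g3, g4, g5, g6⟩ := H₁ ι ψ hψ hs y yV1 (fun a b n h => by
        have h1 := hvr₁ n (mem_vr.2 ⟨a, b, h⟩)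
        have h2 := hy' a b n (List.mem_append_left _ (List.mem_append_left _ h))
        rw [hy₃ n (h1.trans_le hn₂), hy₂ n h1] at h2
        exact h2) v hv hv'
      obtain ⟨u', M', b₂', v'', i1, i2, i3, i4, i5, i6, i7, i8, i9, sec⟩ := H₂ ι ψ hψ hs y yV2
        (fun a b n h => by
          have h1 := hvr₂ n (mem_vr.2 ⟨a, b, h⟩)
          have h2 := hy' a b n (List.mem_append_left _ h)
          rw [hy₃ n h1] at h2
          exact h2) v' g4 g5
      obtain ⟨ζ', b₃', w', j1, j2, j3, j4, j5, j6⟩ := H₃ ι ψ hψ hs y hy hy' v'' i7 i8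
      have q1 : cev nm ι y L₀ * v * ((1 + ζ) * u') =
          b₁' * (cev nm ι y (L₀ ++ F) * v' * u') := by
        calc cev nm ι y L₀ * v * ((1 + ζ) * u')
            = (cev nm ι y L₀ * v * (1 + ζ)) * u' := by simp only [mul_assoc]
          _ = b₁' * cev nm ι y (L₀ ++ F) * v' * u' := by rw [g6]
          _ = _ := by simp only [mul_assoc]
      have q2 : cev nm ι y L₀ * v * ((1 + ζ) * u') * (M' * (1 + ζ')) =
          b₁' * (cev nm ι y (L₀ ++ F) * v' * u' * M') * (1 + ζ') := by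
        rw [q1]
        simp only [mul_assoc]
      have q3 : cev nm ι y L₀ * v * ((1 + ζ) * u') * (M' * (1 + ζ')) =
          b₁' * b₂' * b₃' * cev nm ι y (L₀ ++ F ++ L₁ ++ G) * w' := by
        rw [q2, i9]
        calc b₁' * (b₂' * cev nm ι y (L₀ ++ F ++ L₁) * v'') * (1 + ζ')
            = b₁' * b₂' * (cev nm ι y (L₀ ++ F ++ L₁) * v'' * (1 + ζ')) := by
              simp only [mul_assoc]
          _ = b₁' * b₂' * (b₃' * cev nm ι y (L₀ ++ F ++ L₁ ++ G) * w') := by rw [j6]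
          _ = _ := by simp only [mul_assoc]
      have m1 : ∀ (X : Mat r A), (1 + X).map ψ = 1 + X.map ψ := by
        intro X
        rw [Matrix.map_add ψ (fun x y => map_add ψ x y), Matrix.map_one ψ (map_zero ψ) (map_one ψ)]
      have hub' : BU nm (bk N) ((1 + ζ) * u') :=
        (bu_one_add (show bk N a < bk N b from hab) g1).mul i1
      have huk' : BU nm k ((1 + ζ) * u') := (bu_one_add hA.1 g1).mul (bu_back hA hab i2 i1)
      refine ⟨(1 + ζ) * u', M' * (1 + ζ'), b₁' * b₂' * b₃', w', hub', huk', ?_,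
        kup_letter i4 j1 hκ, ?_, (g3.mul i6).mul j3, j4, j5, q3, ?_⟩
      · rw [Matrix.map_mul, m1, g2, i3, e0]
      · rw [Matrix.map_mul, m1, j2, i5, add_zero, mul_one]
      · intro k₁ hk₁
        beta_reduce
        by_cases hk₂ : k₁ ∈ ks
        · rw [if_pos hk₂, if_pos hk₂, take_min_append, take_min_append]
          constructor
          · rw [q1]
            exact (sec k₁ hk₂).1.bu_mul g3
          · rw [q2]
            exact ((sec k₁ hk₂).2.bu_mul g3).mul_bu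
              (bu_one_add (kp_stay hk' hab hA.2.1 k₁ hk₂) j1)
        · rw [if_neg hk₂, if_neg hk₂, if_neg (by decide : ¬ (false = true)), if_pos rfl,
            List.take_length]
          have h3 : k₁ = k := by
            rcases List.mem_cons.1 hk₁ with h | h
            · exact h
            · exact absurd h hk₂
          rw [h3]
          constructor
          · rw [show L₀ ++ F ++ L₁ ++ G = L₀ ++ (F ++ L₁ ++ G) from hass.symm,
              List.take_left' rfl]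
            exact ⟨1, v * ((1 + ζ) * u'), bu_one _, hv.mul huk', by rw [one_mul, mul_assoc]⟩
          · exact ⟨_, _, (g3.mul i6).mul j3, j4, q3⟩

end Vale.Agent.P002B
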