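import Vale.Agent.P002B.LiftLetter
import Vale.Agent.P002B.BAlg

/-!
# P002, genus 0, arbitrary classes: the class step (T4.4)
-/

namespace Vale.Agent.P002B

open Matrix Vale.Agent.P002R Vale.Agent.P002L

namespace LC

section lifts

variable {A B : Type} [CommRing A] [CommRing B] {r N : ℕ} {nm : Fin r → Fin N}

theorem exists_lift_bu2 {ψ : A →+* B} (hψ : Function.Surjective ψ) {k k' : Fin N → ℕ}
    {u₀ : Mat r B} (h1 : BU nm k u₀) (h2 : BU nm k' u₀) :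
    ∃ u : Mat r A, BU nm k u ∧ BU nm k' u ∧ u.map ψ = u₀ := by
  choose s hs using hψ
  refine ⟨Matrix.of fun i j => if k (nm i) < k (nm j) ∧ k' (nm i) < k' (nm j) then s (u₀ i j)
    else (1 : Mat r A) i j, fun i j h => ?_, fun i j h => ?_, ?_⟩
  · rw [of_apply, if_neg fun h' => h h'.1]
  · rw [of_apply, if_neg fun h' => h h'.2]
  · ext i j
    rw [map_apply, of_apply]
    split_ifs with h
    · exact hs _
    · have h3 : u₀ i j = (1 : Mat r B) i j := by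
        by_cases h4 : k (nm i) < k (nm j)
        · exact h2 i j fun h5 => h ⟨h4, h5⟩
        · exact h1 i j h4
      rw [h3, one_apply, one_apply]
      split_ifs
      · exact map_one ψ
      · exact map_zero ψ

theorem exists_lift_kup2 {ψ : A →+* B} (hψ : Function.Surjective ψ) {κ : Fin r → ℕ} {l : ℕ → A}
    {M₀ : Mat r B} (hM₀ : Kup κ (fun j => ψ (l j)) M₀) :
    ∃ M : Mat r A, Kup κ l M ∧ M.map ψ = M₀ := by
  choose s hs using hψ
  refine ⟨Matrix.of fun i j => if i = j then l (κ i) else if κ i < κ j then s (M₀ i j) else 0,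
    ⟨fun i => ?_, fun i j h h' => ?_⟩, ?_⟩
  · rw [of_apply, if_pos rfl]
  · rw [of_apply, if_neg h, if_neg h']
  · ext i j
    rw [map_apply, of_apply]
    split_ifs with h1 h2
    · rw [← h1, hM₀.1]
    · exact hs _
    · rw [map_zero, hM₀.2 i j h1 h2]

theorem bu_mul_kup {k κ : Fin N → ℕ} {X M : Mat r A} {l : ℕ → A} (hX : BU nm k X)
    (hM : Kup (κ ∘ nm) l M) (hk : ∀ c d, κ c < κ d → k c < k d) (i j : Fin r)
    (h : ¬ k (nm i) < k (nm j)) : (X * M) i j = if i = j then l (κ (nm i)) else 0 := by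
  rw [mul_apply]
  have key : ∀ m : Fin r, m ≠ i ∨ m ≠ j → X i m * M m j = 0 := by
    intro m hm
    by_cases h1 : m = i
    · have h2 : m ≠ j := hm.resolve_left fun h' => h' h1
      have h3 : ¬ (κ ∘ nm) m < (κ ∘ nm) j := by
        intro h4
        refine h ?_
        rw [← h1]
        exact hk _ _ h4
      rw [hM.2 m j h2 h3, mul_zero]
    · by_cases h2 : k (nm i) < k (nm m)
      · have h3 : m ≠ j := by
          rintro rfl
          exact h h2
        have h4 : ¬ (κ ∘ nm) m < (κ ∘ nm) j := fun h5 => h (h2.trans (hk _ _ h5))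
        rw [hM.2 m j h3 h4, mul_zero]
      · rw [hX i m h2, one_apply_ne (Ne.symm h1), zero_mul]
  by_cases hij : i = j
  · subst hij
    rw [if_pos rfl, Finset.sum_eq_single i]
    · rw [hX i i (lt_irrefl _), one_apply_eq, one_mul, hM.1]
      rfl
    · intro m _ hm
      exact key m (Or.inl hm)
    · intro h'
      exact absurd (Finset.mem_univ _) h'
  · rw [if_neg hij]
    refine Finset.sum_eq_zero fun m _ => key m ?_
    by_contra h'
    push Not at h'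
    exact hij (h'.1.symm.trans h'.2)

theorem bu_last {k κ : Fin N → ℕ} {X M : Mat r A} {l : ℕ → Aˣ} (hX : BU nm k X)
    (hM : Kup (κ ∘ nm) (fun j => (l j : A)) M) (hk : ∀ c d, κ c < κ d → k c < k d) :
    BU nm k (diagonal (fun i => (((l (κ (nm i)))⁻¹ : Aˣ) : A)) * (X * M)) := by
  intro i j h
  rw [diagonal_mul, bu_mul_kup hX hM hk i j h, one_apply]
  split_ifs with h1
  · rw [Units.inv_mul]
  · rw [mul_zero]

/-- `Kup` is stable under letters on the right. -/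
theorem kup_mul_bb {κ : Fin N → ℕ} {l : ℕ → A} {M ζ : Mat r A} (hM : Kup (κ ∘ nm) l M)
    {a b : Fin N} (h : κ a < κ b) (hζ : BB nm a b ζ) : Kup (κ ∘ nm) l (M * (1 + ζ)) := by
  have h0 : ∀ i j, ¬ (κ ∘ nm) i < (κ ∘ nm) j → (M * ζ) i j = 0 := by
    intro i j hij
    rw [mul_apply]
    refine Finset.sum_eq_zero fun m _ => ?_
    by_cases h1 : nm m = a ∧ nm j = b
    · have h2 : i ≠ m := by
        rintro rfl
        refine hij ?_
        change κ (nm i) < κ (nm j)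
        rw [h1.1, h1.2]
        exact h
      have h3 : ¬ (κ ∘ nm) i < (κ ∘ nm) m := by
        intro h4
        refine hij (h4.trans ?_)
        change κ (nm m) < κ (nm j)
        rw [h1.1, h1.2]
        exact h
      rw [hM.2 i m h2 h3, zero_mul]
    · rw [hζ m j h1, mul_zero]
  refine ⟨fun i => ?_, fun i j hij hκ => ?_⟩
  · rw [mul_add, mul_one, Matrix.add_apply, hM.1, h0 i i (lt_irrefl _), add_zero]
  · rw [mul_add, mul_one, Matrix.add_apply, hM.2 i j hij hκ, h0 i j hκ, add_zero]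

/-- from the next key back to the previous one -/
theorem bu_back {k k' : Fin N → ℕ} {a b : Fin N} (hA : Adj k k' a b) (hab : a < b)
    {u : Mat r A} (h1 : BU nm (bk N) u) (h2 : BU nm k' u) : BU nm k u := by
  intro i j h
  by_cases h3 : nm i = a ∧ nm j = b
  · rw [h3.1, h3.2] at h
    exact absurd hA.1 h
  · by_cases h4 : nm i = b ∧ nm j = a
    · refine h1 i j ?_
      rw [h4.1, h4.2]
      exact not_lt.2 (le_of_lt hab)
    · exact h2 i j fun h5 => h ((hA.2.2.1 _ _ h3 h4).2 h5)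

theorem adj_symm {k k' : Fin N → ℕ} {a b : Fin N} (hA : Adj k k' a b) : Adj k' k b a := by
  obtain ⟨h1, h2, h3, h4⟩ := hA
  refine ⟨h2, h1, fun c d hc hd => (h3 c d hd hc).symm, fun c hcb hca => ?_⟩
  rw [← h3 c b (fun h => hca h.1) (fun h => hcb h.1), ← h3 c a (fun h => hca h.1)
    (fun h => hcb h.1)]
  exact (h4 c hca hcb).symm

theorem kp_head {κ : Fin N → ℕ} {k : Fin N → ℕ} {ks : List (Fin N → ℕ)} (h : KP κ k ks) :
    k ∈ ks := by
  cases h with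
  | last h => exact List.mem_singleton.2 rfl
  | step k' ks a b _ _ _ _ => exact List.mem_cons_self

/-- exchanged pairs stay exchanged -/
theorem kp_exch {κ : Fin N → ℕ} {k : Fin N → ℕ} {ks : List (Fin N → ℕ)} (h : KP κ k ks)
    {b a : Fin N} (hba : κ b < κ a) (hk : k b < k a) : ∀ k₁ ∈ ks, k₁ b < k₁ a := by
  induction h with
  | last k h =>
    intro k₁ hk₁
    rw [List.mem_singleton.1 hk₁]
    exact hk
  | step k k' ks c d hcd hκ hA hks ih =>
    intro k₁ hk₁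
    rcases List.mem_cons.1 hk₁ with rfl | h1
    · exact hk
    · refine ih ?_ k₁ h1
      refine (hA.2.2.1 b a ?_ ?_).1 hk
      · rintro ⟨rfl, rfl⟩
        exact absurd hba (not_lt.2 hκ.le)
      · rintro ⟨rfl, rfl⟩
        exact absurd hk (not_lt.2 hA.1.le)

end lifts

section letters

variable {R : Type} [CommRing R] {r N : ℕ}

/-- The lifting property of a letter step. -/
def LStep (nm : Fin r → Fin N) (φ : R →+* ℂ) (k k' : Fin N → ℕ) (a b : Fin N)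
    (L₀ : List (Sy R N)) (v₀ ζ₀ : Mat r ℂ) (Lx : List (Sy R N)) (y₁ : ℕ → Mat r ℂ × Mat r ℂ)
    (v₁ : Mat r ℂ) : Prop :=
  ∀ {A : Type} [CommRing A] (ι : R →+* A) (ψ : A →+* ℂ), (∀ x, ψ (ι x) = φ x) →
    Function.Surjective ψ → ∀ y : ℕ → Mat r A × Mat r A, Valid nm y (L₀ ++ Lx) →
    (∀ a b n, Sy.Y a b n ∈ L₀ ++ Lx → (y n).1.map ψ = (y₁ n).1 ∧ (y n).2.map ψ = (y₁ n).2) →
    ∀ v : Mat r A, BU nm k v → v.map ψ = v₀ →
    ∃ ζ b' v' : Mat r A, BB nm a b ζ ∧ ζ.map ψ = ζ₀ ∧ BU nm (bk N) b' ∧ BU nm k' v' ∧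
      v'.map ψ = v₁ ∧ cev nm ι y L₀ * v * (1 + ζ) = b' * cev nm ι y (L₀ ++ Lx) * v'

theorem circ_vr_ne {L : List (Sy R N)} (h : Circ L) : ∀ a b n, Sy.Y a b n ∈ L → a ≠ b := h.2

theorem mem_vr {L : List (Sy R N)} {a b : Fin N} {n : ℕ} (h : Sy.Y a b n ∈ L) :
    n ∈ L.filterMap Sy.vr := List.mem_filterMap.2 ⟨_, h, rfl⟩

theorem letter (hP : PassStmt) (hS : StayStmt) (hD : DichStmt) (φ : R →+* ℂ)
    (nm : Fin r → Fin N) {k k' : Fin N → ℕ} {a b : Fin N} (hA : Adj k k' a b)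
    {L₀ : List (Sy R N)} {y₀ : ℕ → Mat r ℂ × Mat r ℂ} {n₀ : ℕ} {b₀ v₀ ζ₀ u₁ : Mat r ℂ}
    (hC : Circ L₀) (hn : ∀ n ∈ L₀.filterMap Sy.vr, n < n₀) (hV : Valid nm y₀ L₀)
    (hb₀ : BU nm (bk N) b₀) (hv₀ : BU nm k v₀) (hζ₀ : BB nm a b ζ₀) (hu₁ : BU nm k' u₁)
    (hTP : TP nm (b₀ * cev nm φ y₀ L₀ * v₀ * (1 + ζ₀) * u₁) (fun c => k' c < k' b + 1)) :
    ∃ (Lx : List (Sy R N)) (y₁ : ℕ → Mat r ℂ × Mat r ℂ) (n₁ : ℕ) (v₁ : Mat r ℂ),
      (∀ n < n₀, y₁ n = y₀ n) ∧ n₀ ≤ n₁ ∧ Circ (L₀ ++ Lx) ∧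
      (∀ n ∈ (L₀ ++ Lx).filterMap Sy.vr, n < n₁) ∧ Valid nm y₁ (L₀ ++ Lx) ∧ BU nm k' v₁ ∧
      LStep nm φ k k' a b L₀ v₀ ζ₀ Lx y₁ v₁ := by
  have hne : a ≠ b := fun h' => by
    have := hA.1
    rw [h'] at this
    exact lt_irrefl _ this
  have hW : BM nm (cpm L₀) (cev nm φ y₀ L₀) := cev_bm φ hV
  have hWu : IsUnit (cev nm φ y₀ L₀) := cev_isUnit φ hV hC.2
  have hpass : (cpm L₀ a < cpm L₀ b ∨ yy nm a b v₀ ζ₀ = 0) →
      ∃ (Lx : List (Sy R N)) (y₁ : ℕ → Mat r ℂ × Mat r ℂ) (n₁ : ℕ) (v₁ : Mat r ℂ),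
      (∀ n < n₀, y₁ n = y₀ n) ∧ n₀ ≤ n₁ ∧ Circ (L₀ ++ Lx) ∧
      (∀ n ∈ (L₀ ++ Lx).filterMap Sy.vr, n < n₁) ∧ Valid nm y₁ (L₀ ++ Lx) ∧ BU nm k' v₁ ∧
      LStep nm φ k k' a b L₀ v₀ ζ₀ Lx y₁ v₁ := by
    intro h
    obtain ⟨v₁, hv₁, hl⟩ := hP nm k k' a b hA (cpm L₀) v₀ ζ₀ hv₀ hζ₀ h
    refine ⟨[], y₀, n₀, v₁, fun _ _ => rfl, le_rfl, ?_, ?_, ?_, hv₁, ?_⟩
    · rw [List.append_nil]
      exact hC
    · rw [List.append_nil]
      exact hn
    · rw [List.append_nil]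
      exact hV
    · intro A _ ι ψ _ hψ y hy _ v hv hv0
      rw [List.append_nil] at hy ⊢
      exact hl ψ hψ v hv hv0 _ (cev_bm ι hy) (cev_isUnit ι hy hC.2)
  rcases lt_or_gt_of_ne (fun h => hne ((cpm L₀).injective h) : cpm L₀ a ≠ cpm L₀ b) with hπ | hπ
  · exact hpass (Or.inl hπ)
  rcases hD nm k k' a b hA (cpm L₀) b₀ _ v₀ ζ₀ u₁ hb₀ hW hWu hv₀ hζ₀ hu₁ hπ hTP with h0 | ⟨z₀, hz₀⟩
  · exact hpass (Or.inr h0)
  obtain ⟨v₁, hv₁, hl⟩ := hS nm k k' a b hA (cpm L₀) v₀ ζ₀ z₀ hv₀ hζ₀ hπ hz₀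
  have hvr : (L₀ ++ [Sy.Y a b n₀]).filterMap Sy.vr = L₀.filterMap Sy.vr ++ [n₀] := by
    rw [List.filterMap_append]
    rfl
  refine ⟨[Sy.Y a b n₀], Function.update y₀ n₀ (yy nm a b v₀ ζ₀, z₀), n₀ + 1, v₁, fun n hn' => ?_,
    Nat.le_succ _, ⟨?_, ?_⟩, ?_, ?_, hv₁, ?_⟩
  · rw [Function.update_of_ne hn'.ne]
  · rw [hvr]
    refine List.Nodup.append hC.1 (List.nodup_singleton _) ?_
    intro n h1 h2
    rw [List.mem_singleton.1 h2] at h1
    exact lt_irrefl _ (hn _ h1)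
  · intro a' b' n h
    rcases List.mem_append.1 h with h | h
    · exact hC.2 a' b' n h
    · have := List.mem_singleton.1 h
      injection this with h1 h2 h3
      rw [h1, h2]
      exact hne
  · intro n h
    rw [hvr] at h
    rcases List.mem_append.1 h with h | h
    · exact (hn n h).trans (Nat.lt_succ_self _)
    · rw [List.mem_singleton.1 h]
      exact Nat.lt_succ_self _
  · intro a' b' n h
    rcases List.mem_append.1 h with h | h
    · rw [Function.update_of_ne (hn n (mem_vr h)).ne]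
      exact hV a' b' n h
    · have := List.mem_singleton.1 h
      injection this with h1 h2 h3
      rw [h1, h2, h3, Function.update_self]
      exact hz₀
  · intro A _ ι ψ _ _ y hy hyψ v hv hv0
    have hm : Sy.Y a b n₀ ∈ L₀ ++ [Sy.Y a b n₀] :=
      List.mem_append_right _ (List.mem_singleton.2 rfl)
    obtain ⟨e1, e2⟩ := hyψ a b n₀ hm
    rw [Function.update_self] at e1 e2
    have hy0 : Valid nm y L₀ := hy.mono fun s hs => List.mem_append_left _ hs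
    obtain ⟨ζ, b', v', h1, h2, h3, h4, h5, h6⟩ := hl ψ (y n₀).1 (y n₀).2 (hy a b n₀ hm) e1 e2 v hv
      hv0 _ (cev_bm ι hy0) (cev_isUnit ι hy0 hC.2)
    refine ⟨ζ, b', v', h1, h2, h3, h4, h5, ?_⟩
    rw [h6, cev_append, cev_singleton]
    rfl

end letters

end LC

open LC

/-- T4.4'. -/
theorem classAsm : ClassAsmStmt := by
  intro hP hS hD R _ φ r N nm κ l k ks hK
  induction hK with
  | last k h =>
    intro hbase L₀ y₀ n₀ b₀ v₀ u₀ M₀ hC hn hV hb₀ hv₀ hu₀ hu₀k hM₀ hTP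
    have hk : ∀ c d, κ c < κ d → k c < k d := fun c d hcd => (h c d).2 (Or.inl hcd)
    have hvr : (L₀ ++ [Sy.D fun c => l (κ c)]).filterMap Sy.vr = L₀.filterMap Sy.vr := by
      rw [List.filterMap_append]
      exact List.append_nil _
    have hmem : ∀ a b n, Sy.Y a b n ∈ L₀ ++ [Sy.D fun c => l (κ c)] → Sy.Y a b n ∈ L₀ := by
      intro a b n hmm
      rcases List.mem_append.1 hmm with h1 | h1
      · exact h1
      · exact absurd (List.mem_singleton.1 h1) (by intro h2; cases h2)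
    refine ⟨[Sy.D fun c => l (κ c)], y₀, n₀,
      diagonal (fun i => (((Units.map (φ : R →* ℂ) (l (κ (nm i))))⁻¹ : ℂˣ) : ℂ)) *
        (v₀ * u₀ * M₀), fun e _ => if e then L₀.length + 1 else L₀.length, fun _ _ => rfl, le_rfl,
      ⟨?_, ?_⟩, ?_, ?_, bu_last (l := fun j => Units.map (φ : R →* ℂ) (l j)) (hv₀.mul hu₀k) hM₀ hk,
      ?_⟩
    · rw [hvr]
      exact hC.1
    · exact fun a b n hmm => hC.2 a b n (hmem a b n hmm)
    · rw [hvr]
      exact hn
    · exact fun a b n hmm => hV a b n (hmem a b n hmm)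
    · intro A _ ι ψ hcomp hψ y hy hyψ v hv hv0
      obtain ⟨u, hu, huk, hu0⟩ := exists_lift_bu2 hψ hu₀ hu₀k
      obtain ⟨M, hM, hM0⟩ := exists_lift_kup2 (l := fun j => ι (l j)) hψ (κ := κ ∘ nm) (M₀ := M₀)
        (by simpa only [hcomp] using hM₀)
      have hbu := bu_last (l := fun j => Units.map (ι : R →* A) (l j)) (hv.mul huk) hM hk
      have he : cev nm ι y L₀ * v * u * M = 1 * cev nm ι y (L₀ ++ [Sy.D fun c => l (κ c)]) *
          (diagonal (fun i => (((Units.map (ι : R →* A) (l (κ (nm i))))⁻¹ : Aˣ) : A)) *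
            (v * u * M)) := by
        have h2 : Sy.ev nm ι y (Sy.D fun c => l (κ c)) *
            diagonal (fun i => (((Units.map (ι : R →* A) (l (κ (nm i))))⁻¹ : Aˣ) : A)) = 1 := by
          rw [Sy.ev, diagonal_mul_diagonal, ← diagonal_one]
          congr 1
          funext i
          exact (Units.map (ι : R →* A) (l (κ (nm i)))).mul_inv
        have h3 : cev nm ι y L₀ * Sy.ev nm ι y (Sy.D fun c => l (κ c)) *
            (diagonal (fun i => (((Units.map (ι : R →* A) (l (κ (nm i))))⁻¹ : Aˣ) : A)) *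
              (v * u * M)) = cev nm ι y L₀ * (Sy.ev nm ι y (Sy.D fun c => l (κ c)) *
            diagonal (fun i => (((Units.map (ι : R →* A) (l (κ (nm i))))⁻¹ : Aˣ) : A))) *
              (v * u * M) := by simp only [mul_assoc]
        rw [one_mul, cev_append, cev_singleton, h3, h2, mul_one]
        simp only [mul_assoc]
      refine ⟨u, M, 1, _, hu, huk, hu0, hM, hM0, bu_one _, hbu, ?_, he, ?_⟩
      · rw [Matrix.map_mul, Matrix.map_mul, Matrix.map_mul, hv0, hu0, hM0,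
          diagonal_map (map_zero ψ)]
        congr 2
        funext i
        rw [← map_inv, ← map_inv]
        exact hcomp _
      · intro k₁ hk₁
        rw [List.mem_singleton.1 hk₁]
        constructor
        · simp only [Bool.false_eq_true, if_false]
          rw [List.take_left']
          · exact ⟨1, v * u, bu_one _, hv.mul huk, by rw [one_mul, mul_assoc]⟩
          · rfl
        · simp only [if_true]
          rw [List.take_of_length_le (by rw [List.length_append, List.length_singleton])]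
          exact ⟨1, _, bu_one _, hbu, he⟩
  | step k k' ks a b hab hκ hA hk ih =>
    intro hbase L₀ y₀ n₀ b₀ v₀ u₀ M₀ hC hn hV hb₀ hv₀ hu₀ hu₀k hM₀ hTP
    have hne : a ≠ b := hab.ne
    have hz : BB nm a b (0 : Mat r ℂ) := BB.zero a b
    -- the new unipotent matrix
    obtain ⟨ζ₀, hζ₀e⟩ : ∃ ζ₀ : Mat r ℂ, ζ₀ = yy nm a b u₀ 0 := ⟨_, rfl⟩
    have hζ₀ : BB nm a b ζ₀ := by
      rw [hζ₀e]
      exact (bb_ee a b u₀).add hz
    obtain ⟨u₁, hu₁e⟩ : ∃ u₁ : Mat r ℂ, u₁ = (1 - ζ₀) * u₀ := ⟨_, rfl⟩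
    have hu₁k' : BU nm k' u₁ := by
      have := LL.bu_elim hA hu₀k hz
      rw [add_zero, mul_one] at this
      rw [hu₁e, hζ₀e]
      exact this
    have hu₁b : BU nm (bk N) u₁ := by
      rw [hu₁e]
      exact (bu_one_sub hab hζ₀).mul hu₀
    have hu₀₁ : (1 + ζ₀) * u₁ = u₀ := by
      rw [hu₁e, ← mul_assoc, hζ₀.one_add_mul_neg hne, one_mul]
    have hbase' : ∀ c d : Fin N, c < d → κ c ≤ κ d → k' c < k' d := by
      intro c d hcd hκcd
      refine (hA.2.2.1 c d ?_ ?_).1 (hbase c d hcd hκcd)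
      · rintro ⟨rfl, rfl⟩
        exact absurd hκ (not_lt.2 hκcd)
      · rintro ⟨rfl, rfl⟩
        exact absurd hab (not_lt.2 hcd.le)
    have hk'mem : k' ∈ k :: ks := List.mem_cons_of_mem _ (kp_head hk)
    -- the forward letter
    have hTP1 : TP nm (b₀ * cev nm φ y₀ L₀ * v₀ * (1 + ζ₀) * u₁) (fun c => k' c < k' b + 1) := by
      rw [mul_assoc _ (1 + ζ₀), hu₀₁]
      exact (hTP k' hk'mem _).1
    obtain ⟨Lx, y₁, n₁, v₁, hy₁, hn₁, hC₁, hN₁, hV₁, hv₁, hst₁⟩ :=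
      letter hP hS hD φ nm hA hC hn hV hb₀ hv₀ hζ₀ hu₁k' hTP1
    -- the complex identity of the forward letter
    have hcf : ∀ {L : List (Sy R N)} {ya yb : ℕ → Mat r ℂ × Mat r ℂ} {m : ℕ},
        (∀ n ∈ L.filterMap Sy.vr, n < m) → (∀ n < m, ya n = yb n) →
        cev nm φ ya L = cev nm φ yb L := fun hL hy =>
      cev_congr φ fun a b n hmm => hy n (hL n (mem_vr hmm))
    have hid : ∀ M : Mat r ℂ, M.map (RingHom.id ℂ) = M := fun M => by
      ext i j
      rfl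
    obtain ⟨ζ', b₁, v', hζ', hζ'0, hb₁, hv', hv'0, he₁⟩ := hst₁ φ (RingHom.id ℂ) (fun _ => rfl)
      Function.surjective_id y₁ hV₁ (fun _ _ n _ => ⟨hid _, hid _⟩) v₀ hv₀ (hid _)
    rw [hid] at hζ'0 hv'0
    subst hζ'0
    subst hv'0
    rw [hcf hn hy₁] at he₁
    -- the recursive call
    have hTP2 : ∀ k₁ ∈ ks, ∀ n : ℕ,
        TP nm (b₀ * b₁ * cev nm φ y₁ (L₀ ++ Lx) * v' * u₁) (fun a => k₁ a < n) ∧
        TP nm (b₀ * b₁ * cev nm φ y₁ (L₀ ++ Lx) * v' * u₁ * M₀) (fun a => k₁ a < n) := by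
      intro k₁ hk₁ n
      have e : b₀ * b₁ * cev nm φ y₁ (L₀ ++ Lx) * v' * u₁ = b₀ * cev nm φ y₀ L₀ * v₀ * u₀ := by
        have : b₀ * b₁ * cev nm φ y₁ (L₀ ++ Lx) * v' * u₁ =
            b₀ * (b₁ * cev nm φ y₁ (L₀ ++ Lx) * v') * u₁ := by simp only [mul_assoc]
        rw [this, ← he₁, ← hu₀₁]
        simp only [mul_assoc]
      rw [e]
      exact hTP k₁ (List.mem_cons_of_mem _ hk₁) n
    obtain ⟨L₁, y₂, n₂, v₂, p, hy₂, hn₂, hC₂, hN₂, hV₂, hv₂, hst₂⟩ :=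
      ih hbase' (L₀ ++ Lx) y₁ n₁ (b₀ * b₁) v' u₁ M₀ hC₁ hN₁ hV₁ (hb₀.mul hb₁) hv₁ hu₁b hu₁k' hM₀ hTP2
    obtain ⟨u', M', b₂, v'', -, -, hu'0, -, hM'0, hb₂, hv'', hv''0, he₂, -⟩ := hst₂ φ
      (RingHom.id ℂ) (fun _ => rfl) Function.surjective_id y₂ hV₂ (fun _ _ n _ => ⟨hid _, hid _⟩)
      v' hv₁ (hid _)
    rw [hid] at hu'0 hM'0 hv''0
    subst hu'0
    subst hM'0
    subst hv''0
    rw [hcf hN₁ hy₂] at he₂
    -- the return letter
    have hTP3 : TP nm (b₀ * b₁ * b₂ * cev nm φ y₂ (L₀ ++ Lx ++ L₁) * v'' * (1 + 0) * 1)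
        (fun c => k c < k a + 1) := by
      have e : b₀ * b₁ * b₂ * cev nm φ y₂ (L₀ ++ Lx ++ L₁) * v'' * (1 + 0) * 1 =
          b₀ * cev nm φ y₀ L₀ * v₀ * u₀ * M' := by
        have h1 : b₀ * b₁ * b₂ * cev nm φ y₂ (L₀ ++ Lx ++ L₁) * v'' * (1 + 0) * 1 =
            b₀ * b₁ * (b₂ * cev nm φ y₂ (L₀ ++ Lx ++ L₁) * v'') := by
          rw [add_zero, mul_one, mul_one]
          simp only [mul_assoc]
        have h2 : b₀ * b₁ * (cev nm φ y₁ (L₀ ++ Lx) * v' * u' * M') =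
            b₀ * (b₁ * cev nm φ y₁ (L₀ ++ Lx) * v') * u' * M' := by simp only [mul_assoc]
        rw [h1, ← he₂, h2, ← he₁, ← hu₀₁]
        simp only [mul_assoc]
      rw [e]
      exact (hTP k List.mem_cons_self _).2
    obtain ⟨Ly, y₃, n₃, v₃, hy₃, hn₃, hC₃, hN₃, hV₃, hv₃, hst₃⟩ :=
      letter hP hS hD φ nm (adj_symm hA) hC₂ hN₂ hV₂ ((hb₀.mul hb₁).mul hb₂) hv₂
        (BB.zero b a) (bu_one k) hTP3
    have hass : L₀ ++ (Lx ++ L₁ ++ Ly) = L₀ ++ Lx ++ L₁ ++ Ly := by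
      simp only [List.append_assoc]
    refine ⟨Lx ++ L₁ ++ Ly, y₃, n₃, v₃, fun e k₁ => if k₁ = k then
        (if e then (L₀ ++ Lx ++ L₁ ++ Ly).length else L₀.length) else
        min (p e k₁) (L₀ ++ Lx ++ L₁).length, fun n hn' => ?_, (hn₁.trans hn₂).trans hn₃, ?_, ?_,
      ?_, hv₃, ?_⟩
    · rw [hy₃ n (hn'.trans_le (hn₁.trans hn₂)), hy₂ n (hn'.trans_le hn₁), hy₁ n hn']
    · rw [hass]
      exact hC₃
    · rw [hass]
      exact hN₃
    · rw [hass]
      exact hV₃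
    · intro A _ ι ψ hcomp hψ y hy hyψ v hv hv0
      rw [hass] at hy hyψ ⊢
      have hy2 : Valid nm y (L₀ ++ Lx ++ L₁) := hy.mono fun s hs => List.mem_append_left _ hs
      have hy1 : Valid nm y (L₀ ++ Lx) := hy2.mono fun s hs => List.mem_append_left _ hs
      have hyψ2 : ∀ a b n, Sy.Y a b n ∈ L₀ ++ Lx ++ L₁ →
          (y n).1.map ψ = (y₂ n).1 ∧ (y n).2.map ψ = (y₂ n).2 := by
        intro a' b' n hmm
        rw [← hy₃ n (hN₂ n (mem_vr hmm))]
        exact hyψ a' b' n (List.mem_append_left _ hmm)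
      have hyψ1 : ∀ a b n, Sy.Y a b n ∈ L₀ ++ Lx →
          (y n).1.map ψ = (y₁ n).1 ∧ (y n).2.map ψ = (y₁ n).2 := by
        intro a' b' n hmm
        rw [← hy₂ n (hN₁ n (mem_vr hmm))]
        exact hyψ2 a' b' n (List.mem_append_left _ hmm)
      obtain ⟨ζ, c₁, w₁, hζ, hζ0, hc₁, hw₁, hw₁0, hf₁⟩ := hst₁ ι ψ hcomp hψ y hy1 hyψ1 v hv hv0
      obtain ⟨u, M, c₂, w₂, hu, huk', hu0, hM, hM0, hc₂, hw₂, hw₂0, hf₂, hcell⟩ :=
        hst₂ ι ψ hcomp hψ y hy2 hyψ2 w₁ hw₁ hw₁0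
      obtain ⟨ξ, c₃, w₃, hξ, hξ0, hc₃, hw₃, hw₃0, hf₃⟩ :=
        hst₃ ι ψ hcomp hψ y hy hyψ w₂ hw₂ hw₂0
      have hone : BU nm k (1 + ζ) := bu_one_add hA.1 hζ
      have huk : BU nm k ((1 + ζ) * u) := hone.mul (bu_back hA hab hu huk')
      have e1 : cev nm ι y L₀ * v * ((1 + ζ) * u) = c₁ * (cev nm ι y (L₀ ++ Lx) * w₁ * u) := by
        rw [← mul_assoc _ (1 + ζ), hf₁]
        simp only [mul_assoc]
      have e2 : cev nm ι y L₀ * v * ((1 + ζ) * u) * (M * (1 + ξ)) =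
          c₁ * (cev nm ι y (L₀ ++ Lx) * w₁ * u * M) * (1 + ξ) := by
        rw [e1]
        simp only [mul_assoc]
      have e3 : cev nm ι y L₀ * v * ((1 + ζ) * u) * (M * (1 + ξ)) =
          c₁ * c₂ * c₃ * cev nm ι y (L₀ ++ Lx ++ L₁ ++ Ly) * w₃ := by
        rw [e2, hf₂]
        have : c₁ * (c₂ * cev nm ι y (L₀ ++ Lx ++ L₁) * w₂) * (1 + ξ) =
            c₁ * c₂ * (cev nm ι y (L₀ ++ Lx ++ L₁) * w₂ * (1 + ξ)) := by
          simp only [mul_assoc]
        rw [this, hf₃]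
        simp only [mul_assoc]
      refine ⟨(1 + ζ) * u, M * (1 + ξ), c₁ * c₂ * c₃, w₃, (bu_one_add hab hζ).mul hu, huk, ?_,
        kup_mul_bb hM hκ hξ, ?_, (hc₁.mul hc₂).mul hc₃, hw₃, hw₃0, e3, ?_⟩
      · rw [Matrix.map_mul, Matrix.map_add ψ (map_add ψ), Matrix.map_one ψ (map_zero ψ) (map_one ψ),
          hζ0, hu0, hu₀₁]
      · rw [Matrix.map_mul, Matrix.map_add ψ (map_add ψ), Matrix.map_one ψ (map_zero ψ) (map_one ψ),
          hξ0, hM0, add_zero, mul_one]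
      · intro k₁ hk₁
        by_cases hkk : k₁ = k
        · subst hkk
          simp only [if_true, Bool.false_eq_true, if_false]
          constructor
          · rw [List.append_assoc, List.append_assoc, List.take_left' rfl]
            exact ⟨1, v * ((1 + ζ) * u), bu_one _, hv.mul huk, by rw [one_mul, mul_assoc]⟩
          · rw [List.take_of_length_le le_rfl]
            exact ⟨_, w₃, (hc₁.mul hc₂).mul hc₃, hw₃, e3⟩
        · have hk₁' : k₁ ∈ ks := (List.mem_cons.1 hk₁).resolve_left hkk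
          simp only [if_neg hkk]
          have htake : ∀ e : Bool, (L₀ ++ Lx ++ L₁ ++ Ly).take
              (min (p e k₁) (L₀ ++ Lx ++ L₁).length) = (L₀ ++ Lx ++ L₁).take (p e k₁) := by
            intro e
            rw [List.take_append_of_le_length (min_le_right _ _)]
            rcases le_total (p e k₁) (L₀ ++ Lx ++ L₁).length with h | h
            · rw [min_eq_left h]
            · rw [min_eq_right h, List.take_length, List.take_of_length_le h]
          obtain ⟨h1, h2⟩ := hcell k₁ hk₁'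
          constructor
          · rw [htake, e1]
            exact h1.bu_mul hc₁
          · rw [htake, e2]
            exact (h2.bu_mul hc₁).mul_bu (bu_one_add (kp_exch hk hκ hA.2.1 k₁ hk₁') hξ)

end Vale.Agent.P002B
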