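import Vale.Agent.P002B.Stmts3

/-!
# P002, genus 0, arbitrary classes: the letter steps (T4.1, T4.2)
-/

namespace Vale.Agent.P002B

open Matrix Vale.Agent.P002R Vale.Agent.P002L

namespace LL

section general

variable {S T : Type*} [CommRing S] [CommRing T] {r N : ℕ} {nm : Fin r → Fin N}

theorem ee_mul_apply (a : Fin N) (M : Mat r S) (i j : Fin r) :
    ((ee nm a : Mat r S) * M) i j = if nm i = a then M i j else 0 := by
  rw [ee, diagonal_mul]
  split_ifs
  · rw [one_mul]
  · rw [zero_mul]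

theorem mul_ee_apply (a : Fin N) (M : Mat r S) (i j : Fin r) :
    (M * (ee nm a : Mat r S)) i j = if nm j = a then M i j else 0 := by
  rw [ee, mul_diagonal]
  split_ifs
  · rw [mul_one]
  · rw [mul_zero]

theorem ee_mul_ee_same (a : Fin N) : (ee nm a : Mat r S) * ee nm a = ee nm a := by
  ext i j
  rw [ee_mul_apply]
  split_ifs with h
  · rfl
  · rw [ee, diagonal_apply]
    split_ifs <;> rfl

theorem ee_mul_ee_ne {a b : Fin N} (h : a ≠ b) : (ee nm a : Mat r S) * ee nm b = 0 := by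
  ext i j
  rw [ee_mul_apply, Matrix.zero_apply]
  split_ifs with h1
  · rw [ee, diagonal_apply]
    split_ifs with h2 h3
    · exact absurd (h1.symm.trans h3) h
    · rfl
    · rfl
  · rfl

theorem ee_map (a : Fin N) (f : S →+* T) : (ee nm a : Mat r S).map f = ee nm a := by
  rw [ee, ee, diagonal_map (map_zero f)]
  congr 1
  funext i
  split_ifs
  · exact map_one f
  · exact map_zero f

theorem bb_left {a b : Fin N} {y : Mat r S} (hy : BB nm a b y) : ee nm a * y = y := by
  ext i j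
  rw [ee_mul_apply]
  split_ifs with h
  · rfl
  · exact (hy i j fun h' => h h'.1).symm

theorem bb_right {a b : Fin N} {y : Mat r S} (hy : BB nm a b y) : y * ee nm b = y := by
  ext i j
  rw [mul_ee_apply]
  split_ifs with h
  · rfl
  · exact (hy i j fun h' => h h'.2).symm

theorem bb_of {a b : Fin N} {y : Mat r S} (h1 : ee nm a * y = y) (h2 : y * ee nm b = y) :
    BB nm a b y := by
  intro i j hij
  by_cases h : nm i = a
  · have h3 : nm j ≠ b := fun h' => hij ⟨h, h'⟩
    rw [← h2, mul_ee_apply, if_neg h3]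
  · rw [← h1, ee_mul_apply, if_neg h]

theorem bb_mul_zero {a b c d : Fin N} (h : b ≠ c) {y z : Mat r S} (hy : BB nm a b y)
    (hz : BB nm c d z) : y * z = 0 := by
  rw [← bb_right hy, ← bb_left hz, Matrix.mul_assoc, ← Matrix.mul_assoc (ee nm b),
    ee_mul_ee_ne h, Matrix.zero_mul, Matrix.mul_zero]

theorem bb_neg {a b : Fin N} {y : Mat r S} (hy : BB nm a b y) : BB nm a b (-y) := by
  intro i j hij
  rw [Matrix.neg_apply, hy i j hij, neg_zero]

theorem bb_add {a b : Fin N} {y z : Mat r S} (hy : BB nm a b y) (hz : BB nm a b z) :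
    BB nm a b (y + z) := by
  intro i j hij
  rw [Matrix.add_apply, hy i j hij, hz i j hij, add_zero]

theorem bb_sub {a b : Fin N} {y z : Mat r S} (hy : BB nm a b y) (hz : BB nm a b z) :
    BB nm a b (y - z) := by
  intro i j hij
  rw [Matrix.sub_apply, hy i j hij, hz i j hij, sub_zero]

theorem bb_ee (a b : Fin N) (v : Mat r S) : BB nm a b (ee nm a * v * ee nm b) := by
  refine bb_of ?_ ?_
  · rw [← Matrix.mul_assoc, ← Matrix.mul_assoc, ee_mul_ee_same]
  · rw [Matrix.mul_assoc, ee_mul_ee_same]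

theorem bu_one_add {k : Fin N → ℕ} {a b : Fin N} (h : k a < k b) {y : Mat r S}
    (hy : BB nm a b y) : BU nm k (1 + y) := by
  intro i j hij
  rw [Matrix.add_apply, hy i j, add_zero]
  rintro ⟨rfl, rfl⟩
  exact hij h

theorem bu_one {k : Fin N → ℕ} : BU nm k (1 : Mat r S) := fun _ _ _ => rfl

theorem bu_mul {k : Fin N → ℕ} {u v : Mat r S} (hu : BU nm k u) (hv : BU nm k v) :
    BU nm k (u * v) := by
  intro i j hij
  rw [mul_apply, Finset.sum_eq_single i]
  · rw [hv i j hij, hu i i (lt_irrefl _), one_apply_eq, one_mul]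
  · intro l _ hl
    by_cases h1 : k (nm i) < k (nm l)
    · have h2 : ¬ k (nm l) < k (nm j) := fun h' => hij (h1.trans h')
      rw [hv l j h2, one_apply]
      split_ifs with h3
      · subst h3
        exact absurd h1 hij
      · rw [mul_zero]
    · rw [hu i l h1, one_apply_ne hl.symm, zero_mul]
  · intro h
    exact absurd (Finset.mem_univ _) h

theorem bu_ee_same {k : Fin N → ℕ} {v : Mat r S} (hv : BU nm k v) (a : Fin N) :
    ee nm a * v * ee nm a = ee nm a := by
  ext i j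
  rw [mul_ee_apply, ee_mul_apply, ee, diagonal_apply]
  by_cases h1 : nm j = a
  · by_cases h2 : nm i = a
    · rw [if_pos h1, if_pos h2, if_pos h2, hv i j (by rw [h1, h2]; exact lt_irrefl _), one_apply]
    · rw [if_pos h1, if_neg h2, if_neg h2, ite_self]
  · rw [if_neg h1]
    by_cases h3 : i = j
    · subst h3
      rw [if_pos rfl, if_neg h1]
    · rw [if_neg h3]

theorem bu_ee_zero {k : Fin N → ℕ} {v : Mat r S} (hv : BU nm k v) {a b : Fin N} (h : k a < k b) :
    ee nm b * v * ee nm a = 0 := by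
  have hne : a ≠ b := fun h' => by rw [h'] at h; exact lt_irrefl _ h
  ext i j
  rw [mul_ee_apply, ee_mul_apply, Matrix.zero_apply]
  split_ifs with h1 h2
  · rw [hv i j (by rw [h1, h2]; exact not_lt.2 h.le), one_apply_ne]
    rintro rfl
    exact hne (h1.symm.trans h2)
  · rfl
  · rfl

/-- the elimination of the block `(a, b)` -/
theorem bu_elim {k k' : Fin N → ℕ} {a b : Fin N} (hA : Adj k k' a b) {v ζ : Mat r S}
    (hv : BU nm k v) (hζ : BB nm a b ζ) : BU nm k' ((1 - yy nm a b v ζ) * v * (1 + ζ)) := by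
  obtain ⟨h1, h2, h3, -⟩ := hA
  have hne : a ≠ b := fun h' => by rw [h'] at h1; exact lt_irrefl _ h1
  have hy : BB nm a b (yy nm a b v ζ) := bb_add (bb_ee a b v) hζ
  have hk : BU nm k ((1 - yy nm a b v ζ) * v * (1 + ζ)) := by
    rw [sub_eq_add_neg]
    exact bu_mul (bu_mul (bu_one_add h1 (bb_neg hy)) hv) (bu_one_add h1 hζ)
  have h0 : ee nm a * ((1 - yy nm a b v ζ) * v * (1 + ζ)) * ee nm b = 0 := by
    have e1 : ee nm a * v * ζ = ζ := by
      rw [← bb_left hζ, ← Matrix.mul_assoc, bu_ee_same hv, bb_left hζ]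
    have e2 : yy nm a b v ζ * v * ee nm b = yy nm a b v ζ := by
      rw [← bb_right hy, Matrix.mul_assoc, Matrix.mul_assoc, ← Matrix.mul_assoc (ee nm b),
        bu_ee_same hv]
    have e3 : yy nm a b v ζ * v * ζ = 0 := by
      have h5 : yy nm a b v ζ * v * ζ =
          (yy nm a b v ζ * ee nm b) * v * (ee nm a * ζ) := by
        rw [bb_right hy, bb_left hζ]
      have h6 : (yy nm a b v ζ * ee nm b) * v * (ee nm a * ζ) =
          yy nm a b v ζ * (ee nm b * v * ee nm a) * ζ := by simp only [Matrix.mul_assoc]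
      rw [h5, h6, bu_ee_zero hv h1, Matrix.mul_zero, Matrix.zero_mul]
    have e4 : ee nm a * ((1 - yy nm a b v ζ) * v * (1 + ζ)) * ee nm b =
        ee nm a * v * ee nm b + ee nm a * v * (ζ * ee nm b) -
          (ee nm a * yy nm a b v ζ) * v * ee nm b -
          (ee nm a * yy nm a b v ζ) * v * (ζ * ee nm b) := by
      noncomm_ring
    rw [e4, bb_right hζ, bb_left hy, e1, e2, e3, sub_zero]
    rw [yy]
    exact sub_self _
  intro i j hij
  by_cases h4 : nm i = a ∧ nm j = b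
  · have h5 := congrFun (congrFun h0 i) j
    rw [mul_ee_apply, if_pos h4.2, ee_mul_apply, if_pos h4.1, Matrix.zero_apply] at h5
    rw [h5, one_apply_ne]
    rintro rfl
    exact hne (h4.1.symm.trans h4.2)
  · by_cases h5 : nm i = b ∧ nm j = a
    · rw [h5.1, h5.2] at hij
      exact absurd h2 hij
    · exact hk i j fun h' => hij ((h3 _ _ h4 h5).1 h')

theorem yy_sq {a b : Fin N} (h : a ≠ b) {y : Mat r S} (hy : BB nm a b y) : y * y = 0 :=
  bb_mul_zero h.symm hy hy

theorem elim_eq {a b : Fin N} (h : a ≠ b) {v ζ : Mat r S} (hζ : BB nm a b ζ) :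
    v * (1 + ζ) = (1 + yy nm a b v ζ) * ((1 - yy nm a b v ζ) * v * (1 + ζ)) := by
  have hy : BB nm a b (yy nm a b v ζ) := bb_add (bb_ee a b v) hζ
  have h1 : (1 + yy nm a b v ζ) * (1 - yy nm a b v ζ) = 1 := by
    have := yy_sq h hy
    have h2 : (1 + yy nm a b v ζ) * (1 - yy nm a b v ζ) = 1 - yy nm a b v ζ * yy nm a b v ζ := by
      noncomm_ring
    rw [h2, this, sub_zero]
  rw [Matrix.mul_assoc (1 - _), ← Matrix.mul_assoc (1 + _), h1, Matrix.one_mul]

theorem bm_ee {π : Equiv.Perm (Fin N)} {W : Mat r S} (hW : BM nm π W) (c : Fin N) :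
    W * ee nm c = ee nm (π c) * W := by
  ext i j
  rw [mul_ee_apply, ee_mul_apply]
  by_cases h : nm i = π (nm j)
  · rw [h]
    simp only [EmbeddingLike.apply_eq_iff_eq]
  · rw [hW i j h]
    split_ifs <;> rfl

/-- conjugation of a block by a block monomial matrix -/
theorem bm_conj {π : Equiv.Perm (Fin N)} {W : Mat r S} (hW : BM nm π W) (hu : IsUnit W)
    {a b : Fin N} {y : Mat r S} (hy : BB nm a b y) :
    ∃ y' : Mat r S, BB nm (π a) (π b) y' ∧ W * (1 + y) = (1 + y') * W := by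
  obtain ⟨w, rfl⟩ := hu
  have hinv : ∀ c, ee nm c * (↑w⁻¹ : Mat r S) = (↑w⁻¹ : Mat r S) * ee nm (π c) := by
    intro c
    have h1 := bm_ee hW c
    calc ee nm c * (↑w⁻¹ : Mat r S) = (↑w⁻¹ : Mat r S) * ((w : Mat r S) * ee nm c) *
        (↑w⁻¹ : Mat r S) := by
          rw [← Matrix.mul_assoc, w.inv_mul, Matrix.one_mul]
      _ = _ := by
          rw [h1, Matrix.mul_assoc, Matrix.mul_assoc, w.mul_inv, Matrix.mul_one]
  refine ⟨(w : Mat r S) * y * (↑w⁻¹ : Mat r S), bb_of ?_ ?_, ?_⟩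
  · rw [← Matrix.mul_assoc, ← Matrix.mul_assoc, ← bm_ee hW, Matrix.mul_assoc (w : Mat r S),
      bb_left hy]
  · rw [Matrix.mul_assoc, ← hinv, ← Matrix.mul_assoc, Matrix.mul_assoc (w : Mat r S), bb_right hy]
  · rw [Matrix.add_mul, Matrix.one_mul, Matrix.mul_add, Matrix.mul_one,
      Matrix.mul_assoc _ (↑w⁻¹ : Mat r S), w.inv_mul, Matrix.mul_one]

theorem yy_map {a b : Fin N} (v ζ : Mat r S) (f : S →+* T) :
    (yy nm a b v ζ).map f = yy nm a b (v.map f) (ζ.map f) := by
  rw [yy, yy, Matrix.map_add f (map_add f), Matrix.map_mul, Matrix.map_mul, ee_map, ee_map]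

theorem elim_map {a b : Fin N} (v ζ : Mat r S) (f : S →+* T) :
    ((1 - yy nm a b v ζ) * v * (1 + ζ)).map f =
      (1 - yy nm a b (v.map f) (ζ.map f)) * v.map f * (1 + ζ.map f) := by
  rw [Matrix.map_mul, Matrix.map_mul, Matrix.map_sub f (map_sub f), Matrix.map_add f (map_add f),
    Matrix.map_one f (map_zero f) (map_one f), yy_map]

theorem exists_lift_bb {f : S →+* T} (hf : Function.Surjective f) {a b : Fin N} {y₀ : Mat r T}
    (hy₀ : BB nm a b y₀) : ∃ y : Mat r S, BB nm a b y ∧ y.map f = y₀ := by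
  choose s hs using hf
  refine ⟨Matrix.of fun i j => if nm i = a ∧ nm j = b then s (y₀ i j) else 0, ?_, ?_⟩
  · intro i j hij
    rw [of_apply, if_neg hij]
  · ext i j
    rw [map_apply, of_apply]
    split_ifs with h
    · exact hs _
    · rw [map_zero, hy₀ i j h]

/-- the stay identity -/
theorem stay_id {a b : Fin N} (h : a ≠ b) {y z : Mat r S} (hy : BB nm a b y) (hz : BB nm b a z)
    (hyz : y * z = ee nm a) (hzy : z * y = ee nm b) :
    (1 + y : Mat r S) = (1 + z) * (1 - ee nm a - ee nm b + y - z) * (1 + z) := by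
  have hzz : z * z = 0 := bb_mul_zero h hz hz
  have hyy : y * y = 0 := bb_mul_zero h.symm hy hy
  have e1 : ee nm a * z = 0 := by
    rw [← bb_left hz, ← Matrix.mul_assoc, ee_mul_ee_ne h, Matrix.zero_mul]
  have e2 : z * ee nm b = 0 := by
    rw [← bb_right hz, Matrix.mul_assoc, ee_mul_ee_ne h, Matrix.mul_zero]
  have e3 : ee nm b * z = z := bb_left hz
  have s1 : (1 - ee nm a - ee nm b + y - z) * (1 + z) = 1 - ee nm b + y - z := by
    have : (1 - ee nm a - ee nm b + y - z) * (1 + z) = 1 - ee nm a - ee nm b + y - z +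
        (z - ee nm a * z - ee nm b * z + y * z - z * z) := by noncomm_ring
    rw [this, e1, e3, hyz, hzz]
    abel
  rw [Matrix.mul_assoc, s1]
  have : (1 + z) * (1 - ee nm b + y - z) = 1 - ee nm b + y - z +
      (z - z * ee nm b + z * y - z * z) := by noncomm_ring
  rw [this, e2, hzy, hzz]
  abel

end general

end LL

open LL

/-- T4.1. -/
theorem passStmt : PassStmt := by
  intro r N nm k k' a b hA π v₀ ζ₀ hv₀ hζ₀ hcase
  have hne : a ≠ b := fun h' => by
    have := hA.1
    rw [h'] at this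
    exact lt_irrefl _ this
  refine ⟨(1 - yy nm a b v₀ ζ₀) * v₀ * (1 + ζ₀), bu_elim hA hv₀ hζ₀, ?_⟩
  intro A _ ψ hψ v hv hv0 W hW hWu
  rcases hcase with hπ | h0
  · obtain ⟨ζ, hζ, hζ0⟩ := exists_lift_bb hψ hζ₀
    have hy : BB nm a b (yy nm a b v ζ) := bb_add (bb_ee a b v) hζ
    obtain ⟨y', hy', he⟩ := bm_conj hW hWu hy
    refine ⟨ζ, 1 + y', (1 - yy nm a b v ζ) * v * (1 + ζ), hζ, hζ0, bu_one_add hπ hy',
      bu_elim hA hv hζ, ?_, ?_⟩
    · rw [elim_map, hv0, hζ0]
    · rw [Matrix.mul_assoc, elim_eq hne hζ, ← Matrix.mul_assoc, he]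
  · have hζ : BB nm a b (-(ee nm a * v * ee nm b)) := bb_neg (bb_ee a b v)
    have hy0 : yy nm a b v (-(ee nm a * v * ee nm b)) = 0 := by
      rw [yy, add_neg_cancel]
    have hζ0 : (-(ee nm a * v * ee nm b)).map ψ = ζ₀ := by
      rw [yy] at h0
      rw [Matrix.map_neg ψ (map_neg ψ), Matrix.map_mul, Matrix.map_mul, ee_map, ee_map, hv0]
      exact (eq_neg_of_add_eq_zero_right h0).symm
    refine ⟨-(ee nm a * v * ee nm b), 1,
      (1 - yy nm a b v (-(ee nm a * v * ee nm b))) * v * (1 + -(ee nm a * v * ee nm b)), hζ, hζ0,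
      bu_one, bu_elim hA hv hζ, ?_, ?_⟩
    · rw [elim_map, hv0, hζ0]
    · rw [hy0, sub_zero, Matrix.one_mul, Matrix.one_mul, Matrix.mul_assoc]

/-- T4.2. -/
theorem stayStmt : StayStmt := by
  intro r N nm k k' a b hA π v₀ ζ₀ z₀ hv₀ hζ₀ hπ hI
  have hne : a ≠ b := fun h' => by
    have := hA.1
    rw [h'] at this
    exact lt_irrefl _ this
  refine ⟨(1 + z₀) * ((1 - yy nm a b v₀ ζ₀) * v₀ * (1 + ζ₀)),
    bu_mul (bu_one_add hA.2.1 hI.2.1) (bu_elim hA hv₀ hζ₀), ?_⟩
  intro A _ ψ y z hyz hy0 hz0 v hv hv0 W hW hWu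
  obtain ⟨hy, hz, h1, h2⟩ := hyz
  have hζ : BB nm a b (y - ee nm a * v * ee nm b) := bb_sub hy (bb_ee a b v)
  have hyy : yy nm a b v (y - ee nm a * v * ee nm b) = y := by
    rw [yy]
    abel
  have hζ0 : (y - ee nm a * v * ee nm b).map ψ = ζ₀ := by
    rw [Matrix.map_sub ψ (map_sub ψ), Matrix.map_mul, Matrix.map_mul, ee_map, ee_map, hv0, hy0, yy]
    abel
  obtain ⟨z', hz', he⟩ := bm_conj hW hWu hz
  refine ⟨y - ee nm a * v * ee nm b, 1 + z',
    (1 + z) * ((1 - yy nm a b v (y - ee nm a * v * ee nm b)) * v *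
      (1 + (y - ee nm a * v * ee nm b))), hζ, hζ0, bu_one_add hπ hz',
    bu_mul (bu_one_add hA.2.1 hz) (bu_elim hA hv hζ), ?_, ?_⟩
  · rw [Matrix.map_mul, elim_map, hv0, hζ0, Matrix.map_add ψ (map_add ψ),
      Matrix.map_one ψ (map_zero ψ) (map_one ψ), hz0]
  · rw [Matrix.mul_assoc W v, elim_eq (v := v) hne hζ, hyy]
    have e : W * ((1 + y) * ((1 - y) * v * (1 + (y - ee nm a * v * ee nm b)))) =
        (W * (1 + z)) * (1 - ee nm a - ee nm b + y - z) *
          ((1 + z) * ((1 - y) * v * (1 + (y - ee nm a * v * ee nm b)))) := by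
      rw [stay_id hne hy hz h1 h2]
      simp only [Matrix.mul_assoc]
    rw [e, he]
    simp only [Matrix.mul_assoc]

end Vale.Agent.P002B
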