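import Vale.Agent.P002B.Stmts

/-! # P002, genus 0, arbitrary classes: T1 (paths of orders) -/

namespace Vale.Agent.P002B.PB

open Vale.Agent.P002B

variable {N : ℕ}

/-- the same order -/
def Eqv (k k' : Fin N → ℕ) : Prop := ∀ a b, k a < k b ↔ k' a < k' b

/-- all initial segments are standard -/
def Good (κ : Fin N → ℕ) (k : Fin N → ℕ) : Prop :=
  ∀ n : ℕ, ∃ l s s' : ℕ, s' ≤ s ∧ ∀ c, k c < n ↔ Seg κ l s s' c

theorem eqv_seg {k k' : Fin N → ℕ} (h : Eqv k k') (n : ℕ) :
    ∃ n', ∀ c, k' c < n' ↔ k c < n := by
  classical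
  by_cases hall : ∀ c, k c < n
  · refine ⟨∑ c, (k' c + 1), fun c => ⟨fun _ => hall c, fun _ => ?_⟩⟩
    have := Finset.single_le_sum (f := fun c => k' c + 1) (fun _ _ => Nat.zero_le _)
      (Finset.mem_univ c)
    omega
  · push Not at hall
    obtain ⟨d0, hd0⟩ := hall
    obtain ⟨d, hd, hmin⟩ := Finset.exists_min_image (Finset.univ.filter fun c => ¬ k c < n) k'
      ⟨d0, by simp [hd0]⟩
    have hdn : ¬ k d < n := (Finset.mem_filter.1 hd).2
    refine ⟨k' d, fun c => ⟨fun hc => ?_, fun hc => ?_⟩⟩
    · by_contra hcn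
      have h1 := hmin c (Finset.mem_filter.2 ⟨Finset.mem_univ c, hcn⟩)
      omega
    · rw [← h c d]
      omega

theorem good_eqv {κ k k' : Fin N → ℕ} (h : Eqv k k') (hk : Good κ k) : Good κ k' := by
  intro n
  obtain ⟨n', hn'⟩ := eqv_seg (k := k') (k' := k) (fun a b => (h a b).symm) n
  obtain ⟨l, s, s', h1, h2⟩ := hk n'
  exact ⟨l, s, s', h1, fun c => by rw [← hn' c]; exact h2 c⟩

theorem kp_head {κ k : Fin N → ℕ} {ks : List (Fin N → ℕ)} (h : KP κ k ks) :
    ∃ t, ks = k :: t := by
  cases h with
  | last _ _ => exact ⟨[], rfl⟩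
  | step _ k' ks' a b _ _ _ _ => exact ⟨ks', rfl⟩

theorem kp_congr {κ k k1 : Fin N → ℕ} {t : List (Fin N → ℕ)} (h : Eqv k k1)
    (hk : KP κ k (k :: t)) : KP κ k1 (k1 :: t) := by
  cases hk with
  | last _ h' => exact KP.last k1 fun a b => by rw [← h a b]; exact h' a b
  | step _ k' _ a b hab hκ hadj hks =>
    refine KP.step k1 k' _ a b hab hκ ?_ hks
    obtain ⟨h1, h2, h3, h4⟩ := hadj
    refine ⟨(h a b).1 h1, h2, fun c d hc hd => ?_, fun c hc hc' => ?_⟩
    · rw [← h c d]; exact h3 c d hc hd
    · rw [← h c a, ← h c b]; exact h4 c hc hc'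

/-- there is a good path from `k` that contains the orders in `C` -/
def PT (κ k : Fin N → ℕ) (C : (Fin N → ℕ) → Prop) : Prop :=
  ∃ ks, KP κ k ks ∧ (∀ x ∈ ks, Good κ x) ∧ ∀ x, C x → ∃ y ∈ ks, Eqv x y

theorem pt_eqv {κ k k1 : Fin N → ℕ} {C : (Fin N → ℕ) → Prop} (h : Eqv k k1)
    (hp : PT κ k C) : PT κ k1 C := by
  obtain ⟨ks, h1, h2, h3⟩ := hp
  obtain ⟨t, rfl⟩ := kp_head h1
  refine ⟨k1 :: t, kp_congr h h1, ?_, ?_⟩
  · intro x hx
    rcases List.mem_cons.1 hx with rfl | hx
    · exact good_eqv h (h2 k (List.mem_cons_self))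
    · exact h2 x (List.mem_cons_of_mem _ hx)
  · intro x hx
    obtain ⟨y, hy, hxy⟩ := h3 x hx
    rcases List.mem_cons.1 hy with rfl | hy
    · exact ⟨k1, List.mem_cons_self, fun a b => (hxy a b).trans (h a b)⟩
    · exact ⟨y, List.mem_cons_of_mem _ hy, hxy⟩

theorem pt_adj {κ k k' : Fin N → ℕ} {C : (Fin N → ℕ) → Prop} {a b : Fin N} (hg : Good κ k)
    (hab : a < b) (hκ : κ b < κ a) (h : Adj k k' a b) (hp : PT κ k' C) : PT κ k C := by
  obtain ⟨ks, h1, h2, h3⟩ := hp
  refine ⟨k :: ks, KP.step k k' ks a b hab hκ h h1, ?_, ?_⟩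
  · intro x hx
    rcases List.mem_cons.1 hx with rfl | hx
    · exact hg
    · exact h2 x hx
  · intro x hx
    obtain ⟨y, hy, hxy⟩ := h3 x hx
    exact ⟨y, List.mem_cons_of_mem _ hy, hxy⟩

theorem pt_self {κ k : Fin N → ℕ} {C C' : (Fin N → ℕ) → Prop} (hC : ∀ x, C' x → x = k ∨ C x)
    (hp : PT κ k C) : PT κ k C' := by
  obtain ⟨ks, h1, h2, h3⟩ := hp
  obtain ⟨t, rfl⟩ := kp_head h1
  refine ⟨k :: t, h1, h2, ?_⟩
  intro x hx
  rcases hC x hx with rfl | hx
  · exact ⟨x, List.mem_cons_self, fun _ _ => Iff.rfl⟩
  · exact h3 x hx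

/-- the key of the state `(q, t)` -/
def key (X : Fin N → ℕ) (B q t : ℕ) (c : Fin N) : ℕ :=
  if X c < q then X c else if X c = q then B + min (2 * t) (2 * c + 1) else B + (2 * c + 1)

/-- the next state -/
theorem key_next {X : Fin N → ℕ} {B : ℕ} (hX : ∀ c, X c < B) (q : ℕ) :
    Eqv (key X B (q + 1) N) (key X B q 0) := by
  intro c d
  have h1 := hX c
  have h2 := hX d
  have h3 := c.2
  have h4 := d.2
  unfold key
  split_ifs <;> omega

theorem key_step {κ X : Fin N → ℕ} {B : ℕ} (hX : ∀ c, X c < B) (hinj : ∀ c d, X c = X d → c = d)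
    (hlt : ∀ a b, a < b → X b < X a → κ b < κ a) {C : (Fin N → ℕ) → Prop} (q t : ℕ)
    (hg : Good κ (key X B q (t + 1))) (hp : PT κ (key X B q t) C) :
    PT κ (key X B q (t + 1)) C := by
  by_cases hb : ∃ b, X b = q ∧ t < (b : ℕ) ∧ ∃ a : Fin N, (a : ℕ) = t ∧ q < X a
  · obtain ⟨b, hbq, htb, a, hat, hqa⟩ := hb
    have hab : a < b := by rw [Fin.lt_def]; omega
    refine pt_adj hg hab (hlt a b hab (by omega)) ?_ hp
    refine ⟨?_, ?_, ?_, ?_⟩
    · unfold key
      split_ifs <;> omega
    · unfold key
      split_ifs <;> omega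
    · intro c d h1 h2
      have hc := hX c
      have hd := hX d
      have e1 : X c = q → c = b := fun h => hinj c b (by omega)
      have e2 : X d = q → d = b := fun h => hinj d b (by omega)
      have e3 : (c : ℕ) = t → c = a := fun h => Fin.ext (by omega)
      have e4 : (d : ℕ) = t → d = a := fun h => Fin.ext (by omega)
      by_cases hcq : X c = q
      · have hcb := e1 hcq
        subst hcb
        by_cases hdq : X d = q
        · have hdb := e2 hdq
          subst hdb
          simp
        · have hda : (d : ℕ) ≠ t := fun h => h2 ⟨rfl, e4 h⟩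
          unfold key
          split_ifs <;> omega
      · by_cases hdq : X d = q
        · have hdb := e2 hdq
          subst hdb
          have hca : (c : ℕ) ≠ t := fun h => h1 ⟨e3 h, rfl⟩
          unfold key
          split_ifs <;> omega
        · unfold key
          split_ifs <;> omega
    · intro c h1 h2
      have hc := hX c
      have e1 : X c ≠ q := fun h => h2 (hinj c b (by omega))
      have e3 : (c : ℕ) ≠ t := fun h => h1 (Fin.ext (by omega))
      unfold key
      split_ifs <;> omega
  · refine pt_eqv ?_ hp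
    intro c d
    have hc := hX c
    have hd := hX d
    push Not at hb
    have e0 : X c = q → X d = q → c = d := fun h h' => hinj c d (by omega)
    by_cases hcq : X c = q
    · by_cases hdq : X d = q
      · have hcd := e0 hcq hdq
        subst hcd
        simp
      · have h1 : t < (c : ℕ) → (d : ℕ) = t → X d ≤ q := fun h h' => hb c hcq h d h'
        have h2 : (c : ℕ) ≠ d := fun h => hdq (by rw [← Fin.ext h]; exact hcq)
        unfold key
        split_ifs <;> omega
    · by_cases hdq : X d = q
      · have h1 : t < (d : ℕ) → (c : ℕ) = t → X c ≤ q := fun h h' => hb d hdq h c h'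
        have h2 : (c : ℕ) ≠ d := fun h => hcq (by rw [Fin.ext h]; exact hdq)
        unfold key
        split_ifs <;> omega
      · unfold key
        split_ifs <;> omega

/-- lexicographic comparison -/
theorem lex_iff {x c m N : ℕ} (hc : c < N) :
    x * N + c < m ↔ x < m / N ∨ (x = m / N ∧ c < m % N) := by
  have hN : 0 < N := by omega
  have h1 := Nat.div_add_mod m N
  have h2 := Nat.mod_lt m hN
  generalize hQ : m / N = Q at *
  generalize m % N = R at *
  rcases lt_trichotomy x Q with h | h | h
  · have h3 : (x + 1) * N ≤ Q * N := Nat.mul_le_mul_right N h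
    rw [add_mul, one_mul] at h3
    rw [mul_comm] at h1
    constructor
    · intro _; exact Or.inl h
    · intro _; omega
  · subst h
    rw [mul_comm] at h1
    constructor
    · intro _; exact Or.inr ⟨rfl, by omega⟩
    · rintro (h4 | h4)
      · exact absurd h4 (lt_irrefl _)
      · omega
  · have h3 : (Q + 1) * N ≤ x * N := Nat.mul_le_mul_right N h
    rw [add_mul, one_mul] at h3
    rw [mul_comm] at h1
    constructor
    · intro _; omega
    · rintro (h4 | h4)
      · omega
      · omega

theorem good_key (κ : Fin N → ℕ) {B : ℕ} (hX : ∀ c : Fin N, κ c * N + c < B) (q t : ℕ) :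
    Good κ (key (fun c => κ c * N + c) B q t) := by
  intro n
  rcases le_or_gt n B with hn | hn
  · refine ⟨min n q / N, min n q % N, 0, Nat.zero_le _, fun c => ?_⟩
    have h1 := lex_iff (x := κ c) (m := min n q) c.2
    have h2 := hX c
    unfold Seg
    have h3 : key (fun c => κ c * N + c) B q t c < n ↔ κ c * N + c < min n q := by
      unfold key
      simp only
      split_ifs <;> omega
    rw [h3, h1]
    simp
  · have hdisj : ∀ c : Fin N, κ c * N + c = q → κ c = q / N ∧ (c : ℕ) = q % N := by
      intro c h
      have hN : 0 < N := by have := c.2; omega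
      rw [← h]
      constructor
      · rw [mul_comm, Nat.mul_add_div hN, Nat.div_eq_of_lt c.2, add_zero]
      · rw [mul_comm, Nat.mul_add_mod, Nat.mod_eq_of_lt c.2]
    have hconv : ∀ c : Fin N, κ c = q / N → (c : ℕ) = q % N → κ c * N + c = q := by
      intro c h h'
      rw [h, h', mul_comm]
      exact Nat.div_add_mod q N
    obtain ⟨n', rfl⟩ : ∃ n', n = B + n' := ⟨n - B, by omega⟩
    by_cases ht : 2 * t < n'
    · refine ⟨q / N, max (q % N + 1) (n' / 2), n' / 2, le_max_right _ _, fun c => ?_⟩
      have h1 := lex_iff (x := κ c) (m := q) c.2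
      have h2 := hX c
      have h3 := hdisj c
      have h4 := hconv c
      unfold Seg key
      simp only
      split_ifs with h5 h6
      · have h7 := h1.1 h5
        constructor
        · intro _
          rcases h7 with h7 | h7
          · exact Or.inl h7
          · right; left
            refine ⟨h7.1, ?_⟩
            omega
        · intro _; omega
      · have h7 := h3 h6
        constructor
        · intro _
          right; left
          exact ⟨h7.1, by omega⟩
        · intro _; omega
      · constructor
        · intro _; right; right; omega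
        · rintro (h7 | h7 | h7)
          · exact absurd (h1.2 (Or.inl h7)) h5
          · rcases lt_trichotomy (c : ℕ) (q % N) with h8 | h8 | h8
            · exact absurd (h1.2 (Or.inr ⟨h7.1, h8⟩)) h5
            · exact absurd (h4 h7.1 h8) h6
            · omega
          · omega
    · refine ⟨q / N, max (q % N) (n' / 2), n' / 2, le_max_right _ _, fun c => ?_⟩
      have h1 := lex_iff (x := κ c) (m := q) c.2
      have h2 := hX c
      have h3 := hdisj c
      have h4 := hconv c
      unfold Seg key
      simp only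
      split_ifs with h5 h6
      · have h7 := h1.1 h5
        constructor
        · intro _
          rcases h7 with h7 | h7
          · exact Or.inl h7
          · right; left
            refine ⟨h7.1, ?_⟩
            omega
        · intro _; omega
      · have h7 := h3 h6
        constructor
        · intro _
          right; right
          omega
        · rintro (h8 | h8 | h8)
          · omega
          · omega
          · omega
      · constructor
        · intro _; right; right; omega
        · rintro (h7 | h7 | h7)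
          · exact absurd (h1.2 (Or.inl h7)) h5
          · rcases lt_trichotomy (c : ℕ) (q % N) with h8 | h8 | h8
            · exact absurd (h1.2 (Or.inr ⟨h7.1, h8⟩)) h5
            · exact absurd (h4 h7.1 h8) h6
            · omega
          · omega

theorem pathStmt : PathStmt := by
  intro N κ
  obtain ⟨B, hB⟩ : ∃ B : ℕ, ∀ c : Fin N, κ c * N + c < B := by
    refine ⟨∑ c : Fin N, (κ c * N + c + 1), fun c => ?_⟩
    have := Finset.single_le_sum (f := fun c : Fin N => κ c * N + c + 1)
      (fun _ _ => Nat.zero_le _) (Finset.mem_univ c)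
    omega
  obtain ⟨X, hX⟩ : ∃ X : Fin N → ℕ, X = fun c => κ c * N + c := ⟨_, rfl⟩
  have hXB : ∀ c, X c < B := fun c => by rw [hX]; exact hB c
  have hgood : ∀ q t, Good κ (key X B q t) := fun q t => by rw [hX]; exact good_key κ hB q t
  have hlex : ∀ a b : Fin N, X a < X b ↔ (κ a < κ b ∨ (κ a = κ b ∧ a < b)) := by
    intro a b
    rw [hX]
    simp only
    have h1 := lex_iff (x := κ a) (m := κ b * N + b) a.2
    have hN : 0 < N := by have := a.2; omega
    rw [h1, mul_comm, Nat.mul_add_div hN, Nat.div_eq_of_lt b.2, add_zero, Nat.mul_add_mod,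
      Nat.mod_eq_of_lt b.2, Fin.lt_def]
  have hinj : ∀ c d, X c = X d → c = d := by
    intro c d h
    have h1 := hlex c d
    have h2 := hlex d c
    have h3 : ¬ X c < X d := by omega
    have h4 : ¬ X d < X c := by omega
    rw [h1] at h3
    rw [h2] at h4
    push Not at h3 h4
    have h5 : κ c = κ d := le_antisymm h4.1 h3.1
    exact le_antisymm (h4.2 h5.symm) (h3.2 h5)
  have hlt : ∀ a b, a < b → X b < X a → κ b < κ a := by
    intro a b hab h
    rcases (hlex b a).1 h with h | h
    · exact h
    · exact absurd hab (not_lt.2 h.2.le)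
  -- the path
  have inner : ∀ (C : (Fin N → ℕ) → Prop) (q : ℕ), PT κ (key X B q 0) C →
      ∀ t, PT κ (key X B q t) C := by
    intro C q h t
    induction t with
    | zero => exact h
    | succ t ih => exact key_step hXB hinj hlt q t (hgood q (t + 1)) ih
  have outer : ∀ j, j ≤ B → PT κ (key X B (B - j) N)
      (fun x => ∃ q, B - j ≤ q ∧ q ≤ B ∧ x = key X B q N) := by
    intro j
    induction j with
    | zero =>
      intro _
      refine pt_self (C := fun _ => False) ?_ ?_
      · rintro x ⟨q, h1, h2, h3⟩
        left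
        rw [h3, show q = B - 0 by omega]
      · refine ⟨[key X B (B - 0) N], KP.last _ ?_, ?_, fun _ h => h.elim⟩
        · intro a b
          rw [← hlex a b]
          have h1 := hXB a
          have h2 := hXB b
          unfold key
          rw [if_pos (by omega), if_pos (by omega)]
        · intro x hx
          rw [List.mem_singleton] at hx
          rw [hx]
          exact hgood _ _
    | succ j ih =>
      intro hj
      have h1 := ih (by omega)
      rw [show B - j = B - (j + 1) + 1 by omega] at h1
      have h2 := inner _ (B - (j + 1)) (pt_eqv (key_next hXB (B - (j + 1))) h1) N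
      refine pt_self ?_ h2
      rintro x ⟨q, h3, h4, h5⟩
      rcases Nat.lt_or_ge (B - (j + 1)) q with h6 | h6
      · right
        exact ⟨q, by omega, h4, h5⟩
      · left
        rw [h5, show q = B - (j + 1) by omega]
  have h0 := outer B le_rfl
  rw [Nat.sub_self] at h0
  have h1 : Eqv (key X B 0 N) (bk N) := by
    intro a b
    have ha := a.2
    have hb := b.2
    unfold key bk
    split_ifs <;> omega
  obtain ⟨ks, hk1, hk2, hk3⟩ := pt_eqv h1 h0
  refine ⟨ks, hk1, hk2, ?_⟩
  intro l s s' hs
  obtain ⟨q, hq⟩ : ∃ q, q = min (l * N + min s N) B := ⟨_, rfl⟩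
  obtain ⟨y, hy, hxy⟩ := hk3 (key X B q N) ⟨q, Nat.zero_le _, by omega, rfl⟩
  obtain ⟨n', hn'⟩ := eqv_seg hxy (B + 2 * s')
  refine ⟨y, hy, n', fun c => ?_⟩
  rw [hn' c]
  have h2 := hXB c
  have h3 := c.2
  have h4 : X c < q ↔ κ c < l ∨ (κ c = l ∧ (c : ℕ) < s) := by
    have h5 : X c < q ↔ κ c * N + c < l * N + min s N := by
      rw [hX] at h2 ⊢
      simp only at h2 ⊢
      omega
    rw [h5]
    rcases lt_trichotomy (κ c) l with h | h | h
    · have h6 : (κ c + 1) * N ≤ l * N := Nat.mul_le_mul_right N h
      rw [add_mul, one_mul] at h6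
      constructor
      · intro _; exact Or.inl h
      · intro _; omega
    · rw [h]
      constructor
      · intro _; exact Or.inr ⟨rfl, by omega⟩
      · rintro (h4 | h4)
        · exact absurd h4 (lt_irrefl _)
        · omega
    · have h6 : (l + 1) * N ≤ κ c * N := Nat.mul_le_mul_right N h
      rw [add_mul, one_mul] at h6
      constructor
      · intro _; omega
      · rintro (h4 | h4) <;> omega
  unfold Seg
  rw [← or_assoc, ← h4]
  unfold key
  split_ifs with h5 h6
  · constructor
    · intro _; exact Or.inl h5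
    · intro _; omega
  · constructor
    · intro _; right; omega
    · rintro (h7 | h7)
      · exact absurd h7 h5
      · omega
  · constructor
    · intro _; right; omega
    · rintro (h7 | h7)
      · exact absurd h7 h5
      · omega

end Vale.Agent.P002B.PB
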