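import Vale.Agent.P002B.Stmts2
import Vale.Agent.P002L.L1Mat

/-!
# P002, genus 0, arbitrary classes: T6c, flags in trivial position with respect to the blocks
-/

namespace Vale.Agent.P002B

open Matrix Vale.Agent.P002R Vale.Agent.P002L

theorem posStmt : PosStmt := by
  intro r N nm hnm hsurj c ξ s E h0 hs hmono hE htp
  classical
  have hs0 : Fin N → 0 < s := by
    intro a
    rcases Nat.eq_zero_or_pos s with h | h
    · obtain ⟨i, -⟩ := hsurj a
      rw [h, h0] at hs
      have h1 : (Pi.single i 1 : Fin r → ℂ) ∈ (⊥ : Submodule ℂ (Fin r → ℂ)) := by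
        rw [hs]; trivial
      rw [Submodule.mem_bot] at h1
      have h2 := congrFun h1 i
      rw [Pi.single_eq_same] at h2
      exact absurd h2 one_ne_zero
    · exact h
  have hlast : ∀ a : Fin N, Fl nm ((a : ℕ) + 1) ≤
      Fl nm a ⊔ (Fl nm ((a : ℕ) + 1) ⊓ E (s - 1 + 1)) := by
    intro a
    rw [Nat.sub_add_cancel (hs0 a), hs, inf_top_eq]
    exact le_sup_right
  have hex : ∀ a : Fin N, ∃ j, Fl nm ((a : ℕ) + 1) ≤
      Fl nm a ⊔ (Fl nm ((a : ℕ) + 1) ⊓ E (j + 1)) := fun a => ⟨s - 1, hlast a⟩
  obtain ⟨κ, hκ⟩ : ∃ κ : Fin N → ℕ, κ = fun a => Nat.find (hex a) := ⟨_, rfl⟩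
  have hκs : ∀ a, κ a < s := by
    intro a
    have h1 : κ a ≤ s - 1 := by
      rw [hκ]
      exact Nat.find_min' (hex a) (hlast a)
    have h2 := hs0 a
    omega
  have hκP : ∀ a : Fin N, Fl nm ((a : ℕ) + 1) ≤
      Fl nm a ⊔ (Fl nm ((a : ℕ) + 1) ⊓ E (κ a + 1)) := by
    intro a
    rw [hκ]
    exact Nat.find_spec (hex a)
  have hκN : ∀ (a : Fin N) (j : ℕ), j ≤ κ a → Fl nm ((a : ℕ) + 1) ⊓ E j ≤ Fl nm a := by
    intro a j hj
    rcases Nat.eq_zero_or_pos j with hj0 | hj0
    · rw [hj0, h0, inf_bot_eq]
      exact bot_le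
    · rcases htp j a a.2 with h | h
      · exact le_sup_right.trans h.le
      · exfalso
        have h1 : κ a ≤ j - 1 := by
          rw [hκ]
          refine Nat.find_min' (hex a) ?_
          rw [Nat.sub_add_cancel hj0]
          exact h.ge
        omega
  have hf : ∀ i : Fin r, ∃ v ∈ E (κ (nm i) + 1), ∀ k, ¬ nm k < nm i →
      v k = (1 : Mat r ℂ) k i := by
    intro i
    have h1 : (Pi.single i 1 : Fin r → ℂ) ∈ Fl nm ((nm i : ℕ) + 1) := by
      intro k hk
      refine Pi.single_eq_of_ne ?_ _
      rintro rfl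
      omega
    obtain ⟨y, hy, z, hz, hyz⟩ := Submodule.mem_sup.1 (hκP (nm i) h1)
    refine ⟨z, hz.2, fun k hk => ?_⟩
    have h2 : y k = 0 := hy k (Fin.le_def.1 (not_lt.1 hk))
    have h3 := congrFun hyz k
    rw [Pi.add_apply, h2, zero_add] at h3
    rw [h3, Pi.single_apply, Matrix.one_apply]
  choose f hfE hf1 using hf
  obtain ⟨u, hu⟩ : ∃ u : Mat r ℂ, u = Matrix.of fun k i => f i k := ⟨_, rfl⟩
  have huap : ∀ k i, u k i = f i k := fun k i => by rw [hu]; rfl
  have huB : BU nm (bk N) u := by
    intro k i h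
    rw [huap]
    exact hf1 i k h
  have huU : UU u := by
    refine ⟨fun i j h => ?_, fun i => ?_⟩
    · rw [huap, hf1 j i (not_lt.2 (hnm h.le)), Matrix.one_apply_ne h.ne']
    · rw [huap, hf1 i i (lt_irrefl _), Matrix.one_apply_eq]
  have hus : ∀ i, u *ᵥ Pi.single i 1 = f i := by
    intro i
    rw [mulVec_single_one, hu]
    rfl
  have hui : ∀ i, u⁻¹ *ᵥ f i = Pi.single i 1 := by
    intro i
    rw [← hus, mulVec_mulVec, huU.inv_mul, one_mulVec]
  -- the coordinates of the elements of `E j`
  have key : ∀ j, ∀ n : ℕ, ∀ v ∈ E j, v ∈ Fl nm n →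
      ∀ i, (u⁻¹ *ᵥ v) i ≠ 0 → κ (nm i) < j := by
    intro j n
    induction n with
    | zero =>
      intro v _ hv i hi
      have h1 : v = 0 := funext fun k => hv k (Nat.zero_le _)
      rw [h1, mulVec_zero] at hi
      exact absurd rfl hi
    | succ n ih =>
      intro v hvE hv i hi
      by_cases hn : n < N
      · by_cases hκj : κ ⟨n, hn⟩ < j
        · -- subtract the part in the block `n`
          obtain ⟨w, hw⟩ : ∃ w : Fin r → ℂ, w = fun k => if nm k = ⟨n, hn⟩ then v k else 0 :=
            ⟨_, rfl⟩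
          have hwE : u *ᵥ w ∈ E j := by
            have h1 : u *ᵥ w = ∑ k, w k • f k := by
              funext x
              rw [Finset.sum_apply, mulVec, dotProduct]
              refine Finset.sum_congr rfl fun k _ => ?_
              rw [Pi.smul_apply, smul_eq_mul, mul_comm, huap]
            rw [h1]
            refine Submodule.sum_mem _ fun k _ => ?_
            by_cases hk : nm k = ⟨n, hn⟩
            · refine (E j).smul_mem _ (hmono ?_ (hfE k))
              rw [hk]
              exact hκj
            · have h2 : w k = 0 := by rw [hw]; exact if_neg hk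
              rw [h2, zero_smul]
              exact (E j).zero_mem
          have hwF : v - u *ᵥ w ∈ Fl nm n := by
            intro x hx
            rw [Pi.sub_apply, mulVec, dotProduct]
            rcases Nat.eq_or_lt_of_le hx with h | h
            · have hx' : nm x = ⟨n, hn⟩ := Fin.ext h.symm
              rw [Finset.sum_eq_single x]
              · rw [huap, hf1 x x (lt_irrefl _), Matrix.one_apply_eq, one_mul, hw]
                simp only [hx', if_true]
                exact sub_self _
              · intro k _ hk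
                by_cases hk' : nm k = ⟨n, hn⟩
                · rw [huap, hf1 k x (by rw [hk', hx']; exact lt_irrefl _),
                    Matrix.one_apply_ne hk.symm, zero_mul]
                · have h2 : w k = 0 := by rw [hw]; exact if_neg hk'
                  rw [h2, mul_zero]
              · intro h'
                exact absurd (Finset.mem_univ _) h'
            · rw [hv x h, zero_sub, neg_eq_zero]
              refine Finset.sum_eq_zero fun k _ => ?_
              by_cases hk' : nm k = ⟨n, hn⟩
              · have h3 : k ≠ x := by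
                  rintro rfl
                  rw [hk'] at h
                  exact lt_irrefl _ h
                rw [huap, hf1 k x ?_, Matrix.one_apply_ne h3.symm, zero_mul]
                rw [hk', not_lt, Fin.le_def]
                exact h.le
              · have h2 : w k = 0 := by rw [hw]; exact if_neg hk'
                rw [h2, mul_zero]
          by_cases hin : nm i = ⟨n, hn⟩
          · rw [hin]
            exact hκj
          · refine ih (v - u *ᵥ w) ((E j).sub_mem hvE hwE) hwF i ?_
            rw [mulVec_sub, mulVec_mulVec, huU.inv_mul, one_mulVec, Pi.sub_apply]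
            have h2 : w i = 0 := by rw [hw]; exact if_neg hin
            rw [h2, sub_zero]
            exact hi
        · exact ih v hvE (hκN ⟨n, hn⟩ j (not_lt.1 hκj) ⟨hv, hvE⟩) i hi
      · exact ih v hvE (fun k hk => absurd (hk.trans_lt (nm k).2) hn) i hi
  have key' : ∀ j, ∀ v ∈ E j, ∀ i, (u⁻¹ *ᵥ v) i ≠ 0 → κ (nm i) < j := fun j v hv =>
    key j N v hv fun k hk => absurd (nm k).2 (not_lt.2 hk)
  have hMe : ∀ i, (u⁻¹ * c * u) *ᵥ Pi.single i 1 =
      u⁻¹ *ᵥ (c *ᵥ f i - ξ (κ (nm i)) • f i) + ξ (κ (nm i)) • Pi.single i 1 := by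
    intro i
    rw [mulVec_sub, mulVec_smul, hui, sub_add_cancel, ← mulVec_mulVec, hus, mulVec_mulVec]
  refine ⟨κ, u, u⁻¹ * c * u, huB, ⟨fun i => ?_, fun k i hki hκ' => ?_⟩, ?_, hκs, fun j => ?_⟩
  · have h1 := congrFun (hMe i) i
    rw [mulVec_single_one, col_apply, Pi.add_apply, Pi.smul_apply, Pi.single_eq_same, smul_eq_mul,
      mul_one] at h1
    rw [h1]
    by_contra hne
    refine lt_irrefl _ (key' (κ (nm i)) _ (hE (κ (nm i)) (f i) (hfE i)) i fun h2 => hne ?_)
    rw [h2, zero_add]
    rfl
  · have h1 := congrFun (hMe i) k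
    rw [mulVec_single_one, col_apply, Pi.add_apply, Pi.smul_apply, Pi.single_eq_of_ne hki,
      smul_zero, add_zero] at h1
    rw [h1]
    by_contra hne
    exact hκ' (key' (κ (nm i)) _ (hE (κ (nm i)) (f i) (hfE i)) k hne)
  · rw [← mul_assoc, ← mul_assoc, huU.mul_inv, one_mul]
  · apply le_antisymm
    · intro v hv
      refine ⟨u⁻¹ *ᵥ v, fun i hi => ?_, ?_⟩
      · by_contra hne
        exact hi (key' j v hv i hne)
      · rw [Matrix.mulVecLin_apply, mulVec_mulVec, huU.mul_inv, one_mulVec]
    · rintro _ ⟨w, hw, rfl⟩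
      have h1 : u *ᵥ w = ∑ k, w k • f k := by
        funext x
        rw [Finset.sum_apply, mulVec, dotProduct]
        refine Finset.sum_congr rfl fun k _ => ?_
        rw [Pi.smul_apply, smul_eq_mul, mul_comm, huap]
      rw [Matrix.mulVecLin_apply, h1]
      refine Submodule.sum_mem _ fun k _ => ?_
      by_cases hk : κ (nm k) < j
      · exact (E j).smul_mem _ (hmono hk (hfE k))
      · rw [hw k hk, zero_smul]
        exact (E j).zero_mem

end Vale.Agent.P002B
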