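import Vale.Agent.P002B.QCommA4
import Vale.Agent.P002B.CommPairsU

/-!
# T11: `SurfCl 0` and `SurfCl 1`
-/

namespace Vale.Agent.P002B

open Matrix MvPolynomial QA

theorem surfCl_zero : SurfCl 0 := by
  intro R _ φ E r d hd _ hc μ a b hab f hf
  have h1 : swd a b = 1 := by rw [swd, List.ofFn_zero, List.prod_nil]
  have h2 : φ μ = 1 := by
    have h3 := congrFun (congrFun hab ⟨0, hd⟩) ⟨0, hd⟩
    rw [h1, Units.val_one, Matrix.smul_apply, Matrix.one_apply_eq, smul_eq_mul, mul_one] at h3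
    exact h3.symm
  have hμ : (μ : R) = 1 := hc.inj (by rw [h2, map_one])
  have h4 := hf (fun i => i.elim0) (fun i => i.elim0) (by
    rw [swd, List.ofFn_zero, List.prod_nil, hμ, one_smul, Units.val_one])
  have h5 : (fun x : (Fin 0 × Bool) × Fin d × Fin d =>
      ((if x.1.2 then b x.1.1 else a x.1.1 : (Matrix (Fin d) (Fin d) ℂ)ˣ) :
        Matrix (Fin d) (Fin d) ℂ) x.2.1 x.2.2) =
      (fun x => φ (((if x.1.2 then (x.1.1.elim0 : (Matrix (Fin d) (Fin d) R)ˣ) else x.1.1.elim0 :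
        (Matrix (Fin d) (Fin d) R)ˣ) : Matrix (Fin d) (Fin d) R) x.2.1 x.2.2)) :=
    funext fun x => x.1.1.elim0
  exact (congrArg (fun z => eval z f) h5).trans h4

namespace QA

theorem card_eq {d m n : ℕ} {H : Matrix (Fin d) (Fin m × Fin n) ℂ}
    {K : Matrix (Fin m × Fin n) (Fin d) ℂ} (hHK : H * K = 1) (hKH : K * H = 1) :
    Nonempty (Fin m × Fin n ≃ Fin d) := by
  have h1 : (Fin m × Fin n → ℂ) ≃ₗ[ℂ] (Fin d → ℂ) :=
    LinearEquiv.ofLinearMap (Matrix.toLin' H) (Matrix.toLin' K)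
      (by rw [← Matrix.toLin'_mul, hHK, Matrix.toLin'_one])
      (by rw [← Matrix.toLin'_mul, hKH, Matrix.toLin'_one])
  have h2 := h1.finrank_eq
  rw [Module.finrank_pi, Module.finrank_pi] at h2
  exact ⟨Fintype.equivOfCardEq h2⟩

theorem submat_mul {d : ℕ} {ι κ : Type*} [Fintype ι] [Fintype κ] [DecidableEq ι] {T : Type*}
    [CommRing T] (e : ι ≃ Fin d) (M : Matrix κ ι T) (N : Matrix ι ι T) (L : Matrix ι κ T) :
    M.submatrix id e.symm * reindexAlgEquiv T T e N * L.submatrix e.symm id = M * N * L := by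
  have h1 : reindexAlgEquiv T T e N = N.submatrix e.symm e.symm := rfl
  rw [h1, Matrix.submatrix_mul_equiv, Matrix.submatrix_mul_equiv, Matrix.submatrix_id_id]

theorem final {R : Type} [CommRing R] {φ : R →+* ℂ} {d : ℕ} (hd : 0 < d)
    (hinj : Function.Injective φ) (u : Rˣ)
    (hu : ∀ k : ℕ, 0 < k → φ (u : R) ^ k ≠ 1) (μ : Rˣ) (a b : (Matrix (Fin d) (Fin d) ℂ)ˣ)
    (hab : (a : Matrix (Fin d) (Fin d) ℂ) * b = φ (μ : R) • ((b : Matrix (Fin d) (Fin d) ℂ) * a))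
    (f : MvPolynomial ((Fin 1 × Bool) × Fin d × Fin d) ℂ)
    (hf : ∀ a' b' : Fin 1 → (Matrix (Fin d) (Fin d) R)ˣ,
        ((swd a' b' : (Matrix (Fin d) (Fin d) R)ˣ) : Matrix (Fin d) (Fin d) R) =
          (μ : R) • (1 : Matrix (Fin d) (Fin d) R) →
        eval (fun x => φ (((if x.1.2 then b' x.1.1 else a' x.1.1 :
          (Matrix (Fin d) (Fin d) R)ˣ) : Matrix (Fin d) (Fin d) R) x.2.1 x.2.2)) f = 0) :
    eval (prr (a : Matrix (Fin d) (Fin d) ℂ) (b : Matrix (Fin d) (Fin d) ℂ)) f = 0 := by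
  have hz : φ (μ : R) ^ d = 1 := by
    have h1 := congrArg Matrix.det hab
    rw [Matrix.det_mul, Matrix.det_smul, Matrix.det_mul, Fintype.card_fin] at h1
    have ha : (a : Matrix (Fin d) (Fin d) ℂ).det ≠ 0 :=
      ((Matrix.isUnit_iff_isUnit_det _).1 a.isUnit).ne_zero
    have hb : (b : Matrix (Fin d) (Fin d) ℂ).det ≠ 0 :=
      ((Matrix.isUnit_iff_isUnit_det _).1 b.isUnit).ne_zero
    have h2 : φ (μ : R) ^ d * ((a : Matrix (Fin d) (Fin d) ℂ).det *
        (b : Matrix (Fin d) (Fin d) ℂ).det) = 1 * ((a : Matrix (Fin d) (Fin d) ℂ).det *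
        (b : Matrix (Fin d) (Fin d) ℂ).det) := by
      rw [one_mul, mul_comm (a : Matrix (Fin d) (Fin d) ℂ).det, ← h1, mul_comm]
    exact mul_right_cancel₀ (mul_ne_zero ha hb) h2
  set n := orderOf (φ (μ : R)) with hn
  have hn0 : 0 < n := orderOf_pos_iff.2 (isOfFinOrder_iff_pow_eq_one.2 ⟨d, hd, hz⟩)
  have : NeZero n := ⟨hn0.ne'⟩
  have hprim : IsPrimitiveRoot (φ (μ : R)) n := IsPrimitiveRoot.orderOf _
  have hzν : φ (μ : R) * φ ((μ⁻¹ : Rˣ) : R) = 1 := by rw [← map_mul, Units.mul_inv, map_one]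
  have hν : φ ((μ⁻¹ : Rˣ) : R) = (φ (μ : R))⁻¹ := (eq_inv_of_mul_eq_one_right hzν)
  have hprim' : IsPrimitiveRoot (φ ((μ⁻¹ : Rˣ) : R)) n := by rw [hν]; exact hprim.inv
  have hμn : (μ : R) ^ n = 1 := hinj (by rw [map_pow, hprim.pow_eq_one, map_one])
  have hba : (b : Matrix (Fin d) (Fin d) ℂ) * a =
      φ ((μ⁻¹ : Rˣ) : R) • ((a : Matrix (Fin d) (Fin d) ℂ) * b) := by
    rw [hab, smul_smul, mul_comm, hzν, one_smul]
  obtain ⟨m, H, K, A, B, hHK, hKH, hAB, ha, hb⟩ := split hprim' a b hba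
  obtain ⟨e⟩ := card_eq hHK hKH
  set ν : ℂ := φ ((μ⁻¹ : Rˣ) : R) with hνdef
  set GA : Matrix (Fin m) (Fin m) (MvPolynomial (Bool × Fin m × Fin m) ℂ) :=
    Matrix.of fun i j => X (false, i, j) with hGA
  set GB : Matrix (Fin m) (Fin m) (MvPolynomial (Bool × Fin m × Fin m) ℂ) :=
    Matrix.of fun i j => X (true, i, j) with hGB
  set HC : Matrix (Fin d) (Fin m × Fin n) (MvPolynomial (Bool × Fin m × Fin m) ℂ) :=
    H.map (C : ℂ →+* MvPolynomial (Bool × Fin m × Fin m) ℂ) with hHC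
  set KC : Matrix (Fin m × Fin n) (Fin d) (MvPolynomial (Bool × Fin m × Fin m) ℂ) :=
    K.map (C : ℂ →+* MvPolynomial (Bool × Fin m × Fin m) ℂ) with hKC
  set TA : Matrix (Fin m × Fin n) (Fin m × Fin n) (MvPolynomial (Bool × Fin m × Fin m) ℂ) :=
    tw 1 GA with hTA
  set TB : Matrix (Fin m × Fin n) (Fin m × Fin n) (MvPolynomial (Bool × Fin m × Fin m) ℂ) :=
    clk m n (C ν) * tw 0 GB with hTB
  set PA : Matrix (Fin d) (Fin d) (MvPolynomial (Bool × Fin m × Fin m) ℂ) := HC * TA * KC with hPA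
  set PB : Matrix (Fin d) (Fin d) (MvPolynomial (Bool × Fin m × Fin m) ℂ) := HC * TB * KC with hPB
  have hev : ∀ A' B' : Matrix (Fin m) (Fin m) ℂ,
      eval (CP.pt A' B') (bind₁ (prr PA PB) f) =
        eval (prr ((H * tw (n := n) 1 A' : Matrix (Fin d) (Fin m × Fin n) ℂ) * K :
            Matrix (Fin d) (Fin d) ℂ)
          ((H * (clk m n ν * tw (n := n) 0 B' : Matrix (Fin m × Fin n) (Fin m × Fin n) ℂ) :
            Matrix (Fin d) (Fin m × Fin n) ℂ) * K : Matrix (Fin d) (Fin d) ℂ)) f := by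
    intro A' B'
    rw [eval_bind, map_prr]
    have hCH : HC.map (eval (CP.pt A' B')) = H := by
      rw [hHC, Matrix.map_map]
      ext i j
      rw [Matrix.map_apply]
      exact eval_C _
    have hCK : KC.map (eval (CP.pt A' B')) = K := by
      rw [hKC, Matrix.map_map]
      ext i j
      rw [Matrix.map_apply]
      exact eval_C _
    have h1 : GA.map (eval (CP.pt A' B')) = A' := by
      ext i j
      rw [Matrix.map_apply, hGA, Matrix.of_apply, eval_X]
      rfl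
    have h2 : GB.map (eval (CP.pt A' B')) = B' := by
      ext i j
      rw [Matrix.map_apply, hGB, Matrix.of_apply, eval_X]
      rfl
    have h3 : TA.map (eval (CP.pt A' B')) = tw 1 A' := by
      rw [hTA, tw_map, h1]
    have h4 : TB.map (eval (CP.pt A' B')) = clk m n ν * tw 0 B' := by
      rw [hTB, Matrix.map_mul, tw_map, clk_map, h2, eval_C]
    rw [hPA, hPB, Matrix.map_mul, Matrix.map_mul, Matrix.map_mul, Matrix.map_mul,
      hCH, hCK, h3, h4]
  have h1 := CP.commPairsU A B hAB (bind₁ (prr PA PB) f) (by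
    intro P D D'
    rw [hev]
    set P' : Matrix (Fin m) (Fin m) ℂ := ((P⁻¹ : (Matrix (Fin m) (Fin m) ℂ)ˣ) :
      Matrix (Fin m) (Fin m) ℂ) with hP'
    have hPP : (P : Matrix (Fin m) (Fin m) ℂ) * P' = 1 := Units.mul_inv P
    set g : Matrix (Fin d) (Fin d) ℂ :=
      (H * tw (n := n) 0 (P : Matrix (Fin m) (Fin m) ℂ) :
        Matrix (Fin d) (Fin m × Fin n) ℂ).submatrix id e.symm with hg
    set h : Matrix (Fin d) (Fin d) ℂ :=
      (tw (n := n) 0 P' * K : Matrix (Fin m × Fin n) (Fin d) ℂ).submatrix e.symm id with hh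
    have hgh : g * h = 1 := by
      rw [hg, hh, Matrix.submatrix_mul_equiv, Matrix.submatrix_id_id]
      have h2 : tw (n := n) 0 (P : Matrix (Fin m) (Fin m) ℂ) *
          (tw (n := n) 0 P' * K : Matrix (Fin m × Fin n) (Fin d) ℂ) = K := by
        rw [← Matrix.mul_assoc, tw_mul, hPP, add_zero, tw_one, Matrix.one_mul]
      rw [Matrix.mul_assoc, h2, hHK]
    have h3 : g * mA e D * h =
        ((H * tw (n := n) 1 ((P : Matrix (Fin m) (Fin m) ℂ) * diagonal D * P') :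
          Matrix (Fin d) (Fin m × Fin n) ℂ) * K : Matrix (Fin d) (Fin d) ℂ) := by
      rw [hg, hh, mA, submat_mul, Matrix.mul_assoc H, tw_mul, Matrix.mul_assoc H,
        ← Matrix.mul_assoc (tw _ _), tw_mul, ← Matrix.mul_assoc, add_zero, zero_add]
    have h4 : g * mB e ν D' * h = ((H * (clk m n ν *
        tw (n := n) 0 ((P : Matrix (Fin m) (Fin m) ℂ) * diagonal D' * P') :
          Matrix (Fin m × Fin n) (Fin m × Fin n) ℂ) : Matrix (Fin d) (Fin m × Fin n) ℂ) * K :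
            Matrix (Fin d) (Fin d) ℂ) := by
      rw [hg, hh, mB, submat_mul, Matrix.mul_assoc H, ← Matrix.mul_assoc (tw 0 _), ← clk_tw_zero,
        Matrix.mul_assoc (clk m n ν), tw_mul, Matrix.mul_assoc H, Matrix.mul_assoc (clk m n ν),
        ← Matrix.mul_assoc (tw _ _), tw_mul, add_zero, add_zero, ← Matrix.mul_assoc (clk m n ν),
        ← Matrix.mul_assoc H]
    rw [← h3, ← h4]
    exact step3 hd u hu e μ hμn f hf g h hgh D D')
  rw [hev, ← ha, ← hb] at h1
  exact h1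

end QA

theorem surfCl_one : SurfCl 1 := by
  intro R _ φ E r d hd _ hc μ a b hab f hf
  obtain ⟨u, hu⟩ := hc.unit
  have hu' : ∀ k : ℕ, 0 < k → φ (u : R) ^ k ≠ 1 := by
    intro k hk h1
    apply hu k hk
    have h2 : Units.map (φ : R →* ℂ) u ^ k = 1 := by
      apply Units.ext
      rw [Units.val_pow_eq_pow_val, Units.val_one]
      exact h1
    rw [h2]
    exact E.one_mem
  have h3 : (a 0 : Matrix (Fin d) (Fin d) ℂ) * b 0 =
      φ (μ : R) • ((b 0 : Matrix (Fin d) (Fin d) ℂ) * a 0) := by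
    rw [swd_one] at hab
    have h4 : a 0 * b 0 = (a 0 * b 0 * (a 0)⁻¹ * (b 0)⁻¹) * (b 0 * a 0) := by group
    rw [← Units.val_mul, h4, Units.val_mul, hab, Matrix.smul_mul, one_mul, Units.val_mul]
  have h5 := final hd hc.inj u hu' μ (a 0) (b 0) h3 f hf
  have h6 : (fun x : (Fin 1 × Bool) × Fin d × Fin d =>
      ((if x.1.2 then b x.1.1 else a x.1.1 : (Matrix (Fin d) (Fin d) ℂ)ˣ) :
        Matrix (Fin d) (Fin d) ℂ) x.2.1 x.2.2) =
      prr (a 0 : Matrix (Fin d) (Fin d) ℂ) (b 0 : Matrix (Fin d) (Fin d) ℂ) := by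
    funext x
    have h7 : x.1.1 = 0 := Subsingleton.elim _ _
    rw [h7, prr]
    split_ifs <;> rfl
  exact (congrArg (fun z => eval z f) h6).trans h5

end Vale.Agent.P002B
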