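import Mathlib

namespace Vale.Agent.P002B.QA

open Matrix

variable {m n : ℕ} {T : Type*} [CommRing T]

/-- `A ⊗ (shift by c)` -/
def tw (c : Fin n) (A : Matrix (Fin m) (Fin m) T) : Matrix (Fin m × Fin n) (Fin m × Fin n) T :=
  Matrix.of fun x y => if x.2 = y.2 + c then A x.1 y.1 else 0

/-- the clock -/
def clk (m n : ℕ) (ν : T) : Matrix (Fin m × Fin n) (Fin m × Fin n) T :=
  diagonal fun x => ν ^ (x.2 : ℕ)

theorem tw_apply (c : Fin n) (A : Matrix (Fin m) (Fin m) T) (x y : Fin m × Fin n) :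
    tw c A x y = if x.2 = y.2 + c then A x.1 y.1 else 0 := rfl

theorem tw_mul [NeZero n] (c c' : Fin n) (A B : Matrix (Fin m) (Fin m) T) :
    tw c A * tw c' B = tw (c' + c) (A * B) := by
  ext x y
  rw [Matrix.mul_apply, Fintype.sum_prod_type, tw_apply]
  have h1 : ∀ j : Fin m, ∑ i : Fin n, tw c A x (j, i) * tw c' B (j, i) y =
      if x.2 = y.2 + (c' + c) then A x.1 j * B j y.1 else 0 := by
    intro j
    rw [Finset.sum_eq_single (y.2 + c')]
    · rw [tw_apply, tw_apply]
      simp only [if_true, add_assoc]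
      split_ifs
      · rfl
      · rw [zero_mul]
    · intro i _ hi
      rw [tw_apply (A := B), if_neg hi, mul_zero]
    · intro h
      exact absurd (Finset.mem_univ _) h
  simp only [h1]
  split_ifs with h
  · rw [Matrix.mul_apply]
  · exact Finset.sum_const_zero

theorem tw_one [NeZero n] : tw (n := n) 0 (1 : Matrix (Fin m) (Fin m) T) = 1 := by
  ext x y
  rw [tw_apply, Matrix.one_apply, Matrix.one_apply, add_zero]
  by_cases h : x = y
  · subst h
    simp
  · rw [if_neg h]
    split_ifs with h1 h2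
    · exact absurd (Prod.ext h2 h1) h
    · rfl
    · rfl

theorem tw_map [NeZero n] {T' : Type*} [CommRing T'] (f : T →+* T') (c : Fin n)
    (A : Matrix (Fin m) (Fin m) T) : (tw c A).map f = tw c (A.map f) := by
  ext x y
  rw [Matrix.map_apply, tw_apply, tw_apply, Matrix.map_apply]
  split_ifs
  · rfl
  · exact map_zero f

theorem clk_map {T' : Type*} [CommRing T'] (f : T →+* T') (ν : T) :
    (clk m n ν).map f = clk m n (f ν) := by
  rw [clk, clk, Matrix.diagonal_map (map_zero f)]
  congr 1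
  funext x
  exact map_pow f _ _

theorem pow_add_one [NeZero n] {ν : T} (hν : ν ^ n = 1) (i : Fin n) :
    ν ^ ((i + 1 : Fin n) : ℕ) = ν * ν ^ (i : ℕ) := by
  have h1 : ((i + 1 : Fin n) : ℕ) = ((i : ℕ) + 1) % n := by
    rw [Fin.val_add, Fin.val_one']
    exact Nat.add_mod_mod _ _ _
  rw [h1, ← pow_succ']
  conv_rhs => rw [← Nat.div_add_mod ((i : ℕ) + 1) n, pow_add, pow_mul, hν, one_pow, one_mul]

theorem clk_tw [NeZero n] {ν : T} (hν : ν ^ n = 1) (A : Matrix (Fin m) (Fin m) T) :
    clk m n ν * tw 1 A = ν • (tw 1 A * clk m n ν) := by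
  ext x y
  rw [clk, Matrix.diagonal_mul, Matrix.smul_apply, Matrix.mul_diagonal, tw_apply]
  split_ifs with h
  · rw [h, pow_add_one hν, smul_eq_mul]
    ring
  · rw [mul_zero, zero_mul, smul_zero]

theorem clk_tw_zero [NeZero n] {ν : T} (A : Matrix (Fin m) (Fin m) T) :
    clk m n ν * tw 0 A = tw 0 A * clk m n ν := by
  ext x y
  rw [clk, Matrix.diagonal_mul, Matrix.mul_diagonal, tw_apply]
  split_ifs with h
  · rw [h, add_zero, mul_comm]
  · rw [mul_zero, zero_mul]

end Vale.Agent.P002B.QA
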