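import Vale.Agent.P002B.QCommA0

namespace Vale.Agent.P002B.QA

open Matrix Polynomial

/-! ### roots of invertible matrices -/

theorem root_poly (s : Finset ℂ) (h0 : (0 : ℂ) ∉ s) (n : ℕ) (hn : 0 < n) (k : ℕ) :
    ∃ q : ℂ[X], (∏ z ∈ s, (X - C z)) ^ (k + 1) ∣ q ^ n - X := by
  classical
  set P : ℂ[X] := ∏ z ∈ s, (X - C z) with hP
  have hdvd : ∀ Q : ℂ[X], (∀ z ∈ s, Q.eval z = 0) → P ∣ Q := by
    intro Q hQ
    apply Finset.prod_dvd_of_coprime
    · intro a _ b _ hab
      exact Polynomial.pairwise_coprime_X_sub_C (s := fun z : ℂ => z) Function.injective_id hab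
    · intro z hz
      exact Polynomial.dvd_iff_isRoot.2 (hQ z hz)
  have hcopX : IsCoprime P X := by
    apply IsCoprime.prod_left
    intro z hz
    have h1 := Polynomial.isCoprime_X_sub_C_of_isUnit_sub (a := z) (b := (0 : ℂ))
      (by rw [sub_zero]; exact isUnit_iff_ne_zero.2 (fun h => h0 (h ▸ hz)))
    rwa [C_0, sub_zero] at h1
  induction k with
  | zero =>
    choose r hr using fun z : ℂ => IsAlgClosed.exists_pow_nat_eq z hn
    refine ⟨Lagrange.interpolate s (fun z => z) r, ?_⟩
    rw [zero_add, pow_one]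
    apply hdvd
    intro z hz
    have h1 := Lagrange.eval_interpolate_at_node (s := s) (v := fun z : ℂ => z) r
      (fun _ _ _ _ h => h) hz
    rw [eval_sub, eval_pow, eval_X]
    rw [h1, hr, sub_self]
  | succ k ih =>
    obtain ⟨q, w, hw⟩ := ih
    have h1 : IsCoprime P q := by
      have h2 : IsCoprime P (q ^ n) := by
        have h3 : q ^ n = X + P * (P ^ k * w) := by
          rw [← mul_assoc, ← pow_succ', ← hw]
          ring
        rw [h3]
        exact IsCoprime.add_mul_left_right hcopX _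
      exact (IsCoprime.pow_right_iff hn).1 h2
    have h4 : IsCoprime P ((n : ℂ[X]) * q ^ (n - 1)) := by
      refine IsCoprime.mul_right ?_ h1.pow_right
      have : IsUnit (n : ℂ[X]) := by
        rw [← C_eq_natCast]
        exact (isUnit_iff_ne_zero.2 (Nat.cast_ne_zero.2 hn.ne')).map C
      obtain ⟨u, hu⟩ := this
      refine ⟨0, ((u⁻¹ : ℂ[X]ˣ) : ℂ[X]), ?_⟩
      rw [← hu, zero_mul, zero_add, Units.inv_mul]
    obtain ⟨a, b, hab⟩ := h4
    obtain ⟨κ, hκ⟩ := Polynomial.powAddExpansion q (P ^ (k + 1) * (-w * b)) n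
    refine ⟨q + P ^ (k + 1) * (-w * b), w * a + κ * (P ^ k * (w * b) ^ 2), ?_⟩
    rw [hκ]
    have h5 : q ^ n = X + P ^ (k + 1) * w := by
      rw [← hw]
      ring
    rw [h5]
    have h6 : b * ((n : ℂ[X]) * q ^ (n - 1)) = 1 - a * P := by rw [← hab]; ring
    have h7 : X + P ^ (k + 1) * w + (n : ℂ[X]) * q ^ (n - 1) * (P ^ (k + 1) * (-w * b)) +
        κ * (P ^ (k + 1) * (-w * b)) ^ 2 - X =
        P ^ (k + 1) * w * (1 - b * ((n : ℂ[X]) * q ^ (n - 1))) +
          κ * (P ^ (k + 1) * (-w * b)) ^ 2 := by ring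
    rw [h7, h6]
    ring

/-- an invertible matrix has `n`-th roots which are polynomials in it -/
theorem exists_root {ι : Type*} [Fintype ι] [DecidableEq ι] (M : Matrix ι ι ℂ) (hM : IsUnit M)
    (n : ℕ) (hn : 0 < n) : ∃ q : ℂ[X], (aeval M q) ^ n = M := by
  classical
  have hsp := IsAlgClosed.splits M.charpoly
  have h0 : (0 : ℂ) ∉ M.charpoly.roots.toFinset := by
    intro h
    rw [Multiset.mem_toFinset, mem_roots (Matrix.charpoly_monic M).ne_zero, IsRoot.def,
      Matrix.eval_charpoly] at h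
    rw [Matrix.scalar_apply, diagonal_zero, zero_sub, Matrix.det_neg] at h
    have h1 := (Matrix.isUnit_iff_isUnit_det M).1 hM
    rcases mul_eq_zero.1 h with h | h
    · exact pow_ne_zero _ (neg_ne_zero.2 one_ne_zero) h
    · exact h1.ne_zero h
  obtain ⟨q, hq⟩ := root_poly _ h0 n hn (Multiset.card M.charpoly.roots)
  refine ⟨q, ?_⟩
  have h2 : M.charpoly ∣ (∏ z ∈ M.charpoly.roots.toFinset, (X - C z)) ^
      (Multiset.card M.charpoly.roots + 1) := by
    have key : ∀ S : Multiset ℂ, (∀ z ∈ S, z ∈ M.charpoly.roots.toFinset) →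
        (S.map fun z => X - C z).prod ∣ (∏ z ∈ M.charpoly.roots.toFinset, (X - C z)) ^
          Multiset.card S := by
      intro S
      induction S using Multiset.induction_on with
      | empty => exact fun _ => by simp
      | cons z S ih =>
        intro hS
        rw [Multiset.map_cons, Multiset.prod_cons, Multiset.card_cons, pow_succ']
        refine mul_dvd_mul (Finset.dvd_prod_of_mem _ (hS z (Multiset.mem_cons_self z S)))
          (ih fun z' hz' => hS z' (Multiset.mem_cons_of_mem hz'))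
    have h3 := key M.charpoly.roots fun z hz => Multiset.mem_toFinset.2 hz
    rw [← hsp.eq_prod_roots_of_monic (Matrix.charpoly_monic M)] at h3
    exact h3.trans (pow_dvd_pow _ (Nat.le_succ _))
  obtain ⟨w, hw⟩ := h2.trans hq
  have h4 := congrArg (aeval M) hw
  rw [map_mul, Matrix.aeval_self_charpoly, zero_mul, map_sub, map_pow, aeval_X] at h4
  exact sub_eq_zero.1 h4

end Vale.Agent.P002B.QA
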