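import Vale.Agent.P002B.QCommA1

namespace Vale.Agent.P002B.QA

open Matrix

theorem idem_fac {d : ℕ} (E : Matrix (Fin d) (Fin d) ℂ) (hE : E * E = E) :
    ∃ (m : ℕ) (w : Matrix (Fin d) (Fin m) ℂ) (p : Matrix (Fin m) (Fin d) ℂ),
      w * p = E ∧ p * w = 1 := by
  let L := Matrix.toLin' E
  let W := LinearMap.range L
  let b := Module.finBasis ℂ W
  have hL : ∀ x : Fin d → ℂ, L (L x) = L x := by
    intro x
    change Matrix.toLin' E (Matrix.toLin' E x) = Matrix.toLin' E x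
    rw [← LinearMap.comp_apply, ← Matrix.toLin'_mul, hE]
  let i1 : (Fin (Module.finrank ℂ W) → ℂ) →ₗ[ℂ] W := b.equivFun.symm.toLinearMap
  let i2 : W →ₗ[ℂ] (Fin (Module.finrank ℂ W) → ℂ) := b.equivFun.toLinearMap
  refine ⟨Module.finrank ℂ W, LinearMap.toMatrix' (W.subtype ∘ₗ i1),
    LinearMap.toMatrix' (i2 ∘ₗ L.rangeRestrict), ?_, ?_⟩
  · rw [← LinearMap.toMatrix'_comp]
    have h1 : (W.subtype ∘ₗ i1) ∘ₗ (i2 ∘ₗ L.rangeRestrict) = L := by
      apply LinearMap.ext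
      intro x
      change ((b.equivFun.symm (b.equivFun (L.rangeRestrict x)) : W) : Fin d → ℂ) = L x
      rw [LinearEquiv.symm_apply_apply]
      rfl
    rw [h1]
    exact LinearMap.toMatrix'_toLin' E
  · rw [← LinearMap.toMatrix'_comp]
    have h1 : (i2 ∘ₗ L.rangeRestrict) ∘ₗ (W.subtype ∘ₗ i1) = LinearMap.id := by
      apply LinearMap.ext
      intro x
      change b.equivFun (L.rangeRestrict (W.subtype (b.equivFun.symm x))) = x
      have h2 : L.rangeRestrict (W.subtype (b.equivFun.symm x)) = b.equivFun.symm x := by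
        apply Subtype.ext
        obtain ⟨y, hy⟩ := (b.equivFun.symm x).2
        change L ((b.equivFun.symm x : W) : Fin d → ℂ) = _
        rw [← hy, hL]
      rw [h2, LinearEquiv.apply_symm_apply]
    rw [h1]
    exact LinearMap.toMatrix'_id

theorem geom_zero {ζ : ℂ} {n : ℕ} (h1 : ζ ≠ 1) (hn : ζ ^ n = 1) :
    ∑ i ∈ Finset.range n, ζ ^ i = 0 := by
  rw [geom_sum_eq h1, hn, sub_self, zero_div]

section

variable {d n : ℕ} {ν : ℂ} {U V : Matrix (Fin d) (Fin d) ℂ}

/-- the projection on the fixed vectors of `U` -/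
noncomputable def E0 (n : ℕ) (U : Matrix (Fin d) (Fin d) ℂ) : Matrix (Fin d) (Fin d) ℂ :=
  (n : ℂ)⁻¹ • ∑ j ∈ Finset.range n, U ^ j

theorem U_mul_E0 (hU : U ^ n = 1) : U * E0 n U = E0 n U := by
  rw [E0, Matrix.mul_smul, Finset.mul_sum]
  congr 1
  have h1 : ∑ j ∈ Finset.range n, U * U ^ j = ∑ j ∈ Finset.range n, U ^ (j + 1) :=
    Finset.sum_congr rfl fun j _ => (pow_succ' U j).symm
  have h2 := Finset.sum_range_succ (fun j => U ^ j) n
  have h3 := Finset.sum_range_succ' (fun j => U ^ j) n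
  rw [h1]
  rw [h2, hU, pow_zero] at h3
  exact (add_right_cancel h3).symm

theorem pow_mul_E0 (hU : U ^ n = 1) (k : ℕ) : U ^ k * E0 n U = E0 n U := by
  induction k with
  | zero => rw [pow_zero, one_mul]
  | succ k ih => rw [pow_succ, mul_assoc, U_mul_E0 hU, ih]

theorem E0_idem (hn : 0 < n) (hU : U ^ n = 1) : E0 n U * E0 n U = E0 n U := by
  conv_lhs => arg 1; rw [E0]
  rw [Matrix.smul_mul, Finset.sum_mul]
  simp only [pow_mul_E0 hU, Finset.sum_const, Finset.card_range]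
  rw [← Nat.cast_smul_eq_nsmul ℂ, smul_smul, inv_mul_cancel₀ (Nat.cast_ne_zero.2 hn.ne'), one_smul]

theorem UV_pow (h : U * V = ν • (V * U)) (l : ℕ) : U * V ^ l = ν ^ l • (V ^ l * U) := by
  induction l with
  | zero => simp
  | succ l ih =>
    rw [pow_succ', ← mul_assoc, h, Matrix.smul_mul, mul_assoc, ih, Matrix.mul_smul, smul_smul,
      ← mul_assoc, ← pow_succ']

theorem UV_pow2 (h : U * V = ν • (V * U)) (j l : ℕ) :
    U ^ j * V ^ l = (ν ^ l) ^ j • (V ^ l * U ^ j) := by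
  induction j with
  | zero => simp
  | succ j ih =>
    rw [pow_succ' U, mul_assoc, ih, Matrix.mul_smul, ← mul_assoc, UV_pow h, Matrix.smul_mul,
      smul_smul, mul_assoc, ← pow_succ]

theorem E0_pow_E0 (hn : 0 < n) (hν : IsPrimitiveRoot ν n) (hU : U ^ n = 1) (hV : V ^ n = 1)
    (h : U * V = ν • (V * U)) (l : ℕ) :
    E0 n U * V ^ l * E0 n U = if n ∣ l then E0 n U else 0 := by
  have h1 : E0 n U * V ^ l * E0 n U =
      ((n : ℂ)⁻¹ * ∑ j ∈ Finset.range n, (ν ^ l) ^ j) • (V ^ l * E0 n U) := by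
    conv_lhs => arg 1; arg 1; rw [E0]
    rw [Matrix.smul_mul, Finset.sum_mul, Matrix.smul_mul, Finset.sum_mul]
    have h2 : ∀ j ∈ Finset.range n, U ^ j * V ^ l * E0 n U = (ν ^ l) ^ j • (V ^ l * E0 n U) := by
      intro j _
      rw [UV_pow2 h, Matrix.smul_mul, mul_assoc, pow_mul_E0 hU]
    change (n : ℂ)⁻¹ • ∑ j ∈ Finset.range n, U ^ j * V ^ l * E0 n U = _
    rw [Finset.sum_congr rfl h2, ← Finset.sum_smul, smul_smul]
  rw [h1]
  split_ifs with hl
  · obtain ⟨k, rfl⟩ := hl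
    have h3 : ν ^ (n * k) = 1 := by rw [pow_mul, hν.pow_eq_one, one_pow]
    have h4 : V ^ (n * k) = 1 := by rw [pow_mul, hV, one_pow]
    rw [h3, h4]
    simp only [one_pow, Finset.sum_const, Finset.card_range, nsmul_eq_mul, mul_one]
    rw [inv_mul_cancel₀ (Nat.cast_ne_zero.2 hn.ne'), one_smul, one_mul]
  · rw [geom_zero, mul_zero, zero_smul]
    · intro h3
      exact hl ((hν.pow_eq_one_iff_dvd l).1 h3)
    · rw [← pow_mul, mul_comm, pow_mul, hν.pow_eq_one, one_pow]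

theorem sum_conj (hn : 0 < n) (hν : IsPrimitiveRoot ν n) (hV : V ^ n = 1)
    (h : U * V = ν • (V * U)) :
    ∑ i ∈ Finset.range n, V ^ i * E0 n U * V ^ (n - i) = 1 := by
  have h1 : ∀ i ∈ Finset.range n, V ^ i * E0 n U * V ^ (n - i) =
      (n : ℂ)⁻¹ • ∑ j ∈ Finset.range n, (ν ^ j) ^ (n - i) • U ^ j := by
    intro i hi
    have hi' : i ≤ n := (Finset.mem_range.1 hi).le
    rw [E0, Matrix.mul_smul, Matrix.smul_mul, Finset.mul_sum, Finset.sum_mul]
    congr 1
    refine Finset.sum_congr rfl fun j _ => ?_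
    rw [mul_assoc, UV_pow2 h, Matrix.mul_smul, ← mul_assoc, ← pow_add, Nat.add_sub_cancel' hi', hV,
      one_mul, ← pow_mul, ← pow_mul, mul_comm j]
  rw [Finset.sum_congr rfl h1, ← Finset.smul_sum, Finset.sum_comm]
  have h2 : ∀ j ∈ Finset.range n, ∑ i ∈ Finset.range n, (ν ^ j) ^ (n - i) • U ^ j =
      if j = 0 then (n : ℂ) • (1 : Matrix (Fin d) (Fin d) ℂ) else 0 := by
    intro j hj
    rw [← Finset.sum_smul]
    have h3 : ∑ i ∈ Finset.range n, (ν ^ j) ^ (n - i) = ν ^ j * ∑ i ∈ Finset.range n, (ν ^ j) ^ i := by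
      rw [← Finset.sum_range_reflect, Finset.mul_sum]
      refine Finset.sum_congr rfl fun i hi => ?_
      have hi' := Finset.mem_range.1 hi
      rw [← pow_succ']
      congr 1
      omega
    rw [h3]
    split_ifs with hj0
    · subst hj0
      simp
    · rw [geom_zero, mul_zero, zero_smul]
      · intro h4
        have h5 := (hν.pow_eq_one_iff_dvd j).1 h4
        exact absurd (Nat.le_of_dvd (Nat.pos_of_ne_zero hj0) h5)
          (not_le.2 (Finset.mem_range.1 hj))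
      · rw [← pow_mul, mul_comm, pow_mul, hν.pow_eq_one, one_pow]
  rw [Finset.sum_congr rfl h2, Finset.sum_ite_eq' (Finset.range n) 0,
    if_pos (Finset.mem_range.2 hn), smul_smul, inv_mul_cancel₀ (Nat.cast_ne_zero.2 hn.ne'),
    one_smul]

end

end Vale.Agent.P002B.QA
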