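import Vale.Agent.P002B.QCommA2

namespace Vale.Agent.P002B.QA

open Matrix

theorem comm_aeval {A : Type*} [Ring A] [Algebra ℂ A] {x y : A} (h : Commute x y)
    (q : Polynomial ℂ) : Commute (Polynomial.aeval x q) y := by
  induction q using Polynomial.induction_on' with
  | add p q hp hq => rw [map_add]; exact hp.add_left hq
  | monomial k c =>
    rw [Polynomial.aeval_monomial]
    exact Commute.mul_left (Algebra.commutes c y) (h.pow_left k)

section frame

variable {d n m : ℕ} {ν : ℂ} {U V : Matrix (Fin d) (Fin d) ℂ}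
  {w : Matrix (Fin d) (Fin m) ℂ} {p : Matrix (Fin m) (Fin d) ℂ}

/-- the frame -/
def fH (n : ℕ) (V : Matrix (Fin d) (Fin d) ℂ) (w : Matrix (Fin d) (Fin m) ℂ) :
    Matrix (Fin d) (Fin m × Fin n) ℂ :=
  Matrix.of fun x y => (V ^ (y.2 : ℕ) * w) x y.1

/-- the inverse frame -/
def fK (n : ℕ) (V : Matrix (Fin d) (Fin d) ℂ) (p : Matrix (Fin m) (Fin d) ℂ) :
    Matrix (Fin m × Fin n) (Fin d) ℂ :=
  Matrix.of fun y x => (p * V ^ (n - (y.2 : ℕ))) y.1 x

theorem fH_mul_fK (hn : 0 < n) (hν : IsPrimitiveRoot ν n) (hV : V ^ n = 1)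
    (h : U * V = ν • (V * U)) (hwp : w * p = E0 n U) : fH n V w * fK n V p = 1 := by
  ext x z
  rw [Matrix.mul_apply, Fintype.sum_prod_type, Finset.sum_comm]
  have h1 : ∀ i : Fin n, ∑ j : Fin m, fH n V w x (j, i) * fK n V p (j, i) z =
      (V ^ (i : ℕ) * E0 n U * V ^ (n - (i : ℕ))) x z := by
    intro i
    rw [← hwp, ← Matrix.mul_assoc, Matrix.mul_assoc, Matrix.mul_apply]
    rfl
  simp only [h1]
  rw [← sum_conj hn hν hV h, Matrix.sum_apply, Finset.sum_range]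

theorem fK_mul_fH (hn : 0 < n) (hν : IsPrimitiveRoot ν n) (hU : U ^ n = 1) (hV : V ^ n = 1)
    (h : U * V = ν • (V * U)) (hwp : w * p = E0 n U) (hpw : p * w = 1) :
    fK n V p * fH n V w = 1 := by
  have hw : E0 n U * w = w := by rw [← hwp, Matrix.mul_assoc, hpw, Matrix.mul_one]
  have hp : p * E0 n U = p := by rw [← hwp, ← Matrix.mul_assoc, hpw, Matrix.one_mul]
  ext y z
  rw [Matrix.mul_apply]
  have h1 : ∑ x, fK n V p y x * fH n V w x z =
      (p * (E0 n U * V ^ (n - (y.2 : ℕ) + (z.2 : ℕ)) * E0 n U) * w) y.1 z.1 := by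
    have h2 : p * (E0 n U * V ^ (n - (y.2 : ℕ) + (z.2 : ℕ)) * E0 n U) * w =
        (p * V ^ (n - (y.2 : ℕ))) * (V ^ (z.2 : ℕ) * w) := by
      rw [pow_add]
      calc p * (E0 n U * (V ^ (n - (y.2 : ℕ)) * V ^ (z.2 : ℕ)) * E0 n U) * w
          = (p * E0 n U) * (V ^ (n - (y.2 : ℕ)) * V ^ (z.2 : ℕ)) * (E0 n U * w) := by
            simp only [Matrix.mul_assoc]
        _ = _ := by rw [hp, hw]; simp only [Matrix.mul_assoc]
    rw [h2, Matrix.mul_apply]
    rfl
  rw [h1, E0_pow_E0 hn hν hU hV h]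
  have h3 : n ∣ (n - (y.2 : ℕ) + (z.2 : ℕ)) ↔ y.2 = z.2 := by
    have hy := y.2.2
    have hz := z.2.2
    constructor
    · rintro ⟨k, hk⟩
      apply Fin.ext
      have hk1 : k = 1 := by
        have h4 : 0 < n * k := by omega
        have h5 : n * k < n * 2 := by omega
        have h6 := Nat.lt_of_mul_lt_mul_left h5
        have h7 : 0 < k := Nat.pos_of_mul_pos_left h4
        omega
      subst hk1
      omega
    · intro hyz
      rw [hyz]
      exact ⟨1, by omega⟩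
  by_cases hyz : y.2 = z.2
  · rw [if_pos (h3.2 hyz), hp, hpw, Matrix.one_apply, Matrix.one_apply]
    by_cases hyz1 : y.1 = z.1
    · rw [if_pos hyz1, if_pos (Prod.ext hyz1 hyz)]
    · rw [if_neg hyz1, if_neg fun h' => hyz1 (congrArg Prod.fst h')]
  · rw [if_neg fun h' => hyz (h3.1 h'), Matrix.mul_zero, Matrix.zero_mul, Matrix.zero_apply,
      Matrix.one_apply, if_neg fun h' => hyz (congrArg Prod.snd h')]

theorem pow_succ_mod [NeZero n] (hV : V ^ n = 1) (i : Fin n) : V ^ ((i + 1 : Fin n) : ℕ) = V ^ ((i : ℕ) + 1) := by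
  have h1 : ((i + 1 : Fin n) : ℕ) = ((i : ℕ) + 1) % n := by
    rw [Fin.val_add, Fin.val_one']
    exact Nat.add_mod_mod _ _ _
  rw [h1]
  conv_rhs => rw [← Nat.div_add_mod ((i : ℕ) + 1) n, pow_add, pow_mul, hV, one_pow, one_mul]

theorem a_mul_fH [NeZero n] (hV : V ^ n = 1) {β : Matrix (Fin d) (Fin d) ℂ} (hβV : Commute β V)
    {A : Matrix (Fin m) (Fin m) ℂ} (hA : β * w = w * A) :
    β * V * fH n V w = (fH n V w * tw (n := n) 1 A : Matrix (Fin d) (Fin m × Fin n) ℂ) := by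
  ext x y
  have h1 : (β * V * fH n V w) x y = (β * V * (V ^ (y.2 : ℕ) * w)) x y.1 := by
    rw [Matrix.mul_apply, Matrix.mul_apply]
    rfl
  have h0 : (fH n V w * tw (n := n) 1 A : Matrix (Fin d) (Fin m × Fin n) ℂ) x y = ∑ z, fH n V w x z * tw 1 A z y := Matrix.mul_apply
  rw [h1, h0, Fintype.sum_prod_type]
  have h2 : ∀ j : Fin m, ∑ i : Fin n, fH n V w x (j, i) * tw 1 A (j, i) y =
      (V ^ ((y.2 : ℕ) + 1) * w) x j * A j y.1 := by
    intro j
    rw [Finset.sum_eq_single (y.2 + 1)]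
    · rw [tw_apply, if_pos rfl]
      congr 1
      change (V ^ ((y.2 + 1 : Fin n) : ℕ) * w) x j = _
      rw [pow_succ_mod hV]
    · intro i _ hi
      rw [tw_apply, if_neg hi, mul_zero]
    · intro h
      exact absurd (Finset.mem_univ _) h
  simp only [h2]
  rw [← Matrix.mul_apply, Matrix.mul_assoc (V ^ _), ← hA]
  have h3 : β * V ^ ((y.2 : ℕ) + 1) = V ^ ((y.2 : ℕ) + 1) * β := (hβV.pow_right _).eq
  have h4 : β * V * (V ^ (y.2 : ℕ) * w) = V ^ ((y.2 : ℕ) + 1) * (β * w) := by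
    rw [Matrix.mul_assoc β, ← Matrix.mul_assoc V, ← pow_succ', ← Matrix.mul_assoc, h3,
      Matrix.mul_assoc]
  rw [h4]

theorem b_mul_fH [NeZero n] (hU : U ^ n = 1) (h : U * V = ν • (V * U)) (hwp : w * p = E0 n U)
    (hpw : p * w = 1) {α : Matrix (Fin d) (Fin d) ℂ} (hαV : Commute α V) 
    {B : Matrix (Fin m) (Fin m) ℂ} (hB : α * w = w * B) :
    α * U * fH n V w = (fH n V w *
      (clk m n ν * tw (n := n) 0 B : Matrix (Fin m × Fin n) (Fin m × Fin n) ℂ) :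
        Matrix (Fin d) (Fin m × Fin n) ℂ) := by
  have hw : U * w = w := by
    have hw : E0 n U * w = w := by rw [← hwp, Matrix.mul_assoc, hpw, Matrix.mul_one]
    rw [← hw, ← Matrix.mul_assoc, U_mul_E0 hU]
  ext x y
  have h1 : (α * U * fH n V w) x y = (α * U * (V ^ (y.2 : ℕ) * w)) x y.1 := by
    rw [Matrix.mul_apply, Matrix.mul_apply]
    rfl
  have h0 : (fH n V w * (clk m n ν * tw (n := n) 0 B : Matrix (Fin m × Fin n) (Fin m × Fin n) ℂ) :
      Matrix (Fin d) (Fin m × Fin n) ℂ) x y =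
      ∑ z, fH n V w x z * (clk m n ν * tw 0 B : Matrix (Fin m × Fin n) (Fin m × Fin n) ℂ) z y :=
    Matrix.mul_apply
  rw [h1, h0, Fintype.sum_prod_type]
  have h2 : ∀ j : Fin m, ∑ i : Fin n, fH n V w x (j, i) *
      (clk m n ν * tw 0 B : Matrix (Fin m × Fin n) (Fin m × Fin n) ℂ) (j, i) y =
      ν ^ (y.2 : ℕ) * ((V ^ (y.2 : ℕ) * w) x j * B j y.1) := by
    intro j
    rw [Finset.sum_eq_single y.2]
    · rw [clk, Matrix.diagonal_mul, tw_apply, add_zero, if_pos rfl]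
      change (V ^ (y.2 : ℕ) * w) x j * _ = _
      ring
    · intro i _ hi
      rw [clk, Matrix.diagonal_mul, tw_apply, add_zero, if_neg hi, mul_zero, mul_zero]
    · intro h
      exact absurd (Finset.mem_univ _) h
  simp only [h2]
  rw [← Finset.mul_sum, ← Matrix.mul_apply, Matrix.mul_assoc (V ^ _), ← hB]
  have h3 : α * U * (V ^ (y.2 : ℕ) * w) = ν ^ (y.2 : ℕ) • (V ^ (y.2 : ℕ) * (α * w)) := by
    rw [Matrix.mul_assoc α, ← Matrix.mul_assoc U, UV_pow h, Matrix.smul_mul, Matrix.mul_smul,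
      Matrix.mul_assoc, hw, ← Matrix.mul_assoc, (hαV.pow_right _).eq, Matrix.mul_assoc]
  rw [h3, Matrix.smul_apply, smul_eq_mul]

end frame

theorem split {d n : ℕ} [NeZero n] {ν : ℂ} (hν : IsPrimitiveRoot ν n)
    (a b : (Matrix (Fin d) (Fin d) ℂ)ˣ)
    (hab : (b : Matrix (Fin d) (Fin d) ℂ) * a = ν • ((a : Matrix (Fin d) (Fin d) ℂ) * b)) :
    ∃ (m : ℕ) (H : Matrix (Fin d) (Fin m × Fin n) ℂ) (K : Matrix (Fin m × Fin n) (Fin d) ℂ)
      (A B : Matrix (Fin m) (Fin m) ℂ), H * K = 1 ∧ K * H = 1 ∧ Commute A B ∧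
      (a : Matrix (Fin d) (Fin d) ℂ) =
        ((H * tw (n := n) 1 A : Matrix (Fin d) (Fin m × Fin n) ℂ) * K :
          Matrix (Fin d) (Fin d) ℂ) ∧
      (b : Matrix (Fin d) (Fin d) ℂ) =
        ((H * (clk m n ν * tw (n := n) 0 B : Matrix (Fin m × Fin n) (Fin m × Fin n) ℂ) :
          Matrix (Fin d) (Fin m × Fin n) ℂ) * K : Matrix (Fin d) (Fin d) ℂ) := by
  have hn : 0 < n := Nat.pos_of_ne_zero (NeZero.ne n)
  obtain ⟨q, hq⟩ := exists_root (((b ^ n : (Matrix (Fin d) (Fin d) ℂ)ˣ) : Matrix (Fin d) (Fin d) ℂ))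
    (Units.isUnit _) n hn
  obtain ⟨q', hq'⟩ := exists_root (((a ^ n : (Matrix (Fin d) (Fin d) ℂ)ˣ) : Matrix (Fin d) (Fin d) ℂ))
    (Units.isUnit _) n hn
  set α := Polynomial.aeval (((b ^ n : (Matrix (Fin d) (Fin d) ℂ)ˣ) : Matrix (Fin d) (Fin d) ℂ)) q
  set β := Polynomial.aeval (((a ^ n : (Matrix (Fin d) (Fin d) ℂ)ˣ) : Matrix (Fin d) (Fin d) ℂ)) q'
  have hban : Commute (b : Matrix (Fin d) (Fin d) ℂ)
      (((a ^ n : (Matrix (Fin d) (Fin d) ℂ)ˣ) : Matrix (Fin d) (Fin d) ℂ)) := by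
    have h1 := UV_pow hab n
    rw [hν.pow_eq_one, one_smul] at h1
    rw [Units.val_pow_eq_pow_val]
    exact h1
  have hbna : Commute (((b ^ n : (Matrix (Fin d) (Fin d) ℂ)ˣ) : Matrix (Fin d) (Fin d) ℂ))
      (a : Matrix (Fin d) (Fin d) ℂ) := by
    have h1 := UV_pow2 hab n 1
    rw [pow_one, pow_one, hν.pow_eq_one, one_smul] at h1
    rw [Units.val_pow_eq_pow_val]
    exact h1
  have hαa : Commute α (a : Matrix (Fin d) (Fin d) ℂ) := comm_aeval hbna q
  have hαb : Commute α (b : Matrix (Fin d) (Fin d) ℂ) := by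
    apply comm_aeval
    rw [Units.val_pow_eq_pow_val]
    exact (Commute.refl _).pow_left n
  have hβa : Commute β (a : Matrix (Fin d) (Fin d) ℂ) := by
    apply comm_aeval
    rw [Units.val_pow_eq_pow_val]
    exact (Commute.refl _).pow_left n
  have hβb : Commute β (b : Matrix (Fin d) (Fin d) ℂ) := comm_aeval hban.symm q'
  have hβα : Commute β α := by
    apply comm_aeval
    apply Commute.symm
    apply comm_aeval
    rw [Units.val_pow_eq_pow_val, Units.val_pow_eq_pow_val]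
    rw [Units.val_pow_eq_pow_val] at hban
    exact hban.pow_left n
  obtain ⟨αu, hαu⟩ : IsUnit α := by
    have h1 : IsUnit (α ^ n) := by rw [hq]; exact Units.isUnit _
    exact (isUnit_pow_iff hn.ne').1 h1
  obtain ⟨βu, hβu⟩ : IsUnit β := by
    have h1 : IsUnit (β ^ n) := by rw [hq']; exact Units.isUnit _
    exact (isUnit_pow_iff hn.ne').1 h1
  rw [← hαu] at hαa hαb hβα hq
  rw [← hβu] at hβa hβb hβα hq'
  have cαa : Commute αu a := Commute.units_val_iff.1 hαa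
  have cαb : Commute αu b := Commute.units_val_iff.1 hαb
  have cβa : Commute βu a := Commute.units_val_iff.1 hβa
  have cβb : Commute βu b := Commute.units_val_iff.1 hβb
  have cβα : Commute βu αu := Commute.units_val_iff.1 hβα
  have hqu : αu ^ n = b ^ n := Units.ext (by rw [Units.val_pow_eq_pow_val]; exact hq)
  have hqu' : βu ^ n = a ^ n := Units.ext (by rw [Units.val_pow_eq_pow_val]; exact hq')
  set U : (Matrix (Fin d) (Fin d) ℂ)ˣ := b * αu⁻¹ with hUdef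
  set V : (Matrix (Fin d) (Fin d) ℂ)ˣ := a * βu⁻¹ with hVdef
  have hU : (U : Matrix (Fin d) (Fin d) ℂ) ^ n = 1 := by
    rw [← Units.val_pow_eq_pow_val, hUdef, (cαb.symm.inv_right).mul_pow, inv_pow, hqu,
      mul_inv_cancel, Units.val_one]
  have hV : (V : Matrix (Fin d) (Fin d) ℂ) ^ n = 1 := by
    rw [← Units.val_pow_eq_pow_val, hVdef, (cβa.symm.inv_right).mul_pow, inv_pow, hqu',
      mul_inv_cancel, Units.val_one]
  have haV : a = βu * V := by
    rw [hVdef, ← mul_assoc, cβa.eq, mul_assoc, mul_inv_cancel, mul_one]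
  have hbU : b = αu * U := by
    rw [hUdef, ← mul_assoc, cαb.eq, mul_assoc, mul_inv_cancel, mul_one]
  have cβV : Commute βu V := cβa.mul_right (Commute.refl βu).inv_right
  have cαU : Commute αu U := cαb.mul_right (Commute.refl αu).inv_right
  have cαV : Commute αu V := cαa.mul_right cβα.symm.inv_right
  have cβU : Commute βu U := cβb.mul_right cβα.inv_right
  have hUV : (U : Matrix (Fin d) (Fin d) ℂ) * V = ν • ((V : Matrix (Fin d) (Fin d) ℂ) * U) := by
    have h1 : U * V = b * a * (αu⁻¹ * βu⁻¹) := by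
      rw [hUdef, hVdef, mul_assoc, ← mul_assoc αu⁻¹, (cαa.inv_left).eq]
      simp only [mul_assoc]
    have h2 : V * U = a * b * (αu⁻¹ * βu⁻¹) := by
      rw [hUdef, hVdef, mul_assoc, ← mul_assoc βu⁻¹, (cβb.inv_left).eq]
      simp only [mul_assoc]
      rw [(cβα.inv_left.inv_right).eq]
    rw [← Units.val_mul, ← Units.val_mul, h1, h2, Units.val_mul, Units.val_mul, hab,
      Matrix.smul_mul, ← Units.val_mul a b, ← Units.val_mul]
  obtain ⟨m, w, p, hwp, hpw⟩ := idem_fac (E0 n (U : Matrix (Fin d) (Fin d) ℂ)) (E0_idem hn hU)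
  have hE : ∀ γ : Matrix (Fin d) (Fin d) ℂ, Commute γ (U : Matrix (Fin d) (Fin d) ℂ) →
      γ * E0 n (U : Matrix (Fin d) (Fin d) ℂ) = E0 n (U : Matrix (Fin d) (Fin d) ℂ) * γ := by
    intro γ hγ
    rw [E0, Matrix.mul_smul, Matrix.smul_mul, Finset.mul_sum, Finset.sum_mul]
    congr 1
    exact Finset.sum_congr rfl fun j _ => (hγ.pow_right j).eq
  have hw : E0 n (U : Matrix (Fin d) (Fin d) ℂ) * w = w := by
    rw [← hwp, Matrix.mul_assoc, hpw, Matrix.mul_one]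
  have hγ : ∀ γ : Matrix (Fin d) (Fin d) ℂ, Commute γ (U : Matrix (Fin d) (Fin d) ℂ) →
      γ * w = w * (p * γ * w) := by
    intro γ hγ
    rw [← Matrix.mul_assoc, ← Matrix.mul_assoc, hwp, ← hE γ hγ, Matrix.mul_assoc, hw]
  have hβU : Commute (βu : Matrix (Fin d) (Fin d) ℂ) (U : Matrix (Fin d) (Fin d) ℂ) :=
    Commute.units_val_iff.2 cβU
  have hαU : Commute (αu : Matrix (Fin d) (Fin d) ℂ) (U : Matrix (Fin d) (Fin d) ℂ) :=
    Commute.units_val_iff.2 cαU
  have hHK := fH_mul_fK hn hν hV hUV hwp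
  have hKH := fK_mul_fH hn hν hU hV hUV hwp hpw
  refine ⟨m, fH n V w, fK n V p, p * (βu : Matrix (Fin d) (Fin d) ℂ) * w,
    p * (αu : Matrix (Fin d) (Fin d) ℂ) * w, hHK, hKH, ?_, ?_, ?_⟩
  · have h1 : ∀ γ δ : Matrix (Fin d) (Fin d) ℂ, Commute δ (U : Matrix (Fin d) (Fin d) ℂ) →
        p * γ * w * (p * δ * w) = p * (γ * δ) * w := by
      intro γ δ hδ
      rw [Matrix.mul_assoc (p * γ), ← hγ δ hδ]
      simp only [Matrix.mul_assoc]
    change p * (βu : Matrix (Fin d) (Fin d) ℂ) * w * (p * (αu : Matrix (Fin d) (Fin d) ℂ) * w) =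
      p * (αu : Matrix (Fin d) (Fin d) ℂ) * w * (p * (βu : Matrix (Fin d) (Fin d) ℂ) * w)
    rw [h1 _ _ hαU, h1 _ _ hβU, hβα.eq]
  · have h1 := a_mul_fH (n := n) hV (Commute.units_val_iff.2 cβV) (hγ _ hβU)
    rw [← h1, Matrix.mul_assoc, hHK, Matrix.mul_one, ← Units.val_mul, ← haV]
  · have h1 := b_mul_fH hU hUV hwp hpw (Commute.units_val_iff.2 cαV) (hγ _ hαU)
    rw [← h1, Matrix.mul_assoc, hHK, Matrix.mul_one, ← Units.val_mul, ← hbU]

end Vale.Agent.P002B.QA
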