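import Vale.Agent.P002B.Stmts
import Vale.Agent.P002B.QCommA3

namespace Vale.Agent.P002B.QA

open Matrix MvPolynomial

/-- the pair of matrices as an assignment of the variables -/
def prr {d : ℕ} {T : Type*} (P Q : Matrix (Fin d) (Fin d) T) :
    (Fin 1 × Bool) × Fin d × Fin d → T :=
  fun z => if z.1.2 then Q z.2.1 z.2.2 else P z.2.1 z.2.2

theorem eval_bind {σ τ : Type*} (h : σ → MvPolynomial τ ℂ) (f : MvPolynomial σ ℂ) (z : τ → ℂ) :
    eval z (bind₁ h f) = eval (fun i => eval z (h i)) f :=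
  eval₂Hom_bind₁ _ _ _ _

section defs

variable {d m n : ℕ} [NeZero n] {T T' : Type*} [CommRing T] [CommRing T']

/-- first matrix -/
def mA (e : Fin m × Fin n ≃ Fin d) (x : Fin m → T) : Matrix (Fin d) (Fin d) T :=
  reindexAlgEquiv T T e (tw 1 (diagonal x))

/-- second matrix -/
def mB (e : Fin m × Fin n ≃ Fin d) (ν : T) (y : Fin m → T) : Matrix (Fin d) (Fin d) T :=
  reindexAlgEquiv T T e (clk m n ν * tw 0 (diagonal y))

theorem mA_map (f : T →+* T') (e : Fin m × Fin n ≃ Fin d) (x : Fin m → T) :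
    (mA e x).map f = mA e (fun i => f (x i)) := by
  have h1 : (mA e x).map f = reindexAlgEquiv T' T' e ((tw 1 (diagonal x)).map f) := rfl
  rw [h1, tw_map, Matrix.diagonal_map (map_zero f)]
  rfl

theorem mB_map (f : T →+* T') (e : Fin m × Fin n ≃ Fin d) (ν : T) (y : Fin m → T) :
    (mB e ν y).map f = mB e (f ν) (fun i => f (y i)) := by
  have h1 : (mB e ν y).map f =
      reindexAlgEquiv T' T' e ((clk m n ν * tw 0 (diagonal y)).map f) := rfl
  rw [h1, Matrix.map_mul, clk_map, tw_map, Matrix.diagonal_map (map_zero f)]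
  rfl

omit [NeZero n] in
theorem tw_smul (c : Fin n) (t : T) (A : Matrix (Fin m) (Fin m) T) :
    tw c (t • A) = t • tw c A := by
  ext x y
  rw [Matrix.smul_apply, tw_apply, tw_apply, Matrix.smul_apply]
  split_ifs
  · rfl
  · rw [smul_zero]

theorem mA_smul (e : Fin m × Fin n ≃ Fin d) (t : T) (x : Fin m → T) :
    mA e (fun i => t * x i) = t • mA e x := by
  have h1 : (diagonal fun i => t * x i) = t • diagonal x := by
    rw [← Matrix.diagonal_smul]
    rfl
  rw [mA, h1, tw_smul, map_smul]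
  rfl

theorem mB_smul (e : Fin m × Fin n ≃ Fin d) (ν : T) (t : T) (y : Fin m → T) :
    mB e ν (fun i => t * y i) = t • mB e ν y := by
  have h1 : (diagonal fun i => t * y i) = t • diagonal y := by
    rw [← Matrix.diagonal_smul]
    rfl
  rw [mB, h1, tw_smul, Matrix.mul_smul, map_smul]
  rfl

theorem mA_unit (e : Fin m × Fin n ≃ Fin d) (x : Fin m → Tˣ) :
    IsUnit (mA e fun i => (x i : T)) := by
  rw [mA]
  apply IsUnit.map
  have h1 : (diagonal fun i => (x i : T)) * (diagonal fun i => (((x i)⁻¹ : Tˣ) : T)) = 1 := by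
    rw [Matrix.diagonal_mul_diagonal, ← Matrix.diagonal_one]
    congr 1
    funext i
    exact Units.mul_inv _
  have h2 : (tw 1 (diagonal fun i => (x i : T)) : Matrix (Fin m × Fin n) (Fin m × Fin n) T) *
      tw (-1) (diagonal fun i => (((x i)⁻¹ : Tˣ) : T)) = 1 := by
    rw [tw_mul, h1, neg_add_cancel, tw_one]
  exact IsUnit.of_mul_eq_one _ h2

theorem mB_unit (e : Fin m × Fin n ≃ Fin d) (ν : Tˣ) (y : Fin m → Tˣ) :
    IsUnit (mB e (ν : T) fun i => (y i : T)) := by
  rw [mB]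
  apply IsUnit.map
  apply IsUnit.mul
  · have h1 : clk m n (ν : T) * clk m n ((ν⁻¹ : Tˣ) : T) = 1 := by
      rw [clk, clk, Matrix.diagonal_mul_diagonal, ← Matrix.diagonal_one]
      congr 1
      funext i
      rw [← mul_pow, Units.mul_inv, one_pow]
    exact IsUnit.of_mul_eq_one _ h1
  · have h1 : (diagonal fun i => (y i : T)) * (diagonal fun i => (((y i)⁻¹ : Tˣ) : T)) =
        1 := by
      rw [Matrix.diagonal_mul_diagonal, ← Matrix.diagonal_one]
      congr 1
      funext i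
      exact Units.mul_inv _
    have h2 : (tw 0 (diagonal fun i => (y i : T)) : Matrix (Fin m × Fin n) (Fin m × Fin n) T) *
        tw 0 (diagonal fun i => (((y i)⁻¹ : Tˣ) : T)) = 1 := by
      rw [tw_mul, h1, add_zero, tw_one]
    exact IsUnit.of_mul_eq_one _ h2

theorem mB_mul_mA (e : Fin m × Fin n ≃ Fin d) {ν : T} (hν : ν ^ n = 1) (x y : Fin m → T) :
    mB e ν y * mA e x = ν • (mA e x * mB e ν y) := by
  rw [mA, mB, ← map_mul, ← map_mul, ← map_smul]
  congr 1
  have h1 : (diagonal y * diagonal x : Matrix _ _ T) = diagonal x * diagonal y := by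
    rw [Matrix.diagonal_mul_diagonal, Matrix.diagonal_mul_diagonal]
    congr 1
    funext i
    exact mul_comm _ _
  rw [mul_assoc, tw_mul, h1, add_zero, ← zero_add (1 : Fin n), ← mul_assoc]
  have h2 : (tw (0 + 1) (diagonal x * diagonal y) : Matrix (Fin m × Fin n) (Fin m × Fin n) T) =
      tw 1 (diagonal x) * tw 0 (diagonal y) := by
    rw [tw_mul]
  rw [h2, zero_add, ← mul_assoc, clk_tw hν, Matrix.smul_mul, mul_assoc (tw 1 (diagonal x))]

end defs

section rpoints

variable {R : Type} [CommRing R] {φ : R →+* ℂ} {d m n : ℕ} [NeZero n]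

theorem swd_one {G : Type*} [Group G] (a b : Fin 1 → G) :
    swd a b = a 0 * b 0 * (a 0)⁻¹ * (b 0)⁻¹ := by
  rw [swd, List.ofFn_succ, List.ofFn_zero, List.prod_cons, List.prod_nil, mul_one]

theorem swd_of_comm {S : Type*} [CommRing S] (a b : (Matrix (Fin d) (Fin d) S)ˣ) (μ ν : S)
    (hμν : μ * ν = 1)
    (h : (b : Matrix (Fin d) (Fin d) S) * a = ν • ((a : Matrix (Fin d) (Fin d) S) * b)) :
    ((a * b * a⁻¹ * b⁻¹ : (Matrix (Fin d) (Fin d) S)ˣ) : Matrix (Fin d) (Fin d) S) =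
      μ • (1 : Matrix (Fin d) (Fin d) S) := by
  have h1 : ((a * b : (Matrix (Fin d) (Fin d) S)ˣ) : Matrix (Fin d) (Fin d) S) =
      μ • ((b * a : (Matrix (Fin d) (Fin d) S)ˣ) : Matrix (Fin d) (Fin d) S) := by
    rw [Units.val_mul, Units.val_mul, h, smul_smul, hμν, one_smul]
  have h2 : a * b * a⁻¹ * b⁻¹ = a * b * (b * a)⁻¹ := by
    rw [_root_.mul_inv_rev, ← mul_assoc]
  rw [h2, Units.val_mul, h1, Matrix.smul_mul, ← Units.val_mul, mul_inv_cancel, Units.val_one]

/-- step 1: integral conjugations, units -/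
theorem step1 (e : Fin m × Fin n ≃ Fin d) (μ : Rˣ) (hn : (μ : R) ^ n = 1)
    (f : MvPolynomial ((Fin 1 × Bool) × Fin d × Fin d) ℂ)
    (hf : ∀ a' b' : Fin 1 → (Matrix (Fin d) (Fin d) R)ˣ,
        ((swd a' b' : (Matrix (Fin d) (Fin d) R)ˣ) : Matrix (Fin d) (Fin d) R) =
          (μ : R) • (1 : Matrix (Fin d) (Fin d) R) →
        eval (fun x => φ (((if x.1.2 then b' x.1.1 else a' x.1.1 :
          (Matrix (Fin d) (Fin d) R)ˣ) : Matrix (Fin d) (Fin d) R) x.2.1 x.2.2)) f = 0)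
    (X : SpecialLinearGroup (Fin d) ℤ) (x y : Fin m → Rˣ) :
    eval (prr (X.1.map (Int.cast : ℤ → ℂ) * mA e (fun i => φ (x i)) *
        (X.1.map (Int.cast : ℤ → ℂ)).adjugate)
      (X.1.map (Int.cast : ℤ → ℂ) * mB e (φ ((μ⁻¹ : Rˣ) : R)) (fun i => φ (y i)) *
        (X.1.map (Int.cast : ℤ → ℂ)).adjugate)) f = 0 := by
  obtain ⟨a0, ha0⟩ := mA_unit e x
  obtain ⟨b0, hb0⟩ := mB_unit e μ⁻¹ y
  set XR : Matrix (Fin d) (Fin d) R := X.1.map (Int.cast : ℤ → R) with hXR
  have hdet : XR.det = 1 := by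
    have h1 : XR = (Int.castRingHom R).mapMatrix X.1 := rfl
    rw [h1, ← RingHom.map_det, X.2, map_one]
  have hX1 : XR * XR.adjugate = 1 := by rw [Matrix.mul_adjugate, hdet, one_smul]
  have hX2 : XR.adjugate * XR = 1 := by rw [Matrix.adjugate_mul, hdet, one_smul]
  let XU : (Matrix (Fin d) (Fin d) R)ˣ := ⟨XR, XR.adjugate, hX1, hX2⟩
  have hν : ((μ⁻¹ : Rˣ) : R) ^ n = 1 := by
    rw [← Units.val_pow_eq_pow_val, inv_pow]
    have : μ ^ n = 1 := Units.ext (by rw [Units.val_pow_eq_pow_val, hn, Units.val_one])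
    rw [this, inv_one, Units.val_one]
  have h2 := hf (fun _ => XU * a0 * XU⁻¹) (fun _ => XU * b0 * XU⁻¹) (by
    rw [swd_one]
    have h3 : XU * a0 * XU⁻¹ * (XU * b0 * XU⁻¹) * (XU * a0 * XU⁻¹)⁻¹ * (XU * b0 * XU⁻¹)⁻¹ =
        XU * (a0 * b0 * a0⁻¹ * b0⁻¹) * XU⁻¹ := by group
    rw [h3, Units.val_mul, Units.val_mul]
    rw [swd_of_comm a0 b0 (μ : R) ((μ⁻¹ : Rˣ) : R) (Units.mul_inv _)
      (by rw [ha0, hb0]; exact mB_mul_mA e hν _ _)]
    rw [Matrix.mul_smul, Matrix.smul_mul, mul_one, ← Units.val_mul, mul_inv_cancel,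
      Units.val_one])
  have hXm : XR.map φ = X.1.map (Int.cast : ℤ → ℂ) := by
    rw [hXR, Matrix.map_map]
    congr 1
    funext z
    exact map_intCast φ z
  have hadj : XR.adjugate.map φ = (X.1.map (Int.cast : ℤ → ℂ)).adjugate := by
    rw [← hXm]
    exact RingHom.map_adjugate φ XR
  have h4 : (fun z : (Fin 1 × Bool) × Fin d × Fin d => φ (((if z.1.2 then XU * b0 * XU⁻¹
      else XU * a0 * XU⁻¹ : (Matrix (Fin d) (Fin d) R)ˣ) : Matrix (Fin d) (Fin d) R)
        z.2.1 z.2.2)) =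
      prr (X.1.map (Int.cast : ℤ → ℂ) * mA e (fun i => φ (x i)) *
        (X.1.map (Int.cast : ℤ → ℂ)).adjugate)
      (X.1.map (Int.cast : ℤ → ℂ) * mB e (φ ((μ⁻¹ : Rˣ) : R)) (fun i => φ (y i)) *
        (X.1.map (Int.cast : ℤ → ℂ)).adjugate) := by
    have h5 : ((XU * a0 * XU⁻¹ : (Matrix (Fin d) (Fin d) R)ˣ) :
        Matrix (Fin d) (Fin d) R).map φ = X.1.map (Int.cast : ℤ → ℂ) *
          mA e (fun i => φ (x i)) * (X.1.map (Int.cast : ℤ → ℂ)).adjugate := by
      rw [← hXm, ← RingHom.mapMatrix_apply, Units.val_mul, Units.val_mul, map_mul, map_mul,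
        ha0, RingHom.mapMatrix_apply, RingHom.mapMatrix_apply, RingHom.mapMatrix_apply, mA_map,
        hXm, ← hadj]
      rfl
    have h6 : ((XU * b0 * XU⁻¹ : (Matrix (Fin d) (Fin d) R)ˣ) :
        Matrix (Fin d) (Fin d) R).map φ = X.1.map (Int.cast : ℤ → ℂ) *
          mB e (φ ((μ⁻¹ : Rˣ) : R)) (fun i => φ (y i)) *
            (X.1.map (Int.cast : ℤ → ℂ)).adjugate := by
      rw [← hXm, ← RingHom.mapMatrix_apply, Units.val_mul, Units.val_mul, map_mul, map_mul,
        hb0, RingHom.mapMatrix_apply, RingHom.mapMatrix_apply, RingHom.mapMatrix_apply, mB_map,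
        hXm, ← hadj]
      rfl
    funext z
    rw [prr, ← h5, ← h6]
    split_ifs <;> rfl
  rw [h4] at h2
  exact h2

theorem map_prr {T T' : Type*} (P Q : Matrix (Fin d) (Fin d) T) (g : T → T') :
    (fun z => g (prr P Q z)) = prr (P.map g) (Q.map g) := by
  funext z
  rw [prr, prr]
  split_ifs <;> rfl

theorem units_infinite (u : Rˣ)
    (hu : ∀ k : ℕ, 0 < k → φ (u : R) ^ k ≠ 1) : (Set.range fun w : Rˣ => φ (w : R)).Infinite := by
  have h0 : φ (u : R) ≠ 0 := by
    intro h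
    have h1 : φ (u : R) * φ ((u⁻¹ : Rˣ) : R) = 1 := by rw [← map_mul, Units.mul_inv, map_one]
    rw [h, zero_mul] at h1
    exact zero_ne_one h1
  have h1 : Function.Injective fun k : ℕ => φ (u : R) ^ k := by
    intro k l hkl
    dsimp only at hkl
    rcases lt_trichotomy k l with h | h | h
    · exfalso
      apply hu (l - k) (by omega)
      have h2 : φ (u : R) ^ k * φ (u : R) ^ (l - k) = φ (u : R) ^ k * 1 := by
        rw [← pow_add, Nat.add_sub_cancel' h.le, mul_one, hkl]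
      exact mul_left_cancel₀ (pow_ne_zero _ h0) h2
    · exact h
    · exfalso
      apply hu (k - l) (by omega)
      have h2 : φ (u : R) ^ l * φ (u : R) ^ (k - l) = φ (u : R) ^ l * 1 := by
        rw [← pow_add, Nat.add_sub_cancel' h.le, mul_one, hkl]
      exact mul_left_cancel₀ (pow_ne_zero _ h0) h2
  refine (Set.infinite_range_of_injective h1).mono ?_
  rintro _ ⟨k, rfl⟩
  exact ⟨u ^ k, by dsimp only; rw [Units.val_pow_eq_pow_val, map_pow]⟩

/-- step 2: integral conjugations, arbitrary numbers -/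
theorem step2 (u : Rˣ) (hu : ∀ k : ℕ, 0 < k → φ (u : R) ^ k ≠ 1)
    (e : Fin m × Fin n ≃ Fin d) (μ : Rˣ) (hn : (μ : R) ^ n = 1)
    (f : MvPolynomial ((Fin 1 × Bool) × Fin d × Fin d) ℂ)
    (hf : ∀ a' b' : Fin 1 → (Matrix (Fin d) (Fin d) R)ˣ,
        ((swd a' b' : (Matrix (Fin d) (Fin d) R)ˣ) : Matrix (Fin d) (Fin d) R) =
          (μ : R) • (1 : Matrix (Fin d) (Fin d) R) →
        eval (fun x => φ (((if x.1.2 then b' x.1.1 else a' x.1.1 :
          (Matrix (Fin d) (Fin d) R)ˣ) : Matrix (Fin d) (Fin d) R) x.2.1 x.2.2)) f = 0)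
    (M : SpecialLinearGroup (Fin d) ℤ) (x y : Fin m → ℂ) :
    eval (prr (M.1.map (Int.cast : ℤ → ℂ) * mA e x * (M.1.map (Int.cast : ℤ → ℂ)).adjugate)
      (M.1.map (Int.cast : ℤ → ℂ) * mB e (φ ((μ⁻¹ : Rˣ) : R)) y *
        (M.1.map (Int.cast : ℤ → ℂ)).adjugate)) f = 0 := by
  set N : Matrix (Fin d) (Fin d) ℂ := M.1.map (Int.cast : ℤ → ℂ) with hN
  set G : MvPolynomial (Bool × Fin m) ℂ := bind₁ (prr
    (N.map C * mA e (fun i => X (false, i)) * N.adjugate.map C)
    (N.map C * mB e (C (φ ((μ⁻¹ : Rˣ) : R))) (fun i => X (true, i)) * N.adjugate.map C)) f with hG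
  have hev : ∀ z : Bool × Fin m → ℂ, eval z G =
      eval (prr (N * mA e (fun i => z (false, i)) * N.adjugate)
        (N * mB e (φ ((μ⁻¹ : Rˣ) : R)) (fun i => z (true, i)) * N.adjugate)) f := by
    intro z
    rw [hG, eval_bind, map_prr]
    have hC : ∀ L : Matrix (Fin d) (Fin d) ℂ,
        (L.map (C : ℂ →+* MvPolynomial (Bool × Fin m) ℂ)).map (eval z) = L := by
      intro L
      rw [Matrix.map_map]
      ext i j
      rw [Matrix.map_apply]
      exact eval_C _
    rw [Matrix.map_mul, Matrix.map_mul, Matrix.map_mul, Matrix.map_mul, mA_map, mB_map, hC, hC]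
    simp only [eval_X, eval_C]
  have hG0 : G = 0 := by
    apply MvPolynomial.funext_set (fun _ => Set.range fun w : Rˣ => φ (w : R))
    · exact fun _ => units_infinite u hu
    · intro z hz
      rw [map_zero, hev]
      choose w hw using fun i => hz i (Set.mem_univ i)
      have h1 := step1 e μ hn f hf M (fun i => w (false, i)) (fun i => w (true, i))
      dsimp only at hw
      simp only [hw] at h1
      exact h1
  have h2 := hev fun p => if p.1 then y p.2 else x p.2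
  rw [hG0, map_zero] at h2
  simp only [if_true, Bool.false_eq_true, if_false] at h2
  exact h2.symm

/-- step 3: arbitrary conjugations -/
theorem step3 (hd : 0 < d) (u : Rˣ)
    (hu : ∀ k : ℕ, 0 < k → φ (u : R) ^ k ≠ 1)
    (e : Fin m × Fin n ≃ Fin d) (μ : Rˣ) (hn : (μ : R) ^ n = 1)
    (f : MvPolynomial ((Fin 1 × Bool) × Fin d × Fin d) ℂ)
    (hf : ∀ a' b' : Fin 1 → (Matrix (Fin d) (Fin d) R)ˣ,
        ((swd a' b' : (Matrix (Fin d) (Fin d) R)ˣ) : Matrix (Fin d) (Fin d) R) =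
          (μ : R) • (1 : Matrix (Fin d) (Fin d) R) →
        eval (fun x => φ (((if x.1.2 then b' x.1.1 else a' x.1.1 :
          (Matrix (Fin d) (Fin d) R)ˣ) : Matrix (Fin d) (Fin d) R) x.2.1 x.2.2)) f = 0)
    (g h : Matrix (Fin d) (Fin d) ℂ) (hgh : g * h = 1) (x y : Fin m → ℂ) :
    eval (prr (g * mA e x * h) (g * mB e (φ ((μ⁻¹ : Rˣ) : R)) y * h)) f = 0 := by
  have key : ∀ x y : Fin m → ℂ, (bind₁ (prr
      (mvPolynomialX (Fin d) (Fin d) ℂ * (mA e x).map C * (mvPolynomialX (Fin d) (Fin d) ℂ).adjugate)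
      (mvPolynomialX (Fin d) (Fin d) ℂ * (mB e (φ ((μ⁻¹ : Rˣ) : R)) y).map C *
        (mvPolynomialX (Fin d) (Fin d) ℂ).adjugate)) f : MvPolynomial (Fin d × Fin d) ℂ) = 0 := by
    intro x y
    apply P002.scaledSL_dense
    intro c M
    have hZ : (mvPolynomialX (Fin d) (Fin d) ℂ).map
        (eval fun p : Fin d × Fin d => (c : ℂ) * ((M.1 p.1 p.2 : ℤ) : ℂ)) =
        (c : ℂ) • M.1.map (Int.cast : ℤ → ℂ) := by
      ext i j
      rw [Matrix.map_apply, mvPolynomialX_apply, eval_X, Matrix.smul_apply, Matrix.map_apply,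
        smul_eq_mul]
    have hC : ∀ L : Matrix (Fin d) (Fin d) ℂ,
        (L.map (C : ℂ →+* MvPolynomial (Fin d × Fin d) ℂ)).map
          (eval fun p : Fin d × Fin d => (c : ℂ) * ((M.1 p.1 p.2 : ℤ) : ℂ)) = L := by
      intro L
      rw [Matrix.map_map]
      ext i j
      rw [Matrix.map_apply]
      exact eval_C _
    have hadj : (mvPolynomialX (Fin d) (Fin d) ℂ).adjugate.map
        (eval fun p : Fin d × Fin d => (c : ℂ) * ((M.1 p.1 p.2 : ℤ) : ℂ)) =
        (c : ℂ) ^ (d - 1) • (M.1.map (Int.cast : ℤ → ℂ)).adjugate := by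
      have h1 := RingHom.map_adjugate
        (eval fun p : Fin d × Fin d => (c : ℂ) * ((M.1 p.1 p.2 : ℤ) : ℂ))
        (mvPolynomialX (Fin d) (Fin d) ℂ)
      rw [RingHom.mapMatrix_apply, RingHom.mapMatrix_apply, hZ, Matrix.adjugate_smul,
        Fintype.card_fin] at h1
      exact h1
    rw [eval_bind, map_prr, Matrix.map_mul, Matrix.map_mul, Matrix.map_mul, Matrix.map_mul, hZ,
      hadj, hC, hC]
    have h2 : ∀ L : Matrix (Fin d) (Fin d) ℂ, (c : ℂ) • M.1.map (Int.cast : ℤ → ℂ) * L *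
        ((c : ℂ) ^ (d - 1) • (M.1.map (Int.cast : ℤ → ℂ)).adjugate) =
        M.1.map (Int.cast : ℤ → ℂ) * ((c : ℂ) ^ d • L) *
          (M.1.map (Int.cast : ℤ → ℂ)).adjugate := by
      intro L
      rw [Matrix.mul_smul, Matrix.smul_mul, Matrix.smul_mul, smul_smul, Matrix.mul_smul,
        Matrix.smul_mul, ← pow_succ, Nat.sub_add_cancel hd]
    rw [h2, h2, ← mA_smul, ← mB_smul]
    exact step2 u hu e μ hn f hf M _ _
  have hdet : g.det ≠ 0 := by
    intro h0
    have h1 := congrArg Matrix.det hgh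
    rw [Matrix.det_mul, h0, zero_mul, Matrix.det_one] at h1
    exact zero_ne_one h1
  have hh : h = g.det⁻¹ • g.adjugate := by
    have h1 : g.adjugate * g = g.det • (1 : Matrix (Fin d) (Fin d) ℂ) := Matrix.adjugate_mul g
    have h2 : g.adjugate = g.det • h := by
      calc g.adjugate = g.adjugate * (g * h) := by rw [hgh, mul_one]
        _ = _ := by rw [← mul_assoc, h1, Matrix.smul_mul, one_mul]
    rw [h2, smul_smul, inv_mul_cancel₀ hdet, one_smul]
  have h3 := congrArg (eval fun p : Fin d × Fin d => g p.1 p.2)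
    (key (fun i => g.det⁻¹ * x i) (fun i => g.det⁻¹ * y i))
  have hZ : (mvPolynomialX (Fin d) (Fin d) ℂ).map (eval fun p : Fin d × Fin d => g p.1 p.2) =
      g := by
    ext i j
    rw [Matrix.map_apply, mvPolynomialX_apply, eval_X]
  have hC : ∀ L : Matrix (Fin d) (Fin d) ℂ,
      (L.map (C : ℂ →+* MvPolynomial (Fin d × Fin d) ℂ)).map
        (eval fun p : Fin d × Fin d => g p.1 p.2) = L := by
    intro L
    rw [Matrix.map_map]
    ext i j
    rw [Matrix.map_apply]
    exact eval_C _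
  have hadj : (mvPolynomialX (Fin d) (Fin d) ℂ).adjugate.map
      (eval fun p : Fin d × Fin d => g p.1 p.2) = g.adjugate := by
    have h1 := RingHom.map_adjugate (eval fun p : Fin d × Fin d => g p.1 p.2)
      (mvPolynomialX (Fin d) (Fin d) ℂ)
    rw [RingHom.mapMatrix_apply, RingHom.mapMatrix_apply, hZ] at h1
    exact h1
  rw [map_zero, eval_bind, map_prr, Matrix.map_mul, Matrix.map_mul, Matrix.map_mul,
    Matrix.map_mul, hZ, hadj, hC, hC, mA_smul, mB_smul] at h3
  rw [hh, Matrix.mul_smul, Matrix.mul_smul]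
  rw [Matrix.mul_smul, Matrix.mul_smul, Matrix.smul_mul, Matrix.smul_mul] at h3
  exact h3

end rpoints

end Vale.Agent.P002B.QA
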