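import Vale.Agent.P002.JordanForm
import Vale.Agent.P002.Krylov

/-!
# q-commuting pairs, part 0: cyclic endomorphisms which commute with a given one
-/

namespace Vale.Agent.P002B.QB

open Matrix Vale.Agent.P002

theorem aeval_mem {V : Type*} [AddCommGroup V] [Module ℂ V] (N : Module.End ℂ V)
    (W : Submodule ℂ V) (hW : ∀ x ∈ W, N x ∈ W) (p : Polynomial ℂ) {x : V} (hx : x ∈ W) :
    Polynomial.aeval N p x ∈ W := by
  have hpow : ∀ k : ℕ, (N ^ k) x ∈ W := by
    intro k
    induction k with
    | zero => simpa using hx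
    | succ k ih =>
      rw [pow_succ', Module.End.mul_apply]
      exact hW _ ih
  rw [Polynomial.aeval_eq_sum_range, LinearMap.sum_apply]
  exact W.sum_mem fun k _ => W.smul_mem _ (hpow k)

theorem cyc_aux (n : ℕ) : ∀ (V : Type) [AddCommGroup V] [Module ℂ V]
    [FiniteDimensional ℂ V] (T : Module.End ℂ V), Module.finrank ℂ V = n →
    ∃ (N : Module.End ℂ V) (v : V), Commute N T ∧
      ∀ W : Submodule ℂ V, v ∈ W → (∀ x ∈ W, N x ∈ W) → W = ⊤ := by
  classical
  induction n using Nat.strong_induction_on with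
  | _ n ih =>
  intro V _ _ _ T hV
  rcases Nat.eq_zero_or_pos n with rfl | hn
  · have : Subsingleton V := Module.finrank_zero_iff.mp hV
    refine ⟨0, 0, Commute.zero_left _, fun W _ _ => ?_⟩
    rw [eq_top_iff]
    intro x _
    rw [Subsingleton.elim x 0]
    exact W.zero_mem
  have : Nontrivial V := Module.finrank_pos_iff.mp (by omega : 0 < Module.finrank ℂ V)
  obtain ⟨lam, m, v, φ, hm, hv, hφ0, hφ1⟩ := jordan_vector T
  set D : Module.End ℂ V := T - lam • 1 with hD
  have hT : ∀ x, T x = lam • x + D x := by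
    intro x
    simp [hD]
  let α : (Fin m → ℂ) →ₗ[ℂ] V := Fintype.linearCombination ℂ fun k : Fin m => (D ^ (k : ℕ)) v
  have hα : ∀ a, α a = ∑ k, a k • (D ^ (k : ℕ)) v := fun a =>
    Fintype.linearCombination_apply ℂ _ a
  let β : V →ₗ[ℂ] (Fin m → ℂ) := LinearMap.pi fun k : Fin m => φ ∘ₗ (D ^ (k : ℕ))
  have hβ : ∀ x k, β x k = φ ((D ^ (k : ℕ)) x) := fun x k => rfl
  have hvbig : ∀ k, m ≤ k → (D ^ k) v = 0 := by
    intro k hk
    obtain ⟨l, rfl⟩ := Nat.exists_eq_add_of_le' hk
    rw [pow_add, Module.End.mul_apply, hv, map_zero]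
  have hinj : ∀ a, β (α a) = 0 → a = 0 := by
    intro a ha
    by_contra hne
    have hex : ∃ k : ℕ, ∃ hk : k < m, a ⟨k, hk⟩ ≠ 0 := by
      by_contra hcon
      push Not at hcon
      exact hne (funext fun k => hcon k k.2)
    obtain ⟨hk, hak⟩ := Nat.find_spec hex
    set k₀ := Nat.find hex with hk₀
    have hmin : ∀ k (hk : k < m), k < k₀ → a ⟨k, hk⟩ = 0 := by
      intro k hk' hlt
      by_contra hcon
      exact Nat.find_min hex hlt ⟨hk', hcon⟩
    have h1 := congrFun ha ⟨m - 1 - k₀, by omega⟩
    rw [hβ, hα, map_sum, map_sum, Finset.sum_eq_single ⟨k₀, hk⟩] at h1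
    · rw [map_smul, map_smul, ← Module.End.mul_apply, ← pow_add, smul_eq_mul] at h1
      simp only [Pi.zero_apply] at h1
      have e : m - 1 - k₀ + k₀ = m - 1 := by omega
      rw [e] at h1
      rcases mul_eq_zero.mp h1 with h2 | h2
      · exact hak h2
      · exact hφ1 h2
    · intro k _ hkne
      rcases lt_or_ge (k : ℕ) k₀ with hlt | hge
      · rw [hmin k k.2 hlt, zero_smul, map_zero, map_zero]
      · have hgt : k₀ < (k : ℕ) := by
          rcases Nat.lt_or_eq_of_le hge with h | h
          · exact h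
          · exact absurd (Fin.ext h.symm) hkne
        rw [map_smul, ← Module.End.mul_apply, ← pow_add, hvbig _ (by
          simp only
          omega), smul_zero, map_zero]
    · intro h
      exact absurd (Finset.mem_univ _) h
  let U := LinearMap.ker β
  have hUD : ∀ x ∈ U, D x ∈ U := by
    intro x hx
    rw [LinearMap.mem_ker] at hx ⊢
    funext k
    rw [hβ, ← Module.End.mul_apply, ← pow_succ]
    by_cases hk : (k : ℕ) + 1 < m
    · have := congrFun hx ⟨(k : ℕ) + 1, hk⟩
      rw [hβ] at this
      exact this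
    · have : (k : ℕ) + 1 = m := by omega
      rw [this, hφ0]
      rfl
  have hUT : ∀ x ∈ U, T x ∈ U := by
    intro x hx
    rw [hT]
    exact U.add_mem (U.smul_mem _ hx) (hUD x hx)
  let C : Submodule ℂ V := LinearMap.range α
  have hCpow : ∀ k, (D ^ k) v ∈ C := by
    intro k
    by_cases hk : k < m
    · refine ⟨Pi.single ⟨k, hk⟩ 1, ?_⟩
      rw [hα, Finset.sum_eq_single ⟨k, hk⟩]
      · simp
      · intro l _ hl
        rw [Pi.single_eq_of_ne hl, zero_smul]
      · intro h
        exact absurd (Finset.mem_univ _) h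
    · rw [hvbig k (by omega)]
      exact C.zero_mem
  have hCD : ∀ x ∈ C, D x ∈ C := by
    rintro _ ⟨a, rfl⟩
    rw [hα, map_sum]
    refine C.sum_mem fun k _ => ?_
    rw [map_smul, ← Module.End.mul_apply, ← pow_succ']
    exact C.smul_mem _ (hCpow _)
  have hCT : ∀ x ∈ C, T x ∈ C := by
    intro x hx
    rw [hT]
    exact C.add_mem (C.smul_mem _ hx) (hCD x hx)
  have hcompl : IsCompl C U := by
    constructor
    · rw [Submodule.disjoint_def]
      rintro _ ⟨a, rfl⟩ hx
      rw [hinj a hx, map_zero]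
    · rw [codisjoint_iff, eq_top_iff]
      intro x _
      have hsurj0 : Function.Surjective (β ∘ₗ α) := by
        rw [← LinearMap.injective_iff_surjective, ← LinearMap.ker_eq_bot, LinearMap.ker_eq_bot']
        exact hinj
      obtain ⟨a, ha⟩ := hsurj0 (β x)
      rw [Submodule.mem_sup]
      refine ⟨α a, ⟨a, rfl⟩, x - α a, ?_, by abel⟩
      rw [LinearMap.mem_ker, map_sub, ← ha]
      exact sub_self _
  have hvC : v ∈ C := by
    have := hCpow 0
    simpa using this
  have hv0 : v ≠ 0 := by
    intro h0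
    apply hφ1
    rw [h0, map_zero, map_zero]
  have hdim : Module.finrank ℂ U < n := by
    have h1 := Submodule.finrank_add_eq_of_isCompl hcompl
    have h2 : 0 < Module.finrank ℂ C := by
      rw [Module.finrank_pos_iff]
      exact ⟨⟨⟨v, hvC⟩, 0, fun h => hv0 (congrArg Subtype.val h)⟩⟩
    omega
  obtain ⟨NU, u₀, hcom, hcyc⟩ := ih _ hdim U (T.restrict hUT) rfl
  obtain ⟨g, hg⟩ : ∃ g : Polynomial ℂ, g = minpoly ℂ NU := ⟨_, rfl⟩
  have hg0 : g ≠ 0 := by
    rw [hg]
    exact minpoly.ne_zero (Algebra.IsIntegral.isIntegral NU)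
  have hgN : Polynomial.aeval NU g = 0 := by
    rw [hg]
    exact minpoly.aeval ℂ NU
  obtain ⟨c, hc⟩ : ∃ c : ℂ, g.eval c ≠ 0 := by
    by_contra hcon
    push Not at hcon
    exact hg0 (Polynomial.funext fun x => by rw [hcon x, Polynomial.eval_zero])
  -- projections
  obtain ⟨πU, hπU, hπC⟩ : ∃ πU : V →ₗ[ℂ] U, (∀ u : U, πU (u : V) = u) ∧ ∀ x ∈ C, πU x = 0 := by
    refine ⟨Submodule.projectionOnto U C hcompl.symm, fun u => ?_, fun x hx => ?_⟩
    · exact Submodule.projectionOnto_apply_left _ u
    · exact Submodule.projectionOnto_apply_of_mem_right hcompl.symm hx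
  obtain ⟨N, hN⟩ : ∃ N : Module.End ℂ V, ∀ x, N x =
      (c • (x - (πU x : V)) + D (x - (πU x : V))) + (NU (πU x) : V) := by
    refine ⟨(c • LinearMap.id + D) ∘ₗ (LinearMap.id - U.subtype ∘ₗ πU) +
      U.subtype ∘ₗ NU ∘ₗ πU, fun x => ?_⟩
    simp
  have hNC : ∀ x ∈ C, N x = c • x + D x := by
    intro x hx
    rw [hN, hπC x hx]
    simp
  have hNU : ∀ u : U, N (u : V) = (NU u : V) := by
    intro u
    rw [hN, hπU]
    simp
  have hdec : ∀ x : V, ∃ y ∈ C, ∃ u : U, x = y + (u : V) := by
    intro x
    have hx : x ∈ C ⊔ U := by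
      rw [codisjoint_iff.mp hcompl.codisjoint]
      trivial
    obtain ⟨y, hy, z, hz, rfl⟩ := Submodule.mem_sup.mp hx
    exact ⟨y, hy, ⟨z, hz⟩, rfl⟩
  refine ⟨N, v + (u₀ : V), ?_, ?_⟩
  · change N * T = T * N
    apply LinearMap.ext
    intro x
    obtain ⟨y, hy, u, rfl⟩ := hdec x
    rw [Module.End.mul_apply, Module.End.mul_apply, map_add, map_add, map_add, map_add]
    congr 1
    · rw [hNC _ (hCT y hy), hNC y hy, map_add, map_smul]
      congr 1
      rw [hT, hT, map_add, map_smul]
    · have h1 : T (u : V) = ((T.restrict hUT u : U) : V) := rfl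
      rw [h1, hNU, hNU]
      have h2 := LinearMap.congr_fun hcom.eq u
      rw [Module.End.mul_apply, Module.End.mul_apply] at h2
      rw [h2]
      rfl
  · intro W hW hNW
    -- powers of `N - c` on `v`
    have hpow : ∀ k : ℕ, ((N - c • 1) ^ k) v = (D ^ k) v := by
      intro k
      induction k with
      | zero => simp
      | succ k ih =>
        rw [pow_succ', pow_succ', Module.End.mul_apply, Module.End.mul_apply, ih]
        rw [LinearMap.sub_apply, hNC _ (hCpow k)]
        simp
    have haev : ∀ (p : Polynomial ℂ) (u : U), Polynomial.aeval N p (u : V) =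
        ((Polynomial.aeval NU p u : U) : V) := by
      intro p u
      have hk : ∀ k : ℕ, (N ^ k) (u : V) = (((NU ^ k) u : U) : V) := by
        intro k
        induction k with
        | zero => simp
        | succ k ih =>
          rw [pow_succ', pow_succ', Module.End.mul_apply, Module.End.mul_apply, ih, hNU]
      rw [Polynomial.aeval_eq_sum_range, Polynomial.aeval_eq_sum_range, LinearMap.sum_apply,
        LinearMap.sum_apply, AddSubmonoidClass.coe_finsetSum]
      refine Finset.sum_congr rfl fun k _ => ?_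
      rw [LinearMap.smul_apply, LinearMap.smul_apply, hk]
      rfl
    have h1 : Polynomial.aeval N g (v + (u₀ : V)) ∈ W := aeval_mem N W hNW g hW
    rw [map_add, haev, hgN, LinearMap.zero_apply, Submodule.coe_zero, add_zero] at h1
    have hcop : IsCoprime ((Polynomial.X - Polynomial.C c) ^ m) g := by
      apply IsCoprime.pow_left
      rw [(Polynomial.irreducible_X_sub_C c).coprime_iff_not_dvd, Polynomial.dvd_iff_isRoot]
      exact hc
    obtain ⟨a, b, hab⟩ := hcop
    have hvW : v ∈ W := by
      have h2 : Polynomial.aeval N (a * (Polynomial.X - Polynomial.C c) ^ m + b * g) v = v := by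
        rw [hab]
        simp
      rw [map_add, LinearMap.add_apply, map_mul, map_mul, Module.End.mul_apply,
        Module.End.mul_apply] at h2
      have h3 : Polynomial.aeval N ((Polynomial.X - Polynomial.C c) ^ m) v = 0 := by
        have h4 : Polynomial.aeval N ((Polynomial.X - Polynomial.C c) ^ m) =
            (N - c • (1 : Module.End ℂ V)) ^ m := by
          rw [map_pow, map_sub, Polynomial.aeval_X, Polynomial.aeval_C, Algebra.algebraMap_eq_smul_one]
        rw [h4, hpow, hv]
      rw [h3, map_zero, zero_add] at h2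
      rw [← h2]
      exact aeval_mem N W hNW b h1
    have huW : (u₀ : V) ∈ W := by
      have := W.sub_mem hW hvW
      simpa using this
    have hUW : ∀ u : U, (u : V) ∈ W := by
      have h2 := hcyc (W.comap U.subtype) huW (by
        intro x hx
        have := hNW _ hx
        change ((NU x : U) : V) ∈ W
        rw [← hNU]
        exact this)
      intro u
      have h3 : u ∈ W.comap U.subtype := by rw [h2]; trivial
      exact h3
    have hDW : ∀ k, (D ^ k) v ∈ W := by
      intro k
      rw [← hpow k]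
      induction k with
      | zero => simpa using hvW
      | succ k ih =>
        rw [pow_succ', Module.End.mul_apply, LinearMap.sub_apply]
        exact W.sub_mem (hNW _ ih) (by
          rw [LinearMap.smul_apply]
          exact W.smul_mem _ ih)
    rw [eq_top_iff]
    intro x _
    obtain ⟨y, hy, u, rfl⟩ := hdec x
    refine W.add_mem ?_ (hUW u)
    obtain ⟨a, rfl⟩ := hy
    rw [hα]
    exact W.sum_mem fun k _ => W.smul_mem _ (hDW _)

/-- Every matrix commutes with a cyclic matrix. -/
theorem exists_cyclic {d : ℕ} (B : Mat d ℂ) :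
    ∃ (N : Mat d ℂ) (v : Fin d → ℂ), N * B = B * N ∧ IsUnit (kry N v) := by
  obtain ⟨N, v, h1, h2⟩ := cyc_aux d (Fin d → ℂ) (Matrix.toLin' B) (by simp)
  refine ⟨LinearMap.toMatrix' N, v, ?_, ?_⟩
  · have h3 := congrArg LinearMap.toMatrix' h1.eq
    rw [LinearMap.toMatrix'_mul, LinearMap.toMatrix'_mul, LinearMap.toMatrix'_toLin'] at h3
    exact h3
  · rw [← Matrix.mulVec_surjective_iff_isUnit]
    intro w
    obtain ⟨M, hM⟩ : ∃ M : Mat d ℂ, M = LinearMap.toMatrix' N := ⟨_, rfl⟩
    rw [← hM]
    have hMN : ∀ x, N x = M *ᵥ x := by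
      intro x
      rw [hM]
      simp [LinearMap.toMatrix'_mulVec]
    have h3 : (LinearMap.range (LinearMap.applyₗ v ∘ₗ
        (Polynomial.aeval N : Polynomial ℂ →ₐ[ℂ] _).toLinearMap) : Submodule ℂ (Fin d → ℂ)) = ⊤ := by
      apply h2
      · exact ⟨1, by simp⟩
      · rintro _ ⟨p, rfl⟩
        refine ⟨Polynomial.X * p, ?_⟩
        simp [Module.End.mul_apply]
    have h4 : w ∈ (LinearMap.range (LinearMap.applyₗ v ∘ₗ
        (Polynomial.aeval N : Polynomial ℂ →ₐ[ℂ] _).toLinearMap) : Submodule ℂ (Fin d → ℂ)) := by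
      rw [h3]
      trivial
    obtain ⟨p, hp⟩ := h4
    have hp' : Polynomial.aeval N p v = w := hp
    have hmonic := LinearMap.charpoly_monic N
    have e1 := Polynomial.modByMonic_add_div p N.charpoly
    have hdeg : (p %ₘ N.charpoly).degree < (d : WithBot ℕ) := by
      have := Polynomial.degree_modByMonic_lt p hmonic
      rwa [Polynomial.degree_eq_natDegree hmonic.ne_zero, LinearMap.charpoly_natDegree,
        Module.finrank_fin_fun] at this
    have e2 : Polynomial.aeval N p = Polynomial.aeval N (p %ₘ N.charpoly) := by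
      conv_lhs => rw [← e1]
      rw [map_add, map_mul, LinearMap.aeval_self_charpoly, zero_mul, add_zero]
    rw [e2] at hp'
    obtain ⟨q, hq⟩ : ∃ q, q = p %ₘ N.charpoly := ⟨_, rfl⟩
    rw [← hq] at hp' hdeg
    refine ⟨fun j => q.coeff j, ?_⟩
    have hsum : Polynomial.aeval N q = ∑ i ∈ Finset.range d, q.coeff i • N ^ i := by
      by_cases hq0 : q = 0
      · rw [hq0]
        simp
      · exact Polynomial.aeval_eq_sum_range' ((Polynomial.natDegree_lt_iff_degree_lt hq0).mpr hdeg) N
    rw [← hp', hsum, LinearMap.sum_apply, Finset.sum_range]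
    ext i
    rw [Matrix.mulVec, dotProduct, Finset.sum_apply]
    refine Finset.sum_congr rfl fun j _ => ?_
    rw [LinearMap.smul_apply, Pi.smul_apply, smul_eq_mul, mul_comm]
    congr 1
    have hpow : ∀ k : ℕ, (N ^ k) v = (M ^ k) *ᵥ v := by
      intro k
      induction k with
      | zero => simp
      | succ k ih => rw [pow_succ', pow_succ', Module.End.mul_apply, ih, hMN, mulVec_mulVec]
    rw [hpow]
    rfl

end Vale.Agent.P002B.QB
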