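import Vale.Agent.P002.Defs

/-!
# q-commuting pairs, part 3: roots of matrices and the structure of q-commuting pairs
-/

namespace Vale.Agent.P002B.QB

open Matrix Vale.Agent.P002
open scoped Kronecker

theorem charpoly_dvd_pow {d : ℕ} (X : Mat d ℂ) (g : Polynomial ℂ)
    (hg : ∀ z ∈ X.charpoly.roots, g.eval z = 0) : ∃ k : ℕ, X.charpoly ∣ g ^ k := by
  have hs : X.charpoly.Splits := IsAlgClosed.splits _
  rw [hs.eq_prod_roots_of_monic (Matrix.charpoly_monic X)]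
  generalize X.charpoly.roots = s at hg ⊢
  induction s using Multiset.induction_on with
  | empty => exact ⟨0, by simp⟩
  | cons a s ih =>
    obtain ⟨k, hk⟩ := ih fun z hz => hg z (Multiset.mem_cons_of_mem hz)
    refine ⟨k + 1, ?_⟩
    rw [Multiset.map_cons, Multiset.prod_cons, pow_succ']
    exact mul_dvd_mul (Polynomial.dvd_iff_isRoot.mpr (hg a (Multiset.mem_cons_self a s))) hk

theorem exists_root {d : ℕ} (X : Mat d ℂ) (hX : IsUnit X) {n : ℕ} (hn : 0 < n) :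
    ∃ p : Polynomial ℂ, (Polynomial.aeval X p) ^ n = X := by
  classical
  obtain ⟨χ, hχ⟩ : ∃ χ, χ = X.charpoly := ⟨_, rfl⟩
  have hχ0 : χ.coeff 0 ≠ 0 := by
    rw [hχ, Polynomial.coeff_zero_eq_eval_zero, Matrix.eval_charpoly]
    have h1 : (Matrix.scalar (Fin d)) (0 : ℂ) - X = -X := by simp
    rw [h1, Matrix.det_neg]
    have h2 : X.det ≠ 0 := ((Matrix.isUnit_iff_isUnit_det _).mp hX).ne_zero
    exact mul_ne_zero (pow_ne_zero _ (by norm_num)) h2
  choose ρ hρ using fun z : ℂ => IsAlgClosed.exists_pow_nat_eq z hn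
  obtain ⟨c₀, hc₀⟩ : ∃ c₀ : Polynomial ℂ, c₀ = Lagrange.interpolate χ.roots.toFinset id ρ :=
    ⟨_, rfl⟩
  have hc : ∀ z ∈ χ.roots, c₀.eval z = ρ z := by
    intro z hz
    rw [hc₀]
    have h1 := Lagrange.eval_interpolate_at_node (s := χ.roots.toFinset) (v := id) ρ
      (i := z) (Function.injective_id.injOn) (Multiset.mem_toFinset.mpr hz)
    simpa using h1
  obtain ⟨k, hk⟩ := charpoly_dvd_pow X (c₀ ^ n - Polynomial.X) (by
    intro z hz
    rw [← hχ] at hz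
    rw [Polynomial.eval_sub, Polynomial.eval_pow, Polynomial.eval_X, hc z hz, hρ, sub_self])
  rw [← hχ] at hk
  obtain ⟨x, hx⟩ : ∃ x : AdjoinRoot χ, x = AdjoinRoot.root χ := ⟨_, rfl⟩
  obtain ⟨x₀, hx₀⟩ : ∃ x₀ : AdjoinRoot χ, x₀ = AdjoinRoot.mk χ c₀ := ⟨_, rfl⟩
  have hnil : IsNilpotent (x₀ ^ n - x) := by
    refine ⟨k, ?_⟩
    rw [hx₀, hx, ← AdjoinRoot.mk_X, ← map_pow, ← map_sub, ← map_pow, AdjoinRoot.mk_eq_zero]
    exact hk
  have hxu : IsUnit x := by
    have h1 : AdjoinRoot.mk χ (χ.divX * Polynomial.X + Polynomial.C (χ.coeff 0)) = 0 := by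
      rw [Polynomial.divX_mul_X_add]
      exact AdjoinRoot.mk_self
    rw [map_add, map_mul, AdjoinRoot.mk_X, ← hx] at h1
    have h2 : IsUnit (AdjoinRoot.mk χ (Polynomial.C (χ.coeff 0))) :=
      (Polynomial.isUnit_C.mpr (isUnit_iff_ne_zero.mpr hχ0)).map _
    have h3 : AdjoinRoot.mk χ χ.divX * x = - AdjoinRoot.mk χ (Polynomial.C (χ.coeff 0)) :=
      eq_neg_of_add_eq_zero_left h1
    exact isUnit_of_mul_isUnit_right (h3 ▸ h2.neg)
  have hx₀u : IsUnit x₀ := by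
    have h1 : IsUnit (x₀ ^ n) := by
      have h2 := hnil.isUnit_add_left_of_commute hxu (Commute.all _ _)
      have h3 : x + (x₀ ^ n - x) = x₀ ^ n := by ring
      rwa [h3] at h2
    exact (isUnit_pow_iff hn.ne').mp h1
  obtain ⟨P, hP⟩ : ∃ P : Polynomial (AdjoinRoot χ), P = Polynomial.X ^ n - Polynomial.C x :=
    ⟨_, rfl⟩
  have hnu : IsUnit ((n : AdjoinRoot χ)) := by
    have h1 : IsUnit (AdjoinRoot.mk χ (Polynomial.C (n : ℂ))) :=
      (Polynomial.isUnit_C.mpr (isUnit_iff_ne_zero.mpr (Nat.cast_ne_zero.mpr hn.ne'))).map _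
    simpa using h1
  obtain ⟨r, ⟨-, hr⟩, -⟩ := Polynomial.existsUnique_nilpotent_sub_and_aeval_eq_zero
    (P := P) (x := x₀) (by
      rw [hP]
      simpa using hnil) (by
      rw [hP]
      simp only [Polynomial.derivative_sub, Polynomial.derivative_X_pow, Polynomial.derivative_C,
        sub_zero, map_mul, map_pow, Polynomial.aeval_X, map_natCast]
      exact hnu.mul (hx₀u.pow _))
  have hr' : r ^ n = x := by
    rw [hP] at hr
    simp only [map_sub, map_pow, Polynomial.aeval_X, Polynomial.aeval_C] at hr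
    exact sub_eq_zero.mp hr
  obtain ⟨p, rfl⟩ := AdjoinRoot.mk_surjective r
  refine ⟨p, ?_⟩
  rw [hx, ← AdjoinRoot.mk_X, ← map_pow, AdjoinRoot.mk_eq_mk, hχ] at hr'
  obtain ⟨w, hw⟩ := hr'
  have h1 := congrArg (Polynomial.aeval X) hw
  rw [map_mul, Matrix.aeval_self_charpoly, zero_mul, map_sub, map_pow, Polynomial.aeval_X] at h1
  exact sub_eq_zero.mp h1

theorem gsum {q : ℂ} {n : ℕ} (h1 : q ^ n = 1) (h2 : q ≠ 1) : ∑ i ∈ Finset.range n, q ^ i = 0 := by
  have h := geom_sum_mul q n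
  rw [h1, sub_self] at h
  exact (mul_eq_zero.mp h).resolve_right (sub_ne_zero.mpr h2)

end Vale.Agent.P002B.QB
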