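import Vale.Agent.P002B.Star1A2

/-!
# P002B, T13a: `Star1Stmt` from `GenStmt`
-/

namespace Vale.Agent.P002B

open Matrix Module Vale.Agent.P002

section word

variable {d : ℕ}

/-- The surface word with adjugates instead of inverses. -/
def wdA {S : Type*} [CommRing S] {n : ℕ} (A B : Fin n → Matrix (Fin d) (Fin d) S) :
    Matrix (Fin d) (Fin d) S :=
  (List.ofFn fun i => A i * B i * (A i).adjugate * (B i).adjugate).prod

/-- The product of the determinants. -/
def dtA {S : Type*} [CommRing S] {n : ℕ} (A B : Fin n → Matrix (Fin d) (Fin d) S) : S :=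
  (List.ofFn fun i => (A i).det * (B i).det).prod

theorem wdA_map {S S' : Type*} [CommRing S] [CommRing S'] (φ : S →+* S') {n : ℕ}
    (A B : Fin n → Matrix (Fin d) (Fin d) S) :
    (wdA A B).map φ = wdA (fun i => (A i).map φ) (fun i => (B i).map φ) := by
  show φ.mapMatrix (wdA A B) = _
  rw [wdA, wdA, map_list_prod, List.map_ofFn]
  congr 2
  funext i
  simp only [Function.comp, map_mul, RingHom.map_adjugate]
  rfl

theorem dtA_map {S S' : Type*} [CommRing S] [CommRing S'] (φ : S →+* S') {n : ℕ}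
    (A B : Fin n → Matrix (Fin d) (Fin d) S) :
    φ (dtA A B) = dtA (fun i => (A i).map φ) (fun i => (B i).map φ) := by
  rw [dtA, dtA, map_list_prod, List.map_ofFn]
  congr 2
  funext i
  simp only [Function.comp, map_mul, RingHom.map_det]
  rfl

theorem adj_unit (a : (Mat d ℂ)ˣ) : (a : Mat d ℂ).adjugate = (a : Mat d ℂ).det • ((a⁻¹ : (Mat d ℂ)ˣ) : Mat d ℂ) := by
  have h1 := Matrix.mul_adjugate (a : Mat d ℂ)
  calc (a : Mat d ℂ).adjugate = ((a⁻¹ : (Mat d ℂ)ˣ) : Mat d ℂ) * ((a : Mat d ℂ) * (a : Mat d ℂ).adjugate) := by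
        rw [← Matrix.mul_assoc, Units.inv_mul, Matrix.one_mul]
    _ = _ := by rw [h1, Matrix.mul_smul, Matrix.mul_one]

theorem wdA_units : ∀ {n : ℕ} (a b : Fin n → (Mat d ℂ)ˣ),
    wdA (fun i => (a i : Mat d ℂ)) (fun i => (b i : Mat d ℂ)) =
      dtA (fun i => (a i : Mat d ℂ)) (fun i => (b i : Mat d ℂ)) • ((swd a b : (Mat d ℂ)ˣ) : Mat d ℂ) := by
  intro n
  induction n with
  | zero =>
    intro a b
    simp [wdA, dtA, swd]
  | succ n ih =>
    intro a b
    have h1 := ih (fun i => a i.succ) (fun i => b i.succ)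
    have e1 : wdA (fun i => (a i : Mat d ℂ)) (fun i => (b i : Mat d ℂ)) =
        ((a 0 : Mat d ℂ) * b 0 * (a 0 : Mat d ℂ).adjugate * (b 0 : Mat d ℂ).adjugate) *
          wdA (fun i : Fin n => (a i.succ : Mat d ℂ)) (fun i => (b i.succ : Mat d ℂ)) := by
      rw [wdA, List.ofFn_succ, List.prod_cons]
      rfl
    have e2 : dtA (fun i => (a i : Mat d ℂ)) (fun i => (b i : Mat d ℂ)) =
        ((a 0 : Mat d ℂ).det * (b 0 : Mat d ℂ).det) *
          dtA (fun i : Fin n => (a i.succ : Mat d ℂ)) (fun i => (b i.succ : Mat d ℂ)) := by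
      rw [dtA, List.ofFn_succ, List.prod_cons]
      rfl
    have e3 : (swd a b : (Mat d ℂ)ˣ) = (a 0 * b 0 * (a 0)⁻¹ * (b 0)⁻¹) *
        swd (fun i : Fin n => a i.succ) (fun i => b i.succ) := by
      rw [swd, List.ofFn_succ, List.prod_cons]
      rfl
    rw [e1, e2, e3, h1, adj_unit, adj_unit, Units.val_mul, Units.val_mul, Units.val_mul,
      Units.val_mul]
    simp only [Matrix.mul_smul, Matrix.smul_mul, smul_smul]
    congr 1
    ring

theorem dtA_ne {n : ℕ} (a b : Fin n → (Mat d ℂ)ˣ) :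
    dtA (fun i => (a i : Mat d ℂ)) (fun i => (b i : Mat d ℂ)) ≠ 0 := by
  rw [dtA]
  refine List.prod_ne_zero fun h0 => ?_
  rw [List.mem_ofFn] at h0
  obtain ⟨i, hi⟩ := h0
  have h1 : (a i : Mat d ℂ).det ≠ 0 := ((Matrix.isUnit_iff_isUnit_det _).1 (a i).isUnit).ne_zero
  have h2 : (b i : Mat d ℂ).det ≠ 0 := ((Matrix.isUnit_iff_isUnit_det _).1 (b i).isUnit).ne_zero
  exact mul_ne_zero h1 h2 hi

theorem det_swd {n : ℕ} (a b : Fin n → (Mat d ℂ)ˣ) : ((swd a b : (Mat d ℂ)ˣ) : Mat d ℂ).det = 1 := by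
  have h1 : Units.map (Matrix.detMonoidHom (n := Fin d) (R := ℂ)) (swd a b) = 1 := by
    rw [swd, map_list_prod, List.map_ofFn]
    refine List.prod_eq_one fun x hx => ?_
    rw [List.mem_ofFn] at hx
    obtain ⟨i, rfl⟩ := hx
    simp only [Function.comp, map_mul, map_inv]
    rw [mul_comm (Units.map _ (a i)) (Units.map _ (b i)), mul_assoc, mul_assoc, mul_inv_cancel_left]
    simp
  exact congrArg (fun x : ℂˣ => (x : ℂ)) h1

end word

/-- A matrix which is scalar up to one entry. -/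
theorem scalar_of_entries {e : ℕ} {M : Mat (e + 1) ℂ} {z : ℂ} (hz : z ^ (e + 1) = 1)
    (hdet : M.det = 1) (h : ∀ p q, ¬ (p = 0 ∧ q = 0) → M p q = if p = q then z else 0) :
    M = z • (1 : Mat (e + 1) ℂ) := by
  have hM : M = Matrix.diagonal (Fin.cons (M 0 0) fun _ => z) := by
    ext p q
    by_cases hpq : p = q
    · subst hpq
      rw [Matrix.diagonal_apply_eq]
      refine Fin.cases ?_ (fun i => ?_) p
      · rfl
      · rw [Fin.cons_succ, h _ _ fun hh => Fin.succ_ne_zero i hh.1, if_pos rfl]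
    · rw [Matrix.diagonal_apply_ne _ hpq, h _ _ fun hh => hpq (hh.1.trans hh.2.symm), if_neg hpq]
  have h1 := hdet
  rw [hM, Matrix.det_diagonal, Fin.prod_univ_succ] at h1
  simp only [Fin.cons_zero, Fin.cons_succ, Finset.prod_const, Finset.card_univ,
    Fintype.card_fin] at h1
  have hz0 : z ^ e ≠ 0 := by
    intro h0
    rw [pow_succ, h0, zero_mul] at hz
    exact zero_ne_one hz
  have h2 : M 0 0 = z := by
    have h3 : M 0 0 * z ^ e = z * z ^ e := by rw [h1, ← hz, pow_succ, mul_comm]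
    exact mul_right_cancel₀ hz0 h3
  ext p q
  rw [Matrix.smul_apply, Matrix.one_apply, smul_eq_mul, mul_ite, mul_one, mul_zero]
  by_cases hpq : p = 0 ∧ q = 0
  · rw [hpq.1, hpq.2, h2, if_pos rfl]
  · exact h p q hpq

/-- **T13a** -/
theorem star1 (h : GenStmt) : Star1Stmt := by
  classical
  intro g d hd z a b hab f hf
  obtain ⟨e, rfl⟩ : ∃ e, d = e + 1 := ⟨d - 1, by omega⟩
  obtain ⟨K₀, hK₀, hs⟩ := exists_countable_subfield' (insert z (f.coeffs : Set ℂ))
    ((Finset.countable_toSet _).insert z)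
  have hzK : z ∈ K₀ := hs (Set.mem_insert _ _)
  obtain ⟨z₀, hz₀⟩ : ∃ z₀ : K₀, (z₀ : ℂ) = z := ⟨⟨z, hzK⟩, rfl⟩
  obtain ⟨f₀, hf₀⟩ : ∃ f₀ : MvPolynomial ((Fin (g + 2) × Bool) × Fin (e + 1) × Fin (e + 1)) K₀,
      MvPolynomial.map (algebraMap K₀ ℂ) f₀ = f := by
    have h1 : f ∈ Set.range (MvPolynomial.map (algebraMap K₀ ℂ)) := by
      rw [MvPolynomial.mem_range_map_iff_coeffs_subset]
      intro t ht
      exact ⟨⟨t, hs (Set.mem_insert_of_mem _ ht)⟩, rfl⟩
    exact h1
  -- polynomial matrices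
  obtain ⟨PX, hPX⟩ : ∃ PX : Bool → Fin (g + 2) → Matrix (Fin (e + 1)) (Fin (e + 1))
      (MvPolynomial ((Fin (g + 2) × Bool) × Fin (e + 1) × Fin (e + 1)) K₀),
      ∀ s i p q, PX s i p q = MvPolynomial.X ((i, s), p, q) :=
    ⟨fun s i => Matrix.of fun p q => MvPolynomial.X ((i, s), p, q), fun s i p q => rfl⟩
  obtain ⟨MY, hMY⟩ : ∃ MY : ((Fin (g + 2) × Bool) × Fin (e + 1) × Fin (e + 1) → ℂ) → Bool →
      Fin (g + 2) → Mat (e + 1) ℂ, ∀ Y s i p q, MY Y s i p q = Y ((i, s), p, q) :=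
    ⟨fun Y s i => Matrix.of fun p q => Y ((i, s), p, q), fun Y s i p q => rfl⟩
  obtain ⟨ev, hev⟩ : ∃ ev : ((Fin (g + 2) × Bool) × Fin (e + 1) × Fin (e + 1) → ℂ) →
      MvPolynomial ((Fin (g + 2) × Bool) × Fin (e + 1) × Fin (e + 1)) K₀ →+* ℂ,
      ∀ Y G, ev Y G = MvPolynomial.aeval Y G := ⟨fun Y => (MvPolynomial.aeval Y).toRingHom,
      fun Y G => rfl⟩
  have hevP : ∀ Y s, (fun i => (PX s i).map (ev Y)) = MY Y s := by
    intro Y s
    funext i
    ext p q
    rw [Matrix.map_apply, hPX, hev, hMY, MvPolynomial.aeval_X]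
  have hwd : ∀ Y, (wdA (PX false) (PX true)).map (ev Y) = wdA (MY Y false) (MY Y true) := fun Y => by
    rw [wdA_map, hevP, hevP]
  have hdt : ∀ Y, ev Y (dtA (PX false) (PX true)) = dtA (MY Y false) (MY Y true) := fun Y => by
    rw [dtA_map, hevP, hevP]
  obtain ⟨x, hx⟩ : ∃ x : (Fin (g + 2) × Bool) × Fin (e + 1) × Fin (e + 1) → ℂ, ∀ t, x t =
      ((if t.1.2 then b t.1.1 else a t.1.1 : (Mat (e + 1) ℂ)ˣ) : Mat (e + 1) ℂ) t.2.1 t.2.2 :=
    ⟨_, fun t => rfl⟩
  have hxa : MY x false = fun i => (a i : Mat (e + 1) ℂ) := by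
    funext i
    ext p q
    rw [hMY, hx]
    rfl
  have hxb : MY x true = fun i => (b i : Mat (e + 1) ℂ) := by
    funext i
    ext p q
    rw [hMY, hx]
    rfl
  -- the equations
  obtain ⟨F, hF⟩ : ∃ F : {s : Fin (e + 1) × Fin (e + 1) // s ≠ (0, 0)} →
      MvPolynomial ((Fin (g + 2) × Bool) × Fin (e + 1) × Fin (e + 1)) K₀, ∀ s,
      F s = wdA (PX false) (PX true) s.1.1 s.1.2 -
        (if s.1.1 = s.1.2 then MvPolynomial.C z₀ else 0) * dtA (PX false) (PX true) :=
    ⟨_, fun s => rfl⟩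
  have hFev : ∀ Y s, MvPolynomial.aeval Y (F s) = wdA (MY Y false) (MY Y true) s.1.1 s.1.2 -
      (if s.1.1 = s.1.2 then z else 0) * dtA (MY Y false) (MY Y true) := by
    intro Y s
    rw [← hev, hF, map_sub, map_mul, hdt, ← hwd, Matrix.map_apply]
    congr 2
    split_ifs
    · rw [hev, MvPolynomial.aeval_C, ← hz₀]
      rfl
    · rw [map_zero]
  have hFx : ∀ s, MvPolynomial.aeval x (F s) = 0 := by
    intro s
    rw [hFev, hxa, hxb, wdA_units, hab, Matrix.smul_apply, Matrix.smul_apply, Matrix.one_apply]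
    split_ifs
    · rw [smul_eq_mul, smul_eq_mul]
      ring
    · rw [smul_zero, smul_zero, zero_mul, sub_zero]
  obtain ⟨Y, T, c, h1, h2, h3, h4⟩ := h K₀ hK₀ (τ := Fin (e + 1) × Fin (e + 1)) F x hFx
  -- the matrices of the generic point are invertible
  have hdet : ∀ s i, (MY Y s i).det ≠ 0 := by
    intro s i h0
    have h5 : ∀ Y, MvPolynomial.aeval Y (PX s i).det = (MY Y s i).det := by
      intro Y
      rw [← hev, RingHom.map_det]
      exact congrArg Matrix.det (congrFun (hevP Y s) i)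
    have h6 := h1 _ ((h5 Y).trans h0)
    rw [h5] at h6
    cases s
    · rw [hxa] at h6
      exact ((Matrix.isUnit_iff_isUnit_det _).1 (a i).isUnit).ne_zero h6
    · rw [hxb] at h6
      exact ((Matrix.isUnit_iff_isUnit_det _).1 (b i).isUnit).ne_zero h6
  have hun : ∀ s i, ∃ u : (Mat (e + 1) ℂ)ˣ, (u : Mat (e + 1) ℂ) = MY Y s i := fun s i =>
    (Matrix.isUnit_iff_isUnit_det _).2 (isUnit_iff_ne_zero.2 (hdet s i))
  choose w hw using hun
  have hwa : MY Y false = fun i => (w false i : Mat (e + 1) ℂ) := funext fun i => (hw _ _).symm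
  have hwb : MY Y true = fun i => (w true i : Mat (e + 1) ℂ) := funext fun i => (hw _ _).symm
  -- the relation
  have hswd : ((swd (w false) (w true) : (Mat (e + 1) ℂ)ˣ) : Mat (e + 1) ℂ) =
      z • (1 : Mat (e + 1) ℂ) := by
    refine scalar_of_entries ?_ (det_swd _ _) fun p q hpq => ?_
    · have h5 := det_swd a b
      rw [hab, Matrix.det_smul, Matrix.det_one, mul_one, Fintype.card_fin] at h5
      exact h5
    · have h5 := h2 ⟨(p, q), fun hh => hpq ⟨(Prod.mk.inj hh).1, (Prod.mk.inj hh).2⟩⟩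
      rw [hFev, hwa, hwb, wdA_units, Matrix.smul_apply, smul_eq_mul, mul_comm, ← sub_mul] at h5
      exact sub_eq_zero.1 ((mul_eq_zero.1 h5).resolve_right (dtA_ne _ _))
  -- conclusion from the vanishing at the generic point
  have hfin : evH f (w false) (w true) = 0 → evH f a b = 0 := by
    intro h5
    have h6 : ∀ Y, MvPolynomial.eval Y f = MvPolynomial.aeval Y f₀ := by
      intro Y
      rw [← hf₀, MvPolynomial.eval_map, MvPolynomial.aeval_def]
    have h7 : evH f (w false) (w true) = MvPolynomial.eval Y f := by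
      unfold evH
      congr 1
      congr 1
      funext t
      obtain ⟨⟨i, s⟩, p, q⟩ := t
      cases s
      · show (w false i : Mat (e + 1) ℂ) p q = _
        rw [hw, hMY]
      · show (w true i : Mat (e + 1) ℂ) p q = _
        rw [hw, hMY]
    have h8 : evH f a b = MvPolynomial.eval x f := by
      unfold evH
      congr 1
      congr 1
      funext t
      exact (hx t).symm
    rw [h8, h6]
    refine h1 _ ?_
    rw [← h6, ← h7, h5]
  refine hfin (hf _ _ hswd fun i X hXa hXb => ?_)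
  -- the dimension count
  obtain ⟨E, hE⟩ : ∃ E : ((Fin (g + 2) × Bool) × Fin (e + 1) × Fin (e + 1) → ℂ) →ₗ[ℂ]
      (Fin (g + 2) → Bool → Mat (e + 1) ℂ), ∀ H i s p q, E H i s p q = H ((i, s), p, q) :=
    ⟨{ toFun := fun H i s => Matrix.of fun p q => H ((i, s), p, q)
       map_add' := fun H H' => rfl
       map_smul' := fun c H => rfl }, fun H i s p q => rfl⟩
  have hEinj : Function.Injective E := by
    intro H H' hh
    funext t
    obtain ⟨⟨i, s⟩, p, q⟩ := t
    have h5 := congrFun (congrFun (congrFun (congrFun hh i) s) p) q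
    rwa [hE, hE] at h5
  refine count_handles (a := w false) (b := w true) hswd (T.map E) c ?_ ?_ i X hXa hXb
  · rintro _ ⟨H, hH, rfl⟩ γ
    obtain ⟨δ, hδ1, hδ2, hδ3⟩ := h4 H hH γ
    refine ⟨δ, hδ1 z hzK, fun i p q => ?_, fun i p q => ?_, hδ3⟩
    · rw [hw, hMY, hδ2, hE]
    · rw [hw, hMY, hδ2, hE]
  · rw [finrank_map_inj E hEinj]
    have h5 : Fintype.card {s : Fin (e + 1) × Fin (e + 1) // s ≠ (0, 0)} + 1 = (e + 1) * (e + 1) := by
      have h6 := Fintype.card_subtype_compl (fun s : Fin (e + 1) × Fin (e + 1) => s = (0, 0))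
      rw [Fintype.card_subtype_eq, Fintype.card_prod, Fintype.card_fin] at h6
      have h7 : Fintype.card {s : Fin (e + 1) × Fin (e + 1) // s ≠ (0, 0)} =
          Fintype.card {s : Fin (e + 1) × Fin (e + 1) // ¬ s = (0, 0)} := rfl
      have h8 : 0 < (e + 1) * (e + 1) := by positivity
      omega
    rw [Fintype.card_prod, Fintype.card_prod, Fintype.card_prod, Fintype.card_fin, Fintype.card_bool,
      Fintype.card_fin] at h3
    have h6 : (g + 2) * 2 * ((e + 1) * (e + 1)) = (g + 2) * (2 * ((e + 1) * (e + 1))) := by ring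
    omega

end Vale.Agent.P002B
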