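import Vale.Agent.P002B.Stmts2
import Vale.Agent.P002.GenHandle

/-!
# P002B, T13a: linear algebra of one handle
-/

namespace Vale.Agent.P002B

open Matrix Module Vale.Agent.P002

section handle

variable {d : ℕ}

/-- Derivative of the relation `a b = c b a` with `c` constant. -/
noncomputable def hndl (a b c : Mat d ℂ) : (Bool → Mat d ℂ) →ₗ[ℂ] Mat d ℂ :=
  (LinearMap.mulRight ℂ b - LinearMap.mulLeft ℂ (c * b)).comp (LinearMap.proj false) +
    (LinearMap.mulLeft ℂ a - (LinearMap.mulLeft ℂ c).comp (LinearMap.mulRight ℂ a)).comp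
      (LinearMap.proj true)

theorem hndl_apply (a b c : Mat d ℂ) (u : Bool → Mat d ℂ) :
    hndl a b c u = (u false * b - c * b * u false) + (a * u true - c * (u true * a)) := rfl

/-- The commutant of a handle. -/
abbrev Zh (a b : Mat d ℂ) : Submodule ℂ (Mat d ℂ) :=
  centr (fun s : Bool => if s then b else a)

theorem mem_Zh {a b N : Mat d ℂ} : N ∈ Zh a b ↔ Commute N a ∧ Commute N b := by
  rw [Zh, mem_centr]
  constructor
  · intro h
    exact ⟨h false, h true⟩
  · rintro ⟨h1, h2⟩ k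
    cases k
    · exact h1
    · exact h2

theorem finrank_ker_hndl (a b : (Mat d ℂ)ˣ) :
    finrank ℂ (LinearMap.ker (hndl (a : Mat d ℂ) b ((a * b * a⁻¹ * b⁻¹ : (Mat d ℂ)ˣ) : Mat d ℂ))) ≤
      d * d + finrank ℂ (Zh (a : Mat d ℂ) b) := by
  obtain ⟨c, hc⟩ : ∃ c : (Mat d ℂ)ˣ, c = a * b * a⁻¹ * b⁻¹ := ⟨_, rfl⟩
  rw [← hc]
  have hcba : (c : Mat d ℂ) * b * a = a * b := by
    have h1 : c * b * a = a * b := by
      rw [hc]
      group
    exact congrArg (fun x : (Mat d ℂ)ˣ => (x : Mat d ℂ)) h1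
  have h1 := LinearMap.finrank_range_add_finrank_ker (hndl (a : Mat d ℂ) b c)
  have h2 : finrank ℂ (Bool → Mat d ℂ) = 2 * (d * d) := by
    rw [Module.finrank_pi_fintype, Finset.sum_const, Finset.card_univ, Fintype.card_bool, smul_eq_mul,
      Module.finrank_matrix, Fintype.card_fin, Module.finrank_self, mul_one]
  rw [h2] at h1
  have h3 := finrank_annT (LinearMap.range (hndl (a : Mat d ℂ) b c))
  have h4 : finrank ℂ (annT (LinearMap.range (hndl (a : Mat d ℂ) b c))) ≤
      finrank ℂ (Zh (a : Mat d ℂ) b) := by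
    have hinj : Function.Injective (LinearMap.mulLeft ℂ ((a : Mat d ℂ) * b)) := by
      intro N N' h
      have h5 : (a : Mat d ℂ) * b * N = a * b * N' := h
      have h6 := congrArg (fun M : Mat d ℂ => (((a * b)⁻¹ : (Mat d ℂ)ˣ) : Mat d ℂ) * M) h5
      have h7 : (((a * b)⁻¹ : (Mat d ℂ)ˣ) : Mat d ℂ) * ((a : Mat d ℂ) * b) = 1 := by
        rw [← Units.val_mul, Units.inv_mul]
      simp only [← Matrix.mul_assoc] at h6
      rw [Matrix.mul_assoc _ (a : Mat d ℂ) (b : Mat d ℂ), h7, Matrix.one_mul, Matrix.one_mul] at h6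
      exact h6
    rw [← finrank_map_inj _ hinj]
    refine Submodule.finrank_mono ?_
    rintro _ ⟨N, hN, rfl⟩
    have hN' : ∀ u, trace (N * hndl (a : Mat d ℂ) b c u) = 0 := fun u =>
      hN _ (LinearMap.mem_range_self _ u)
    -- first equation
    have e1 : (b : Mat d ℂ) * N = N * (c * b) := by
      refine eq_of_trace_eq fun H => ?_
      have h5 := hN' (fun s => if s then 0 else H)
      rw [hndl_apply] at h5
      simp only [Bool.false_eq_true, if_false, if_true, Matrix.mul_zero, Matrix.zero_mul, sub_zero,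
        add_zero, Matrix.mul_sub, trace_sub] at h5
      rw [sub_eq_zero] at h5
      rw [Matrix.mul_assoc (b : Mat d ℂ), trace_mul_comm (b : Mat d ℂ), Matrix.mul_assoc, h5]
      simp only [Matrix.mul_assoc]
    have e2 : N * (a : Mat d ℂ) = a * (N * c) := by
      refine eq_of_trace_eq fun H => ?_
      have h5 := hN' (fun s => if s then H else 0)
      rw [hndl_apply] at h5
      simp only [Bool.false_eq_true, if_false, if_true, Matrix.mul_zero, Matrix.zero_mul, sub_zero,
        zero_add, Matrix.mul_sub, trace_sub] at h5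
      rw [sub_eq_zero] at h5
      rw [Matrix.mul_assoc, h5, Matrix.mul_assoc (a : Mat d ℂ), trace_mul_comm (a : Mat d ℂ)]
      simp only [Matrix.mul_assoc]
    -- `N` commutes with `a b`
    have e3 : N * ((a : Mat d ℂ) * b) = a * b * N := by
      rw [← Matrix.mul_assoc, e2, Matrix.mul_assoc, Matrix.mul_assoc N, ← e1, Matrix.mul_assoc]
    have e4 : (b : Mat d ℂ) * N * a = N * (a * b) := by
      rw [e1, Matrix.mul_assoc, hcba]
    show (a : Mat d ℂ) * b * N ∈ Zh (a : Mat d ℂ) b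
    rw [mem_Zh]
    have c1 : Commute ((a : Mat d ℂ) * b * N) a := by
      show (a : Mat d ℂ) * b * N * a = a * (a * b * N)
      calc (a : Mat d ℂ) * b * N * a = a * (b * N * a) := by simp only [Matrix.mul_assoc]
        _ = a * (a * b * N) := by rw [e4, e3]
    have c2 : Commute ((a : Mat d ℂ) * b * N) ((a : Mat d ℂ) * (b : Mat d ℂ)) := by
      show (a : Mat d ℂ) * (b : Mat d ℂ) * N * ((a : Mat d ℂ) * (b : Mat d ℂ)) =
        (a : Mat d ℂ) * (b : Mat d ℂ) * ((a : Mat d ℂ) * (b : Mat d ℂ) * N)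
      rw [Matrix.mul_assoc ((a : Mat d ℂ) * (b : Mat d ℂ)), e3]
    refine ⟨c1, ?_⟩
    have c3 := c1.units_inv_right.mul_right c2
    rwa [← Matrix.mul_assoc, Units.inv_mul, Matrix.one_mul] at c3
  omega

end handle

section der

variable {d : ℕ}

/-- Units with entries killed by a derivation. -/
def constU (δ : Derivation ℤ ℂ ℂ) (d : ℕ) : Subgroup (Mat d ℂ)ˣ where
  carrier := {g | (g : Mat d ℂ).map δ = 0}
  mul_mem' := by
    intro g h hg hh
    show ((g * h : (Mat d ℂ)ˣ) : Mat d ℂ).map δ = 0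
    rw [Units.val_mul, map_der_mul]
    have h1 : (g : Mat d ℂ).map δ = 0 := hg
    have h2 : (h : Mat d ℂ).map δ = 0 := hh
    rw [h1, h2, Matrix.zero_mul, Matrix.mul_zero, add_zero]
  one_mem' := by
    ext i j
    show δ ((1 : Mat d ℂ) i j) = 0
    rw [Matrix.one_apply]
    split_ifs <;> simp
  inv_mem' := by
    intro g hg
    have h1 : (g : Mat d ℂ).map δ = 0 := hg
    have h2 : (g : Mat d ℂ) * ((g⁻¹ : (Mat d ℂ)ˣ) : Mat d ℂ) = 1 := Units.mul_inv g
    have h3 := congrArg (fun M : Mat d ℂ => M.map δ) h2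
    simp only [map_der_mul, h1, Matrix.zero_mul, zero_add] at h3
    have h4 : (1 : Mat d ℂ).map δ = 0 := by
      ext i j
      rw [Matrix.map_apply, Matrix.one_apply]
      split_ifs <;> simp
    rw [h4] at h3
    show ((g⁻¹ : (Mat d ℂ)ˣ) : Mat d ℂ).map δ = 0
    calc ((g⁻¹ : (Mat d ℂ)ˣ) : Mat d ℂ).map δ
        = ((g⁻¹ : (Mat d ℂ)ˣ) : Mat d ℂ) * ((g : Mat d ℂ) * ((g⁻¹ : (Mat d ℂ)ˣ) : Mat d ℂ).map δ) := by
          rw [← Matrix.mul_assoc, Units.inv_mul, Matrix.one_mul]
      _ = 0 := by rw [h3, Matrix.mul_zero]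

theorem mem_constU {δ : Derivation ℤ ℂ ℂ} {g : (Mat d ℂ)ˣ} :
    g ∈ constU δ d ↔ (g : Mat d ℂ).map δ = 0 := Iff.rfl

/-- One factor of a product. -/
theorem factor_mem {G : Type*} [Group G] (H : Subgroup G) : ∀ (n : ℕ) (f : Fin n → G) (j : Fin n),
    (∀ k, k ≠ j → f k ∈ H) → (List.ofFn f).prod ∈ H → f j ∈ H := by
  intro n
  induction n with
  | zero => intro f j; exact j.elim0
  | succ n ih =>
    intro f j hk hp
    rw [List.ofFn_succ, List.prod_cons] at hp
    refine Fin.cases (motive := fun j => (∀ k, k ≠ j → f k ∈ H) → f j ∈ H) ?_ ?_ j hk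
    · intro h
      have h1 : (List.ofFn fun i : Fin n => f i.succ).prod ∈ H := by
        refine H.list_prod_mem fun x hx => ?_
        rw [List.mem_ofFn] at hx
        obtain ⟨i, rfl⟩ := hx
        exact h _ (Fin.succ_ne_zero i)
      exact (H.mul_mem_cancel_right h1).1 hp
    · intro j' h
      have h0 : f 0 ∈ H := h 0 (Fin.succ_ne_zero j').symm
      have h1 : (List.ofFn fun i : Fin n => f i.succ).prod ∈ H := (H.mul_mem_cancel_left h0).1 hp
      exact ih (fun i => f i.succ) j' (fun k hk' => h _ fun e => hk' (Fin.succ_injective _ e)) h1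

end der

end Vale.Agent.P002B
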