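import Vale.Agent.P002B.Star1A1

/-!
# P002B, T13a: the dimension count for the handles
-/

namespace Vale.Agent.P002B

open Matrix Module Vale.Agent.P002

variable {g d : ℕ}

/-- Elements of the tangent space supported on one handle. -/
theorem hndl_zero {a b : Fin (g + 2) → (Mat d ℂ)ˣ} {z : ℂ}
    (hab : ((swd a b : (Mat d ℂ)ˣ) : Mat d ℂ) = z • (1 : Mat d ℂ))
    {δ : Derivation ℤ ℂ ℂ} (hz : δ z = 0) {H : Fin (g + 2) → Bool → Mat d ℂ}
    (ha : ∀ i p q, δ ((a i : Mat d ℂ) p q) = H i false p q)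
    (hb : ∀ i p q, δ ((b i : Mat d ℂ) p q) = H i true p q) {j : Fin (g + 2)}
    (hj : ∀ k, k ≠ j → H k = 0) :
    hndl (a j : Mat d ℂ) (b j) ((a j * b j * (a j)⁻¹ * (b j)⁻¹ : (Mat d ℂ)ˣ) : Mat d ℂ) (H j) = 0 := by
  have ha' : ∀ i, (a i : Mat d ℂ).map δ = H i false := fun i => by
    ext p q
    exact ha i p q
  have hb' : ∀ i, (b i : Mat d ℂ).map δ = H i true := fun i => by
    ext p q
    exact hb i p q
  have h1 : (List.ofFn fun i => a i * b i * (a i)⁻¹ * (b i)⁻¹).prod ∈ constU δ d := by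
    rw [mem_constU]
    have h2 : (((List.ofFn fun i => a i * b i * (a i)⁻¹ * (b i)⁻¹).prod : (Mat d ℂ)ˣ) : Mat d ℂ) =
        z • (1 : Mat d ℂ) := hab
    rw [h2]
    ext p q
    rw [Matrix.map_apply, Matrix.smul_apply, Matrix.one_apply, Matrix.zero_apply]
    split_ifs
    · rw [smul_eq_mul, mul_one, hz]
    · rw [smul_zero, map_zero]
  have h3 : a j * b j * (a j)⁻¹ * (b j)⁻¹ ∈ constU δ d := by
    refine factor_mem (constU δ d) _ (fun i => a i * b i * (a i)⁻¹ * (b i)⁻¹) j (fun k hk => ?_) h1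
    have h4 : a k ∈ constU δ d := by
      rw [mem_constU, ha', hj k hk]
      rfl
    have h5 : b k ∈ constU δ d := by
      rw [mem_constU, hb', hj k hk]
      rfl
    exact (constU δ d).mul_mem ((constU δ d).mul_mem ((constU δ d).mul_mem h4 h5)
      ((constU δ d).inv_mem h4)) ((constU δ d).inv_mem h5)
  obtain ⟨c, hc⟩ : ∃ c : (Mat d ℂ)ˣ, c = a j * b j * (a j)⁻¹ * (b j)⁻¹ := ⟨_, rfl⟩
  rw [← hc] at h3 ⊢
  rw [mem_constU] at h3
  have hcba : (c : Mat d ℂ) * b j * a j = a j * b j := by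
    have h1 : c * b j * a j = a j * b j := by
      rw [hc]
      group
    exact congrArg (fun x : (Mat d ℂ)ˣ => (x : Mat d ℂ)) h1
  have h6 := congrArg (fun M : Mat d ℂ => M.map δ) hcba
  simp only [map_der_mul, h3, Matrix.zero_mul, zero_add, ha', hb'] at h6
  rw [hndl_apply]
  have h7 : (H j false * (b j : Mat d ℂ) - (c : Mat d ℂ) * b j * H j false) +
      ((a j : Mat d ℂ) * H j true - c * (H j true * a j)) =
      (H j false * (b j : Mat d ℂ) + a j * H j true) -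
        ((c : Mat d ℂ) * H j true * a j + c * b j * H j false) := by
    rw [← Matrix.mul_assoc (c : Mat d ℂ)]
    abel
  rw [h7, h6, sub_self]

theorem count_handles {a b : Fin (g + 2) → (Mat d ℂ)ˣ} {z : ℂ}
    (hab : ((swd a b : (Mat d ℂ)ˣ) : Mat d ℂ) = z • (1 : Mat d ℂ))
    (T : Submodule ℂ (Fin (g + 2) → Bool → Mat d ℂ)) (c : Fin d × Fin d → ℂ)
    (hgen : ∀ H ∈ T, ∀ γ : Fin d × Fin d → ℂ, ∃ δ : Derivation ℤ ℂ ℂ, δ z = 0 ∧
      (∀ i p q, δ ((a i : Mat d ℂ) p q) = H i false p q) ∧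
      (∀ i p q, δ ((b i : Mat d ℂ) p q) = H i true p q) ∧ ∀ p, δ (c p) = γ p)
    (hdim : (g + 2) * (2 * (d * d)) + 1 ≤ finrank ℂ T + d * d) (i₀ : Fin (g + 2))
    (X : Mat d ℂ) (hXa : Commute X (a i₀ : Mat d ℂ)) (hXb : Commute X (b i₀ : Mat d ℂ)) :
    ∃ c : ℂ, X = c • (1 : Mat d ℂ) := by
  classical
  by_contra hX
  push Not at hX
  obtain ⟨i, -, hi⟩ := Finset.exists_max_image Finset.univ
    (fun i => finrank ℂ (Zh (a i : Mat d ℂ) (b i))) ⟨i₀, Finset.mem_univ i₀⟩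
  -- the handle `i` has non scalar commutant
  have hns : ∃ N ∈ Zh (a i : Mat d ℂ) (b i), ∀ t : ℂ, N ≠ t • (1 : Mat d ℂ) := by
    by_contra hcon
    push Not at hcon
    have h1 : Zh (a i : Mat d ℂ) (b i) ≤ Submodule.span ℂ {(1 : Mat d ℂ)} := by
      intro N hN
      obtain ⟨t, ht⟩ := hcon N hN
      rw [Submodule.mem_span_singleton]
      exact ⟨t, ht.symm⟩
    have h2 : Submodule.span ℂ {(1 : Mat d ℂ)} < Zh (a i₀ : Mat d ℂ) (b i₀) := by
      refine lt_of_le_of_ne ?_ ?_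
      · rw [Submodule.span_singleton_le_iff_mem, mem_Zh]
        exact ⟨Commute.one_left _, Commute.one_left _⟩
      · intro h3
        have h4 : X ∈ Submodule.span ℂ {(1 : Mat d ℂ)} := by
          rw [h3, mem_Zh]
          exact ⟨hXa, hXb⟩
        rw [Submodule.mem_span_singleton] at h4
        obtain ⟨t, ht⟩ := h4
        exact hX t ht.symm
    have h3 := Submodule.finrank_mono h1
    have h4 := Submodule.finrank_lt_finrank_of_lt h2
    have h5 : finrank ℂ (Zh (a i₀ : Mat d ℂ) (b i₀)) ≤ finrank ℂ (Zh (a i : Mat d ℂ) (b i)) :=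
      hi i₀ (Finset.mem_univ _)
    omega
  obtain ⟨j, hj⟩ := exists_ne i
  -- projections
  obtain ⟨evi, hevi⟩ : ∃ e : (Fin (g + 2) → Bool → Mat d ℂ) →ₗ[ℂ] (Bool → Mat d ℂ), ∀ H, e H = H i :=
    ⟨LinearMap.proj i, fun H => rfl⟩
  obtain ⟨evj, hevj⟩ : ∃ e : (Fin (g + 2) → Bool → Mat d ℂ) →ₗ[ℂ] (Bool → Mat d ℂ), ∀ H, e H = H j :=
    ⟨LinearMap.proj j, fun H => rfl⟩
  obtain ⟨rho, hrho⟩ : ∃ e : (Fin (g + 2) → Bool → Mat d ℂ) →ₗ[ℂ]
      ({k : Fin (g + 2) // k ≠ i ∧ k ≠ j} → Bool → Mat d ℂ), ∀ H k, e H k = H k.1 :=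
    ⟨LinearMap.pi fun k => LinearMap.proj k.1, fun H k => rfl⟩
  have hfr : finrank ℂ (Bool → Mat d ℂ) = 2 * (d * d) := by
    rw [Module.finrank_pi_fintype, Finset.sum_const, Finset.card_univ, Fintype.card_bool, smul_eq_mul,
      Module.finrank_matrix, Fintype.card_fin, Module.finrank_self, mul_one]
  have hcard : Fintype.card {k : Fin (g + 2) // k ≠ i ∧ k ≠ j} = g := by
    rw [Fintype.card_subtype]
    have h1 : (Finset.univ.filter fun k : Fin (g + 2) => k ≠ i ∧ k ≠ j) =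
        (Finset.univ.erase i).erase j := by
      ext k
      simp only [Finset.mem_filter, Finset.mem_univ, true_and, Finset.mem_erase, ne_eq, and_true]
      exact and_comm
    rw [h1, Finset.card_erase_of_mem (Finset.mem_erase.2 ⟨hj, Finset.mem_univ _⟩),
      Finset.card_erase_of_mem (Finset.mem_univ _), Finset.card_univ, Fintype.card_fin]
    rfl
  -- first estimate
  have E1 : finrank ℂ (T.map evi) + finrank ℂ (Zh (a i : Mat d ℂ) (b i)) ≤ 2 * (d * d) := by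
    have h1 := count_main (κ := Bool) (by rw [Fintype.card_bool])
      (fun s : Bool => if s then (b i : Mat d ℂ) else a i) c (T.map evi) (by
        rintro u ⟨H, hH, rfl⟩ γ
        obtain ⟨δ, -, ha, hb, hc⟩ := hgen H hH γ
        refine ⟨δ, fun k p q => ?_, hc⟩
        rw [hevi]
        cases k
        · exact ha i p q
        · exact hb i p q) hns
    rwa [Fintype.card_bool] at h1
  have E2 := finrank_eq_map_add T evi
  have E3 := finrank_eq_map_add (T ⊓ LinearMap.ker evi) rho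
  have E4 : finrank ℂ ((T ⊓ LinearMap.ker evi).map rho) ≤ g * (2 * (d * d)) := by
    refine (Submodule.finrank_le _).trans (le_of_eq ?_)
    rw [Module.finrank_pi_fintype, Finset.sum_const, Finset.card_univ, hcard, hfr, smul_eq_mul]
  have E5 : finrank ℂ ((T ⊓ LinearMap.ker evi) ⊓ LinearMap.ker rho : Submodule ℂ _) ≤
      d * d + finrank ℂ (Zh (a j : Mat d ℂ) (b j)) := by
    refine le_trans ?_ (finrank_ker_hndl (a j) (b j))
    have hsupp : ∀ H ∈ ((T ⊓ LinearMap.ker evi) ⊓ LinearMap.ker rho :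
        Submodule ℂ (Fin (g + 2) → Bool → Mat d ℂ)), ∀ k, k ≠ j → H k = 0 := by
      rintro H ⟨⟨-, hH1⟩, hH2⟩ k hk
      by_cases hki : k = i
      · rw [hki]
        exact (hevi H).symm.trans hH1
      · have h1 := congrFun (show rho H = 0 from hH2) ⟨k, hki, hk⟩
        rw [hrho] at h1
        exact h1
    refine LinearMap.finrank_le_finrank_of_injective (f := (evj.domRestrict
      ((T ⊓ LinearMap.ker evi) ⊓ LinearMap.ker rho)).codRestrict (LinearMap.ker (hndl (a j : Mat d ℂ)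
        (b j) ((a j * b j * (a j)⁻¹ * (b j)⁻¹ : (Mat d ℂ)ˣ) : Mat d ℂ))) ?_) ?_
    · rintro ⟨H, hH⟩
      rw [LinearMap.mem_ker]
      show hndl (a j : Mat d ℂ) (b j) ((a j * b j * (a j)⁻¹ * (b j)⁻¹ : (Mat d ℂ)ˣ) : Mat d ℂ)
        (evj H) = 0
      rw [hevj]
      obtain ⟨δ, hz, ha, hb, -⟩ := hgen H hH.1.1 0
      exact hndl_zero hab hz ha hb (hsupp H hH)
    · rintro ⟨H, hH⟩ ⟨H', hH'⟩ hHH
      apply Subtype.ext
      funext k
      by_cases hk : k = j
      · have h1 : evj H = evj H' := congrArg Subtype.val hHH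
        rw [hevj, hevj] at h1
        rw [hk]
        exact h1
      · exact (hsupp H hH k hk).trans (hsupp H' hH' k hk).symm
  have E6 : finrank ℂ (Zh (a j : Mat d ℂ) (b j)) ≤ finrank ℂ (Zh (a i : Mat d ℂ) (b i)) :=
    hi j (Finset.mem_univ _)
  have E7 : (g + 2) * (2 * (d * d)) = g * (2 * (d * d)) + 4 * (d * d) := by ring
  rw [E7] at hdim
  obtain ⟨D, hD⟩ : ∃ D, D = d * d := ⟨_, rfl⟩
  rw [← hD] at *
  omega

end Vale.Agent.P002B
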