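import Vale.Agent.P002.GenHandle

/-!
# P002B, T13a (B): the kernel of the derivative of a commutator, coordinates of handles
-/

set_option linter.all false

namespace Vale.Agent.P002B.SB

open Matrix Module Vale.Agent.P002

variable {d : ℕ}

/-- The pair of a handle. -/
def pr (A B : Mat d ℂ) : Bool → Mat d ℂ := fun e => if e then B else A

/-- Derivative of `A B - C B A` for constant `C`. -/
def PhiC (A B C : Mat d ℂ) : (Bool → Mat d ℂ) →ₗ[ℂ] Mat d ℂ where
  toFun w := w false * B + A * w true - C * (w true * A + B * w false)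
  map_add' := fun x y => by
    simp only [Pi.add_apply, Matrix.add_mul, Matrix.mul_add]
    abel
  map_smul' := fun c x => by
    simp only [Pi.smul_apply, Matrix.smul_mul, Matrix.mul_smul, RingHom.id_apply, smul_sub,
      smul_add, Matrix.mul_add]

theorem PhiC_apply (A B C : Mat d ℂ) (w : Bool → Mat d ℂ) :
    PhiC A B C w = w false * B + A * w true - C * (w true * A + B * w false) := rfl

theorem ann_centr {A B C X : Mat d ℂ} (hC : A * B = C * (B * A)) (hA : IsUnit A)
    (hX : X ∈ annT (LinearMap.range (PhiC A B C))) : B * X * A ∈ centr (pr A B) := by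
  have h1 : B * X = X * C * B := by
    apply eq_of_trace_eq
    intro u
    have h := (mem_annT.1 hX) _ ⟨fun e => if e then 0 else u, rfl⟩
    rw [PhiC_apply] at h
    simp only [if_true, Matrix.mul_zero, Matrix.zero_mul, add_zero, zero_add,
      Bool.false_eq_true, if_false] at h
    rw [Matrix.mul_sub, Matrix.trace_sub, sub_eq_zero] at h
    rw [Matrix.mul_assoc B X u, Matrix.trace_mul_comm B (X * u), Matrix.mul_assoc X u B, h]
    simp only [Matrix.mul_assoc]
  have h2 : X * A = A * X * C := by
    apply eq_of_trace_eq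
    intro v
    have h := (mem_annT.1 hX) _ ⟨fun e => if e then v else 0, rfl⟩
    rw [PhiC_apply] at h
    simp only [if_true, Matrix.mul_zero, Matrix.zero_mul, add_zero, zero_add,
      Bool.false_eq_true, if_false] at h
    rw [Matrix.mul_sub, Matrix.trace_sub, sub_eq_zero] at h
    rw [Matrix.mul_assoc X A v, h, Matrix.mul_assoc A X C, Matrix.mul_assoc A (X * C) v,
      Matrix.trace_mul_comm A]
    simp only [Matrix.mul_assoc]
  have h3 : B * X * A = X * A * B := by
    rw [h1, Matrix.mul_assoc (X * C) B A, Matrix.mul_assoc X C, ← hC, Matrix.mul_assoc]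
  have h4 : X * A * B * A = A * (X * A * B) := by
    have : A * (X * A * B) = A * X * C * (B * A) := by
      rw [Matrix.mul_assoc X A B, hC]
      simp only [Matrix.mul_assoc]
    rw [this, ← h2]
    simp only [Matrix.mul_assoc]
  intro e
  cases e
  · show (B * X * A) * A = A * (B * X * A)
    rw [h3, h4]
  · show (B * X * A) * B = B * (B * X * A)
    conv_rhs => rw [h3]
    simp only [Matrix.mul_assoc]

theorem finrank_ker_PhiC {A B C : Mat d ℂ} (hC : A * B = C * (B * A)) (hA : IsUnit A)
    (hB : IsUnit B) :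
    finrank ℂ (LinearMap.ker (PhiC A B C)) ≤ d * d + finrank ℂ (centr (pr A B)) := by
  have h1 := LinearMap.finrank_range_add_finrank_ker (PhiC A B C)
  have h2 := finrank_annT (LinearMap.range (PhiC A B C))
  have h3 : finrank ℂ (Bool → Mat d ℂ) = 2 * (d * d) := by
    rw [Module.finrank_pi_fintype]
    simp [Module.finrank_matrix]
  have h4 : finrank ℂ (annT (LinearMap.range (PhiC A B C))) ≤ finrank ℂ (centr (pr A B)) := by
    obtain ⟨T, hT⟩ : ∃ T : Mat d ℂ →ₗ[ℂ] Mat d ℂ, ∀ X, T X = B * X * A :=
      ⟨(LinearMap.mulRight ℂ A).comp (LinearMap.mulLeft ℂ B), fun X => rfl⟩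
    have hinj : Function.Injective T := by
      intro X Y h
      rw [hT, hT] at h
      exact hB.mul_left_cancel (hA.mul_right_cancel h)
    rw [← finrank_map_inj T hinj]
    refine Submodule.finrank_mono ?_
    rintro _ ⟨X, hX, rfl⟩
    rw [hT]
    exact ann_centr hC hA hX
  omega

/-- A factor of a product lies in a subgroup if all the others and the product do. -/
theorem mem_of_prod {G : Type*} [Group G] (S : Subgroup G) :
    ∀ (n : ℕ) (F : Fin n → G) (j : Fin n), (∀ l, l ≠ j → F l ∈ S) →
      (List.ofFn F).prod ∈ S → F j ∈ S := by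
  intro n
  induction n with
  | zero => intro F j; exact j.elim0
  | succ n ih =>
    intro F j hF hp
    rw [List.ofFn_succ, List.prod_cons] at hp
    rcases Fin.eq_zero_or_eq_succ j with h | ⟨i, h⟩
    · subst h
      have h1 : (List.ofFn fun i => F (Fin.succ i)).prod ∈ S := by
        refine Subgroup.list_prod_mem S fun x hx => ?_
        rw [List.mem_ofFn] at hx
        obtain ⟨i, rfl⟩ := hx
        exact hF _ (Fin.succ_ne_zero i)
      exact (Subgroup.mul_mem_cancel_right S h1).1 hp
    · subst h
      have h0 : F 0 ∈ S := hF 0 (Fin.succ_ne_zero i).symm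
      have h1 := (Subgroup.mul_mem_cancel_left S h0).1 hp
      exact ih (fun i => F (Fin.succ i)) i (fun l hl => hF _ fun h => hl (Fin.succ_injective _ h)) h1

/-- The units whose entries are constants of the derivation. -/
def cst (d : ℕ) (δ : Derivation ℤ ℂ ℂ) : Subgroup (Mat d ℂ)ˣ where
  carrier := {g | (g : Mat d ℂ).map δ = 0}
  mul_mem' := fun {x y} hx hy => by
    show ((x * y : (Mat d ℂ)ˣ) : Mat d ℂ).map δ = 0
    have hx' : (x : Mat d ℂ).map δ = 0 := hx
    have hy' : (y : Mat d ℂ).map δ = 0 := hy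
    rw [Units.val_mul, map_der_mul, hx', hy', Matrix.zero_mul, Matrix.mul_zero, add_zero]
  one_mem' := by
    show ((1 : (Mat d ℂ)ˣ) : Mat d ℂ).map δ = 0
    ext i j
    rw [Units.val_one, Matrix.map_apply, Matrix.one_apply]
    split_ifs
    · simp
    · simp
  inv_mem' := fun {x} hx => by
    show ((x⁻¹ : (Mat d ℂ)ˣ) : Mat d ℂ).map δ = 0
    have hx' : (x : Mat d ℂ).map δ = 0 := hx
    have h1 : ((x : Mat d ℂ) * ((x⁻¹ : (Mat d ℂ)ˣ) : Mat d ℂ)).map δ = 0 := by
      rw [← Units.val_mul, mul_inv_cancel, Units.val_one]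
      ext i j
      rw [Matrix.map_apply, Matrix.one_apply]
      split_ifs
      · simp
      · simp
    rw [map_der_mul, hx', Matrix.zero_mul, zero_add] at h1
    have h2 := congrArg (fun M => ((x⁻¹ : (Mat d ℂ)ˣ) : Mat d ℂ) * M) h1
    simp only [Matrix.mul_zero] at h2
    rwa [← Matrix.mul_assoc, ← Units.val_mul, inv_mul_cancel, Units.val_one, Matrix.one_mul] at h2

theorem mem_cst {δ : Derivation ℤ ℂ ℂ} {g : (Mat d ℂ)ˣ} :
    g ∈ cst d δ ↔ (g : Mat d ℂ).map δ = 0 := Iff.rfl

end Vale.Agent.P002B.SB
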