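import Vale.Agent.P002B.Star1B1

/-!
# P002B, T13a (B): the dimension count for products of commutators
-/

set_option linter.all false

namespace Vale.Agent.P002B.SB

open Matrix Module Vale.Agent.P002

variable {g d : ℕ}

/-- The surface word (copy). -/
def swd' {G : Type*} [Group G] {g : ℕ} (a b : Fin g → G) : G :=
  (List.ofFn fun i => a i * b i * (a i)⁻¹ * (b i)⁻¹).prod

/-- The index type of the coordinates. -/
abbrev Ix (g d : ℕ) := (Fin g × Bool) × Fin d × Fin d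

/-- The coordinates of a tuple of handles. -/
def crd (a b : Fin g → Mat d ℂ) : Ix g d → ℂ := fun x => pr (a x.1.1) (b x.1.1) x.1.2 x.2.1 x.2.2

/-- The handle number `i` of a vector. -/
def hnd (g d : ℕ) (i : Fin g) : (Ix g d → ℂ) →ₗ[ℂ] (Bool → Mat d ℂ) where
  toFun H := fun e => Matrix.of fun p q => H ((i, e), (p, q))
  map_add' := fun x y => by ext e p q; rfl
  map_smul' := fun c x => by ext e p q; rfl

theorem hnd_apply (i : Fin g) (H : Ix g d → ℂ) (e : Bool) (p q : Fin d) :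
    hnd g d i H e p q = H ((i, e), (p, q)) := rfl

/-- The handles in a set. -/
def hnds (g d : ℕ) (P : Fin g → Prop) : (Ix g d → ℂ) →ₗ[ℂ] ({i // P i} → Bool → Mat d ℂ) :=
  LinearMap.pi fun i => hnd g d i.1

theorem hnds_apply (P : Fin g → Prop) (H : Ix g d → ℂ) (i : {i // P i}) :
    hnds g d P H i = hnd g d i.1 H := rfl

theorem map_zero_of {δ : Derivation ℤ ℂ ℂ} {M N : Mat d ℂ} (h : ∀ p q, δ (M p q) = N p q) :
    M.map δ = N := by
  ext p q; exact h p q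

/-- The handle `j` of a tangent vector supported in this handle is in the kernel. -/
theorem hnd_ker (a b : Fin g → (Mat d ℂ)ˣ) (z : ℂ)
    (hz : ((swd' a b : (Mat d ℂ)ˣ) : Mat d ℂ) = z • (1 : Mat d ℂ)) (j : Fin g)
    (H : Ix g d → ℂ) (hH : ∀ i, i ≠ j → hnd g d i H = 0) (δ : Derivation ℤ ℂ ℂ) (hδz : δ z = 0)
    (hδ : ∀ x, δ (crd (fun i => (a i : Mat d ℂ)) (fun i => (b i : Mat d ℂ)) x) = H x) :
    hnd g d j H ∈ LinearMap.ker (PhiC (a j : Mat d ℂ) (b j : Mat d ℂ)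
      ((a j * b j * (a j)⁻¹ * (b j)⁻¹ : (Mat d ℂ)ˣ) : Mat d ℂ)) := by
  have ha : ∀ i, ((a i : (Mat d ℂ)ˣ) : Mat d ℂ).map δ = hnd g d i H false := fun i =>
    map_zero_of fun p q => hδ ((i, false), (p, q))
  have hb : ∀ i, ((b i : (Mat d ℂ)ˣ) : Mat d ℂ).map δ = hnd g d i H true := fun i =>
    map_zero_of fun p q => hδ ((i, true), (p, q))
  have hmem : a j * b j * (a j)⁻¹ * (b j)⁻¹ ∈ cst d δ := by
    refine mem_of_prod (cst d δ) g (fun i => a i * b i * (a i)⁻¹ * (b i)⁻¹) j (fun i hi => ?_) ?_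
    · have h1 : a i ∈ cst d δ := by
        rw [mem_cst, ha, hH i hi]; rfl
      have h2 : b i ∈ cst d δ := by
        rw [mem_cst, hb, hH i hi]; rfl
      exact mul_mem (mul_mem (mul_mem h1 h2) (inv_mem h1)) (inv_mem h2)
    · have h3 : swd' a b ∈ cst d δ := by
        rw [mem_cst, hz]
        ext p q
        rw [Matrix.map_apply, Matrix.smul_apply, Matrix.one_apply, Matrix.zero_apply]
        split_ifs
        · rw [smul_eq_mul, mul_one, hδz]
        · rw [smul_zero, map_zero]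
      exact h3
  rw [mem_cst] at hmem
  set C : Mat d ℂ := ((a j * b j * (a j)⁻¹ * (b j)⁻¹ : (Mat d ℂ)ˣ) : Mat d ℂ) with hC
  have hrel : (a j : Mat d ℂ) * (b j : Mat d ℂ) = C * ((b j : Mat d ℂ) * (a j : Mat d ℂ)) := by
    rw [hC, ← Units.val_mul, ← Units.val_mul, ← Units.val_mul]
    congr 1
    group
  have h4 := congrArg (fun M : Mat d ℂ => M.map δ) hrel
  simp only [map_der_mul, hmem, ha, hb, Matrix.zero_mul, zero_add] at h4
  rw [LinearMap.mem_ker, PhiC_apply, h4, sub_self]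

theorem card_hnds (P : Fin g → Prop) [DecidablePred P] :
    finrank ℂ ({i // P i} → Bool → Mat d ℂ) = Fintype.card {i // P i} * (2 * (d * d)) := by
  rw [Module.finrank_pi_fintype]
  have : finrank ℂ (Bool → Mat d ℂ) = 2 * (d * d) := by
    rw [Module.finrank_pi_fintype]
    simp [Module.finrank_matrix]
  rw [Finset.sum_const, this, Finset.card_univ, smul_eq_mul]

/-- Linear algebra: splitting off the handles `i` and `j`. -/
theorem split_T (T : Submodule ℂ (Ix (g + 2) d → ℂ)) (i j : Fin (g + 2)) (hij : i ≠ j) (n : ℕ)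
    (hn : ∀ K : Submodule ℂ (Bool → Mat d ℂ),
      (∀ w ∈ K, ∃ H ∈ T, (∀ l, l ≠ j → hnd (g + 2) d l H = 0) ∧ hnd (g + 2) d j H = w) →
      finrank ℂ K ≤ n) :
    finrank ℂ T ≤ finrank ℂ (T.map (hnd (g + 2) d i)) + g * (2 * (d * d)) + n := by
  classical
  have h1 := finrank_eq_map_add T (hnd (g + 2) d i)
  set T1 : Submodule ℂ (Ix (g + 2) d → ℂ) := T ⊓ LinearMap.ker (hnd (g + 2) d i) with hT1
  have h2 := finrank_eq_map_add T1 (hnds (g + 2) d fun l => l ≠ i ∧ l ≠ j)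
  have h3 : finrank ℂ (T1.map (hnds (g + 2) d fun l => l ≠ i ∧ l ≠ j)) ≤ g * (2 * (d * d)) := by
    refine (Submodule.finrank_le _).trans ?_
    rw [card_hnds]
    refine Nat.mul_le_mul_right _ ?_
    rw [Fintype.card_subtype]
    have : (Finset.univ.filter fun l : Fin (g + 2) => l ≠ i ∧ l ≠ j) =
        (Finset.univ.erase i).erase j := by
      ext l
      simp [and_comm]
    rw [this, Finset.card_erase_of_mem (Finset.mem_erase.2 ⟨hij.symm, Finset.mem_univ _⟩),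
      Finset.card_erase_of_mem (Finset.mem_univ _)]
    simp
  set T2 : Submodule ℂ (Ix (g + 2) d → ℂ) :=
    T1 ⊓ LinearMap.ker (hnds (g + 2) d fun l => l ≠ i ∧ l ≠ j) with hT2
  have hT2mem : ∀ H ∈ T2, H ∈ T ∧ ∀ l, l ≠ j → hnd (g + 2) d l H = 0 := by
    intro H hH
    obtain ⟨⟨hHT, hHi⟩, hHl⟩ := hH
    refine ⟨hHT, fun l hl => ?_⟩
    by_cases hli : l = i
    · rw [hli]; exact hHi
    · exact congrFun (LinearMap.mem_ker.1 hHl) ⟨l, hli, hl⟩
  have h4 : finrank ℂ T2 ≤ n := by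
    have h5 := finrank_eq_map_add T2 (hnd (g + 2) d j)
    have h6 : T2 ⊓ LinearMap.ker (hnd (g + 2) d j) = ⊥ := by
      rw [eq_bot_iff]
      rintro H ⟨hH, hH'⟩
      rw [Submodule.mem_bot]
      funext x
      by_cases hx : x.1.1 = j
      · have := congrFun (congrFun (congrFun (LinearMap.mem_ker.1 hH') x.1.2) x.2.1) x.2.2
        rw [hnd_apply, ← hx] at this
        exact this
      · have := congrFun (congrFun (congrFun ((hT2mem H hH).2 _ hx) x.1.2) x.2.1) x.2.2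
        rw [hnd_apply] at this
        exact this
    rw [h6, finrank_bot, add_zero] at h5
    rw [h5]
    refine hn _ ?_
    rintro _ ⟨H, hH, rfl⟩
    exact ⟨H, (hT2mem H hH).1, (hT2mem H hH).2, rfl⟩
  omega

theorem scalar_of_finrank (hd : 0 < d) (y : Bool → Mat d ℂ) (h : finrank ℂ (centr y) ≤ 1) :
    ∀ N ∈ centr y, ∃ c : ℂ, N = c • (1 : Mat d ℂ) := by
  obtain ⟨v, hv⟩ := finrank_le_one_iff.1 h
  have h1 : (1 : Mat d ℂ) ∈ centr y := fun k => Commute.one_left _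
  obtain ⟨c1, hc1⟩ := hv ⟨1, h1⟩
  have hc1' : c1 • (v : Mat d ℂ) = 1 := congrArg Subtype.val hc1
  have hne : c1 ≠ 0 := by
    intro h0
    rw [h0, zero_smul] at hc1'
    have := congrFun (congrFun hc1' ⟨0, hd⟩) ⟨0, hd⟩
    simp at this
  intro N hN
  obtain ⟨c2, hc2⟩ := hv ⟨N, hN⟩
  have hc2' : c2 • (v : Mat d ℂ) = N := congrArg Subtype.val hc2
  refine ⟨c2 * c1⁻¹, ?_⟩
  rw [← hc2', ← hc1', smul_smul, mul_assoc, inv_mul_cancel₀ hne, mul_one]

theorem finrank_of_scalar (y : Bool → Mat d ℂ)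
    (h : ∀ N ∈ centr y, ∃ c : ℂ, N = c • (1 : Mat d ℂ)) : finrank ℂ (centr y) ≤ 1 := by
  have h1 : (1 : Mat d ℂ) ∈ centr y := fun k => Commute.one_left _
  refine finrank_le_one (⟨1, h1⟩ : centr y) fun w => ?_
  obtain ⟨c, hc⟩ := h w.1 w.2
  exact ⟨c, Subtype.ext hc.symm⟩

/-- All handles have scalar commutant. -/
theorem count_surface (hd : 0 < d) (a b : Fin (g + 2) → (Mat d ℂ)ˣ) (z : ℂ)
    (hz : ((swd' a b : (Mat d ℂ)ˣ) : Mat d ℂ) = z • (1 : Mat d ℂ)) (c : Fin d × Fin d → ℂ)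
    (T : Submodule ℂ (Ix (g + 2) d → ℂ))
    (hT : ∀ H ∈ T, ∀ γ : Fin d × Fin d → ℂ, ∃ δ : Derivation ℤ ℂ ℂ, δ z = 0 ∧
      (∀ x, δ (crd (fun i => (a i : Mat d ℂ)) (fun i => (b i : Mat d ℂ)) x) = H x) ∧
      ∀ p, δ (c p) = γ p)
    (hdim : 2 * (g + 2) * (d * d) + 1 ≤ finrank ℂ T + d * d) (i : Fin (g + 2)) :
    ∀ N ∈ centr (pr (a i : Mat d ℂ) (b i : Mat d ℂ)), ∃ c : ℂ, N = c • (1 : Mat d ℂ) := by
  obtain ⟨i₀, hi₀⟩ := Finite.exists_max
    (fun i : Fin (g + 2) => finrank ℂ (centr (pr (a i : Mat d ℂ) (b i : Mat d ℂ))))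
  by_cases hs : ∀ N ∈ centr (pr (a i₀ : Mat d ℂ) (b i₀ : Mat d ℂ)),
      ∃ c : ℂ, N = c • (1 : Mat d ℂ)
  · exact scalar_of_finrank hd _ ((hi₀ i).trans (finrank_of_scalar _ hs))
  · exfalso
    push Not at hs
    obtain ⟨N, hN, hN'⟩ := hs
    have h1 := count_main (κ := Bool) (by simp) (pr (a i₀ : Mat d ℂ) (b i₀ : Mat d ℂ)) c
      (T.map (hnd (g + 2) d i₀)) (by
        rintro _ ⟨H, hH, rfl⟩ γ
        obtain ⟨δ, -, hδ, hδc⟩ := hT H hH γ
        exact ⟨δ, fun k p q => hδ ((i₀, k), (p, q)), hδc⟩) ⟨N, hN, hN'⟩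
    obtain ⟨j, hj⟩ := exists_ne i₀
    have h2 := split_T T i₀ j hj.symm
      (d * d + finrank ℂ (centr (pr (a j : Mat d ℂ) (b j : Mat d ℂ)))) (by
        intro K hK
        refine le_trans (Submodule.finrank_mono ?_) (finrank_ker_PhiC (A := (a j : Mat d ℂ))
          (B := (b j : Mat d ℂ)) (C := ((a j * b j * (a j)⁻¹ * (b j)⁻¹ : (Mat d ℂ)ˣ) : Mat d ℂ))
          (by
            rw [← Units.val_mul, ← Units.val_mul, ← Units.val_mul]
            congr 1
            group) (a j).isUnit (b j).isUnit)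
        intro w hw
        obtain ⟨H, hH, hH0, rfl⟩ := hK w hw
        obtain ⟨δ, hδz, hδ, -⟩ := hT H hH 0
        exact hnd_ker a b z hz j H hH0 δ hδz hδ)
    have h3 := hi₀ j
    simp only [Fintype.card_bool] at h1
    have e1 : 2 * (g + 2) * (d * d) = g * (2 * (d * d)) + 4 * (d * d) := by ring
    rw [e1] at hdim
    generalize g * (2 * (d * d)) = q at *
    generalize d * d = D at *
    omega

end Vale.Agent.P002B.SB
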