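import Vale.Agent.P002B.Stmts

/-!
# P002, genus 0, arbitrary classes: statements inside T4 (LiftStmt)
-/

namespace Vale.Agent.P002B

open Matrix Vale.Agent.P002R Vale.Agent.P002L

/-- The block `(a, b)` of `v` plus `ζ`. -/
def yy {S : Type*} [CommRing S] {r N : ℕ} (nm : Fin r → Fin N) (a b : Fin N) (v ζ : Mat r S) :
    Mat r S := ee nm a * v * ee nm b + ζ

/-- Inverse blocks. -/
def BInv {S : Type*} [CommRing S] {r N : ℕ} (nm : Fin r → Fin N) (a b : Fin N) (y z : Mat r S) :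
    Prop := BB nm a b y ∧ BB nm b a z ∧ y * z = ee nm a ∧ z * y = ee nm b

/-- T4.1: the letter step, cases up and uncross. -/
def PassStmt : Prop :=
  ∀ {r N : ℕ} (nm : Fin r → Fin N) (k k' : Fin N → ℕ) (a b : Fin N), Adj k k' a b →
    ∀ (π : Equiv.Perm (Fin N)) (v₀ ζ₀ : Mat r ℂ), BU nm k v₀ → BB nm a b ζ₀ →
    (π a < π b ∨ yy nm a b v₀ ζ₀ = 0) →
    ∃ v₀' : Mat r ℂ, BU nm k' v₀' ∧ ∀ {A : Type} [CommRing A] (ψ : A →+* ℂ),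
      Function.Surjective ψ → ∀ v : Mat r A, BU nm k v → v.map ψ = v₀ →
      ∀ W : Mat r A, BM nm π W → IsUnit W →
      ∃ ζ b' v' : Mat r A, BB nm a b ζ ∧ ζ.map ψ = ζ₀ ∧ BU nm (bk N) b' ∧ BU nm k' v' ∧
        v'.map ψ = v₀' ∧ W * v * (1 + ζ) = b' * W * v'

/-- T4.2: the letter step, case stay. -/
def StayStmt : Prop :=
  ∀ {r N : ℕ} (nm : Fin r → Fin N) (k k' : Fin N → ℕ) (a b : Fin N), Adj k k' a b →
    ∀ (π : Equiv.Perm (Fin N)) (v₀ ζ₀ z₀ : Mat r ℂ), BU nm k v₀ → BB nm a b ζ₀ → π b < π a →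
    BInv nm a b (yy nm a b v₀ ζ₀) z₀ →
    ∃ v₀' : Mat r ℂ, BU nm k' v₀' ∧ ∀ {A : Type} [CommRing A] (ψ : A →+* ℂ),
      ∀ y z : Mat r A, BInv nm a b y z → y.map ψ = yy nm a b v₀ ζ₀ → z.map ψ = z₀ →
      ∀ v : Mat r A, BU nm k v → v.map ψ = v₀ → ∀ W : Mat r A, BM nm π W → IsUnit W →
      ∃ ζ b' v' : Mat r A, BB nm a b ζ ∧ ζ.map ψ = ζ₀ ∧ BU nm (bk N) b' ∧ BU nm k' v' ∧
        v'.map ψ = v₀' ∧ W * v * (1 + ζ) = b' * (W * (1 - ee nm a - ee nm b + y - z)) * v'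

/-- T4.3: the dichotomy from trivial position. -/
def DichStmt : Prop :=
  ∀ {r N : ℕ} (nm : Fin r → Fin N) (k k' : Fin N → ℕ) (a b : Fin N), Adj k k' a b →
    ∀ (π : Equiv.Perm (Fin N)) (b₀ W v₀ ζ₀ u₁ : Mat r ℂ), BU nm (bk N) b₀ → BM nm π W →
    IsUnit W → BU nm k v₀ → BB nm a b ζ₀ → BU nm k' u₁ → π b < π a →
    TP nm (b₀ * W * v₀ * (1 + ζ₀) * u₁) (fun c => k' c < k' b + 1) →
    yy nm a b v₀ ζ₀ = 0 ∨ ∃ z₀, BInv nm a b (yy nm a b v₀ ζ₀) z₀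

/-- T4.4: one class, from the key `k` on (recursion on `KP`). -/
def ClassStmt : Prop :=
  ∀ {R : Type} [CommRing R] (φ : R →+* ℂ) {r N : ℕ} (nm : Fin r → Fin N) (κ : Fin N → ℕ)
    (l : ℕ → Rˣ) (k : Fin N → ℕ) (ks : List (Fin N → ℕ)), KP κ k ks →
    (∀ a b : Fin N, a < b → κ a ≤ κ b → k a < k b) →
    ∀ (L₀ : List (Sy R N)) (y₀ : ℕ → Mat r ℂ × Mat r ℂ) (n₀ : ℕ) (b₀ v₀ u₀ M₀ : Mat r ℂ),
    Circ L₀ → (∀ n ∈ L₀.filterMap Sy.vr, n < n₀) → Valid nm y₀ L₀ → BU nm (bk N) b₀ →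
    BU nm k v₀ → BU nm (bk N) u₀ → BU nm k u₀ → Kup (κ ∘ nm) (fun j => φ (l j)) M₀ →
    (∀ k₁ ∈ ks, ∀ n : ℕ, TP nm (b₀ * cev nm φ y₀ L₀ * v₀ * u₀) (fun a => k₁ a < n) ∧
      TP nm (b₀ * cev nm φ y₀ L₀ * v₀ * u₀ * M₀) (fun a => k₁ a < n)) →
    ∃ (L₁ : List (Sy R N)) (y₁ : ℕ → Mat r ℂ × Mat r ℂ) (n₁ : ℕ) (v₁ : Mat r ℂ)
      (p : Bool → (Fin N → ℕ) → ℕ),
      (∀ n < n₀, y₁ n = y₀ n) ∧ n₀ ≤ n₁ ∧ Circ (L₀ ++ L₁) ∧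
      (∀ n ∈ (L₀ ++ L₁).filterMap Sy.vr, n < n₁) ∧ Valid nm y₁ (L₀ ++ L₁) ∧ BU nm k v₁ ∧
      ∀ {A : Type} [CommRing A] (ι : R →+* A) (ψ : A →+* ℂ), (∀ x, ψ (ι x) = φ x) →
        Function.Surjective ψ → ∀ y : ℕ → Mat r A × Mat r A, Valid nm y (L₀ ++ L₁) →
        (∀ a b n, Sy.Y a b n ∈ L₀ ++ L₁ → (y n).1.map ψ = (y₁ n).1 ∧ (y n).2.map ψ = (y₁ n).2) →
        ∀ v : Mat r A, BU nm k v → v.map ψ = v₀ →
        ∃ u M b v' : Mat r A, BU nm (bk N) u ∧ BU nm k u ∧ u.map ψ = u₀ ∧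
          Kup (κ ∘ nm) (fun j => ι (l j)) M ∧ M.map ψ = M₀ ∧ BU nm (bk N) b ∧ BU nm k v' ∧
          v'.map ψ = v₁ ∧
          cev nm ι y L₀ * v * u * M = b * cev nm ι y (L₀ ++ L₁) * v' ∧
          ∀ k₁ ∈ ks,
            InCell nm k₁ (cev nm ι y ((L₀ ++ L₁).take (p false k₁))) (cev nm ι y L₀ * v * u) ∧
            InCell nm k₁ (cev nm ι y ((L₀ ++ L₁).take (p true k₁))) (cev nm ι y L₀ * v * u * M)

/-- T4.4'. -/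
def ClassAsmStmt : Prop := PassStmt → StayStmt → DichStmt → ClassStmt

/-- T4.5: the chain over the classes. -/
def ChainAsmStmt : Prop := ClassStmt → LiftStmt

end Vale.Agent.P002B
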