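import Vale.Agent.P002B.Stmts

/-!
# P002, genus 0, arbitrary classes: interface inside T9 (LeviStmt)
-/

namespace Vale.Agent.P002B

open Matrix Vale.Agent.P002R Vale.Agent.P002L

/-- Value of a word: letters `(n, true)` stand for `Y n`, letters `(n, false)` for its inverse. -/
def wev {G : Type*} [Group G] (Y : ℕ → G) (w : List (ℕ × Bool)) : G :=
  (w.map fun x => if x.2 then Y x.1 else (Y x.1)⁻¹).prod

/-- Quadratic systems: every variable which occurs in the words (altogether) occurs exactly once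
and its inverse occurs exactly once. -/
def Quad (ws : List (List (ℕ × Bool))) : Prop :=
  ws.flatten.Nodup ∧ ∀ n b, (n, b) ∈ ws.flatten → (n, !b) ∈ ws.flatten

/-- T9.2. Quadratic systems in `GL_d` lift. -/
def QuadStmt : Prop :=
  ∀ {R A : Type} [CommRing R] [CommRing A] {φ : R →+* ℂ} {ι : R →+* A} {ψ : A →+* ℂ}
    (E : Subgroup ℂˣ) {r d : ℕ}, 0 < d → d ≤ r → CoefOK φ E (r * r) → Lifting φ ι ψ →
    ∀ (ws : List (List (ℕ × Bool) × Rˣ)), Quad (ws.map Prod.fst) → ∀ Y₀ : ℕ → (Mat d ℂ)ˣ,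
      (∀ p ∈ ws, ((wev Y₀ p.1 : (Mat d ℂ)ˣ) : Mat d ℂ) = φ (p.2 : R) • (1 : Mat d ℂ)) →
    ∃ (A' : Type) (_ : CommRing A') (ι' : R →+* A') (ψ' : A' →+* ℂ) (j : A →+* A')
      (Y : ℕ → (Mat d A')ˣ), Lifting φ ι' ψ' ∧ (∀ x, ψ' (j x) = ψ x) ∧
      (∀ x, j (ι x) = ι' x) ∧ (∀ n, (Y n : Mat d A').map ψ' = Y₀ n) ∧
      ∀ p ∈ ws, ((wev Y p.1 : (Mat d A')ˣ) : Mat d A') = ι' (p.2 : R) • (1 : Mat d A')

/-- T9.1. -/
def LeviOfQuad : Prop := QuadStmt → LeviStmt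

/-- T9.2. -/
def QuadOfSurf : Prop := SurfStmt → QuadStmt

end Vale.Agent.P002B
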