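import Vale.Agent.P002B.Stmts

/-!
# P002, genus 0, arbitrary classes: T10, lifting of solutions of the surface relation from density
-/

open MvPolynomial

namespace Vale.Agent.P002B

open Matrix Vale.Agent.P002R Vale.Agent.P002L

section surf2

variable {d g : ℕ}

/-- indices of the entries of the matrices and of their inverses -/
abbrev S2I (g d : ℕ) : Type := ((Fin g × Bool) × Fin d × Fin d) × Bool

/-- the coordinates of a tuple of handles, with those of the inverses -/
def s2p {S : Type*} [CommRing S] (a b : Fin g → (Mat d S)ˣ) (z : S2I g d) : S :=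
  (if z.2 then ((((if z.1.1.2 then b z.1.1.1 else a z.1.1.1 : (Mat d S)ˣ))⁻¹ : (Mat d S)ˣ) : Mat d S)
    else ((if z.1.1.2 then b z.1.1.1 else a z.1.1.1 : (Mat d S)ˣ) : Mat d S)) z.1.2.1 z.1.2.2

/-- clearing denominators -/
lemma s2_clear (f : MvPolynomial (S2I g d) ℂ) :
    ∃ D h : MvPolynomial ((Fin g × Bool) × Fin d × Fin d) ℂ, ∀ a b : Fin g → (Mat d ℂ)ˣ,
      eval (fun x => s2p a b (x, false)) D ≠ 0 ∧
      eval (fun x => s2p a b (x, false)) D * eval (s2p a b) f =
        eval (fun x => s2p a b (x, false)) h := by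
  induction f using MvPolynomial.induction_on with
  | C c => exact ⟨1, C c, fun a b => by simp⟩
  | add f1 f2 h1 h2 =>
    obtain ⟨D1, g1, h1⟩ := h1
    obtain ⟨D2, g2, h2⟩ := h2
    refine ⟨D1 * D2, D2 * g1 + D1 * g2, fun a b => ⟨?_, ?_⟩⟩
    · rw [map_mul]
      exact mul_ne_zero (h1 a b).1 (h2 a b).1
    · rw [map_add, map_mul, map_add, map_mul, map_mul, ← (h1 a b).2, ← (h2 a b).2]
      ring
  | mul_X f i hf =>
    obtain ⟨D, h, hf⟩ := hf
    obtain ⟨⟨s, k, l⟩, e⟩ := i
    cases e with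
    | false =>
      refine ⟨D, h * X (s, k, l), fun a b => ⟨(hf a b).1, ?_⟩⟩
      rw [map_mul, map_mul, ← (hf a b).2, eval_X, eval_X]
      ring
    | true =>
      refine ⟨D * (Matrix.of fun k l => X (s, k, l) : Matrix (Fin d) (Fin d) _).det,
        h * (Matrix.of fun k l => X (s, k, l) : Matrix (Fin d) (Fin d) _).adjugate k l,
        fun a b => ?_⟩
      set M : (Mat d ℂ)ˣ := if s.2 then b s.1 else a s.1 with hM
      have e0 : (eval (fun x => s2p a b (x, false)) : MvPolynomial _ ℂ →+* ℂ).mapMatrix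
          (Matrix.of fun k l => X (s, k, l) : Matrix (Fin d) (Fin d) _) = (M : Mat d ℂ) := by
        ext k' l'
        simp [s2p, hM]
      have e1 : eval (fun x => s2p a b (x, false))
          (Matrix.of fun k l => X (s, k, l) : Matrix (Fin d) (Fin d) _).det =
          (M : Mat d ℂ).det := by
        rw [RingHom.map_det, e0]
      have e2 : eval (fun x => s2p a b (x, false))
          ((Matrix.of fun k l => X (s, k, l) : Matrix (Fin d) (Fin d) _).adjugate k l) =
          (M : Mat d ℂ).adjugate k l := by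
        have h3 := RingHom.map_adjugate
          (eval (fun x => s2p a b (x, false)) : MvPolynomial _ ℂ →+* ℂ)
          (Matrix.of fun k l => X (s, k, l) : Matrix (Fin d) (Fin d) _)
        rw [e0] at h3
        have h4 := congrFun (congrFun h3 k) l
        simpa using h4
      have e3 : (M : Mat d ℂ).det ≠ 0 := by
        have h5 := (Matrix.isUnit_iff_isUnit_det _).1 M.isUnit
        exact h5.ne_zero
      have e4 : s2p a b ((s, k, l), true) = ((M⁻¹ : (Mat d ℂ)ˣ) : Mat d ℂ) k l := by
        simp [s2p, hM]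
      have e5 : (M : Mat d ℂ).det * ((M⁻¹ : (Mat d ℂ)ˣ) : Mat d ℂ) k l =
          (M : Mat d ℂ).adjugate k l := by
        have h6 : (M : Mat d ℂ).det • ((M⁻¹ : (Mat d ℂ)ˣ) : Mat d ℂ) = (M : Mat d ℂ).adjugate := by
          have h7 : (M : Mat d ℂ).adjugate * (M : Mat d ℂ) = (M : Mat d ℂ).det • 1 :=
            Matrix.adjugate_mul _
          calc (M : Mat d ℂ).det • ((M⁻¹ : (Mat d ℂ)ˣ) : Mat d ℂ)
              = ((M : Mat d ℂ).det • (1 : Mat d ℂ)) * ((M⁻¹ : (Mat d ℂ)ˣ) : Mat d ℂ) := by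
                rw [smul_mul_assoc, one_mul]
            _ = (M : Mat d ℂ).adjugate * ((M : Mat d ℂ) * ((M⁻¹ : (Mat d ℂ)ˣ) : Mat d ℂ)) := by
                rw [← h7, mul_assoc]
            _ = (M : Mat d ℂ).adjugate := by
                rw [Units.mul_inv, mul_one]
        have h8 := congrFun (congrFun h6 k) l
        simpa using h8
      refine ⟨?_, ?_⟩
      · rw [map_mul, e1]
        exact mul_ne_zero (hf a b).1 e3
      · rw [map_mul, map_mul, map_mul, e1, e2, eval_X, e4, ← e5, ← (hf a b).2]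
        ring

/-- the generic matrices -/
noncomputable def s2G (R : Type) [CommRing R] (s : Fin g × Bool) (e : Bool) :
    Matrix (Fin d) (Fin d) (MvPolynomial (S2I g d) R) :=
  Matrix.of fun k l => X ((s, k, l), e)

/-- the generic word -/
noncomputable def s2W (R : Type) [CommRing R] (g d : ℕ) :
    Matrix (Fin d) (Fin d) (MvPolynomial (S2I g d) R) :=
  (List.ofFn fun i : Fin g => s2G R (i, false) false * s2G R (i, true) false *
    s2G R (i, false) true * s2G R (i, true) true).prod

lemma s2_swd {S : Type*} [CommRing S] (a b : Fin g → (Mat d S)ˣ) :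
    ((swd a b : (Mat d S)ˣ) : Mat d S) = (List.ofFn fun i => (a i : Mat d S) * b i *
      (((a i)⁻¹ : (Mat d S)ˣ) : Mat d S) * (((b i)⁻¹ : (Mat d S)ˣ) : Mat d S)).prod := by
  unfold swd
  have h := map_list_prod (Units.coeHom (Mat d S))
    (List.ofFn fun i => a i * b i * (a i)⁻¹ * (b i)⁻¹)
  rw [List.map_ofFn] at h
  exact h

lemma s2_word {R : Type} [CommRing R] {S : Type*} [CommRing S] (Θ : MvPolynomial (S2I g d) R →+* S)
    (a b : Fin g → (Mat d S)ˣ) (h : ∀ z, Θ (X z) = s2p a b z) :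
    Θ.mapMatrix (s2W R g d) = ((swd a b : (Mat d S)ˣ) : Mat d S) := by
  rw [s2_swd, s2W, map_list_prod, List.map_ofFn]
  congr 2
  funext i
  simp only [Function.comp, map_mul]
  have e : ∀ (s : Fin g × Bool) (e : Bool), Θ.mapMatrix (s2G R s e) =
      Matrix.of fun k l => s2p a b ((s, k, l), e) := by
    intro s e
    ext k l
    simp [s2G, h]
  rw [e, e, e, e]
  rfl

/-- **T10** -/
theorem surfStmt2_of (hE : ExtStmt) (hS : ∀ g, SurfCl g) : SurfStmt := by
  intro R A _ _ φ ι ψ E r d g hd hdr hc hL μ a b hab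
  set Sol : Set (S2I g d → R) := {x | ∃ a' b' : Fin g → (Mat d R)ˣ,
    ((swd a' b' : (Mat d R)ˣ) : Mat d R) = (μ : R) • (1 : Mat d R) ∧ x = s2p a' b'} with hSol
  have hmap : ∀ a' b' : Fin g → (Mat d R)ˣ, (fun i => φ (s2p a' b' i)) =
      s2p (fun i => Units.map (φ.mapMatrix : Mat d R →+* Mat d ℂ).toMonoidHom (a' i))
        (fun i => Units.map (φ.mapMatrix : Mat d R →+* Mat d ℂ).toMonoidHom (b' i)) := by
    intro a' b'
    funext z
    obtain ⟨⟨⟨i, e⟩, k, l⟩, e'⟩ := z
    cases e <;> cases e' <;> simp [s2p, ← map_inv]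
  obtain ⟨A', _, ι', ψ', j, Y, h1, h2, h3, h4, h5⟩ := hE hL Sol (s2p a b) (fun f hf => by
    obtain ⟨D, h, hD⟩ := s2_clear f
    have h6 : eval (fun x => s2p a b (x, false)) h = 0 := by
      have h7 := hS g E hd hdr hc μ a b hab h (fun a' b' hab' => by
        have h8 := hf _ ⟨a', b', hab', rfl⟩
        rw [hmap] at h8
        have h9 := (hD (fun i => Units.map (φ.mapMatrix : Mat d R →+* Mat d ℂ).toMonoidHom (a' i))
          (fun i => Units.map (φ.mapMatrix : Mat d R →+* Mat d ℂ).toMonoidHom (b' i))).2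
        rw [h8, mul_zero] at h9
        rw [h9]
        congr 2
        funext x
        exact congrFun (hmap a' b') (x, false))
      exact h7
    have h11 := (hD a b).2
    rw [h6] at h11
    exact (mul_eq_zero.1 h11).resolve_left (hD a b).1)
  set Θ : MvPolynomial (S2I g d) R →+* A' := eval₂Hom ι' Y with hΘ
  have h6 : ∀ P : Matrix (Fin d) (Fin d) (MvPolynomial (S2I g d) R),
      (∀ x ∈ Sol, (eval x).mapMatrix P = 0) → Θ.mapMatrix P = 0 := by
    intro P hP
    ext k l
    refine h5 _ fun x hx => ?_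
    have := congrFun (congrFun (hP x hx) k) l
    simpa using this
  have hev : ∀ (a' b' : Fin g → (Mat d R)ˣ) (s : Fin g × Bool),
      (eval (s2p a' b')).mapMatrix (s2G R s false) =
        ((if s.2 then b' s.1 else a' s.1 : (Mat d R)ˣ) : Mat d R) ∧
      (eval (s2p a' b')).mapMatrix (s2G R s true) =
        (((if s.2 then b' s.1 else a' s.1 : (Mat d R)ˣ)⁻¹ : (Mat d R)ˣ) : Mat d R) := by
    intro a' b' s
    constructor <;>
    · ext k l
      simp [s2G, s2p]
  have hinv : ∀ s : Fin g × Bool, Θ.mapMatrix (s2G R s false) * Θ.mapMatrix (s2G R s true) = 1 ∧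
      Θ.mapMatrix (s2G R s true) * Θ.mapMatrix (s2G R s false) = 1 := by
    intro s
    constructor
    · rw [← sub_eq_zero, ← map_mul, ← map_one Θ.mapMatrix, ← map_sub]
      refine h6 _ ?_
      rintro _ ⟨a', b', -, rfl⟩
      rw [map_sub, map_mul, map_one, (hev a' b' s).1, (hev a' b' s).2, Units.mul_inv, sub_self]
    · rw [← sub_eq_zero, ← map_mul, ← map_one Θ.mapMatrix, ← map_sub]
      refine h6 _ ?_
      rintro _ ⟨a', b', -, rfl⟩
      rw [map_sub, map_mul, map_one, (hev a' b' s).1, (hev a' b' s).2, Units.inv_mul, sub_self]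
  have hY : ∀ z, Θ (X z) = s2p (fun i => (⟨Θ.mapMatrix (s2G R (i, false) false),
      Θ.mapMatrix (s2G R (i, false) true), (hinv (i, false)).1, (hinv (i, false)).2⟩ :
        (Mat d A')ˣ)) (fun i => (⟨Θ.mapMatrix (s2G R (i, true) false),
      Θ.mapMatrix (s2G R (i, true) true), (hinv (i, true)).1, (hinv (i, true)).2⟩ :
        (Mat d A')ˣ)) z := by
    rintro ⟨⟨⟨i, e⟩, k, l⟩, e'⟩
    cases e <;> cases e' <;> simp [s2p, s2G, hΘ]
  refine ⟨A', inferInstance, ι', ψ', j, fun i => ⟨Θ.mapMatrix (s2G R (i, false) false),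
    Θ.mapMatrix (s2G R (i, false) true), (hinv (i, false)).1, (hinv (i, false)).2⟩,
    fun i => ⟨Θ.mapMatrix (s2G R (i, true) false), Θ.mapMatrix (s2G R (i, true) true),
      (hinv (i, true)).1, (hinv (i, true)).2⟩, h1, h2, h3, ?_, ?_, ?_⟩
  · intro i
    ext k l
    simp [s2G, hΘ, h4, s2p]
  · intro i
    ext k l
    simp [s2G, hΘ, h4, s2p]
  · rw [← s2_word Θ _ _ hY, ← sub_eq_zero]
    have h7 : ι' μ • (1 : Mat d A') = Θ.mapMatrix ((C (μ : R) : MvPolynomial (S2I g d) R) •
        (1 : Matrix (Fin d) (Fin d) (MvPolynomial (S2I g d) R))) := by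
      ext k l
      by_cases hkl : k = l
      · subst hkl
        simp [hΘ]
      · simp [hΘ, hkl]
    rw [h7, ← map_sub]
    refine h6 _ ?_
    rintro _ ⟨a', b', hab', rfl⟩
    have h8 : (eval (s2p a' b')).mapMatrix ((C (μ : R) : MvPolynomial (S2I g d) R) •
        (1 : Matrix (Fin d) (Fin d) (MvPolynomial (S2I g d) R))) = (μ : R) • (1 : Mat d R) := by
      ext k l
      by_cases hkl : k = l
      · subst hkl
        simp
      · simp [hkl]
    rw [map_sub, s2_word (eval (s2p a' b')) a' b' (fun z => eval_X z), h8, hab', sub_self]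

end surf2

end Vale.Agent.P002B
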