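import Vale.Agent.P002R.YOrbTop
import Vale.Agent.P002B.Stmts

/-!
# P002, all classes: density for products of curves from the theorem in genus zero
-/

namespace Vale.Agent.P002B

open Matrix NumberField Vale.Agent.P002R Vale.Agent.P002R.Orb Vale.Agent.P002L

section curve

variable {g n : ℕ} {r : ℕ}

theorem CoefOK.of_sq {R : Type*} [CommRing R] {φ : R →+* ℂ} {E : Subgroup ℂˣ} {r r' : ℕ}
    (hc : CoefOK φ E (r * r)) (hr : r' ≤ r) : CoefOK φ E r' :=
  hc.le_mono (hr.trans (Nat.le_mul_self r))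

/-- One curve with prescribed classes. -/
theorem curve_irrDenseQ4 {R : Type} [CommRing R] (h01 : G01Irr) (hA : G0All)
    (φ : R →+* ℂ) (E : Subgroup ℂˣ) (hc : CoefOK φ E (r * r))
    (h1 : g = 1 → n = 0 ∨ TorOK φ E r) :
    ∀ r' ≤ r, 0 < r' → IrrDenseQ (fun _ : Fin n => QD E False False)
      ({relatorU g n} : Set (FreeGroup ((Fin g × Bool) ⊕ Fin n))) φ r' := by
  intro r' hr' hr'0
  by_cases hg : g = 0 ∧ 1 ≤ n
  · obtain ⟨rfl, hn⟩ := hg
    obtain ⟨m, rfl⟩ : ∃ m, n = m + 1 := ⟨n - 1, by omega⟩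
    intro C' hC' x hx hirr f hf
    exact hA hr'0 φ E (hc.le_mono (Nat.mul_le_mul hr' hr')) C' (fun j => (hC' j).1) x hx hirr f hf
  by_cases h : 2 ≤ g ∨ n = 0
  · exact (surface_irrDense φ E (CoefOK.of_sq hc le_rfl) h r' hr' hr'0).toQ fun j M hM => hM.1
  · have h2 : g = 1 := by omega
    subst h2
    exact g1_irrDenseAll (g02_of_g01 h01) (by omega) φ E ((h1 rfl).resolve_left (by omega))
      (CoefOK.of_sq hc le_rfl) (fun j r M hM => hM.1) r' hr' hr'0

variable {P : Fin n → Prop} {o : Option (Fin n)}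

/-- One curve, general form. -/
theorem relO_irrDenseQ4 {R : Type} [CommRing R] (h01 : G01Irr) (hA : G0All)
    (φ : R →+* ℂ) (E : Subgroup ℂˣ) (hc : CoefOK φ E (r * r)) (hn : o = none → ∀ j, P j)
    (h1 : o = none → g = 1 → n = 0 ∨ TorOK φ E r) :
    ∀ r' ≤ r, 0 < r' → IrrDenseQ (fun _ : IO P => QD E False False) (RelO g P o) φ r' := by
  intro r' hr' hr'0
  rcases o with _ | j₀
  · have hE : IsEmpty {j : Fin n // ¬ P j ∧ (none : Option (Fin n)) ≠ some j} :=
      ⟨fun j => j.2.1 (hn rfl j.1)⟩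
    refine IrrDenseQ.congr (Equiv.sumEmpty (Fin g × Bool) _).symm
      (Equiv.subtypeUnivEquiv (hn rfl)).symm (fun j M hM => hM) _ _ (fun y => ?_)
      (curve_irrDenseQ4 h01 hA φ E hc (h1 rfl) r' hr' hr'0)
    have h2 : y (renE (Equiv.sumEmpty (Fin g × Bool) _).symm.symm
        (Equiv.subtypeUnivEquiv (hn rfl)).symm.symm (tO g P none)) =
        (List.ofFn fun l : Fin g => y (FreeGroup.of (Sum.inl (l, false))) *
          y (FreeGroup.of (Sum.inl (l, true))) * (y (FreeGroup.of (Sum.inl (l, false))))⁻¹ *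
          (y (FreeGroup.of (Sum.inl (l, true))))⁻¹).prod *
          (List.ofFn fun j : Fin n => y (FreeGroup.of (Sum.inr j))).prod := by
      rw [tO, hO, map_mul, map_mul, map_list_prod, map_list_prod, map_list_prod, map_list_prod,
        List.map_ofFn, List.map_ofFn, List.map_ofFn, List.map_ofFn]
      congr 3
      · funext l
        simp only [Function.comp, map_mul, map_inv, renE_inl]
        rfl
      · funext j
        simp only [Function.comp, gO]
        rw [dif_pos (hn rfl j), renE_inr]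
        rfl
    have h3 : y (relatorU g n) = (List.ofFn fun j : Fin n => y (FreeGroup.of (Sum.inr j))).prod *
        (List.ofFn fun l : Fin g => y (FreeGroup.of (Sum.inl (l, false))) *
          y (FreeGroup.of (Sum.inl (l, true))) * (y (FreeGroup.of (Sum.inl (l, false))))⁻¹ *
          (y (FreeGroup.of (Sum.inl (l, true))))⁻¹).prod := by
      rw [relatorU_eqn, map_mul, map_list_prod, map_list_prod, List.map_ofFn, List.map_ofFn]
      congr 3
      funext l
      simp only [Function.comp, map_mul, map_inv]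
    constructor
    · rintro hy w ⟨-, rfl⟩
      rw [h2]
      have := hy _ rfl
      rw [h3, mul_eq_one_iff_eq_inv] at this
      rw [this, mul_inv_cancel]
    · rintro hy w hw
      rw [Set.mem_singleton_iff.1 hw, h3]
      have := hy _ ⟨rfl, rfl⟩
      rw [h2, mul_eq_one_iff_eq_inv] at this
      rw [this, mul_inv_cancel]
  · have h2 : RelO g P (some j₀) = ∅ := by
      rw [Set.eq_empty_iff_forall_notMem]
      rintro w ⟨h, -⟩
      cases h
    rw [h2]
    exact (free_irrDense_cls φ E hr'0 (CoefOK.of_sq hc hr')).toQ fun j M hM => hM.1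

end curve

variable {k r : ℕ} {g n : Fin k → ℕ}

/-- Density of the integral representations. -/
theorem density_mixed4 (h01 : G01Irr) (hA : G0All) (P : ∀ i, Fin (n i) → Prop)
    (C : ∀ i, Fin (n i) → SpecialLinearGroup (Fin r) ℂ)
    (E : Subgroup ℂˣ) (hC : ∀ i j, P i j → EigIn E ((C i j).1))
    (L : IntermediateField ℚ ℂ)
    (hL : FiniteDimensional ℚ L) (hc : CoefOK (phiO (algebraMap L ℂ)) E (r * r))
    (hT : (∀ i, g i = 1 → (∀ j, P i j) → n i = 0) ∨ TorOK (phiO (algebraMap L ℂ)) E r) :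
    IsDenseRep L (Vale.Agent.P002R.Orb.TP g P C) := by
  have ho : ∀ i, ∃ o : Option (Fin (n i)), (∀ j, o = some j → ¬ P i j) ∧
      (o = none → ∀ j, P i j) := by
    intro i
    by_cases h : ∃ j, ¬ P i j
    · obtain ⟨j, hj⟩ := h
      refine ⟨some j, fun j' hj' => ?_, fun h => ?_⟩
      · rw [← Option.some.inj hj']
        exact hj
      · cases h
    · push Not at h
      exact ⟨none, fun j hj => (by cases hj), fun _ => h⟩
  choose o ho hn using ho
  refine tp_dense ho C ?_
  refine density_gen (RelF g P o) ?_ _ E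
    (fun _ => QD E False False)
    (fun p => classOK_QD E _ _) (fun p => ⟨hC _ _ p.2.2, False.elim, False.elim⟩) L hL
    (CoefOK.of_sq hc le_rfl) ?_
  · exact famRel_charOK _ fun i => RelO_charOK (hn i)
  · refine fam_irrDenseQ _ E r k _ _
      (fun i (_ : IO (P i)) => QD E False False)
      (fun i j => classOK_QD E _ _) _ fun i => ?_
    refine relO_irrDenseQ4 h01 hA _ E hc (hn i) fun h h1 => ?_
    exact hT.imp_left fun h2 => h2 i h1 (hn i h)

end Vale.Agent.P002B
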