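import Vale.Agent.P002B.T16Dens

/-!
# P002, all classes: products of curves and orbifold curves, from the theorem in genus zero
-/

namespace Vale.Agent.P002B

open Matrix NumberField Vale.Agent.P002R Vale.Agent.P002R.Orb Vale.Agent.P002L commutatorElement

variable {k r : ℕ} {g n : Fin k → ℕ}
variable (m : ∀ i, Fin (n i) → ℕ) (S : ∀ i, Set (Fin (n i)))
  (C : ∀ i, Fin (n i) → SpecialLinearGroup (Fin r) ℂ)

/-- The piece of `Y` that contains a given representation. -/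
theorem coverY (X : Gens g n → SpecialLinearGroup (Fin r) ℂ) (hX : X ∈ Y m S C) :
    Orb.TP g (fun i j => j ∈ S i ∨ m i j ≠ 0) (fun i j => X (Sum.inr ⟨i, j⟩)) ⊆ Y m S C ∧
    X ∈ Orb.TP g (fun i j => j ∈ S i ∨ m i j ≠ 0) (fun i j => X (Sum.inr ⟨i, j⟩)) := by
  obtain ⟨⟨h1, h2⟩, h3⟩ := hX
  rw [isRep_iff] at h1
  constructor
  · rintro Z ⟨z1, z2, z3, z4⟩
    refine ⟨⟨(isRep_iff m Z).2 ⟨z1, z2, fun i j => ?_⟩, z4⟩, fun i j hj =>
      (h3 i j hj).trans (z3 i j (Or.inl hj))⟩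
    by_cases hm : m i j = 0
    · rw [hm, pow_zero]
    · obtain ⟨U, hU⟩ := isConj_iff.1 (z3 i j (Or.inr hm))
      rw [← hU, conj_pow, h1.2.2 i j, mul_one, mul_inv_cancel]
  · exact ⟨h1.1, h1.2.1, fun i j _ => IsConj.refl _, h2⟩

/-- Existence of the field. -/
theorem exists_density_all (h01 : G01Irr) (hA : G0All)
    (hC : ∀ i, ∀ j ∈ S i, ∀ z, IsEigenvalue (C i j) z → IsIntegral ℤ z ∧ IsIntegral ℤ z⁻¹) :
    ∃ L : IntermediateField ℚ ℂ, FiniteDimensional ℚ L ∧ IsDenseRep L (Y (g := g) m S C) := by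
  obtain ⟨V, hV⟩ : ∃ V : Set ℂˣ, V = {z : ℂˣ | (∃ i, ∃ j ∈ S i, IsEigenvalue (C i j) (z : ℂ)) ∨
      ∃ i j, m i j ≠ 0 ∧ (z : ℂ) ^ m i j = 1} := ⟨_, rfl⟩
  have hVf : V.Finite := by
    have h1 : (⋃ p : (i : Fin k) × Fin (n i), {z : ℂ | (C p.1 p.2).1.charpoly.IsRoot z}).Finite :=
      Set.finite_iUnion fun p => Polynomial.finite_setOfPred_isRoot
        (Matrix.charpoly_monic _).ne_zero
    have h2 : (⋃ p : (i : Fin k) × Fin (n i),
        {z : ℂ | m p.1 p.2 ≠ 0 ∧ z ^ m p.1 p.2 = 1}).Finite := by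
      refine Set.finite_iUnion fun p => ?_
      by_cases hm : m p.1 p.2 = 0
      · refine Set.Finite.subset Set.finite_empty fun z hz => ?_
        exact (hz.1 hm).elim
      · refine Set.Finite.subset (Polynomial.finite_setOfPred_isRoot
          (Polynomial.X_pow_sub_C_ne_zero (Nat.pos_of_ne_zero hm) (1 : ℂ))) fun z hz => ?_
        change Polynomial.eval z _ = 0
        rw [Polynomial.eval_sub, Polynomial.eval_pow, Polynomial.eval_X, Polynomial.eval_C, hz.2,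
          sub_self]
    refine Set.Finite.of_injOn (f := fun z : ℂˣ => (z : ℂ)) ?_ (Units.val_injective.injOn)
      (h1.union h2)
    intro z hz
    rw [hV] at hz
    rcases hz with ⟨i, j, -, hz⟩ | ⟨i, j, hz⟩
    · exact Or.inl (Set.mem_iUnion.2 ⟨⟨i, j⟩, hz⟩)
    · exact Or.inr (Set.mem_iUnion.2 ⟨⟨i, j⟩, hz⟩)
  obtain ⟨L, hL, hc, hT⟩ := exists_tor_field V hVf (fun z hz => by
    rw [hV] at hz
    rw [Units.val_inv_eq_inv_val]
    rcases hz with ⟨i, j, hj, hz⟩ | ⟨i, j, hm, hz⟩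
    · exact hC i j hj z hz
    · refine ⟨IsIntegral.of_pow (Nat.pos_of_ne_zero hm) (by rw [hz]; exact isIntegral_one),
        IsIntegral.of_pow (Nat.pos_of_ne_zero hm) ?_⟩
      rw [inv_pow, hz, inv_one]
      exact isIntegral_one) (r * r)
  refine ⟨L, hL, dense_of_cover _ fun X hX => ?_⟩
  obtain ⟨h1, h2⟩ := coverY m S C X hX
  refine ⟨_, h1, h2, density_mixed4 h01 hA _ _ _ (fun i j hj z hz => ?_)
    L hL hc (Or.inr (hT.mono (Nat.le_mul_self r)))⟩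
  have hz0 : z ≠ 0 := by
    rintro rfl
    have h3 : (X (Sum.inr ⟨i, j⟩)).1.charpoly.eval 0 = 0 := hz
    rw [Matrix.eval_charpoly, map_zero, zero_sub, Matrix.det_neg, (X (Sum.inr ⟨i, j⟩)).2,
      mul_one] at h3
    exact pow_ne_zero _ (by norm_num) h3
  refine ⟨Units.mk0 z hz0, Subgroup.subset_closure (Set.mem_insert_of_mem _ ?_), rfl⟩
  rw [hV]
  rcases hj with hj | hj
  · exact Or.inl ⟨i, j, hj, eigenvalue_conj (hX.2 i j hj) hz⟩
  · exact Or.inr ⟨i, j, hj, eigenvalue_pow (((isRep_iff m X).1 hX.1.1).2.2 i j) hz⟩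

/-- Quasi-unipotent classes: explicit fields. -/
theorem density_roots_all (h01 : G01Irr) (hA : G0All)
    (hg1 : ∀ i, g i = 1 → n i = 0 ∨ ∃ j, m i j = 0 ∧ j ∉ S i) (N : ℕ) (hN : 0 < N)
    (hm : ∀ i j, m i j ≠ 0 → m i j ∣ N)
    (hC : ∀ i, ∀ j ∈ S i, ∀ z, IsEigenvalue (C i j) z → z ^ N = 1)
    (L : IntermediateField ℚ ℂ) (hL : FiniteDimensional ℚ L)
    (hμ : ∀ z : ℂ, z ^ (2 * N * (r * r).factorial) = 1 → z ∈ L) (hu : Infinite (𝓞 L)ˣ) :
    IsDenseRep L (Y (g := g) m S C) := by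
  refine dense_of_cover _ fun X hX => ?_
  obtain ⟨h1, h2⟩ := coverY m S C X hX
  refine ⟨_, h1, h2, density_mixed4 h01 hA _ _ _ (fun i j hj => ?_)
    L hL (Product.coefOK_roots N hN (r * r) L hL hμ hu)
    (Or.inl fun i hi hj => ?_)⟩
  · refine Product.eigIn_roots (X (Sum.inr ⟨i, j⟩)) N hN fun z hz => ?_
    rcases hj with hj | hj
    · exact hC i j hj z (eigenvalue_conj (hX.2 i j hj) hz)
    · obtain ⟨c, hc⟩ := hm i j hj
      rw [hc, pow_mul, eigenvalue_pow (((isRep_iff m X).1 hX.1.1).2.2 i j) hz, one_pow]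
  · refine (hg1 i hi).resolve_right ?_
    rintro ⟨j, h3, h4⟩
    exact (hj j).elim h4 fun h5 => h5 h3

/-- The main theorem for products of curves and orbifold curves, all classes. -/
theorem main5 (h01 : G01Irr) (hA : G0All) (k : ℕ) (g n : Fin k → ℕ)
    (m : ∀ i, Fin (n i) → ℕ) (r : ℕ) (S : ∀ i, Set (Fin (n i)))
    (C : ∀ i, Fin (n i) → SpecialLinearGroup (Fin r) ℂ) :
    ((∀ i, ∀ j ∈ S i, ∀ z, IsEigenvalue (C i j) z → IsIntegral ℤ z ∧ IsIntegral ℤ z⁻¹) →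
      ∃ L : IntermediateField ℚ ℂ, FiniteDimensional ℚ L ∧
        IsDense (Rels g n m) L (Y m S C) ∧ IsDenseRep L (Y (g := g) m S C)) ∧
    ((∀ i, g i = 1 → n i = 0 ∨ ∃ j, m i j = 0 ∧ j ∉ S i) →
      ∀ N : ℕ, 0 < N → (∀ i j, m i j ≠ 0 → m i j ∣ N) →
      (∀ i, ∀ j ∈ S i, ∀ z, IsEigenvalue (C i j) z → z ^ N = 1) →
      ∀ L : IntermediateField ℚ ℂ, FiniteDimensional ℚ L →
        (∀ z : ℂ, z ^ (2 * N * (r * r).factorial) = 1 → z ∈ L) → Infinite (𝓞 L)ˣ →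
        IsDenseRep L (Y (g := g) m S C)) := by
  refine ⟨fun hC => ?_, fun hg1 N hN hm hC L hL hμ hu =>
    density_roots_all m S C h01 hA hg1 N hN hm hC L hL hμ hu⟩
  obtain ⟨L, hL, h⟩ := exists_density_all m S C h01 hA hC
  exact ⟨L, hL, h.isDense, h⟩

end Vale.Agent.P002B
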