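import Vale.Agent.P002B.WordDefs

/-!
# P002, genus 0, arbitrary classes: from one size of matrices to all sizes
-/

namespace Vale.Agent.P002B

open Matrix Vale.Agent.P002R Vale.Agent.P002L

theorem map_wev {G H : Type*} [Group G] [Group H] (f : G →* H) (Y : ℕ → G)
    (w : List (ℕ × Bool)) : f (wev Y w) = wev (fun n => f (Y n)) w := by
  unfold wev
  rw [map_list_prod, List.map_map]
  congr 1
  apply List.map_congr_left
  intro x _
  simp only [Function.comp]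
  split <;> simp

theorem word_aux (hQ : QuadStmt) {R : Type} [CommRing R] {φ : R →+* ℂ} (E : Subgroup ℂˣ) {r : ℕ}
    (hE : CoefOK φ E (r * r)) (ws : ℕ → List (List (ℕ × Bool) × Rˣ))
    (Y₀ : (d : ℕ) → ℕ → (Mat d ℂ)ˣ)
    (h : ∀ d, 0 < d → d ≤ r → Quad ((ws d).map Prod.fst) ∧
      ∀ p ∈ ws d, ((wev (Y₀ d) p.1 : (Mat d ℂ)ˣ) : Mat d ℂ) = φ (p.2 : R) • (1 : Mat d ℂ)) :
    ∀ k ≤ r, ∀ {A : Type} [CommRing A] {ι : R →+* A} {ψ : A →+* ℂ}, Lifting φ ι ψ →
    ∃ (A' : Type) (_ : CommRing A') (ι' : R →+* A') (ψ' : A' →+* ℂ) (j : A →+* A')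
      (Y : (d : ℕ) → ℕ → (Mat d A')ˣ), Lifting φ ι' ψ' ∧ (∀ x, ψ' (j x) = ψ x) ∧
      (∀ x, j (ι x) = ι' x) ∧
      ∀ d, 0 < d → d ≤ k → (∀ n, (Y d n : Mat d A').map ψ' = Y₀ d n) ∧
        ∀ p ∈ ws d, ((wev (Y d) p.1 : (Mat d A')ˣ) : Mat d A') = ι' (p.2 : R) • (1 : Mat d A') := by
  intro k
  induction k with
  | zero =>
    intro _ A _ ι ψ hL
    exact ⟨A, inferInstance, ι, ψ, RingHom.id A, fun _ _ => 1, hL, fun _ => rfl, fun _ => rfl,
      fun d hd hd' => by omega⟩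
  | succ k ih =>
    intro hk A _ ι ψ hL
    obtain ⟨A₁, _, ι₁, ψ₁, j₁, Y₁, hL₁, hψ₁, hι₁, hY₁⟩ := ih (by omega) hL
    obtain ⟨hq, he⟩ := h (k + 1) (by omega) hk
    obtain ⟨A₂, _, ι₂, ψ₂, j₂, Y₂, hL₂, hψ₂, hι₂, hY₂, hw₂⟩ :=
      hQ E (by omega) hk hE hL₁ (ws (k + 1)) hq (Y₀ (k + 1)) he
    refine ⟨A₂, inferInstance, ι₂, ψ₂, j₂.comp j₁,
      fun d n => if hd : d = k + 1 then hd ▸ Y₂ n else 
        Units.map ((j₂.mapMatrix : Mat d A₁ →+* Mat d A₂) : Mat d A₁ →* Mat d A₂) (Y₁ d n),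
      hL₂, fun x => by rw [RingHom.comp_apply, hψ₂, hψ₁],
      fun x => by rw [RingHom.comp_apply, hι₁, hι₂], ?_⟩
    intro d hd hdk
    by_cases hdk' : d = k + 1
    · subst hdk'
      simp only [dite_true]
      exact ⟨hY₂, hw₂⟩
    · simp only [hdk', dite_false]
      obtain ⟨h1, h2⟩ := hY₁ d hd (by omega)
      constructor
      · intro n
        rw [Units.coe_map]
        ext a b
        have := congrFun (congrFun (h1 n) a) b
        simp only [map_apply] at this ⊢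
        simp only [MonoidHom.coe_coe, RingHom.mapMatrix_apply, map_apply]
        rw [hψ₂, this]
      · intro p hp
        have h3 := congrArg (j₂.mapMatrix : Mat d A₁ →+* Mat d A₂) (h2 p hp)
        rw [← map_wev, Units.coe_map]
        simp only [MonoidHom.coe_coe]
        rw [h3]
        ext a b
        simp only [RingHom.mapMatrix_apply, map_apply, Matrix.smul_apply, smul_eq_mul, map_mul, hι₂]
        rw [one_apply, one_apply]
        split <;> simp

theorem word_of_quad (hQ : QuadStmt) : WordStmt := by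
  intro R A _ _ φ ι ψ E r hE hL ws Y₀ h
  exact word_aux hQ E hE ws Y₀ h r le_rfl hL

end Vale.Agent.P002B
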