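import Vale.Agent.P002B.Stmts4

/-!
# P002, genus 0, arbitrary classes: quadratic word systems for all sizes of matrices at once
-/

namespace Vale.Agent.P002B

open Matrix Vale.Agent.P002R Vale.Agent.P002L

/-- T9.2'. Every complex solution of a quadratic system of words lifts; all sizes of
matrices at once. -/
def WordStmt : Prop :=
  ∀ {R A : Type} [CommRing R] [CommRing A] {φ : R →+* ℂ} {ι : R →+* A} {ψ : A →+* ℂ}
    (E : Subgroup ℂˣ) {r : ℕ}, CoefOK φ E (r * r) → Lifting φ ι ψ →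
    ∀ (ws : ℕ → List (List (ℕ × Bool) × Rˣ)) (Y₀ : (d : ℕ) → ℕ → (Mat d ℂ)ˣ),
    (∀ d, 0 < d → d ≤ r → Quad ((ws d).map Prod.fst) ∧
      ∀ p ∈ ws d, ((wev (Y₀ d) p.1 : (Mat d ℂ)ˣ) : Mat d ℂ) = φ (p.2 : R) • (1 : Mat d ℂ)) →
    ∃ (A' : Type) (_ : CommRing A') (ι' : R →+* A') (ψ' : A' →+* ℂ) (j : A →+* A')
      (Y : (d : ℕ) → ℕ → (Mat d A')ˣ), Lifting φ ι' ψ' ∧ (∀ x, ψ' (j x) = ψ x) ∧
      (∀ x, j (ι x) = ι' x) ∧
      ∀ d, 0 < d → d ≤ r → (∀ n, (Y d n : Mat d A').map ψ' = Y₀ d n) ∧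
        ∀ p ∈ ws d, ((wev (Y d) p.1 : (Mat d A')ˣ) : Mat d A') = ι' (p.2 : R) • (1 : Mat d A')

end Vale.Agent.P002B
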